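import Vale.Agent.P013.MathlibUsed
import Vale.Agent.P013.Jacobsthal
import Vale.Agent.P031.Mertens

set_option linter.all false

section

/-!
# Jacobsthal's conjecture: definitions and statements of the modules
-/

open Finset Real

namespace Vale.Agent.P013.J

/-- `e x = exp (2 π i x)` -/
noncomputable def e (x : ℝ) : ℂ := Complex.exp (2 * π * x * Complex.I)

/-- number of `1 ≤ i ≤ y` such that no prime `p < z` divides `i - V` -/
noncomputable def surv (y : ℕ) (z : ℝ) (V : ℤ) : ℕ := by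
  classical
  exact ((Icc 1 y).filter
    (fun i : ℕ => ∀ p : ℕ, p.Prime → (p : ℝ) < z → ¬ (p : ℤ) ∣ (i : ℤ) - V)).card

/-! ### Primes in progressions -/

/-- Chebyshev function in a residue class -/
noncomputable def psiAP (x : ℝ) (q a : ℕ) : ℝ :=
  ∑ n ∈ (Icc 1 ⌊x⌋₊).filter (fun n => n ≡ a [MOD q]), ArithmeticFunction.vonMangoldt n

/-- Siegel's theorem -/
def SiegelStmt : Prop := ∀ ε : ℝ, 0 < ε → ∃ c : ℝ, 0 < c ∧
  ∀ (q : ℕ) [NeZero q] (χ : DirichletCharacter ℂ q), χ ≠ 1 → χ ^ 2 = 1 →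
    c * (q : ℝ) ^ (-ε) ≤ ‖DirichletCharacter.LFunction χ 1‖

/-- Siegel-Walfisz -/
def SWStmt : Prop := ∀ C : ℝ, 0 < C → ∃ x₀ : ℝ, ∀ x : ℝ, x₀ ≤ x → ∀ q a : ℕ, 1 ≤ q →
  (q : ℝ) ≤ (log x) ^ C → Nat.Coprime a q →
    |psiAP x q a - x / (Nat.totient q : ℝ)| ≤ x / (log x) ^ C

/-- Bombieri-Vinogradov with a small level, arbitrary reduced classes -/
def BVStmt : Prop := ∃ κ : ℝ, 0 < κ ∧ κ ≤ 1 / 10 ∧ ∀ C : ℝ, 0 < C → ∃ x₀ : ℝ, ∀ x : ℝ, x₀ ≤ x →
  ∀ h : ℕ → ℕ, (∀ q, 1 ≤ q → Nat.Coprime (h q) q) →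
    ∑ q ∈ Icc 1 ⌊x ^ κ⌋₊, |psiAP x q (h q) - x / (Nat.totient q : ℝ)| ≤ x / (log x) ^ C

/-! ### The two halves of the proof -/

/-- total mass of the primes of `[y^c, z)` not dividing `D V - B` -/
noncomputable def excMass (y : ℕ) (c z : ℝ) (V B : ℤ) (D : ℕ) : ℝ := by
  classical
  exact ∑ p ∈ (range y).filter (fun p : ℕ => p.Prime ∧ (y : ℝ) ^ c ≤ p ∧ (p : ℝ) < z ∧
    ¬ (p : ℤ) ∣ D * V - B), 1 / (p : ℝ)

/-- rationals of small height: survivors exist -/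
def PartVStmt : Prop := ∃ c ε c' : ℝ, 0 < c ∧ c < 1 / 10 ∧ 0 < ε ∧ 0 < c' ∧
  ∀ A C₄ : ℝ, 0 < A → 0 < C₄ → ∃ y₀ : ℕ, ∀ y : ℕ, y₀ ≤ y → ∀ (V B : ℤ) (D : ℕ),
    IsCoprime B (D : ℤ) → 1 ≤ D → (D : ℝ) ≤ (log y) ^ C₄ → |(B : ℝ)| ≤ y * (log y) ^ C₄ →
    excMass y c (√y * (log y) ^ A) V B D ≤ ε →
    c' * y / (log y) ^ 2 ≤ surv y (√y * (log y) ^ A) V

/-- few survivors force one rational of small height -/
def DichStmt : Prop := ∀ c ε A : ℝ, 0 < c → c < 1 / 10 → 0 < ε → 0 < A →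
  ∃ C₄ : ℝ, 0 < C₄ ∧ ∃ y₀ : ℕ, ∀ y : ℕ, y₀ ≤ y → ∀ V : ℤ,
    (surv y (√y * (log y) ^ A) V : ℝ) ≤ y / (log y) ^ 2 →
    ∃ (B : ℤ) (D : ℕ), IsCoprime B (D : ℤ) ∧ 1 ≤ D ∧ (D : ℝ) ≤ (log y) ^ C₄ ∧
      |(B : ℝ)| ≤ y * (log y) ^ C₄ ∧ excMass y c (√y * (log y) ^ A) V B D ≤ ε

/-- the main sieve theorem -/
def TStarStmt : Prop := ∀ A : ℝ, 0 < A → ∃ c : ℝ, 0 < c ∧ ∃ y₀ : ℕ, ∀ y : ℕ, y₀ ≤ y →
  ∀ V : ℤ, c * y / (log y) ^ 2 ≤ surv y (√y * (log y) ^ A) V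

/-! ### Boxes of small primes -/

/-- lower end of zone `j` on the scale `log p` -/
noncomputable def zlo (y : ℝ) (j : ℕ) : ℝ := (log (log y)) ^ (10 * j + 3)

/-- upper end of zone `j` on the scale `log p` -/
noncomputable def zhi (y : ℝ) (j : ℕ) : ℝ := (log (log y)) ^ (10 * j + 5)

/-- sum of `f (s₀ s₁ ⋯ s_r)` over the box `I₀ × ⋯ × I_r` -/
noncomputable def boxSum (r : ℕ) (I : ℕ → Finset ℕ) (f : ℕ → ℂ) : ℂ :=
  ∑ s ∈ Fintype.piFinset (fun j : Fin (r + 1) => I j), f (∏ j, s j)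

/-- Inverse theorem (section 2 of the blueprint) -/
def InverseStmt : Prop := ∀ A : ℝ, 0 < A → ∃ r : ℕ, ∃ y₀ : ℝ, ∀ y : ℝ, y₀ ≤ y →
  ∀ (P S : ℕ → ℝ) (I : ℕ → Finset ℕ),
  (∀ j ≤ r, 0 < P j ∧ zlo y j ≤ log (P j) ∧ log (P j) ≤ zhi y j) →
  (∀ j ≤ r, P j / (log y) ^ A ≤ S j ∧ ((I j).card : ℝ) ≤ S j) →
  (∀ j ≤ r, ∀ p ∈ I j, p.Prime ∧ P j ≤ (p : ℝ) ∧ (p : ℝ) ≤ 2 * P j) →
  ∀ T : ℝ, exp ((log y) ^ (0.93 : ℝ)) ≤ T → T ≤ y → ∀ t : ℤ,
  ∃ E : Finset ℕ, (E.card : ℝ) ≤ T ^ (0.95 : ℝ) ∧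
    ∀ M : ℕ, T ≤ (M : ℝ) → (M : ℝ) ≤ 2 * T → M ∉ E →
      (log y) ^ (-A) * ∏ j ∈ range (r + 1), S j ≤
        ‖boxSum r I (fun s => e (((t / (M : ℤ) : ℤ) : ℝ) / (s : ℝ)))‖ →
      ∃ u c : ℤ, 1 ≤ u ∧ (u : ℝ) ≤ T ^ (0.2 : ℝ) ∧ |(c : ℝ)| ≤ 6 * T ^ (1.2 : ℝ) ∧
        (M : ℤ) ∣ u * t - c ∧
        T ^ (0.8 : ℝ) ≤ (((Icc 1 ⌊2 * T⌋₊).filter
          (fun M' : ℕ => T ≤ (M' : ℝ) ∧ (M' : ℤ) ∣ u * t - c)).card : ℝ)

/-- Rationals of large height: natural bad `M` are rare (section 3 of the blueprint) -/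
def NaturalStmt : Prop := ∀ (A : ℝ) (r : ℕ), 0 < A → ∃ C₄ : ℝ, 0 < C₄ ∧ ∃ y₀ : ℝ,
  ∀ y : ℝ, y₀ ≤ y → ∀ κ : ℝ, (log y) ^ (-A) ≤ κ → κ ≤ 1 →
  ∀ (P : ℕ → ℝ) (I : ℕ → Finset ℕ),
  (∀ j ≤ r, 0 < P j ∧ zlo y j ≤ log (P j) ∧ log (P j) ≤ zhi y j) →
  (∀ j ≤ r, ∀ p ∈ I j, p.Prime ∧ P j ≤ (p : ℝ) ∧ (p : ℝ) ≤ (1 + κ) * P j) →
  ∀ (V B b : ℤ) (D e₁ : ℕ), IsCoprime B (D : ℤ) → 1 ≤ D →
  (D : ℝ) ≤ exp ((log y) ^ (0.96 : ℝ)) → |(B : ℝ)| ≤ y * exp ((log y) ^ (0.96 : ℝ)) →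
  (log y) ^ C₄ ≤ max (D : ℝ) (|(B : ℝ)| / y) → b ≠ 0 → |(b : ℝ)| ≤ (log y) ^ A →
  1 ≤ e₁ → (e₁ : ℝ) ≤ exp ((log y) ^ (0.96 : ℝ)) →
  ∀ Y : ℝ, y * (log y) ^ (-A) ≤ Y * e₁ * ∏ j ∈ range (r + 1), P j →
  Y * e₁ * ∏ j ∈ range (r + 1), P j ≤ y * (log y) ^ A →
  ((((Icc 1 ⌊2 * Y⌋₊).filter (fun M : ℕ => Y ≤ (M : ℝ) ∧ (M : ℤ) ∣ D * V - B ∧
    (∀ j ≤ r, ∀ p ∈ I j, ¬ p ∣ M) ∧ Nat.Coprime M e₁ ∧
    (log y) ^ (-A) * ∏ j ∈ range (r + 1), (κ * P j + 1) ≤
      ‖boxSum r I (fun s => e ((b : ℝ) * V / ((M : ℝ) * e₁ * s)))‖)).card : ℕ) : ℝ) ≤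
    Y * (log y) ^ (-A)

/-! ### Labels -/

/-- the rational `B / D` is popular at scale `T` -/
def Pop (y : ℕ) (V : ℤ) (T : ℝ) (B : ℤ) (D : ℕ) : Prop :=
  1 ≤ D ∧ (D : ℝ) ≤ T ^ (0.3 : ℝ) ∧ |(B : ℝ)| ≤ y * T ^ (0.3 : ℝ) ∧
  T ^ (0.8 : ℝ) ≤ (((Icc 1 ⌊2 * T⌋₊).filter
    (fun M : ℕ => T ≤ (M : ℝ) ∧ (M : ℤ) ∣ D * V - B)).card : ℝ)

/-- `ρ = (B, D)` is a label: reduced form of a popular rational -/
def Lab (y : ℕ) (V : ℤ) (ρ : ℤ × ℕ) : Prop :=
  IsCoprime ρ.1 (ρ.2 : ℤ) ∧ ∃ k g : ℕ, exp ((log y) ^ (0.93 : ℝ)) ≤ (2 : ℝ) ^ k ∧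
    (2 : ℝ) ^ k ≤ exp ((log y) ^ (0.95 : ℝ)) ∧ 1 ≤ g ∧ Pop y V ((2 : ℝ) ^ k) (g * ρ.1) (g * ρ.2)

/-- `n` is natural for `ρ` -/
def Natl (V : ℤ) (ρ : ℤ × ℕ) (n : ℕ) : Prop := (n : ℤ) ∣ ρ.2 * V - ρ.1

/-- there are few labels -/
def LabelCountStmt : Prop := ∃ y₀ : ℕ, ∀ y : ℕ, y₀ ≤ y → ∀ V : ℤ,
  ∃ LL : Finset (ℤ × ℕ), (∀ ρ, Lab y V ρ → ρ ∈ LL) ∧ (LL.card : ℝ) ≤ exp ((log y) ^ (0.96 : ℝ))

/-- few primes have two labels -/
def TwoLabelStmt : Prop := ∀ c : ℝ, 0 < c → c < 1 → ∃ y₀ : ℕ, ∀ y : ℕ, y₀ ≤ y → ∀ V : ℤ,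
  ∃ U : Finset ℕ, (∑ p ∈ U, 1 / (p : ℝ)) ≤ (y : ℝ) ^ (-(c / 2)) ∧
    ∀ p : ℕ, p.Prime → (y : ℝ) ^ c ≤ p → ∀ ρ ρ' : ℤ × ℕ, Lab y V ρ → Lab y V ρ' → ρ ≠ ρ' →
      Natl V ρ p → Natl V ρ' p → p ∈ U

/-! ### The sieve -/

/-- generic sieve product -/
noncomputable def gv (Q : Finset ℕ) (g : ℕ → ℝ) (x : ℕ) : ℝ :=
  ∏ q ∈ Q.filter (fun q => q < x), (1 - g q)

/-- support of the linear sieve weights, as sets of primes; `b = 0`: lower bound, `b = 1`: upper -/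
noncomputable def supp (Q : Finset ℕ) (τ : ℕ → ℝ) (b x : ℕ) (T : ℝ) : Finset (Finset ℕ) := by
  classical
  exact (Q.filter (fun q => q < x)).powerset.filter (fun F => ∀ s ∈ F,
    Even ((F.filter (fun s' => s ≤ s')).card + b) →
      3 * τ s < T - ∑ s' ∈ F.filter (fun s' => s < s'), τ s')

/-- primes below `z` -/
def PP (z : ℕ) : Finset ℕ := (range z).filter Nat.Prime

/-- the level function of the sieve by all primes below `z` -/
noncomputable def tau (z x : ℕ) : ℝ :=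
  log z * gv (PP z) (fun q => 1 / (q : ℝ)) z / gv (PP z) (fun q => 1 / (q : ℝ)) x

/-- `p > q` are the two largest elements of `G` -/
def top2 (G : Finset ℕ) (p q : ℕ) : Prop := p ∈ G ∧ q ∈ G ∧ q < p ∧ ∀ s ∈ G, s = p ∨ s ≤ q

/-- smooth weights -/
structure GoodW (W : ℝ → ℝ) : Prop where
  smooth : ContDiff ℝ (⊤ : ℕ∞) W
  nonneg : ∀ x, 0 ≤ W x
  le_one : ∀ x, W x ≤ 1
  supp : ∀ x, W x ≠ 0 → 0 < x ∧ x < 1
  int_pos : 0 < ∫ x, W x

/-- remainder of the smooth count of `i ≡ V mod n` -/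
noncomputable def rr (W : ℝ → ℝ) (y : ℕ) (V : ℤ) (n : ℕ) : ℝ :=
  (∑ i ∈ (Icc 1 y).filter (fun i : ℕ => (n : ℤ) ∣ (i : ℤ) - V), W ((i : ℝ) / y)) -
    (y : ℝ) * (∫ x, W x) / n

/-- remainder sum over the supports whose two top primes lie in `DD` -/
noncomputable def RD (z : ℕ) (T : ℝ) (DD : Finset (ℕ × ℕ)) (r : ℕ → ℝ) : ℝ := by
  classical
  exact ∑ G ∈ (supp (PP z) (tau z) 0 z T).filter (fun G => ∃ pq ∈ DD, top2 G pq.1 pq.2),
    (-1) ^ G.card * r (∏ p ∈ G, p)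

/-- admissible pairs of primes -/
def AdmPairs (y : ℕ) (c : ℝ) (z : ℕ) (DD : Finset (ℕ × ℕ)) : Prop :=
  ∀ pq ∈ DD, pq.1.Prime ∧ pq.2.Prime ∧ (y : ℝ) ^ c ≤ pq.2 ∧ (pq.2 : ℝ) < (y : ℝ) ^ (0.16 : ℝ) ∧
    (y : ℝ) ^ (0.16 : ℝ) ≤ pq.1 ∧ pq.1 < z

/-- Level of distribution beyond `y` (section 5 of the blueprint) -/
def LevelStmt : Prop := ∀ W : ℝ → ℝ, GoodW W → ∀ A₁ c C₇ : ℝ, 0 < A₁ → 0 < c → c < 1 / 10 →
  0 < C₇ → ∃ C₄ : ℝ, 0 < C₄ ∧ ∃ y₀ : ℕ, ∀ y : ℕ, y₀ ≤ y → ∀ (V : ℤ) (z : ℕ) (T : ℝ),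
  √y * (log y) ^ (-C₇) ≤ z → (z : ℝ) ≤ √y → T ≤ log y + A₁ * log (log y) →
  ∀ (B₀ : ℤ) (D₀ : ℕ), IsCoprime B₀ (D₀ : ℤ) → 1 ≤ D₀ →
  (D₀ : ℝ) ≤ exp ((log y) ^ (0.96 : ℝ)) → |(B₀ : ℝ)| ≤ y * exp ((log y) ^ (0.96 : ℝ)) →
  (log y) ^ C₄ ≤ max (D₀ : ℝ) (|(B₀ : ℝ)| / y) →
  ∀ DD : Finset (ℕ × ℕ), AdmPairs y c z DD →
  (∀ pq ∈ DD, ∀ ρ : ℤ × ℕ, Lab y V ρ → Natl V ρ (pq.1 * pq.2) → ρ = (B₀, D₀)) →
    |RD z T DD (rr W y V)| ≤ y / (log y) ^ 3

/-- Stability of the linear sieve (Lemma 6.1 of the blueprint) -/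
def StabStmt : Prop := ∀ W : ℝ → ℝ, GoodW W → ∀ c A : ℝ, 0 < c → c < 1 / 10 → 0 < A →
  ∃ C₇ K₀ : ℝ, 0 < C₇ ∧ 0 < K₀ ∧ ∀ A₁ : ℝ, 1 ≤ A₁ → ∃ y₀ : ℕ, ∀ y : ℕ, y₀ ≤ y → ∀ V : ℤ,
  (surv y (√y * (log y) ^ A) V : ℝ) ≤ y / (log y) ^ 2 →
  ∃ z : ℕ, √y * (log y) ^ (-C₇) ≤ z ∧ (z : ℝ) ≤ √y ∧
    ∀ DD : Finset (ℕ × ℕ), AdmPairs y c z DD →
    |RD z (2 * log z + A₁ * log (log y)) DD (rr W y V)| ≤ y / (log y) ^ 3 →
    ∑ pq ∈ DD, 1 / ((pq.1 : ℝ) * pq.2) ≤ K₀ / A₁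

end Vale.Agent.P013.J
end

section

/-!
# Jacobsthal's conjecture: final assembly
-/

open Finset Real Filter

namespace Vale.Agent.P013.J

/-- The main sieve theorem from the dichotomy and the small height case. -/
theorem tstar (h1 : DichStmt) (h2 : PartVStmt) : TStarStmt := by
  intro A hA
  obtain ⟨c, ε, c', hc, hc1, hε, hc', hV⟩ := h2
  obtain ⟨C₄, hC₄, y₁, hD⟩ := h1 c ε A hc hc1 hε hA
  obtain ⟨y₂, hV⟩ := hV A C₄ hA hC₄
  refine ⟨min c' 1, lt_min hc' one_pos, max y₁ y₂, fun y hy V => ?_⟩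
  have hnn : (0 : ℝ) ≤ (y : ℝ) / (log y) ^ 2 := by positivity
  by_cases h : (surv y (√y * (log y) ^ A) V : ℝ) ≤ y / (log y) ^ 2
  · obtain ⟨B, D, hBD, hD1, hD2, hB, hm⟩ := hD y ((le_max_left _ _).trans hy) V h
    have := hV y ((le_max_right _ _).trans hy) V B D hBD hD1 hD2 hB hm
    refine le_trans ?_ this
    rw [mul_div_assoc, mul_div_assoc]
    exact mul_le_mul_of_nonneg_right (min_le_left _ _) hnn
  · push Not at h
    refine le_trans ?_ h.le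
    rw [mul_div_assoc]
    calc min c' 1 * ((y : ℝ) / log y ^ 2) ≤ 1 * ((y : ℝ) / log y ^ 2) :=
          mul_le_mul_of_nonneg_right (min_le_right _ _) hnn
      _ = (y : ℝ) / log y ^ 2 := one_mul _

/-- integers in a short interval divisible by `p` -/
theorem fin_card_dvd (y p : ℕ) (hp : 0 < p) (V : ℤ) :
    (((Icc 1 y).filter (fun i : ℕ => (p : ℤ) ∣ (i : ℤ) - V)).card : ℝ) ≤ y / p + 1 := by
  classical
  have hpz : (0 : ℤ) < p := by exact_mod_cast hp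
  have hle : ((Icc 1 y).filter (fun i : ℕ => (p : ℤ) ∣ (i : ℤ) - V)).card ≤
      ((Ioc (-V) (y - V)).filter (fun t : ℤ => (p : ℤ) ∣ t)).card := by
    refine Finset.card_le_card_of_injOn (fun i : ℕ => (i : ℤ) - V) ?_ ?_
    · intro i hi
      simp only [Finset.coe_filter, Finset.mem_Icc, Set.mem_ofPred_eq] at hi
      simp only [Finset.coe_filter, Finset.mem_Ioc, Set.mem_ofPred_eq]
      refine ⟨⟨?_, ?_⟩, hi.2⟩ <;> omega
    · intro i _ j _ hij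
      simp only at hij
      omega
  have hcard : (((Ioc (-V) (y - V)).filter (fun t : ℤ => (p : ℤ) ∣ t)).card : ℤ) =
      max (⌊((y - V : ℤ) : ℚ) / ((p : ℤ) : ℚ)⌋ - ⌊((-V : ℤ) : ℚ) / ((p : ℤ) : ℚ)⌋) 0 :=
    Int.Ioc_filter_dvd_card _ _ hpz
  have hfl : (⌊((y - V : ℤ) : ℚ) / ((p : ℤ) : ℚ)⌋ : ℚ) - ⌊((-V : ℤ) : ℚ) / ((p : ℤ) : ℚ)⌋ ≤
      (y : ℚ) / p + 1 := by
    have e1 := Int.floor_le (((y - V : ℤ) : ℚ) / ((p : ℤ) : ℚ))
    have e2 := Int.lt_floor_add_one (((-V : ℤ) : ℚ) / ((p : ℤ) : ℚ))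
    have e3 : ((y - V : ℤ) : ℚ) / ((p : ℤ) : ℚ) - ((-V : ℤ) : ℚ) / ((p : ℤ) : ℚ) = (y : ℚ) / p := by
      push_cast
      ring
    linarith only [e3, e2, e1]
  have hq : (((Ioc (-V) (y - V)).filter (fun t : ℤ => (p : ℤ) ∣ t)).card : ℚ) ≤
      (y : ℚ) / p + 1 := by
    have h0 : (0 : ℚ) ≤ (y : ℚ) / p + 1 := by positivity
    have : (((Ioc (-V) (y - V)).filter (fun t : ℤ => (p : ℤ) ∣ t)).card : ℚ) =
        ((((Ioc (-V) (y - V)).filter (fun t : ℤ => (p : ℤ) ∣ t)).card : ℤ) : ℚ) := by push_cast; rfl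
    rw [this, hcard]
    push_cast at hfl ⊢
    exact max_le hfl h0
  have hr : (((Ioc (-V) (y - V)).filter (fun t : ℤ => (p : ℤ) ∣ t)).card : ℝ) ≤
      (y : ℝ) / p + 1 := by
    have := (Rat.cast_le (K := ℝ)).2 hq
    push_cast at this
    exact this
  exact (Nat.cast_le.2 hle).trans hr

/-- if there are many integers without prime factor below `z`, some of them is coprime to `n` -/
theorem fin_exists_coprime (n y k : ℕ) (hn : n ≠ 0) (hk : n.primeFactors.card ≤ k) (z : ℝ)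
    (hz : 0 < z) (x : ℤ) (h : (k : ℝ) * (y / z + 1) < surv y z (-x)) :
    ∃ t : ℤ, x < t ∧ t ≤ x + y ∧ Int.gcd t n = 1 := by
  classical
  by_contra hcon
  push Not at hcon
  have hsub : (Icc 1 y).filter
      (fun i : ℕ => ∀ p : ℕ, p.Prime → (p : ℝ) < z → ¬ (p : ℤ) ∣ (i : ℤ) - (-x)) ⊆
      (n.primeFactors.filter (fun p : ℕ => z ≤ (p : ℝ))).biUnion
        (fun p => (Icc 1 y).filter (fun i : ℕ => (p : ℤ) ∣ (i : ℤ) - (-x))) := by
    intro i hi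
    rw [Finset.mem_filter, Finset.mem_Icc] at hi
    obtain ⟨⟨hi1, hi2⟩, hi3⟩ := hi
    have h1 := hcon (x + i) (by omega) (by omega)
    obtain ⟨p, hp, hpd⟩ := Nat.exists_prime_and_dvd h1
    have hp1 : (p : ℤ) ∣ x + i :=
      (Int.natCast_dvd_natCast.2 hpd).trans (Int.gcd_dvd_left ..)
    have hp2 : p ∣ n := by
      have : (p : ℤ) ∣ (n : ℤ) := (Int.natCast_dvd_natCast.2 hpd).trans (Int.gcd_dvd_right ..)
      exact Int.natCast_dvd_natCast.1 this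
    have hp3 : (p : ℤ) ∣ (i : ℤ) - (-x) := by
      rwa [sub_neg_eq_add, add_comm]
    rw [Finset.mem_biUnion]
    refine ⟨p, ?_, ?_⟩
    · rw [Finset.mem_filter, Nat.mem_primeFactors]
      refine ⟨⟨hp, hp2, hn⟩, ?_⟩
      by_contra hlt
      push Not at hlt
      exact hi3 p hp hlt hp3
    · rw [Finset.mem_filter, Finset.mem_Icc]
      exact ⟨⟨hi1, hi2⟩, hp3⟩
  have hcard : (surv y z (-x) : ℝ) ≤ (k : ℝ) * (y / z + 1) := by
    have e1 : surv y z (-x) ≤ ∑ p ∈ n.primeFactors.filter (fun p : ℕ => z ≤ (p : ℝ)),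
        ((Icc 1 y).filter (fun i : ℕ => (p : ℤ) ∣ (i : ℤ) - (-x))).card := by
      unfold surv
      refine le_trans ?_ Finset.card_biUnion_le
      convert Finset.card_le_card hsub
    have e2 : ∀ p ∈ n.primeFactors.filter (fun p : ℕ => z ≤ (p : ℝ)),
        (((Icc 1 y).filter (fun i : ℕ => (p : ℤ) ∣ (i : ℤ) - (-x))).card : ℝ) ≤ y / z + 1 := by
      intro p hp
      rw [Finset.mem_filter, Nat.mem_primeFactors] at hp
      have h3 := fin_card_dvd y p hp.1.1.pos (-x)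
      have h4 : (y : ℝ) / p ≤ y / z := div_le_div_of_nonneg_left (by positivity) hz hp.2
      linarith only [h4, h3]
    calc (surv y z (-x) : ℝ) ≤ ((∑ p ∈ n.primeFactors.filter (fun p : ℕ => z ≤ (p : ℝ)),
        ((Icc 1 y).filter (fun i : ℕ => (p : ℤ) ∣ (i : ℤ) - (-x))).card : ℕ) : ℝ) :=
          Nat.cast_le.2 e1
      _ = ∑ p ∈ n.primeFactors.filter (fun p : ℕ => z ≤ (p : ℝ)),
        (((Icc 1 y).filter (fun i : ℕ => (p : ℤ) ∣ (i : ℤ) - (-x))).card : ℝ) := by push_cast; rfl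
      _ ≤ ∑ p ∈ n.primeFactors.filter (fun p : ℕ => z ≤ (p : ℝ)), ((y : ℝ) / z + 1) :=
          Finset.sum_le_sum e2
      _ = ((n.primeFactors.filter (fun p : ℕ => z ≤ (p : ℝ))).card : ℝ) * (y / z + 1) := by
          rw [Finset.sum_const, nsmul_eq_mul]
      _ ≤ (k : ℝ) * (y / z + 1) := by
          refine mul_le_mul_of_nonneg_right ?_ (by positivity)
          exact_mod_cast (Finset.card_filter_le _ _).trans hk
  linarith only [h, hcard]

/-- growth facts -/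
theorem fin_growth (B c : ℝ) (hc : 0 < c) (y₀ : ℕ) : ∃ y₁ : ℕ, ∀ y : ℕ, y₁ ≤ y →
    y₀ ≤ y ∧ 1 ≤ log y ∧ 4 / c ≤ log y ∧ (log y) ^ (B / 2 + 2) ≤ (c / 4) * √y := by
  have h1 : ∀ᶠ y : ℝ in atTop, 1 ≤ log y := tendsto_log_atTop.eventually_ge_atTop 1
  have h2 : ∀ᶠ y : ℝ in atTop, 4 / c ≤ log y := tendsto_log_atTop.eventually_ge_atTop _
  have h3 : ∀ᶠ y : ℝ in atTop, (log y) ^ (B / 2 + 2) ≤ (c / 4) * √y := by
    have h := (isLittleO_log_rpow_rpow_atTop (B / 2 + 2) (by norm_num : (0 : ℝ) < 1 / 2)).def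
      (by positivity : 0 < c / 4)
    filter_upwards [h, h1] with y hy hy1
    rw [Real.norm_eq_abs, Real.norm_eq_abs, ← Real.sqrt_eq_rpow,
      abs_of_nonneg (Real.sqrt_nonneg _)] at hy
    exact (le_abs_self _).trans hy
  have h4 := (tendsto_natCast_atTop_atTop (R := ℝ)).eventually (h1.and (h2.and h3))
  obtain ⟨N, hN⟩ := eventually_atTop.1 h4
  refine ⟨max N y₀, fun y hy => ⟨(le_max_right _ _).trans hy, ?_⟩⟩
  exact hN y ((le_max_left _ _).trans hy)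

/-- `(log k) ^ B ≤ B ^ B k` -/
theorem fin_log_pow (B : ℝ) (hB : 0 < B) (k : ℕ) (hk : 2 ≤ k) :
    (log k) ^ B ≤ B ^ B * k := by
  have hk0 : (0 : ℝ) ≤ k := by positivity
  have h1 := Real.log_le_rpow_div hk0 (by positivity : (0 : ℝ) < 1 / B)
  have h2 : (k : ℝ) ^ (1 / B) / (1 / B) = B * (k : ℝ) ^ (1 / B) := by
    field_simp
  rw [h2] at h1
  have h3 : 0 ≤ log (k : ℝ) := Real.log_natCast_nonneg k
  calc (log k) ^ B ≤ (B * (k : ℝ) ^ (1 / B)) ^ B := Real.rpow_le_rpow h3 h1 hB.le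
    _ = B ^ B * k := by
      rw [Real.mul_rpow hB.le (by positivity), ← Real.rpow_mul hk0, one_div,
        inv_mul_cancel₀ hB.ne', Real.rpow_one]

/-- the quantitative form of Jacobsthal's conjecture -/
theorem jacobsthal_of_tstar (h : TStarStmt) (B : ℝ) (hB : 0 < B) : ∃ C : ℝ, 0 < C ∧
    ∀ k : ℕ, 2 ≤ k → ∀ n : ℕ, 1 ≤ n → n.primeFactors.card ≤ k →
      (jacobsthal n : ℝ) ≤ C * ((k : ℝ) ^ 2 / (log k) ^ B) := by
  obtain ⟨c, hc, y₀, hT⟩ := h (B / 2 + 3) (by positivity)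
  obtain ⟨y₁, hy₁⟩ := fin_growth B c hc y₀
  set C₀ : ℝ := max 1 (B ^ B) with hC₀
  have hC₀1 : 1 ≤ C₀ := le_max_left _ _
  have hC₀B : B ^ B ≤ C₀ := le_max_right _ _
  have hC₀0 : 0 < C₀ := by linarith only [hC₀1]
  refine ⟨C₀ + (y₁ + 1) * C₀, by positivity, fun k hk n hn hkn => ?_⟩
  have hkR : (2 : ℝ) ≤ k := by exact_mod_cast hk
  have hk0 : (0 : ℝ) < k := by linarith only [hkR]
  have hlogk : 0 < log (k : ℝ) := Real.log_pos (by linarith only [hkR])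
  set Q : ℝ := (k : ℝ) ^ 2 / (log k) ^ B with hQ
  have hlB : 0 < (log (k : ℝ)) ^ B := Real.rpow_pos_of_pos hlogk B
  have hlB2 : (log (k : ℝ)) ^ B ≤ C₀ * k :=
    (fin_log_pow B hB k hk).trans (mul_le_mul_of_nonneg_right hC₀B hk0.le)
  have hkQ : (k : ℝ) ≤ C₀ * Q := by
    rw [hQ, ← mul_div_assoc, le_div_iff₀ hlB]
    calc (k : ℝ) * (log k) ^ B ≤ k * (C₀ * k) := mul_le_mul_of_nonneg_left hlB2 hk0.le
      _ = C₀ * (k : ℝ) ^ 2 := by ring
  have hQ0 : 0 < Q := by positivity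
  set y : ℕ := max y₁ ⌈C₀ * Q⌉₊ with hy
  have hyy₁ : y₁ ≤ y := le_max_left _ _
  have hyQ : C₀ * Q ≤ y := (Nat.le_ceil _).trans (by exact_mod_cast le_max_right _ _)
  obtain ⟨a0, a1, a2, a3⟩ := hy₁ y hyy₁
  have hky : (k : ℝ) ≤ y := hkQ.trans hyQ
  have hy0 : (0 : ℝ) < y := by linarith only [hkR, hkQ, hyQ]
  set l : ℝ := log y with hl
  have hl0 : 0 < l := by linarith only [a1]
  have hsy : 0 < √(y : ℝ) := Real.sqrt_pos.2 hy0
  -- k ≤ sqrt y * l^(B/2)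
  have hk2 : (k : ℝ) ≤ √y * l ^ (B / 2) := by
    have e1 : (k : ℝ) ^ 2 ≤ y * l ^ B := by
      have e2 : (k : ℝ) ^ 2 = Q * (log k) ^ B := by
        rw [hQ, div_mul_cancel₀ _ hlB.ne']
      have e3 : Q ≤ y := by
        refine le_trans ?_ hyQ
        linarith only [mul_nonneg (sub_nonneg.2 hC₀1) (le_of_lt (sub_pos.2 hQ0))]
      have e4 : (log (k : ℝ)) ^ B ≤ l ^ B :=
        Real.rpow_le_rpow hlogk.le (Real.log_le_log hk0 hky) hB.le
      rw [e2]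
      exact mul_le_mul e3 e4 hlB.le hy0.le
    have e5 : (√(y : ℝ) * l ^ (B / 2)) ^ 2 = y * l ^ B := by
      rw [mul_pow, Real.sq_sqrt hy0.le, ← Real.rpow_natCast, ← Real.rpow_mul hl0.le]
      congr 2
      push_cast
      ring
    rw [← e5] at e1
    exact (sq_le_sq₀ hk0.le (by positivity)).1 e1
  set z : ℝ := √y * l ^ (B / 2 + 3) with hz
  have hz0 : 0 < z := by (clear * - hk hlogk a1; positivity)
  have hmain : ∀ x : ℤ, ∃ t : ℤ, x < t ∧ t ≤ x + y ∧ Int.gcd t n = 1 := by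
    intro x
    refine fin_exists_coprime n y k (by omega) hkn z hz0 x ?_
    have hs := hT y a0 (-x)
    refine lt_of_lt_of_le ?_ hs
    have hyl : 0 < (y : ℝ) / l ^ 2 := by positivity
    have b1 : (k : ℝ) * (y / z) ≤ c / 4 * (y / l ^ 2) := by
      have b2 : (k : ℝ) * (y / z) ≤ (√y * l ^ (B / 2)) * (y / z) :=
        mul_le_mul_of_nonneg_right hk2 (by positivity)
      have b3 : (√(y : ℝ) * l ^ (B / 2)) * (y / z) = y / l ^ 3 := by
        rw [hz, Real.rpow_add hl0, Real.rpow_ofNat]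
        have : l ^ (B / 2) ≠ 0 := (Real.rpow_pos_of_pos hl0 _).ne'
        field_simp
      have b4 : (y : ℝ) / l ^ 3 ≤ c / 4 * (y / l ^ 2) := by
        have b5 : 1 ≤ c / 4 * l := by
          rw [div_le_iff₀ hc] at a2
          linarith only [a2]
        rw [div_le_iff₀ (by positivity)]
        calc (y : ℝ) = 1 * y := (one_mul _).symm
          _ ≤ (c / 4 * l) * y := mul_le_mul_of_nonneg_right b5 hy0.le
          _ = c / 4 * (y / l ^ 2) * l ^ 3 := by field_simp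
      linarith only [b2, b3, b4]
    have b6 : (k : ℝ) ≤ c / 4 * (y / l ^ 2) := by
      have b7 : l ^ (B / 2 + 2) = l ^ (B / 2) * l ^ 2 := by
        rw [Real.rpow_add hl0, Real.rpow_ofNat]
      rw [b7] at a3
      refine hk2.trans ?_
      have b8 : √(y : ℝ) * √y = y := Real.mul_self_sqrt hy0.le
      rw [← mul_div_assoc, le_div_iff₀ (by positivity)]
      calc √(y : ℝ) * l ^ (B / 2) * l ^ 2 = √y * (l ^ (B / 2) * l ^ 2) := by ring
        _ ≤ √y * (c / 4 * √y) := mul_le_mul_of_nonneg_left a3 hsy.le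
        _ = c / 4 * (√y * √y) := by ring
        _ = c / 4 * y := by rw [b8]
    have b9 : c * (y : ℝ) / l ^ 2 = c * (y / l ^ 2) := by ring
    rw [b9]
    have b10 : (k : ℝ) * (y / z + 1) = k * (y / z) + k := by ring
    rw [b10]
    have b11 : 0 < c * (y / l ^ 2) := by (clear * - hc hk hlogk a1; positivity)
    linarith only [hkR, b1, b6]
  have hjle : jacobsthal n ≤ y := by
    refine Nat.sInf_le ⟨by exact_mod_cast hy0, hmain⟩
  have hone : 1 ≤ C₀ * Q := by linarith only [hkR, hkQ]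
  have hylt : (y : ℝ) ≤ y₁ + (C₀ * Q + 1) := by
    have f1 : (y : ℝ) = max (y₁ : ℝ) (⌈C₀ * Q⌉₊ : ℝ) := by rw [hy]; push_cast; rfl
    rw [f1]
    have f2 := (Nat.ceil_lt_add_one (by positivity : 0 ≤ C₀ * Q)).le
    have f3 : (0 : ℝ) ≤ y₁ := by positivity
    exact max_le (by linarith only [hkR, hkQ]) (by linarith only [f2])
  calc (jacobsthal n : ℝ) ≤ y := by exact_mod_cast hjle
    _ ≤ y₁ + (C₀ * Q + 1) := hylt
    _ = C₀ * Q + (y₁ + 1) * 1 := by ring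
    _ ≤ C₀ * Q + (y₁ + 1) * (C₀ * Q) := by
        have : (0 : ℝ) ≤ (y₁ : ℝ) + 1 := by positivity
        linarith only [mul_le_mul_of_nonneg_left hone this, hone, this]
    _ = (C₀ + (y₁ + 1) * C₀) * Q := by ring

/-- `h k`: the supremum of Jacobsthal's function over the `n` with at most `k` prime factors -/
noncomputable def hJ (k : ℕ) : ℕ := sSup {m : ℕ | ∃ n : ℕ, 1 ≤ n ∧ n.primeFactors.card ≤ k ∧
  m = jacobsthal n}

/-- Jacobsthal's conjecture, literal form, with the savings of arbitrary powers of `log k` -/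
theorem jacobsthal_conj (h : TStarStmt) :
    (∃ C : ℝ, 0 < C ∧ ∀ k : ℕ, 1 ≤ k → (hJ k : ℝ) ≤ C * (k : ℝ) ^ 2) ∧
    (∀ B : ℝ, 0 < B → ∃ C : ℝ, 0 < C ∧ ∀ k : ℕ, 2 ≤ k →
      (hJ k : ℝ) ≤ C * (k : ℝ) ^ 2 / (log k) ^ B) ∧
    (∀ k : ℕ, BddAbove {m : ℕ | ∃ n : ℕ, 1 ≤ n ∧ n.primeFactors.card ≤ k ∧
      m = jacobsthal n}) ∧
    ∀ k n : ℕ, 1 ≤ n → n.primeFactors.card ≤ k → jacobsthal n ≤ hJ k := by
  have hbdd : ∀ k : ℕ, BddAbove {m : ℕ | ∃ n : ℕ, 1 ≤ n ∧ n.primeFactors.card ≤ k ∧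
      m = jacobsthal n} := by
    intro k
    obtain ⟨C, hC, hb⟩ := jacobsthal_of_tstar h 1 one_pos
    refine ⟨⌈C * (((k + 2 : ℕ) : ℝ) ^ 2 / (log ((k + 2 : ℕ) : ℝ)) ^ (1 : ℝ))⌉₊, ?_⟩
    rintro m ⟨n, hn, hnk, rfl⟩
    have := hb (k + 2) (by omega) n hn (by omega)
    exact_mod_cast this.trans (Nat.le_ceil _)
  have hne : ∀ k : ℕ, {m : ℕ | ∃ n : ℕ, 1 ≤ n ∧ n.primeFactors.card ≤ k ∧
      m = jacobsthal n}.Nonempty := fun k => ⟨jacobsthal 1, 1, le_rfl, by simp, rfl⟩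
  have hlog : ∀ B : ℝ, 0 < B → ∃ C : ℝ, 0 < C ∧ ∀ k : ℕ, 2 ≤ k →
      (hJ k : ℝ) ≤ C * (k : ℝ) ^ 2 / (log k) ^ B := by
    intro B hB
    obtain ⟨C, hC, hb⟩ := jacobsthal_of_tstar h B hB
    refine ⟨C, hC, fun k hk => ?_⟩
    obtain ⟨n, hn, hnk, hm⟩ := Nat.sSup_mem (hne k) (hbdd k)
    have h1 := hb k hk n hn hnk
    unfold hJ
    rw [hm, mul_div_assoc]
    exact h1
  refine ⟨?_, hlog, hbdd, fun k n hn hnk => le_csSup (hbdd k) ⟨n, hn, hnk, rfl⟩⟩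
  obtain ⟨C, hC, hb⟩ := hlog 1 one_pos
  refine ⟨C * 8, by positivity, fun k hk => ?_⟩
  rcases Nat.lt_or_ge k 2 with hk2 | hk2
  · -- k = 1
    have hk1 : k = 1 := by omega
    subst hk1
    have h1 : hJ 1 ≤ hJ 2 := by
      refine csSup_le (hne 1) ?_
      rintro m ⟨n, hn, hnk, rfl⟩
      exact le_csSup (hbdd 2) ⟨n, hn, by omega, rfl⟩
    have h2 := hb 2 le_rfl
    have h3 : (1 / 2 : ℝ) ≤ log ((2 : ℕ) : ℝ) := by
      have := Real.log_two_gt_d9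
      push_cast
      linarith only [this]
    have h30 : 0 < log ((2 : ℕ) : ℝ) := Real.log_pos (by norm_num)
    have h4 : C * ((2 : ℕ) : ℝ) ^ 2 / (log ((2 : ℕ) : ℝ)) ^ (1 : ℝ) ≤ C * 8 := by
      rw [Real.rpow_one, div_le_iff₀ h30]
      have h31 : C * 8 * (1 / 2) ≤ C * 8 * log ((2 : ℕ) : ℝ) :=
        mul_le_mul_of_nonneg_left h3 (by positivity)
      refine le_trans (le_of_eq ?_) h31
      push_cast
      ring
    calc (hJ 1 : ℝ) ≤ hJ 2 := by exact_mod_cast h1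
      _ ≤ C * 8 := h2.trans h4
      _ = C * 8 * ((1 : ℕ) : ℝ) ^ 2 := by push_cast; ring
  · have h2 := hb k hk2
    have hkR : (2 : ℝ) ≤ k := by exact_mod_cast hk2
    have h3 : (1 / 2 : ℝ) ≤ log (k : ℝ) := by
      have := Real.log_two_gt_d9
      have := Real.log_le_log (by norm_num : (0 : ℝ) < 2) hkR
      linarith
    refine h2.trans ?_
    rw [Real.rpow_one, div_le_iff₀ (by linarith only [h3])]
    have h5 : 0 ≤ C * (k : ℝ) ^ 2 := by positivity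
    linarith only [mul_nonneg (sub_nonneg.2 h5) (sub_nonneg.2 h3), mul_nonneg (mul_self_nonneg (1 : ℝ)) (sub_nonneg.2 h5)]

end Vale.Agent.P013.J
end

section

/-!
# Mertens' second theorem for long intervals, with the sharp constant
-/

open Finset Filter

namespace Vale.Agent.P005.SQ

open Vale.Agent.P031 Vale.Agent.P003

theorem recip_diff_upper (m : ℕ) (hm : 2 ≤ m) (n : ℕ) (hn : m ≤ n) :
    recipSum n - recipSum m ≤ logSum n / Real.log n - logSum m / Real.log m +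
      (Real.log (Real.log n) - Real.log (Real.log m))
      + 4 * (1 / Real.log m - 1 / Real.log n) := by
  induction n, hn using Nat.le_induction with
  | base => simp
  | succ n hn ih =>
    have hs := recipSum_succ n (by omega)
    obtain ⟨ha, hab, hb⟩ := log_facts n (by omega)
    have hA := logSum_le n (by omega)
    push_cast
    set a := Real.log n with ha_def
    set b := Real.log ((n : ℝ) + 1) with hb_def
    have hb0 : 0 < b := by linarith only [ha, hab]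
    have h1 : 0 ≤ 1 / a - 1 / b := by
      have := one_div_le_one_div_of_le ha hab.le
      linarith only [this]
    have h2 : logSum n * (1 / a - 1 / b) ≤ (a + 4) * (1 / a - 1 / b) :=
      mul_le_mul_of_nonneg_right hA h1
    have h3 : a * (1 / a - 1 / b) ≤ Real.log b - Real.log a := by
      have e1 : a * (1 / a - 1 / b) = 1 - a / b := by
        field_simp
      have h4 := Real.log_le_sub_one_of_pos (x := a / b) (by positivity)
      rw [Real.log_div ha.ne' hb0.ne'] at h4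
      rw [e1]
      linarith only [h4]
    have e2 : logSum (n + 1) / b = logSum n / a + (logSum (n + 1) - logSum n) / b
        - logSum n * (1 / a - 1 / b) := by
      field_simp
      ring
    rw [e2]
    linarith only [h3, h2, hs, ih]

theorem recip_diff_lower (m : ℕ) (hm : 2 ≤ m) (n : ℕ) (hn : m ≤ n) :
    logSum n / Real.log n - logSum m / Real.log m +
      (Real.log (Real.log n) - Real.log (Real.log m))
      - 5 * (1 / Real.log m - 1 / Real.log n) ≤ recipSum n - recipSum m := by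
  induction n, hn using Nat.le_induction with
  | base => simp
  | succ n hn ih =>
    have hs := recipSum_succ n (by omega)
    obtain ⟨ha, hab, hb⟩ := log_facts n (by omega)
    have hA := logSum_ge n (by omega)
    push_cast
    set a := Real.log n with ha_def
    set b := Real.log ((n : ℝ) + 1) with hb_def
    have hb0 : 0 < b := by linarith only [ha, hab]
    have h1 : 0 ≤ 1 / a - 1 / b := by
      have := one_div_le_one_div_of_le ha hab.le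
      linarith only [this]
    have h2 : (a - 4) * (1 / a - 1 / b) ≤ logSum n * (1 / a - 1 / b) :=
      mul_le_mul_of_nonneg_right hA h1
    have h3 : Real.log b - Real.log a ≤ (a + 1) * (1 / a - 1 / b) := by
      have h4 := Real.log_le_sub_one_of_pos (x := b / a) (by positivity)
      rw [Real.log_div hb0.ne' ha.ne'] at h4
      have h5 : b / a - 1 ≤ (a + 1) * (1 / a - 1 / b) := by
        have e1 : (a + 1) * (1 / a - 1 / b) - (b / a - 1) = (a + 1 - b) * (b - a) / (a * b) := by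
          field_simp
        have : 0 ≤ (a + 1 - b) * (b - a) / (a * b) := by
          apply div_nonneg
          · apply mul_nonneg <;> linarith only [hb, hab]
          · positivity
        linarith only [e1, this]
      linarith only [h4, h5]
    have e2 : logSum (n + 1) / b = logSum n / a + (logSum (n + 1) - logSum n) / b
        - logSum n * (1 / a - 1 / b) := by
      field_simp
      ring
    rw [e2]
    linarith only [h3, h2, hs, ih]

theorem logSum_ratio (n : ℕ) (hn : 2 ≤ n) :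
    |logSum n / Real.log n - 1| ≤ 4 / Real.log n := by
  obtain ⟨ha, -, -⟩ := log_facts n hn
  have h1 := logSum_le n (by omega)
  have h2 := logSum_ge n (by omega)
  have e : logSum n / Real.log n - 1 = (logSum n - Real.log n) / Real.log n := by
    field_simp
  rw [e, abs_div, abs_of_pos ha]
  apply div_le_div_of_nonneg_right _ ha.le
  rw [abs_le]
  constructor <;> linarith only [h2, h1]

theorem recip_diff (m n : ℕ) (hm : 2 ≤ m) (hn : m ≤ n) :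
    |(recipSum n - recipSum m) - (Real.log (Real.log n) - Real.log (Real.log m))| ≤ 13 / Real.log m := by
  have h1 := recip_diff_upper m hm n hn
  have h2 := recip_diff_lower m hm n hn
  have h3 := abs_le.1 (logSum_ratio m hm)
  have h4 := abs_le.1 (logSum_ratio n (by omega))
  obtain ⟨ha, -, -⟩ := log_facts m hm
  obtain ⟨hb, -, -⟩ := log_facts n (by omega)
  have h5 : 1 / Real.log n ≤ 1 / Real.log m :=
    one_div_le_one_div_of_le ha (Real.log_le_log (by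
      have : (2 : ℝ) ≤ m := by exact_mod_cast hm
      linarith only [this]) (by exact_mod_cast hn))
  have h6 : (0 : ℝ) < 1 / Real.log n := by positivity
  have e1 : 4 / Real.log m = 4 * (1 / Real.log m) := by ring
  have e2 : 4 / Real.log n = 4 * (1 / Real.log n) := by ring
  have e3 : 13 / Real.log m = 13 * (1 / Real.log m) := by ring
  rw [e1] at h3
  rw [e2] at h4
  rw [e3, abs_le]
  constructor <;> linarith only [h3.1, h3.2, h4.1, h4.2, h1, h2, h3, h4, h6]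

/-- the primes in `[N^a, N^b]` -/
noncomputable def PB (N : ℕ) (a b : ℝ) : Finset ℕ :=
  (Finset.Icc 1 N).filter (fun q => q.Prime ∧ (N : ℝ) ^ a ≤ q ∧ (q : ℝ) ≤ (N : ℝ) ^ b)

theorem mem_PB {N : ℕ} {a b : ℝ} {q : ℕ} :
    q ∈ PB N a b ↔ (1 ≤ q ∧ q ≤ N) ∧ q.Prime ∧ (N : ℝ) ^ a ≤ q ∧ (q : ℝ) ≤ (N : ℝ) ^ b := by
  classical
  unfold PB
  rw [Finset.mem_filter, Finset.mem_Icc]

theorem tendsto_log_ratio (a : ℝ) (ha : 0 < a) (f : ℕ → ℝ)
    (hf : ∀ᶠ N : ℕ in atTop, (N : ℝ) ^ a - 1 ≤ f N ∧ f N ≤ (N : ℝ) ^ a) :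
    Tendsto (fun N : ℕ => Real.log (f N) / Real.log N) atTop (nhds a) := by
  have hlog : Tendsto (fun N : ℕ => Real.log (N : ℝ)) atTop atTop :=
    Real.tendsto_log_atTop.comp tendsto_natCast_atTop_atTop
  have hpow : Tendsto (fun N : ℕ => (N : ℝ) ^ a) atTop atTop :=
    (tendsto_rpow_atTop ha).comp tendsto_natCast_atTop_atTop
  have h1 : Tendsto (fun N : ℕ => a - Real.log 2 / Real.log (N : ℝ)) atTop (nhds a) := by
    have := (tendsto_const_nhds (x := Real.log 2)).div_atTop hlog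
    have h2 := (tendsto_const_nhds (x := a)).sub this
    simpa using h2
  refine tendsto_of_tendsto_of_tendsto_of_le_of_le' h1 tendsto_const_nhds ?_ ?_
  · filter_upwards [hf, hpow.eventually_ge_atTop 2, eventually_ge_atTop 2] with N hN hN2 hN3
    have hN0 : (2 : ℝ) ≤ N := by exact_mod_cast hN3
    have hl : 0 < Real.log N := Real.log_pos (by linarith only [hN0])
    have h3 : (N : ℝ) ^ a / 2 ≤ f N := by linarith only [hN.1, hN, hN2]
    have h4 : Real.log ((N : ℝ) ^ a / 2) ≤ Real.log (f N) := Real.log_le_log (by positivity) h3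
    rw [Real.log_div (by positivity) (by norm_num), Real.log_rpow (by linarith only [hN0])] at h4
    rw [le_div_iff₀ hl]
    have : (a - Real.log 2 / Real.log N) * Real.log N = a * Real.log N - Real.log 2 := by
      field_simp
    linarith only [h4, this]
  · filter_upwards [hf, hpow.eventually_ge_atTop 2, eventually_ge_atTop 2] with N hN hN2 hN3
    have hN0 : (2 : ℝ) ≤ N := by exact_mod_cast hN3
    have hl : 0 < Real.log N := Real.log_pos (by linarith only [hN0])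
    have h3 : 0 < f N := by linarith only [hN.1, hN, hN2]
    have h4 : Real.log (f N) ≤ Real.log ((N : ℝ) ^ a) := Real.log_le_log h3 hN.2
    rw [Real.log_rpow (by linarith)] at h4
    rw [div_le_iff₀ hl]
    exact h4

theorem sum_PB_eq (N : ℕ) (a b : ℝ) (hN : 2 ≤ N) (ha : 0 < a) (hab : a < b) (hb : b ≤ 1) :
    ∑ q ∈ PB N a b, (1 : ℝ) / q = recipSum ⌊(N : ℝ) ^ b⌋₊ - recipSum (⌈(N : ℝ) ^ a⌉₊ - 1) := by
  classical
  have hN0 : (2 : ℝ) ≤ N := by exact_mod_cast hN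
  have hmono : (N : ℝ) ^ a ≤ (N : ℝ) ^ b := Real.rpow_le_rpow_of_exponent_le (by linarith) hab.le
  have hbN : (N : ℝ) ^ b ≤ N := by
    conv_rhs => rw [← Real.rpow_one (N : ℝ)]
    exact Real.rpow_le_rpow_of_exponent_le (by linarith only [ha, hab, hb, hN0]) hb
  have ha1 : 1 ≤ (N : ℝ) ^ a := Real.one_le_rpow (by linarith) ha.le
  have hceil : 1 ≤ ⌈(N : ℝ) ^ a⌉₊ := Nat.one_le_iff_ne_zero.2 (by
    rw [Ne, Nat.ceil_eq_zero]; linarith only [ha, hab, hb, ha1])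
  have hsub : PLE (⌈(N : ℝ) ^ a⌉₊ - 1) ⊆ PLE ⌊(N : ℝ) ^ b⌋₊ := by
    intro p hp
    rw [mem_PLE] at hp ⊢
    refine ⟨?_, hp.2⟩
    have h1 : p < ⌈(N : ℝ) ^ a⌉₊ := by omega
    have h2 : (p : ℝ) < (N : ℝ) ^ a := Nat.lt_ceil.1 h1
    exact Nat.le_floor (by linarith only [hmono, h2])
  have hset : PB N a b = PLE ⌊(N : ℝ) ^ b⌋₊ \ PLE (⌈(N : ℝ) ^ a⌉₊ - 1) := by
    ext q
    rw [mem_PB, Finset.mem_sdiff, mem_PLE, mem_PLE]
    constructor
    · rintro ⟨⟨h1, h2⟩, h3, h4, h5⟩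
      refine ⟨⟨Nat.le_floor h5, h3⟩, ?_⟩
      rintro ⟨h6, _⟩
      have h7 : q < ⌈(N : ℝ) ^ a⌉₊ := by omega
      have h8 : (q : ℝ) < (N : ℝ) ^ a := Nat.lt_ceil.1 h7
      linarith only [h4, h8]
    · rintro ⟨⟨h1, h2⟩, h3⟩
      have h4 : (q : ℝ) ≤ (N : ℝ) ^ b := (Nat.le_floor_iff (by positivity)).1 h1
      have h5 : (N : ℝ) ^ a ≤ q := by
        by_contra hcon
        rw [not_le] at hcon
        apply h3
        refine ⟨?_, h2⟩
        have := Nat.lt_ceil.2 hcon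
        omega
      refine ⟨⟨h2.one_lt.le, ?_⟩, h2, h5, h4⟩
      have : (q : ℝ) ≤ N := by linarith only [hbN, h4]
      exact_mod_cast this
  unfold recipSum
  rw [hset, ← Finset.sum_sdiff hsub]
  ring

/-- Mertens' theorem for the primes in `[N^a, N^b]`. -/
theorem tendsto_PB (a b : ℝ) (ha : 0 < a) (hab : a < b) (hb : b ≤ 1) :
    Tendsto (fun N : ℕ => ∑ q ∈ PB N a b, (1 : ℝ) / q) atTop (nhds (Real.log (b / a))) := by
  have hb0 : 0 < b := ha.trans hab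
  have hpowa : Tendsto (fun N : ℕ => (N : ℝ) ^ a) atTop atTop :=
    (tendsto_rpow_atTop ha).comp tendsto_natCast_atTop_atTop
  have hlog : Tendsto (fun N : ℕ => Real.log (N : ℝ)) atTop atTop :=
    Real.tendsto_log_atTop.comp tendsto_natCast_atTop_atTop
  set m : ℕ → ℕ := fun N => ⌈(N : ℝ) ^ a⌉₊ - 1 with hm
  set n : ℕ → ℕ := fun N => ⌊(N : ℝ) ^ b⌋₊ with hn
  have hmb : ∀ᶠ N : ℕ in atTop, (N : ℝ) ^ a - 1 ≤ (m N : ℝ) ∧ (m N : ℝ) ≤ (N : ℝ) ^ a := by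
    filter_upwards [hpowa.eventually_ge_atTop 3] with N hN
    have hceil : 1 ≤ ⌈(N : ℝ) ^ a⌉₊ := Nat.one_le_iff_ne_zero.2 (by
      rw [Ne, Nat.ceil_eq_zero]; linarith only [ha, hab, hb, hN])
    have h1 := Nat.ceil_lt_add_one (a := (N : ℝ) ^ a) (by positivity)
    have h2 := Nat.le_ceil ((N : ℝ) ^ a)
    simp only [hm]
    rw [Nat.cast_sub hceil]
    push_cast
    constructor <;> linarith only [h2, h1]
  have hnb : ∀ᶠ N : ℕ in atTop, (N : ℝ) ^ b - 1 ≤ (n N : ℝ) ∧ (n N : ℝ) ≤ (N : ℝ) ^ b := by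
    filter_upwards with N
    have h1 := Nat.lt_floor_add_one ((N : ℝ) ^ b)
    have h2 := Nat.floor_le (a := (N : ℝ) ^ b) (by positivity)
    simp only [hn]
    constructor <;> linarith
  have hla := tendsto_log_ratio a ha (fun N => (m N : ℝ)) hmb
  have hlb := tendsto_log_ratio b hb0 (fun N => (n N : ℝ)) hnb
  -- log m → ∞
  have hmtop : Tendsto (fun N : ℕ => (m N : ℝ)) atTop atTop := by
    refine tendsto_atTop_mono' _ ?_ (tendsto_atTop_add_const_right _ (-1) hpowa)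
    filter_upwards [hmb] with N hN
    linarith only [hN.1, hN]
  have hlogm : Tendsto (fun N : ℕ => Real.log (m N : ℝ)) atTop atTop :=
    Real.tendsto_log_atTop.comp hmtop
  have hll : Tendsto (fun N : ℕ => Real.log (Real.log (n N)) - Real.log (Real.log (m N))) atTop
      (nhds (Real.log (b / a))) := by
    have h1 : Tendsto (fun N : ℕ => Real.log ((Real.log (n N : ℝ) / Real.log N) /
        (Real.log (m N : ℝ) / Real.log N))) atTop (nhds (Real.log (b / a))) :=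
      (hlb.div hla ha.ne').log (div_pos hb0 ha).ne'
    refine h1.congr' ?_
    filter_upwards [hlogm.eventually_gt_atTop 0, hlog.eventually_gt_atTop 0,
      hlb.eventually (lt_mem_nhds hb0)] with N h2 h3 h4
    have h5 : 0 < Real.log (n N : ℝ) := by
      have := mul_pos h4 h3
      rwa [div_mul_cancel₀ _ h3.ne'] at this
    rw [← Real.log_div h5.ne' h2.ne']
    congr 1
    field_simp
  have herr : Tendsto (fun N : ℕ => 13 / Real.log (m N : ℝ)) atTop (nhds 0) :=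
    (tendsto_const_nhds (x := (13 : ℝ))).div_atTop hlogm
  have hdiff : Tendsto (fun N : ℕ => (∑ q ∈ PB N a b, (1 : ℝ) / q) -
      (Real.log (Real.log (n N)) - Real.log (Real.log (m N)))) atTop (nhds 0) := by
    refine squeeze_zero_norm' ?_ herr
    filter_upwards [hmtop.eventually_ge_atTop 2, eventually_ge_atTop 2] with N hN hN2
    have hm2 : 2 ≤ m N := by exact_mod_cast hN
    have hmn : m N ≤ n N := by
      have hN0 : (2 : ℝ) ≤ N := by exact_mod_cast hN2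
      have hmono : (N : ℝ) ^ a ≤ (N : ℝ) ^ b := Real.rpow_le_rpow_of_exponent_le (by linarith only [ha, hab, hb, hN0]) hab.le
      have h1 : m N < ⌈(N : ℝ) ^ a⌉₊ := by
        simp only [hm] at hm2 ⊢
        omega
      have h2 : ((m N : ℕ) : ℝ) < (N : ℝ) ^ a := Nat.lt_ceil.1 h1
      exact Nat.le_floor (by linarith only [hmono, h2])
    rw [Real.norm_eq_abs, sum_PB_eq N a b hN2 ha hab hb]
    exact recip_diff (m N) (n N) hm2 hmn
  have := hdiff.add hll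
  simpa using this

end Vale.Agent.P005.SQ
end

section

/-!
# Preparations for the dichotomy: a smooth weight, masses of primes, pigeonhole
-/

open Finset Real Filter

namespace Vale.Agent.P013.J

theorem exists_goodW : ∃ W : ℝ → ℝ, GoodW W := by
  let f : ContDiffBump (1 / 2 : ℝ) := ⟨1 / 8, 1 / 4, by norm_num, by norm_num⟩
  refine ⟨f, ?_⟩
  refine ⟨f.contDiff, fun x => f.nonneg, fun x => f.le_one, ?_, ?_⟩
  · intro x hx
    have h1 : x ∈ Function.support f := hx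
    rw [f.support_eq, Metric.mem_ball, Real.dist_eq, abs_lt] at h1
    have h2 : f.rOut = 1 / 4 := rfl
    rw [h2] at h1
    constructor <;> linarith only [h1.1, h1.2, h1]
  · exact f.integral_pos

/-- primes of `[a, b)` below `y` -/
noncomputable def prm (y : ℕ) (a b : ℝ) : Finset ℕ := by
  classical
  exact (range y).filter (fun p : ℕ => p.Prime ∧ a ≤ p ∧ (p : ℝ) < b)

theorem mem_prm {y : ℕ} {a b : ℝ} {p : ℕ} :
    p ∈ prm y a b ↔ p < y ∧ p.Prime ∧ a ≤ p ∧ (p : ℝ) < b := by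
  classical
  unfold prm
  rw [mem_filter, mem_range]

theorem mass_nonneg (S : Finset ℕ) : 0 ≤ ∑ p ∈ S, 1 / (p : ℝ) :=
  sum_nonneg fun p _ => by positivity

theorem mass_mono {S T : Finset ℕ} (h : S ⊆ T) : ∑ p ∈ S, 1 / (p : ℝ) ≤ ∑ p ∈ T, 1 / (p : ℝ) :=
  sum_le_sum_of_subset_of_nonneg h fun p _ _ => by positivity

theorem mass_union (S T : Finset ℕ) :
    ∑ p ∈ S ∪ T, 1 / (p : ℝ) ≤ ∑ p ∈ S, 1 / (p : ℝ) + ∑ p ∈ T, 1 / (p : ℝ) := by
  rw [← sum_union_inter]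
  have := mass_nonneg (S ∩ T)
  linarith

/-- pigeonhole -/
theorem dich_pigeon (P Q : Finset ℕ) (hQ : ∀ q ∈ Q, 0 < q) (R : ℕ → ℕ → Prop) (ε₁ ν : ℝ) (hν : 0 < ν)
    (hε : 0 ≤ ε₁) (hνQ : ν ≤ ∑ q ∈ Q, 1 / (q : ℝ))
    (hbad : ∀ S : Finset (ℕ × ℕ), (∀ pq ∈ S, pq.1 ∈ P ∧ pq.2 ∈ Q ∧ ¬ R pq.1 pq.2) →
      ∑ pq ∈ S, 1 / ((pq.1 : ℝ) * pq.2) ≤ ε₁) :
    ∃ q ∈ Q, ∀ S : Finset ℕ, (∀ p ∈ S, p ∈ P ∧ ¬ R p q) → ∑ p ∈ S, 1 / (p : ℝ) ≤ ε₁ / ν := by
  classical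
  by_contra hcon
  push Not at hcon
  have hne : Q.Nonempty := by
    rw [nonempty_iff_ne_empty]
    rintro rfl
    rw [sum_empty] at hνQ
    linarith
  choose! S hS hS2 using hcon
  let TT : Finset (ℕ × ℕ) := (P ×ˢ Q).filter (fun pq => ¬ R pq.1 pq.2)
  have h1 := hbad TT (by
    intro pq hpq
    rw [mem_filter, mem_product] at hpq
    exact ⟨hpq.1.1, hpq.1.2, hpq.2⟩)
  have h2 : ∑ pq ∈ TT, 1 / ((pq.1 : ℝ) * pq.2) =
      ∑ q ∈ Q, (1 / (q : ℝ)) * ∑ p ∈ P.filter (fun p => ¬ R p q), 1 / (p : ℝ) := by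
    rw [sum_filter, sum_product_right]
    refine sum_congr rfl fun q _ => ?_
    rw [mul_sum, sum_filter]
    refine sum_congr rfl fun p _ => ?_
    split_ifs with h
    · rfl
    · show 1 / ((p : ℝ) * q) = 1 / (q : ℝ) * (1 / (p : ℝ))
      rw [one_div, one_div, one_div, mul_inv, mul_comm]
  have h3 : ∑ q ∈ Q, (1 / (q : ℝ)) * (ε₁ / ν) <
      ∑ q ∈ Q, (1 / (q : ℝ)) * ∑ p ∈ P.filter (fun p => ¬ R p q), 1 / (p : ℝ) := by
    refine sum_lt_sum_of_nonempty hne fun q hq => ?_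
    have h4 : (0 : ℝ) < 1 / q := by
      have : (0 : ℝ) < q := by exact_mod_cast hQ q hq
      positivity
    refine mul_lt_mul_of_pos_left ?_ h4
    refine lt_of_lt_of_le (hS2 q hq) (mass_mono ?_)
    intro p hp
    rw [mem_filter]
    exact hS q hq p hp
  rw [← h2, ← sum_mul] at h3
  have h5 : ε₁ ≤ (∑ q ∈ Q, 1 / (q : ℝ)) * (ε₁ / ν) := by
    calc ε₁ = ν * (ε₁ / ν) := by field_simp
      _ ≤ _ := mul_le_mul_of_nonneg_right hνQ (by positivity)
  linarith only [h1, h3, h5]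

open Vale.Agent.P005.SQ in
/-- lower bound for the mass of the primes of `[y^a', z)` -/
theorem mass_lower (a b v : ℝ) (ha : 0 < a) (hab : a < b) (hb : b ≤ 1)
    (hv : v < Real.log (b / a)) : ∀ᶠ y : ℕ in atTop, v ≤ ∑ p ∈ PB y a b, 1 / (p : ℝ) := by
  have h := (tendsto_PB a b ha hab hb).eventually (lt_mem_nhds hv)
  exact h.mono fun y hy => le_of_lt hy

open Vale.Agent.P005.SQ in
theorem mass_upper (a b v : ℝ) (ha : 0 < a) (hab : a < b) (hb : b ≤ 1)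
    (hv : Real.log (b / a) < v) : ∀ᶠ y : ℕ in atTop, ∑ p ∈ PB y a b, 1 / (p : ℝ) ≤ v := by
  have h := (tendsto_PB a b ha hab hb).eventually (gt_mem_nhds hv)
  exact h.mono fun y hy => le_of_lt hy

theorem log_pow_le_rpow (A δ : ℝ) (hδ : 0 < δ) :
    ∀ᶠ y : ℕ in atTop, (Real.log y) ^ A ≤ (y : ℝ) ^ δ := by
  have h := (isLittleO_log_rpow_rpow_atTop A hδ).bound (zero_lt_one' ℝ)
  have h2 := tendsto_natCast_atTop_atTop (R := ℝ) |>.eventually h
  filter_upwards [h2, eventually_ge_atTop 2] with y hy hy2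
  have hy2' : (2 : ℝ) ≤ y := by exact_mod_cast hy2
  have h3 : 0 ≤ (Real.log y) ^ A := Real.rpow_nonneg (Real.log_nonneg (by linarith only [hy2'])) _
  have h4 : 0 ≤ (y : ℝ) ^ δ := by positivity
  rw [Real.norm_of_nonneg h3, Real.norm_of_nonneg h4, one_mul] at hy
  exact hy

theorem log_pow_le_exp (A : ℝ) :
    ∀ᶠ y : ℕ in atTop, (Real.log y) ^ A + 1 ≤ Real.exp ((Real.log y) ^ (0.96 : ℝ)) := by
  have hlog : Tendsto (fun y : ℕ => Real.log (y : ℝ)) atTop atTop :=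
    Real.tendsto_log_atTop.comp tendsto_natCast_atTop_atTop
  have h1 : ∀ᶠ l : ℝ in atTop, l ^ A + 1 ≤ Real.exp (l ^ (0.96 : ℝ)) := by
    have h2 : ∀ᶠ u : ℝ in atTop, u ^ (|A| / 0.96 + 1) ≤ Real.exp u := by
      have h := (isLittleO_rpow_exp_atTop (|A| / 0.96 + 1)).bound (zero_lt_one' ℝ)
      filter_upwards [h, eventually_ge_atTop 0] with u hu hu0
      rw [Real.norm_of_nonneg (Real.rpow_nonneg hu0 _), Real.norm_of_nonneg (Real.exp_pos _).le,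
        one_mul] at hu
      exact hu
    have h3 := (tendsto_rpow_atTop (show (0 : ℝ) < 0.96 by norm_num)).eventually h2
    filter_upwards [h3, eventually_ge_atTop 4] with l hl hl4
    refine le_trans ?_ hl
    rw [← Real.rpow_mul (by linarith only [hl4])]
    have e1 : (0.96 : ℝ) * (|A| / 0.96 + 1) = |A| + 0.96 := by ring
    rw [e1, Real.rpow_add (by linarith only [hl4])]
    have h5 : l ^ A ≤ l ^ |A| := Real.rpow_le_rpow_of_exponent_le (by linarith only [hl4]) (le_abs_self A)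
    have h6 : 1 ≤ l ^ |A| := Real.one_le_rpow (by linarith only [hl4]) (abs_nonneg A)
    have h7 : (2 : ℝ) ≤ l ^ (0.96 : ℝ) := by
      calc (2 : ℝ) = 4 ^ (1 / 2 : ℝ) := by
            rw [← Real.sqrt_eq_rpow, show (4 : ℝ) = 2 ^ 2 by norm_num, Real.sqrt_sq (by norm_num)]
        _ ≤ 4 ^ (0.96 : ℝ) := Real.rpow_le_rpow_of_exponent_le (by norm_num) (by norm_num)
        _ ≤ l ^ (0.96 : ℝ) := Real.rpow_le_rpow (by norm_num) hl4 (by norm_num)
    nlinarith only [h5, h6, h7]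
  exact hlog.eventually h1

end Vale.Agent.P013.J
end

section

/-!
# Section 5 of the blueprint: definitions and statements
-/

open Finset Real

namespace Vale.Agent.P013.J

/-- primes of zone `j` -/
noncomputable def zone (y : ℝ) (j : ℕ) : Finset ℕ := by
  classical
  exact (range (⌊exp (zhi y j)⌋₊ + 1)).filter
    (fun p : ℕ => p.Prime ∧ zlo y j ≤ log p ∧ log p ≤ zhi y j)

/-- box index of `p`: the integer `β` with `(1+κ)^β ≤ p < (1+κ)^(β+1)` -/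
noncomputable def bi (κ : ℝ) (p : ℕ) : ℕ := ⌊log p / log (1 + κ)⌋₊

/-- primes of zone `j` with box index `β` -/
noncomputable def box (y κ : ℝ) (j β : ℕ) : Finset ℕ := by
  classical
  exact (zone y j).filter (fun p => bi κ p = β)

/-- lower end of a box -/
noncomputable def Pb (y κ : ℝ) (j β : ℕ) : ℝ := max ((1 + κ) ^ β) (exp (zlo y j))

/-- extension of a finite vector by zero -/
def ext {r : ℕ} (β : Fin (r + 1) → ℕ) (j : ℕ) : ℕ := if h : j < r + 1 then β ⟨j, h⟩ else 0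

/-- the supports under consideration -/
noncomputable def NN (z : ℕ) (T : ℝ) (DD : Finset (ℕ × ℕ)) : Finset (Finset ℕ) := by
  classical
  exact (supp (PP z) (tau z) 0 z T).filter (fun G => ∃ pq ∈ DD, top2 G pq.1 pq.2)

/-- good supports -/
structure Good (y C₉ κ : ℝ) (r z : ℕ) (T : ℝ) (G : Finset ℕ) : Prop where
  zones : ∀ j ≤ r, ∃ s ∈ G, s ∈ zone y j
  card : (G.card : ℝ) ≤ C₉ * log (log y)
  smooth : ∏ s ∈ G.filter (fun s : ℕ => (s : ℝ) ≤ exp ((log y) ^ (0.94 : ℝ))), (s : ℝ) ≤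
    exp ((log y) ^ (0.95 : ℝ))
  box : ∀ j ≤ r, ∀ s ∈ G, ∀ s' ∈ G, s ∈ zone y j → s' ∈ zone y j → bi κ s = bi κ s' → s = s'
  bdry : ∀ s ∈ G, (∃ s' ∈ G, s < s') → κ * (log y) ^ (0.1 : ℝ) ≤
    |T - ∑ t ∈ G.filter (fun t => s < t), tau z t - 3 * tau z s|
  large : 2 * y / (log y) ^ 3 ≤ ∏ s ∈ G, (s : ℝ)

/-- keys of classes containing a good support -/
def AdmKey (y C₉ κ : ℝ) (r z : ℕ) (T : ℝ) (DD : Finset (ℕ × ℕ)) (H : Finset ℕ)
    (β : Fin (r + 1) → ℕ) : Prop :=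
  ∃ G ∈ NN z T DD, Good y C₉ κ r z T G ∧
    ∃ s ∈ Fintype.piFinset (fun j : Fin (r + 1) => box y κ j (ext β j)),
      Disjoint H (univ.image s) ∧ G = H ∪ univ.image s

/-- common hypotheses on `y, z, T, DD` -/
def Std (y : ℕ) (A₁ c C₇ : ℝ) (z : ℕ) (T : ℝ) (DD : Finset (ℕ × ℕ)) : Prop :=
  √y * (log y) ^ (-C₇) ≤ z ∧ (z : ℝ) ≤ √y ∧ T ≤ log y + A₁ * log (log y) ∧ AdmPairs y c z DD

/-- J6, main part: the remainder over a class of `n` -/
def PoissonStmt : Prop := ∀ W : ℝ → ℝ, GoodW W → ∀ A : ℝ, 0 < A → ∃ A₂ : ℝ, 0 < A₂ ∧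
  ∀ r : ℕ, ∃ y₀ : ℕ, ∀ y : ℕ, y₀ ≤ y → ∀ (V : ℤ) (κ δ : ℝ), 0 < κ → κ ≤ (log y) ^ (-A₂) →
  0 ≤ δ → ∀ (P S : ℕ → ℝ) (I : ℕ → Finset ℕ) (M : ℕ),
  (∀ j ≤ r, 1 ≤ P j ∧ ((I j).card : ℝ) ≤ S j) →
  (∀ j ≤ r, ∀ p ∈ I j, P j ≤ (p : ℝ) ∧ (p : ℝ) ≤ (1 + κ) * P j) →
  y * (log y) ^ (-A) ≤ M * ∏ j ∈ range (r + 1), P j →
  M * ∏ j ∈ range (r + 1), P j ≤ y * (log y) ^ A →
  (∀ b : ℤ, b ≠ 0 → |(b : ℝ)| ≤ (log y) ^ A₂ →
    ‖boxSum r I (fun s => e ((b : ℝ) * V / ((M : ℝ) * s)))‖ ≤ δ * ∏ j ∈ range (r + 1), S j) →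
  ‖boxSum r I (fun s => ((rr W y V (M * s) : ℝ) : ℂ))‖ ≤
    ((log y) ^ A₂ * δ + (log y) ^ (-A)) * ∏ j ∈ range (r + 1), S j

/-- J7: the exceptional supports contribute little -/
def ExcStmt : Prop := ∀ W : ℝ → ℝ, GoodW W → ∀ A₁ c C₇ : ℝ, 0 < A₁ → 0 < c → c < 1 / 10 →
  0 < C₇ → ∃ C₉ Cκ : ℝ, 0 < C₉ ∧ 0 < Cκ ∧ ∀ (r : ℕ) (A₃ : ℝ), Cκ ≤ A₃ →
  ∃ y₀ : ℕ, ∀ y : ℕ, y₀ ≤ y → ∀ (V : ℤ) (z : ℕ) (T : ℝ) (DD : Finset (ℕ × ℕ)),
  Std y A₁ c C₇ z T DD → ∀ BG : Finset (Finset ℕ), BG ⊆ NN z T DD →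
  (∀ G ∈ BG, ¬ Good y C₉ ((log y) ^ (-A₃)) r z T G) →
    ∑ G ∈ BG, |rr W y V (∏ p ∈ G, p)| ≤ y / (log y) ^ 4

/-- J8: decomposition into classes -/
def DecompStmt : Prop := ∀ (A₁ c C₇ C₉ A₃ : ℝ) (r : ℕ), 0 < A₁ → 0 < c → c < 1 / 10 →
  0 < C₇ → 0 < C₉ → 1 ≤ A₃ →
  ∃ y₀ : ℕ, ∀ y : ℕ, y₀ ≤ y → ∀ (z : ℕ) (T : ℝ) (DD : Finset (ℕ × ℕ)),
  Std y A₁ c C₇ z T DD → ∀ f : ℕ → ℝ,
  ∃ (BG : Finset (Finset ℕ)) (KK : Finset (Finset ℕ × (Fin (r + 1) → ℕ))),
    BG ⊆ NN z T DD ∧ (∀ G ∈ BG, ¬ Good y C₉ ((log y) ^ (-A₃)) r z T G) ∧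
    (∀ K ∈ KK, AdmKey y C₉ ((log y) ^ (-A₃)) r z T DD K.1 K.2) ∧
    |RD z T DD f| ≤ ∑ G ∈ BG, |f (∏ p ∈ G, p)| + ∑ K ∈ KK,
      ‖boxSum r (fun j => box y ((log y) ^ (-A₃)) j (ext K.2 j))
        (fun s => ((f ((∏ p ∈ K.1, p) * s) : ℝ) : ℂ))‖

/-- J9: the classes contribute little -/
def ClassStmt : Prop := ∀ W : ℝ → ℝ, GoodW W → ∀ A₁ c C₇ C₉ Cκ : ℝ, 0 < A₁ → 0 < c →
  c < 1 / 10 → 0 < C₇ → 0 < C₉ → 0 < Cκ →
  ∃ (r : ℕ) (A₃ C₄ : ℝ), Cκ ≤ A₃ ∧ 1 ≤ A₃ ∧ 0 < C₄ ∧ ∃ y₀ : ℕ, ∀ y : ℕ, y₀ ≤ y →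
  ∀ (V : ℤ) (z : ℕ) (T : ℝ) (DD : Finset (ℕ × ℕ)), Std y A₁ c C₇ z T DD →
  ∀ (B₀ : ℤ) (D₀ : ℕ), IsCoprime B₀ (D₀ : ℤ) → 1 ≤ D₀ →
  (D₀ : ℝ) ≤ exp ((log y) ^ (0.96 : ℝ)) → |(B₀ : ℝ)| ≤ y * exp ((log y) ^ (0.96 : ℝ)) →
  (log y) ^ C₄ ≤ max (D₀ : ℝ) (|(B₀ : ℝ)| / y) →
  (∀ pq ∈ DD, ∀ ρ : ℤ × ℕ, Lab y V ρ → Natl V ρ (pq.1 * pq.2) → ρ = (B₀, D₀)) →
  ∀ KK : Finset (Finset ℕ × (Fin (r + 1) → ℕ)),
  (∀ K ∈ KK, AdmKey y C₉ ((log y) ^ (-A₃)) r z T DD K.1 K.2) →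
  ∑ K ∈ KK, ‖boxSum r (fun j => box y ((log y) ^ (-A₃)) j (ext K.2 j))
    (fun s => ((rr W y V ((∏ p ∈ K.1, p) * s) : ℝ) : ℂ))‖ ≤ y / (log y) ^ 4

/-- J9a: size properties of the keys -/
def KeyStmt : Prop := ∀ (A₁ c C₇ C₉ : ℝ), 0 < A₁ → 0 < c → c < 1 / 10 →
  0 < C₇ → 0 < C₉ → ∃ A₂ : ℝ, 0 < A₂ ∧ ∀ (A₃ : ℝ) (r : ℕ), 1 ≤ A₃ →
  ∃ y₀ : ℕ, ∀ y : ℕ, y₀ ≤ y → ∀ (z : ℕ) (T : ℝ) (DD : Finset (ℕ × ℕ)),
  Std y A₁ c C₇ z T DD → ∀ (H : Finset ℕ) (β : Fin (r + 1) → ℕ),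
  AdmKey y C₉ ((log y) ^ (-A₃)) r z T DD H β →
    (∀ p ∈ H, p.Prime ∧ p < z) ∧ (∃ pq ∈ DD, top2 H pq.1 pq.2) ∧
    (∀ j ≤ r, ∀ p ∈ box y ((log y) ^ (-A₃)) j (ext β j), p ∉ H) ∧
    (∀ j ≤ r, 0 < Pb y ((log y) ^ (-A₃)) j (ext β j) ∧
      zlo y j ≤ log (Pb y ((log y) ^ (-A₃)) j (ext β j)) ∧
      log (Pb y ((log y) ^ (-A₃)) j (ext β j)) ≤ zhi y j) ∧
    y / (log y) ^ 3 ≤ (∏ p ∈ H, (p : ℝ)) *
      ∏ j ∈ range (r + 1), Pb y ((log y) ^ (-A₃)) j (ext β j) ∧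
    (∏ p ∈ H, (p : ℝ)) * ∏ j ∈ range (r + 1), Pb y ((log y) ^ (-A₃)) j (ext β j) ≤
      y * (log y) ^ A₂ ∧
    exp ((log y) ^ (0.93 : ℝ) + 1) ≤
      ∏ p ∈ H.filter (fun p : ℕ => (p : ℝ) ≤ exp ((log y) ^ (0.94 : ℝ))), (p : ℝ) ∧
    ∏ p ∈ H.filter (fun p : ℕ => (p : ℝ) ≤ exp ((log y) ^ (0.94 : ℝ))), (p : ℝ) ≤
      exp ((log y) ^ (0.95 : ℝ))

end Vale.Agent.P013.J
end

section

/-!
# Poisson summation for the remainder of the smooth counting function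
-/

open Finset Real FourierTransform SchwartzMap MeasureTheory

namespace Vale.Agent.P013.J

/-! ### The Fourier transform of the weight -/

theorem GoodW.hasCompactSupport {W : ℝ → ℝ} (hW : GoodW W) :
    HasCompactSupport (fun x => (W x : ℂ)) := by
  refine HasCompactSupport.of_support_subset_isCompact (isCompact_Icc (a := (0 : ℝ)) (b := 1)) ?_
  intro x hx
  have h1 : W x ≠ 0 := by
    intro h
    apply hx
    simp [h]
  exact ⟨(hW.supp x h1).1.le, (hW.supp x h1).2.le⟩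

theorem GoodW.contDiff_coe {W : ℝ → ℝ} (hW : GoodW W) :
    ContDiff ℝ (⊤ : ℕ∞) (fun x => (W x : ℂ)) :=
  Complex.ofRealCLM.contDiff.comp hW.smooth

/-- the weight as a Schwartz function -/
noncomputable def wS {W : ℝ → ℝ} (hW : GoodW W) : 𝓢(ℝ, ℂ) :=
  hW.hasCompactSupport.toSchwartzMap hW.contDiff_coe

/-- the Fourier transform of the weight -/
noncomputable def wH {W : ℝ → ℝ} (hW : GoodW W) : 𝓢(ℝ, ℂ) := 𝓕 (wS hW)

theorem e_eq (x : ℝ) : e x = Complex.exp ((2 * π * x : ℝ) * Complex.I) := by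
  unfold e
  push_cast
  rfl

theorem pois_norm_e (x : ℝ) : ‖e x‖ = 1 := by
  rw [e_eq, Complex.norm_exp_ofReal_mul_I]

theorem pois_e_add (x y : ℝ) : e (x + y) = e x * e y := by
  unfold e
  rw [← Complex.exp_add]
  congr 1
  push_cast
  ring

theorem wH_apply {W : ℝ → ℝ} (hW : GoodW W) (ξ : ℝ) :
    wH hW ξ = ∫ x, e (-(x * ξ)) * (W x : ℂ) := by
  change 𝓕 (fun x => (W x : ℂ)) ξ = _
  rw [Real.fourier_real_eq_integral_exp_smul]
  refine integral_congr_ae (Filter.Eventually.of_forall fun x => ?_)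
  simp only [smul_eq_mul]
  rw [e_eq]
  congr 3
  push_cast
  ring

theorem wH_zero {W : ℝ → ℝ} (hW : GoodW W) : wH hW 0 = ((∫ x, W x : ℝ) : ℂ) := by
  rw [wH_apply, ← integral_complex_ofReal]
  refine integral_congr_ae (Filter.Eventually.of_forall fun x => ?_)
  simp [e]

/-- rapid decay -/
theorem wH_decay {W : ℝ → ℝ} (hW : GoodW W) (m : ℕ) :
    ∃ C : ℝ, 0 < C ∧ ∀ ξ, |ξ| ^ m * ‖wH hW ξ‖ ≤ C := by
  obtain ⟨C, hC, h⟩ := (wH hW).decay m 0
  refine ⟨C, hC, fun ξ => ?_⟩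
  have := h ξ
  rwa [norm_iteratedFDeriv_zero, Real.norm_eq_abs] at this

/-- rapid decay of the derivative -/
theorem wH_decay' {W : ℝ → ℝ} (hW : GoodW W) (m : ℕ) :
    ∃ C : ℝ, 0 < C ∧ ∀ ξ, |ξ| ^ m * ‖deriv (wH hW) ξ‖ ≤ C := by
  obtain ⟨C, hC, h⟩ := (wH hW).decay m 1
  refine ⟨C, hC, fun ξ => ?_⟩
  have := h ξ
  rwa [norm_iteratedFDeriv_eq_norm_iteratedDeriv, iteratedDeriv_one, Real.norm_eq_abs] at this

/-! ### The progression -/

/-- the function `t ↦ W ((V + n t) / y)` -/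
noncomputable def gS {W : ℝ → ℝ} (hW : GoodW W) {y n : ℕ} (hy : 1 ≤ y) (hn : 1 ≤ n) (V : ℤ) :
    𝓢(ℝ, ℂ) :=
  HasCompactSupport.toSchwartzMap (f := fun t : ℝ => ((W ((V + n * t) / y) : ℝ) : ℂ)) (by
    refine HasCompactSupport.of_support_subset_isCompact
      (isCompact_Icc (a := (-V / n : ℝ)) (b := (y - V) / n)) ?_
    intro t ht
    have hy' : (0 : ℝ) < y := by exact_mod_cast hy
    have hn' : (0 : ℝ) < n := by exact_mod_cast hn
    have h1 : W ((V + n * t) / y) ≠ 0 := by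
      intro h
      apply ht
      simp [h]
    obtain ⟨h2, h3⟩ := hW.supp _ h1
    rw [lt_div_iff₀ hy', zero_mul] at h2
    rw [div_lt_one hy'] at h3
    constructor
    · rw [div_le_iff₀ hn']; linarith only [h2]
    · rw [le_div_iff₀ hn']; linarith only [h3])
    (Complex.ofRealCLM.contDiff.comp (hW.smooth.comp (by fun_prop)))

theorem gS_apply {W : ℝ → ℝ} (hW : GoodW W) {y n : ℕ} (hy : 1 ≤ y) (hn : 1 ≤ n) (V : ℤ) (t : ℝ) :
    gS hW hy hn V t = ((W ((V + n * t) / y) : ℝ) : ℂ) := rfl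

/-- the terms of Poisson's formula -/
noncomputable def pTerm {W : ℝ → ℝ} (hW : GoodW W) (y n : ℕ) (V b : ℤ) : ℂ :=
  ((y / n : ℝ) : ℂ) * wH hW (y * b / n) * e (b * V / n)

theorem fourier_gS {W : ℝ → ℝ} (hW : GoodW W) {y n : ℕ} (hy : 1 ≤ y) (hn : 1 ≤ n) (V b : ℤ) :
    𝓕 (gS hW hy hn V) (b : ℝ) = pTerm hW y n V b := by
  have hy' : (0 : ℝ) < y := by exact_mod_cast hy
  have hn' : (0 : ℝ) < n := by exact_mod_cast hn
  change 𝓕 (fun t : ℝ => ((W ((V + n * t) / y) : ℝ) : ℂ)) (b : ℝ) = _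
  rw [Real.fourier_real_eq_integral_exp_smul]
  set F : ℝ → ℂ := fun x => e (-(b * (y * x - V) / n)) * (W x : ℂ) with hF
  have h1 : ∀ t : ℝ, Complex.exp (↑(-2 * π * t * b) * Complex.I) • ((W ((V + n * t) / y) : ℝ) : ℂ)
      = F (V / y + (n / y) * t) := by
    intro t
    simp only [hF, smul_eq_mul]
    have e1 : (V : ℝ) / y + n / y * t = (V + n * t) / y := by field_simp
    have e2 : -((b : ℝ) * (y * ((V + n * t) / y) - V) / n) = -(b * t) := by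
      field_simp
      ring
    rw [e1, e2, e_eq]
    congr 4
    ring
  have h3 : ∫ t : ℝ, F (V / y + (n / y) * t) = |((n : ℝ) / y)⁻¹| • ∫ x, F x := by
    rw [← integral_add_left_eq_self F ((V : ℝ) / y)]
    exact Measure.integral_comp_mul_left (fun x => F (V / y + x)) ((n : ℝ) / y)
  simp_rw [h1]
  rw [h3]
  have h2 : ∫ x, F x = e (b * V / n) * wH hW (y * b / n) := by
    rw [wH_apply, ← integral_const_mul]
    refine integral_congr_ae (Filter.Eventually.of_forall fun x => ?_)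
    simp only [hF]
    rw [← mul_assoc, ← pois_e_add]
    congr 2
    field_simp
    ring
  rw [h2, pTerm, inv_div, abs_of_pos (by positivity), Complex.real_smul]
  ring

theorem tsum_gS {W : ℝ → ℝ} (hW : GoodW W) {y n : ℕ} (hy : 1 ≤ y) (hn : 1 ≤ n) (V : ℤ) :
    ∑' k : ℤ, gS hW hy hn V (0 + (k : ℝ)) =
      ((∑ i ∈ (Icc 1 y).filter (fun i : ℕ => (n : ℤ) ∣ (i : ℤ) - V), W ((i : ℝ) / y) : ℝ) : ℂ) := by
  classical
  have hy' : (0 : ℝ) < y := by exact_mod_cast hy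
  have hn' : (0 : ℝ) < n := by exact_mod_cast hn
  have hnz : (n : ℤ) ≠ 0 := by exact_mod_cast (by omega : n ≠ 0)
  set S := (Icc 1 y).filter (fun i : ℕ => (n : ℤ) ∣ (i : ℤ) - V) with hS
  rw [tsum_eq_sum (s := S.image (fun i : ℕ => ((i : ℤ) - V) / n))]
  · rw [Finset.sum_image]
    · push_cast
      refine Finset.sum_congr rfl fun i hi => ?_
      have h1 := (Finset.mem_filter.1 hi).2
      rw [gS_apply]
      congr 3
      have h2 : (n : ℤ) * (((i : ℤ) - V) / n) = i - V := Int.mul_ediv_cancel' h1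
      have h3 : (n : ℝ) * ((((i : ℤ) - V) / n : ℤ) : ℝ) = i - V := by exact_mod_cast h2
      rw [zero_add, h3]
      ring
    · intro i hi j hj hij
      have h1 := (Finset.mem_filter.1 hi).2
      have h2 := (Finset.mem_filter.1 hj).2
      have h3 : (n : ℤ) * (((i : ℤ) - V) / n) = i - V := Int.mul_ediv_cancel' h1
      have h4 : (n : ℤ) * (((j : ℤ) - V) / n) = j - V := Int.mul_ediv_cancel' h2
      simp only at hij
      rw [hij, h4] at h3
      omega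
  · intro k hk
    by_contra hne
    apply hk
    rw [gS_apply, zero_add] at hne
    have h1 : W ((V + n * (k : ℝ)) / y) ≠ 0 := by
      intro h
      apply hne
      rw [h]
      simp
    obtain ⟨h2, h3⟩ := hW.supp _ h1
    rw [lt_div_iff₀ hy', zero_mul] at h2
    rw [div_lt_one hy'] at h3
    have h4 : 0 < V + n * k := by exact_mod_cast h2
    have h5 : V + n * k < y := by exact_mod_cast h3
    rw [Finset.mem_image]
    refine ⟨(V + n * k).toNat, ?_, ?_⟩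
    · rw [hS, Finset.mem_filter, Finset.mem_Icc]
      refine ⟨⟨by omega, by omega⟩, ?_⟩
      rw [Int.toNat_of_nonneg h4.le]
      exact ⟨k, by ring⟩
    · rw [Int.toNat_of_nonneg h4.le]
      rw [show V + n * k - V = n * k by ring]
      exact Int.mul_ediv_cancel_left k hnz

/-- the norm of the terms -/
theorem norm_pTerm {W : ℝ → ℝ} (hW : GoodW W) (y n : ℕ) (V b : ℤ) :
    ‖pTerm hW y n V b‖ = (y / n : ℝ) * ‖wH hW (y * b / n)‖ := by
  rw [pTerm, norm_mul, norm_mul, pois_norm_e, mul_one, Complex.norm_real, Real.norm_eq_abs,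
    abs_of_nonneg (by positivity)]

/-- decay of the terms -/
theorem norm_pTerm_le {W : ℝ → ℝ} (hW : GoodW W) (m : ℕ) : ∃ C : ℝ, 0 < C ∧
    ∀ (y n : ℕ) (V b : ℤ), 1 ≤ y → 1 ≤ n → b ≠ 0 →
      ‖pTerm hW y n V b‖ ≤ C * ((n : ℝ) / y) ^ m / |(b : ℝ)| ^ (m + 1) := by
  obtain ⟨C, hC, h⟩ := wH_decay hW (m + 1)
  refine ⟨C, hC, ?_⟩
  intro y n V b hy hn hb
  have hy' : (0 : ℝ) < y := by exact_mod_cast hy
  have hn' : (0 : ℝ) < n := by exact_mod_cast hn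
  have hb' : (0 : ℝ) < |(b : ℝ)| := abs_pos.2 (by exact_mod_cast hb)
  rw [norm_pTerm]
  have h1 := h (y * b / n)
  rw [abs_div, abs_mul, abs_of_pos hy', abs_of_pos hn'] at h1
  rw [le_div_iff₀ (pow_pos hb' _)]
  calc (y / n : ℝ) * ‖wH hW (y * b / n)‖ * |(b : ℝ)| ^ (m + 1)
      = ((y * |(b : ℝ)| / n) ^ (m + 1) * ‖wH hW (y * b / n)‖) * ((n : ℝ) / y) ^ m := by
        simp only [div_pow, mul_pow]
        field_simp
        ring
    _ ≤ C * ((n : ℝ) / y) ^ m := by gcongr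

/-- the terms with `b ≠ 0` -/
noncomputable def pT {W : ℝ → ℝ} (hW : GoodW W) (y n : ℕ) (V b : ℤ) : ℂ :=
  if b = 0 then 0 else pTerm hW y n V b

theorem norm_pT_le {W : ℝ → ℝ} (hW : GoodW W) (m : ℕ) : ∃ C : ℝ, 0 < C ∧
    ∀ (y n : ℕ) (V b : ℤ), 1 ≤ y → 1 ≤ n →
      ‖pT hW y n V b‖ ≤ C * ((n : ℝ) / y) ^ m * (1 / |(b : ℝ)| ^ (m + 1)) := by
  obtain ⟨C, hC, h⟩ := norm_pTerm_le hW m
  refine ⟨C, hC, ?_⟩
  intro y n V b hy hn
  by_cases hb : b = 0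
  · rw [pT, if_pos hb, norm_zero]
    positivity
  · rw [pT, if_neg hb, mul_one_div]
    exact h y n V b hy hn hb

theorem summable_abs_pow {m : ℕ} (hm : 1 ≤ m) : Summable fun b : ℤ => 1 / |(b : ℝ)| ^ (m + 1) := by
  have h1 : Summable fun b : ℤ => 1 / (b : ℝ) ^ (m + 1) :=
    Real.summable_one_div_int_pow.2 (by omega)
  refine h1.norm.congr fun b => ?_
  rw [norm_div, norm_one, norm_pow, Real.norm_eq_abs]

theorem summable_pT {W : ℝ → ℝ} (hW : GoodW W) {y n : ℕ} (hy : 1 ≤ y) (hn : 1 ≤ n) (V : ℤ) :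
    Summable (fun b => ‖pT hW y n V b‖) := by
  obtain ⟨C, hC, h⟩ := norm_pT_le hW 1
  exact Summable.of_nonneg_of_le (fun b => norm_nonneg _) (fun b => h y n V b hy hn)
    ((summable_abs_pow le_rfl).mul_left _)

/-- (P2) Poisson's formula for the remainder -/
theorem rr_eq_tsum {W : ℝ → ℝ} (hW : GoodW W) {y n : ℕ} (hy : 1 ≤ y) (hn : 1 ≤ n) (V : ℤ) :
    ((rr W y V n : ℝ) : ℂ) = ∑' b : ℤ, pT hW y n V b := by
  have h1 := SchwartzMap.tsum_eq_tsum_fourier (gS hW hy hn V) 0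
  rw [tsum_gS hW hy hn V] at h1
  have h2 : ∀ b : ℤ, 𝓕 (gS hW hy hn V) (b : ℝ) * fourier b ((0 : ℝ) : UnitAddCircle) =
      pTerm hW y n V b := by
    intro b
    rw [fourier_gS]
    simp
  rw [tsum_congr h2] at h1
  have h3 : Summable (pTerm hW y n V) := by
    refine (summable_congr_cofinite ?_).1 (summable_pT hW hy hn V).of_norm
    have : {b : ℤ | b ≠ 0} ∈ Filter.cofinite := (Set.finite_singleton (0 : ℤ)).compl_mem_cofinite
    filter_upwards [this] with b hb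
    rw [pT, if_neg hb]
  rw [h3.tsum_eq_add_tsum_ite 0] at h1
  have h4 : pTerm hW y n V 0 = (((y : ℝ) * (∫ x, W x) / n : ℝ) : ℂ) := by
    rw [pTerm]
    have e0 : e ((0 : ℤ) * V / n) = 1 := by simp [e]
    rw [e0, Int.cast_zero, mul_zero, zero_div, wH_zero, mul_one]
    push_cast
    ring
  rw [h4] at h1
  unfold rr
  rw [Complex.ofReal_sub, h1, add_sub_cancel_left]
  rfl

/-- (P3) -/
theorem rr_small {W : ℝ → ℝ} (hW : GoodW W) : ∃ C : ℝ, 0 < C ∧ ∀ (y : ℕ) (V : ℤ) (n : ℕ), 1 ≤ y →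
    1 ≤ n → |rr W y V n| ≤ C * ((n : ℝ) / y) ^ 2 := by
  obtain ⟨C, hC, h⟩ := norm_pT_le hW 2
  have hs := summable_abs_pow (m := 2) (by norm_num)
  set K := ∑' b : ℤ, 1 / |(b : ℝ)| ^ (2 + 1) with hK
  have hK0 : 0 ≤ K := tsum_nonneg fun b => by (clear * -; positivity)
  refine ⟨C * (K + 1), by positivity, ?_⟩
  intro y V n hy hn
  have h1 : |rr W y V n| = ‖∑' b : ℤ, pT hW y n V b‖ := by
    rw [← rr_eq_tsum hW hy hn V, Complex.norm_real, Real.norm_eq_abs]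
  rw [h1]
  calc ‖∑' b : ℤ, pT hW y n V b‖ ≤ ∑' b : ℤ, ‖pT hW y n V b‖ :=
        norm_tsum_le_tsum_norm (summable_pT hW hy hn V)
    _ ≤ ∑' b : ℤ, C * ((n : ℝ) / y) ^ 2 * (1 / |(b : ℝ)| ^ (2 + 1)) :=
        (summable_pT hW hy hn V).tsum_le_tsum (fun b => h y n V b hy hn) (hs.mul_left _)
    _ = C * ((n : ℝ) / y) ^ 2 * K := tsum_mul_left
    _ ≤ C * (K + 1) * ((n : ℝ) / y) ^ 2 := by linarith only [mul_nonneg (sq_nonneg ((n : ℝ) / y)) (le_of_lt (sub_pos.2 hC))]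

/-- (P1) -/
theorem rr_bound {W : ℝ → ℝ} (hW : GoodW W) : ∃ C : ℝ, 0 < C ∧ ∀ (y : ℕ) (V : ℤ) (n : ℕ), 1 ≤ n →
    |rr W y V n| ≤ C := by
  classical
  obtain ⟨C, hC, h⟩ := rr_small hW
  refine ⟨C + 1, by positivity, ?_⟩
  intro y V n hn
  have hn' : (0 : ℝ) < n := by exact_mod_cast hn
  rcases le_or_gt n y with hny | hny
  · refine (h y V n (hn.trans hny) hn).trans ?_
    have hy' : (0 : ℝ) < y := by exact_mod_cast (lt_of_lt_of_le hn hny)
    have h1 : (n : ℝ) / y ≤ 1 := by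
      rw [div_le_one hy']
      exact_mod_cast hny
    have h2 : ((n : ℝ) / y) ^ 2 ≤ 1 := pow_le_one₀ (by positivity) h1
    nlinarith only [hC, h2]
  · set S := (Icc 1 y).filter (fun i : ℕ => (n : ℤ) ∣ (i : ℤ) - V) with hS
    have hcard : S.card ≤ 1 := by
      rw [Finset.card_le_one]
      intro i hi j hj
      rw [hS, Finset.mem_filter, Finset.mem_Icc] at hi hj
      have h1 : (n : ℤ) ∣ (i : ℤ) - j := by
        have := dvd_sub hi.2 hj.2
        rwa [sub_sub_sub_cancel_right] at this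
      by_contra hne
      have h2 := Int.le_of_dvd (a := (n : ℤ)) (b := |(i : ℤ) - j|)
        (abs_pos.2 (by omega)) ((dvd_abs _ _).2 h1)
      have h3 : |(i : ℤ) - j| < y := by
        rw [abs_lt]
        constructor <;> omega
      omega
    have hsum0 : 0 ≤ ∑ i ∈ S, W ((i : ℝ) / y) := Finset.sum_nonneg fun i _ => hW.nonneg _
    have hsum1 : ∑ i ∈ S, W ((i : ℝ) / y) ≤ 1 := by
      calc ∑ i ∈ S, W ((i : ℝ) / y) ≤ ∑ _i ∈ S, (1 : ℝ) :=
            Finset.sum_le_sum fun i _ => hW.le_one _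
        _ = S.card := by simp
        _ ≤ 1 := by exact_mod_cast hcard
    have hint : ∫ x, W x ≤ 1 := by
      have h1 : ∫ x, W x = ∫ x in Set.Ioc (0 : ℝ) 1, W x := by
        rw [← integral_indicator measurableSet_Ioc]
        refine integral_congr_ae (Filter.Eventually.of_forall fun x => ?_)
        simp only [Set.indicator]
        split_ifs with hx
        · rfl
        · by_contra hne
          exact hx ⟨(hW.supp x hne).1, (hW.supp x hne).2.le⟩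
      rw [h1]
      have h2 : ∫ x in Set.Ioc (0 : ℝ) 1, W x ≤ ∫ _x in Set.Ioc (0 : ℝ) 1, (1 : ℝ) := by
        refine setIntegral_mono_on ?_ (by simp) measurableSet_Ioc (fun x _ => hW.le_one x)
        exact (hW.smooth.continuous.continuousOn.integrableOn_Icc (a := 0) (b := 1)).mono_set
          Set.Ioc_subset_Icc_self
      refine h2.trans ?_
      simp
    have hmain0 : 0 ≤ (y : ℝ) * (∫ x, W x) / n := by
      have := hW.int_pos
      positivity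
    have hmain1 : (y : ℝ) * (∫ x, W x) / n ≤ 1 := by
      rw [div_le_one hn']
      have h1 : (y : ℝ) ≤ n := by exact_mod_cast hny.le
      have h2 : (y : ℝ) * (∫ x, W x) ≤ y * 1 := by gcongr
      linarith only [h1, h2]
    unfold rr
    rw [abs_le]
    constructor <;> linarith only [hC, hsum0, hmain1, hsum1, hmain0]

/-! ### Sums over boxes -/

/-- variation of `u ↦ u Ŵ(u b)` -/
theorem wH_lip {W : ℝ → ℝ} (hW : GoodW W) : ∃ C : ℝ, 0 < C ∧ ∀ b u v : ℝ,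
    ‖(u : ℂ) * wH hW (u * b) - (v : ℂ) * wH hW (v * b)‖ ≤ C * |u - v| := by
  obtain ⟨C₀, hC₀, h0⟩ := wH_decay hW 0
  obtain ⟨C₁, hC₁, h1⟩ := wH_decay' hW 1
  refine ⟨C₀ + C₁, by positivity, ?_⟩
  intro b u v
  have hder : ∀ x ∈ (Set.univ : Set ℝ), HasDerivWithinAt (fun u : ℝ => (u : ℂ) * wH hW (u * b))
      (1 * wH hW (x * b) + (x : ℂ) * (b • deriv (wH hW) (x * b))) Set.univ x := by
    intro x _
    have h2 : HasDerivAt (fun u : ℝ => wH hW (u * b)) (b • deriv (wH hW) (x * b)) x := by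
      have h3 : HasDerivAt (wH hW) (deriv (wH hW) (x * b)) (x * b) :=
        ((wH hW).differentiable _).hasDerivAt
      have h4 : HasDerivAt (fun u : ℝ => u * b) b x := by
        simpa using (hasDerivAt_id x).mul_const b
      exact h3.scomp x h4
    have h5 : HasDerivAt (fun u : ℝ => (u : ℂ)) 1 x := by
      simpa using (hasDerivAt_id x).ofReal_comp
    exact (h5.mul h2).hasDerivWithinAt
  have hb : ∀ x ∈ (Set.univ : Set ℝ),
      ‖1 * wH hW (x * b) + (x : ℂ) * (b • deriv (wH hW) (x * b))‖ ≤ C₀ + C₁ := by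
    intro x _
    refine (norm_add_le _ _).trans (add_le_add ?_ ?_)
    · have := h0 (x * b)
      rw [pow_zero, one_mul] at this
      rw [one_mul]
      exact this
    · have := h1 (x * b)
      rw [norm_mul, norm_smul, Complex.norm_real, Real.norm_eq_abs, Real.norm_eq_abs, ← mul_assoc,
        ← abs_mul]
      rwa [pow_one] at this
  have h2 := Convex.norm_image_sub_le_of_norm_hasDerivWithin_le hder hb convex_univ
    (Set.mem_univ v) (Set.mem_univ u)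
  rwa [Real.norm_eq_abs] at h2

theorem tsum_sub_sum_le {f : ℤ → ℂ} {w : ℤ → ℝ} {F : Finset ℤ} {ε : ℝ}
    (hf : Summable fun b => ‖f b‖) (hw : Summable w) (hw0 : ∀ b, 0 ≤ w b) (hε : 0 ≤ ε)
    (h : ∀ b, b ∉ F → ‖f b‖ ≤ ε * w b) : ‖∑' b, f b - ∑ b ∈ F, f b‖ ≤ ε * ∑' b, w b := by
  classical
  have h1 : Summable fun b => if b ∈ F then f b else 0 :=
    summable_of_ne_finset_zero (s := F) fun b hb => if_neg hb
  have h2 : ∑ b ∈ F, f b = ∑' b, if b ∈ F then f b else 0 := by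
    rw [tsum_eq_sum (s := F) fun b hb => if_neg hb]
    exact Finset.sum_congr rfl fun b hb => (if_pos hb).symm
  rw [h2, ← hf.of_norm.tsum_sub h1]
  have h3 : ∀ b, ‖f b - if b ∈ F then f b else 0‖ ≤ ε * w b := by
    intro b
    split_ifs with hb
    · rw [sub_self, norm_zero]
      exact mul_nonneg hε (hw0 b)
    · rw [sub_zero]
      exact h b hb
  have h4 : Summable fun b => ‖f b - if b ∈ F then f b else 0‖ :=
    Summable.of_nonneg_of_le (fun b => norm_nonneg _) h3 (hw.mul_left ε)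
  calc ‖∑' b, (f b - if b ∈ F then f b else 0)‖ ≤ ∑' b, ‖f b - if b ∈ F then f b else 0‖ :=
        norm_tsum_le_tsum_norm h4
    _ ≤ ∑' b, ε * w b := h4.tsum_le_tsum h3 (hw.mul_left ε)
    _ = ε * ∑' b, w b := tsum_mul_left

/-- frequencies -/
noncomputable def freq (N₀ : ℕ) : Finset ℤ := (Finset.Icc (-(N₀ : ℤ)) N₀).erase 0

theorem mem_freq {N₀ : ℕ} {b : ℤ} : b ∈ freq N₀ ↔ b ≠ 0 ∧ |b| ≤ N₀ := by
  rw [freq, Finset.mem_erase, Finset.mem_Icc, abs_le]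

theorem card_freq (N₀ : ℕ) : (freq N₀).card = 2 * N₀ := by
  rw [freq, Finset.card_erase_of_mem (by simp), Int.card_Icc]
  omega

/-- the truncated Poisson formula with fixed weights -/
theorem rr_approx {W : ℝ → ℝ} (hW : GoodW W) : ∃ C : ℝ, 0 < C ∧
    ∀ (y : ℕ) (V : ℤ) (n N₀ : ℕ) (u₀ : ℝ), 1 ≤ y → 1 ≤ n →
    ‖((rr W y V n : ℝ) : ℂ) - ∑ b ∈ freq N₀, ((u₀ : ℂ) * wH hW (u₀ * b)) * e (b * V / n)‖ ≤
      C * ((n : ℝ) / y) ^ 2 / (N₀ + 1) + C * N₀ * |(y : ℝ) / n - u₀| := by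
  obtain ⟨C₂, hC₂, h2⟩ := norm_pT_le hW 2
  obtain ⟨C₁, hC₁, h1⟩ := wH_lip hW
  have hs := summable_abs_pow (m := 1) le_rfl
  set K := ∑' b : ℤ, 1 / |(b : ℝ)| ^ (1 + 1) with hK
  have hK0 : 0 ≤ K := tsum_nonneg fun b => by (clear * -; positivity)
  refine ⟨C₂ * (K + 1) + 2 * C₁, by (clear * - hC₂ hC₁; positivity), ?_⟩
  intro y V n N₀ u₀ hy hn
  have hy' : (0 : ℝ) < y := by exact_mod_cast hy
  have hn' : (0 : ℝ) < n := by exact_mod_cast hn
  have hN : (0 : ℝ) < (N₀ : ℝ) + 1 := by positivity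
  have htail : ‖((rr W y V n : ℝ) : ℂ) - ∑ b ∈ freq N₀, pT hW y n V b‖ ≤
      C₂ * ((n : ℝ) / y) ^ 2 / (N₀ + 1) * K := by
    rw [rr_eq_tsum hW hy hn V]
    refine tsum_sub_sum_le (summable_pT hW hy hn V) hs (fun b => by positivity) (by positivity) ?_
    intro b hb
    by_cases hb0 : b = 0
    · rw [pT, if_pos hb0, norm_zero]
      positivity
    · refine (h2 y n V b hy hn).trans ?_
      have hb1 : (N₀ : ℝ) + 1 ≤ |(b : ℝ)| := by
        have h3 : ¬ |b| ≤ (N₀ : ℤ) := fun h => hb (mem_freq.2 ⟨hb0, h⟩)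
        have h4 : (N₀ : ℤ) + 1 ≤ |b| := by omega
        have h5 : (((N₀ : ℤ) + 1 : ℤ) : ℝ) ≤ ((|b| : ℤ) : ℝ) := Int.cast_le.2 h4
        rw [Int.cast_abs] at h5
        push_cast at h5
        exact h5
      have hbpos : 0 < |(b : ℝ)| := lt_of_lt_of_le hN hb1
      rw [mul_one_div, div_mul_div_comm, mul_one]
      refine div_le_div_of_nonneg_left (by positivity) (by (clear * - hb0; positivity)) ?_
      rw [pow_succ |(b : ℝ)| 2, mul_comm]
      gcongr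
  have hmain : ‖∑ b ∈ freq N₀, pT hW y n V b -
      ∑ b ∈ freq N₀, ((u₀ : ℂ) * wH hW (u₀ * b)) * e (b * V / n)‖ ≤
      2 * N₀ * (C₁ * |(y : ℝ) / n - u₀|) := by
    rw [← Finset.sum_sub_distrib]
    refine (norm_sum_le _ _).trans ?_
    have h3 : ∀ b ∈ freq N₀, ‖pT hW y n V b - ((u₀ : ℂ) * wH hW (u₀ * b)) * e (b * V / n)‖ ≤
        C₁ * |(y : ℝ) / n - u₀| := by
      intro b hb
      rw [pT, if_neg (mem_freq.1 hb).1, pTerm, ← sub_mul, norm_mul, pois_norm_e, mul_one]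
      have := h1 b (y / n) u₀
      rwa [div_mul_eq_mul_div] at this
    refine (Finset.sum_le_sum h3).trans ?_
    rw [Finset.sum_const, card_freq, nsmul_eq_mul]
    push_cast
    exact le_rfl
  calc ‖((rr W y V n : ℝ) : ℂ) - ∑ b ∈ freq N₀, ((u₀ : ℂ) * wH hW (u₀ * b)) * e (b * V / n)‖
      ≤ ‖((rr W y V n : ℝ) : ℂ) - ∑ b ∈ freq N₀, pT hW y n V b‖ +
        ‖∑ b ∈ freq N₀, pT hW y n V b -
          ∑ b ∈ freq N₀, ((u₀ : ℂ) * wH hW (u₀ * b)) * e (b * V / n)‖ :=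
        norm_sub_le_norm_sub_add_norm_sub _ _ _
    _ ≤ C₂ * ((n : ℝ) / y) ^ 2 / (N₀ + 1) * K + 2 * N₀ * (C₁ * |(y : ℝ) / n - u₀|) :=
        add_le_add htail hmain
    _ ≤ _ := by
        have h5 : 0 ≤ ((n : ℝ) / y) ^ 2 / (N₀ + 1) := by positivity
        have h6 : 0 ≤ (N₀ : ℝ) * |(y : ℝ) / n - u₀| := by positivity
        have e1 : C₂ * ((n : ℝ) / y) ^ 2 / (N₀ + 1) * K = C₂ * K * (((n : ℝ) / y) ^ 2 / (N₀ + 1)) := by
          ring
        have e2 : (C₂ * (K + 1) + 2 * C₁) * ((n : ℝ) / y) ^ 2 / (N₀ + 1) =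
          (C₂ * (K + 1) + 2 * C₁) * (((n : ℝ) / y) ^ 2 / (N₀ + 1)) := by ring
        rw [e1, e2]
        have h7 : 0 ≤ C₂ * (K + 1) * ((N₀ : ℝ) * |(y : ℝ) / n - u₀|) := by (clear * - hC₂; positivity)
        have h8 : 0 ≤ (C₂ + 2 * C₁) * (((n : ℝ) / y) ^ 2 / (N₀ + 1)) := by positivity
        linarith only [h8, h7]

/-- Sums of the remainder over boxes (section 5 of the blueprint). -/
def PoissonClass : Prop := ∀ W : ℝ → ℝ, GoodW W → ∀ A : ℝ, 0 < A →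
  ∃ A₂ : ℝ, 0 < A₂ ∧ ∀ r : ℕ, ∃ y₀ : ℕ, ∀ y : ℕ, y₀ ≤ y → ∀ (V : ℤ) (κ δ : ℝ), 0 < κ →
  κ ≤ (log y) ^ (-A₂) → 0 ≤ δ → ∀ (P S : ℕ → ℝ) (I : ℕ → Finset ℕ) (M : ℕ),
  (∀ j ≤ r, 1 ≤ P j ∧ ((I j).card : ℝ) ≤ S j) →
  (∀ j ≤ r, ∀ p ∈ I j, P j ≤ (p : ℝ) ∧ (p : ℝ) ≤ (1 + κ) * P j) →
  y * (log y) ^ (-A) ≤ M * ∏ j ∈ range (r + 1), P j →
  M * ∏ j ∈ range (r + 1), P j ≤ y * (log y) ^ A →
  (∀ b : ℤ, b ≠ 0 → |(b : ℝ)| ≤ (log y) ^ A₂ →
    ‖boxSum r I (fun s => e ((b : ℝ) * V / ((M : ℝ) * s)))‖ ≤ δ * ∏ j ∈ range (r + 1), S j) →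
  ‖boxSum r I (fun s => ((rr W y V (M * s) : ℝ) : ℂ))‖ ≤
    ((log y) ^ A₂ * δ + (log y) ^ (-A)) * ∏ j ∈ range (r + 1), S j

theorem one_add_pow_le {κ : ℝ} (h0 : 0 ≤ κ) (h1 : κ ≤ 1) (n : ℕ) :
    (1 + κ) ^ n ≤ 1 + (2 ^ n - 1) * κ := by
  induction n with
  | zero => simp
  | succ n ih =>
    have h2 : (1 : ℝ) ≤ 2 ^ n := one_le_pow₀ (by norm_num)
    calc (1 + κ) ^ (n + 1) = (1 + κ) ^ n * (1 + κ) := pow_succ _ _
      _ ≤ (1 + (2 ^ n - 1) * κ) * (1 + κ) := by gcongr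
      _ ≤ 1 + (2 ^ (n + 1) - 1) * κ := by
          rw [pow_succ]
          linarith only [mul_nonneg (sub_nonneg.2 h2) (mul_nonneg h0 (sub_nonneg.2 h1))]

theorem box_bounds {r : ℕ} {P : ℕ → ℝ} {I : ℕ → Finset ℕ} {κ : ℝ}
    (hP : ∀ j ≤ r, 1 ≤ P j)
    (hI : ∀ j ≤ r, ∀ p ∈ I j, P j ≤ (p : ℝ) ∧ (p : ℝ) ≤ (1 + κ) * P j) {s : Fin (r + 1) → ℕ}
    (hs : s ∈ Fintype.piFinset (fun j : Fin (r + 1) => I j)) :
    ∏ j ∈ range (r + 1), P j ≤ ((∏ j, s j : ℕ) : ℝ) ∧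
      ((∏ j, s j : ℕ) : ℝ) ≤ (1 + κ) ^ (r + 1) * ∏ j ∈ range (r + 1), P j := by
  have hs' := fun j => Fintype.mem_piFinset.1 hs j
  rw [Finset.prod_range]
  push_cast
  constructor
  · refine Finset.prod_le_prod (fun j _ => ?_) (fun j _ => ?_)
    · exact zero_le_one.trans (hP j (Nat.lt_succ_iff.1 j.2))
    · exact (hI j (Nat.lt_succ_iff.1 j.2) _ (hs' j)).1
  · have e1 : (1 + κ) ^ (r + 1) * ∏ j : Fin (r + 1), P j = ∏ j : Fin (r + 1), (1 + κ) * P j := by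
      rw [Finset.prod_mul_distrib, Finset.prod_const, Finset.card_univ, Fintype.card_fin]
    rw [e1]
    refine Finset.prod_le_prod (fun j _ => by positivity) (fun j _ => ?_)
    exact (hI j (Nat.lt_succ_iff.1 j.2) _ (hs' j)).2

theorem diff_bound {y N x R κ U : ℝ} (hy : 0 < y) (hN : 0 < N) (hR : 1 ≤ R) (hκ : 0 < κ)
    (h1 : N ≤ x) (h2 : x ≤ (1 + (R - 1) * κ) * N) (hU : y / N ≤ U) :
    |y / x - y / N| ≤ U * (R * κ) := by
  have hx : 0 < x := hN.trans_le h1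
  have h3 : y / x ≤ y / N := by gcongr
  rw [abs_sub_comm, abs_of_nonneg (sub_nonneg.2 h3)]
  have h4 : y / N - y / x = y / N * ((x - N) / x) := by field_simp
  have h5 : x - N ≤ (R - 1) * κ * N := by linarith only [h2]
  have h6 : (x - N) / x ≤ R * κ := by
    rw [div_le_iff₀ hx]
    have h7 : (R - 1) * κ ≤ R * κ := mul_le_mul_of_nonneg_right (by linarith only []) hκ.le
    have h8 : (0 : ℝ) ≤ R * κ := by positivity
    calc x - N ≤ (R - 1) * κ * N := h5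
      _ ≤ R * κ * N := mul_le_mul_of_nonneg_right h7 hN.le
      _ ≤ R * κ * x := mul_le_mul_of_nonneg_left h1 h8
  have h9 : 0 ≤ (x - N) / x := div_nonneg (by linarith only [h1]) hx.le
  have h10 : 0 ≤ y / N := by positivity
  rw [h4]
  exact mul_le_mul hU h6 h9 (h10.trans hU)

theorem elem_bound {y N x R κ l A C N₀ : ℝ} (hy : 0 < y) (hN : 0 < N) (hR : 1 ≤ R) (hκ : 0 < κ)
    (hκ1 : κ ≤ 1) (hl : 1 ≤ l) (hC : 0 < C) (hκ2 : κ ≤ l ^ (-(5 * A + 2)))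
    (h1 : N ≤ x) (h2 : x ≤ (1 + (R - 1) * κ) * N) (hU : y / N ≤ l ^ A) (hU' : N / y ≤ l ^ A)
    (hN₀0 : 0 ≤ N₀) (hN₀ : N₀ ≤ l ^ (3 * A + 1)) (hN₀' : l ^ (3 * A + 1) ≤ N₀ + 1)
    (hlC : C * R ^ 2 + C * R ≤ l) :
    C * (x / y) ^ 2 / (N₀ + 1) + C * N₀ * |y / x - y / N| ≤ l ^ (-A) := by
  have hlp : 0 < l := by linarith only [hl]
  have hx : 0 < x := hN.trans_le h1
  have hfac : 1 + (R - 1) * κ ≤ R := by
    have : (R - 1) * κ ≤ (R - 1) * 1 := mul_le_mul_of_nonneg_left hκ1 (by linarith only [hR])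
    linarith only [this]
  have hxN : x ≤ R * N := h2.trans (mul_le_mul_of_nonneg_right hfac hN.le)
  have hny : x / y ≤ R * l ^ A := by
    calc x / y ≤ (R * N) / y := by gcongr
      _ = R * (N / y) := by ring
      _ ≤ R * l ^ A := by gcongr
  have hdiff := diff_bound hy hN hR hκ h1 h2 hU
  have hE1 : C * (x / y) ^ 2 / (N₀ + 1) ≤ C * R ^ 2 * l ^ (-A - 1) := by
    have h3 : C * (x / y) ^ 2 / (N₀ + 1) ≤ C * (R * l ^ A) ^ 2 / l ^ (3 * A + 1) := by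
      gcongr
    refine h3.trans (le_of_eq ?_)
    have h4 : (l ^ A) ^ 2 = l ^ (2 * A) := by
      rw [← Real.rpow_natCast, ← Real.rpow_mul hlp.le]
      congr 1
      push_cast
      ring
    rw [mul_pow, h4, mul_div_assoc, mul_div_assoc, ← Real.rpow_sub hlp, ← mul_assoc]
    congr 2
    ring
  have hE2 : C * N₀ * |y / x - y / N| ≤ C * R * l ^ (-A - 1) := by
    have h5 : R * κ ≤ R * l ^ (-(5 * A + 2)) := by gcongr
    have h6 : |y / x - y / N| ≤ l ^ A * (R * l ^ (-(5 * A + 2))) :=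
      hdiff.trans (mul_le_mul_of_nonneg_left h5 (by positivity))
    calc C * N₀ * |y / x - y / N|
        ≤ C * l ^ (3 * A + 1) * (l ^ A * (R * l ^ (-(5 * A + 2)))) := by gcongr
      _ = C * R * (l ^ (3 * A + 1) * l ^ A * l ^ (-(5 * A + 2))) := by ring
      _ = C * R * l ^ (-A - 1) := by
          rw [← Real.rpow_add hlp, ← Real.rpow_add hlp]
          congr 2
          ring
  calc C * (x / y) ^ 2 / (N₀ + 1) + C * N₀ * |y / x - y / N|
      ≤ C * R ^ 2 * l ^ (-A - 1) + C * R * l ^ (-A - 1) := add_le_add hE1 hE2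
    _ = (C * R ^ 2 + C * R) * l ^ (-A - 1) := by ring
    _ ≤ l * l ^ (-A - 1) := by gcongr
    _ = l ^ (-A) := by
        rw [Real.rpow_sub hlp, Real.rpow_one]
        field_simp

theorem poissonClass : PoissonClass := by
  classical
  intro W hW A hA
  refine ⟨5 * A + 2, by positivity, fun r => ?_⟩
  obtain ⟨C₀, hC₀, h0⟩ := wH_decay hW 0
  obtain ⟨C, hC, happ⟩ := rr_approx hW
  set R : ℝ := 2 ^ (r + 1) with hR
  have hR1 : 1 ≤ R := one_le_pow₀ (by norm_num)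
  set C₃ : ℝ := C * R ^ 2 + C * R with hC₃
  set l₀ := max 1 (max (2 * C₀) C₃) with hl₀
  refine ⟨⌈Real.exp l₀⌉₊, ?_⟩
  intro y hy V κ δ hκ0 hκ hδ P S I M hP hI hlo hhi hexp
  have hyexp : Real.exp l₀ ≤ y := (Nat.le_ceil _).trans (by exact_mod_cast hy)
  have hy0 : (0 : ℝ) < y := (Real.exp_pos _).trans_le hyexp
  have hy1 : 1 ≤ y := by
    have : (0 : ℕ) < y := by exact_mod_cast hy0
    exact this
  have hll : l₀ ≤ log y := (Real.le_log_iff_exp_le hy0).2 hyexp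
  set l := log y with hl
  have hl1 : 1 ≤ l := (le_max_left _ _).trans hll
  have hlC : 2 * C₀ ≤ l := ((le_max_left _ _).trans (le_max_right _ _)).trans hll
  have hlC₃ : C₃ ≤ l := ((le_max_right _ _).trans (le_max_right _ _)).trans hll
  have hlp : 0 < l := by linarith only [hC₀, hlC]
  have hκ1 : κ ≤ 1 := hκ.trans (Real.rpow_le_one_of_one_le_of_nonpos hl1 (by linarith only [hA]))
  set Q := ∏ j ∈ range (r + 1), P j with hQ
  have hQ1 : 1 ≤ Q := by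
    rw [hQ]
    calc (1 : ℝ) = ∏ _j ∈ range (r + 1), (1 : ℝ) := by simp
      _ ≤ ∏ j ∈ range (r + 1), P j := Finset.prod_le_prod (fun _ _ => zero_le_one)
          (fun j hj => (hP j (Nat.lt_succ_iff.1 (Finset.mem_range.1 hj))).1)
  have hQ0 : 0 < Q := by linarith only [hQ1]
  set N := (M : ℝ) * Q with hN
  have hN0 : 0 < N := lt_of_lt_of_le (by positivity) hlo
  have hM0 : (0 : ℝ) < M := by
    by_contra h
    have : (M : ℝ) * Q ≤ 0 := mul_nonpos_of_nonpos_of_nonneg (not_lt.1 h) hQ0.le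
    linarith only [hN0, this]
  have hM1 : 1 ≤ M := by
    have : (0 : ℕ) < M := by exact_mod_cast hM0
    exact this
  set SS := ∏ j ∈ range (r + 1), S j with hSS
  have hSS0 : 0 ≤ SS := by
    rw [hSS]
    refine Finset.prod_nonneg (fun j hj => ?_)
    exact (Nat.cast_nonneg _).trans (hP j (Nat.lt_succ_iff.1 (Finset.mem_range.1 hj))).2
  set u₀ := (y : ℝ) / N with hu₀
  have hu0 : 0 < u₀ := by (clear * - hy1 hM1 hQ1; positivity)
  have hulA : u₀ ≤ l ^ A := by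
    rw [hu₀, div_le_iff₀ hN0]
    have h1 : y * l ^ (-A) * l ^ A ≤ N * l ^ A := by gcongr
    rw [mul_assoc, ← Real.rpow_add hlp, neg_add_cancel, Real.rpow_zero, mul_one] at h1
    linarith only [h1]
  have hNy : N / y ≤ l ^ A := by
    rw [div_le_iff₀ hy0]
    linarith only [hhi]
  set N₀ := ⌊l ^ (3 * A + 1)⌋₊ with hN₀
  have hN₀le : (N₀ : ℝ) ≤ l ^ (3 * A + 1) := Nat.floor_le (by positivity)
  have hN₀ge : l ^ (3 * A + 1) ≤ (N₀ : ℝ) + 1 := (Nat.lt_floor_add_one _).le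
  -- the error for one element
  have herr : ∀ s ∈ Fintype.piFinset (fun j : Fin (r + 1) => I j),
      ‖((rr W y V (M * ∏ j, s j) : ℝ) : ℂ) - ∑ b ∈ freq N₀, ((u₀ : ℂ) * wH hW (u₀ * b)) *
        e ((b : ℝ) * V / ((M : ℝ) * ((∏ j, s j : ℕ) : ℝ)))‖ ≤ l ^ (-A) := by
    intro s hs
    obtain ⟨hlow, hupp⟩ := box_bounds (fun j hj => (hP j hj).1) hI hs
    rw [← hQ] at hlow hupp
    generalize ∏ j, s j = p at hlow hupp ⊢
    have hp0 : (0 : ℝ) < p := hQ0.trans_le hlow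
    have hp1 : 1 ≤ p := by
      have : (0 : ℕ) < p := by exact_mod_cast hp0
      exact this
    have hn1 : 1 ≤ M * p := Nat.mul_pos hM1 hp1
    have h1 := happ y V (M * p) N₀ u₀ hy1 hn1
    rw [Nat.cast_mul] at h1
    refine h1.trans ?_
    have hpow := one_add_pow_le hκ0.le hκ1 (r + 1)
    rw [← hR] at hpow
    have hpR : (p : ℝ) ≤ (1 + (R - 1) * κ) * Q :=
      hupp.trans (mul_le_mul_of_nonneg_right hpow hQ0.le)
    have hnN : N ≤ (M : ℝ) * p := mul_le_mul_of_nonneg_left hlow hM0.le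
    have hnN2 : (M : ℝ) * p ≤ (1 + (R - 1) * κ) * N := by
      calc (M : ℝ) * p ≤ M * ((1 + (R - 1) * κ) * Q) := mul_le_mul_of_nonneg_left hpR hM0.le
        _ = (1 + (R - 1) * κ) * N := by rw [hN]; ring
    exact elem_bound hy0 hN0 hR1 hκ0 hκ1 hl1 hC hκ hnN hnN2 hulA hNy (Nat.cast_nonneg _) hN₀le
      hN₀ge hlC₃
  -- summation
  have hcard : ((Fintype.piFinset (fun j : Fin (r + 1) => I j)).card : ℝ) ≤ SS := by
    rw [Fintype.card_piFinset, hSS, Finset.prod_range]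
    push_cast
    exact Finset.prod_le_prod (fun j _ => by (clear * -; positivity))
      (fun j _ => (hP j (Nat.lt_succ_iff.1 j.2)).2)
  have hdec : ‖boxSum r I (fun s => ((rr W y V (M * s) : ℝ) : ℂ)) -
      ∑ b ∈ freq N₀, ((u₀ : ℂ) * wH hW (u₀ * b)) *
        boxSum r I (fun s => e ((b : ℝ) * V / ((M : ℝ) * s)))‖ ≤ SS * l ^ (-A) := by
    have e1 : ∑ b ∈ freq N₀, ((u₀ : ℂ) * wH hW (u₀ * b)) *
        boxSum r I (fun s => e ((b : ℝ) * V / ((M : ℝ) * s))) =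
        ∑ s ∈ Fintype.piFinset (fun j : Fin (r + 1) => I j), ∑ b ∈ freq N₀,
          ((u₀ : ℂ) * wH hW (u₀ * b)) *
            e ((b : ℝ) * V / ((M : ℝ) * ((∏ j, s j : ℕ) : ℝ))) := by
      rw [Finset.sum_comm]
      refine Finset.sum_congr rfl fun b _ => ?_
      rw [boxSum, Finset.mul_sum]
    rw [e1, boxSum, ← Finset.sum_sub_distrib]
    refine (norm_sum_le _ _).trans ((Finset.sum_le_sum herr).trans ?_)
    rw [Finset.sum_const, nsmul_eq_mul]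
    gcongr
  have hmain : ‖∑ b ∈ freq N₀, ((u₀ : ℂ) * wH hW (u₀ * b)) *
        boxSum r I (fun s => e ((b : ℝ) * V / ((M : ℝ) * s)))‖ ≤ l ^ (5 * A + 2) * δ * SS := by
    refine (norm_sum_le _ _).trans ?_
    have h1 : ∀ b ∈ freq N₀, ‖((u₀ : ℂ) * wH hW (u₀ * b)) *
        boxSum r I (fun s => e ((b : ℝ) * V / ((M : ℝ) * s)))‖ ≤ l ^ A * C₀ * (δ * SS) := by
      intro b hb
      obtain ⟨hb0, hb1⟩ := mem_freq.1 hb
      rw [norm_mul, norm_mul, Complex.norm_real, Real.norm_eq_abs, abs_of_pos hu0]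
      have h2 := h0 (u₀ * b)
      rw [pow_zero, one_mul] at h2
      have h3 : |(b : ℝ)| ≤ l ^ (5 * A + 2) := by
        have h4 : ((|b| : ℤ) : ℝ) ≤ ((N₀ : ℤ) : ℝ) := Int.cast_le.2 hb1
        rw [Int.cast_abs, Int.cast_natCast] at h4
        refine (h4.trans hN₀le).trans ?_
        exact Real.rpow_le_rpow_of_exponent_le hl1 (by linarith only [hA])
      have h4 := hexp b hb0 h3
      gcongr
    refine (Finset.sum_le_sum h1).trans ?_
    rw [Finset.sum_const, card_freq, nsmul_eq_mul]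
    push_cast
    have h5 : 2 * (N₀ : ℝ) * (l ^ A * C₀) ≤ l ^ (5 * A + 2) := by
      calc 2 * (N₀ : ℝ) * (l ^ A * C₀) = (2 * C₀) * (N₀ * l ^ A) := by ring
        _ ≤ l * (l ^ (3 * A + 1) * l ^ A) := by gcongr
        _ = l ^ (4 * A + 2) := by
            rw [← Real.rpow_add hlp]
            nth_rewrite 1 [← Real.rpow_one l]
            rw [← Real.rpow_add hlp]
            congr 1
            ring
        _ ≤ l ^ (5 * A + 2) := Real.rpow_le_rpow_of_exponent_le hl1 (by linarith only [hA])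
    calc 2 * (N₀ : ℝ) * (l ^ A * C₀ * (δ * SS)) = 2 * (N₀ : ℝ) * (l ^ A * C₀) * (δ * SS) := by ring
      _ ≤ l ^ (5 * A + 2) * (δ * SS) := by gcongr
      _ = l ^ (5 * A + 2) * δ * SS := by ring
  have hfin := norm_le_norm_sub_add
    (boxSum r I (fun s => ((rr W y V (M * s) : ℝ) : ℂ)))
    (∑ b ∈ freq N₀, ((u₀ : ℂ) * wH hW (u₀ * b)) *
        boxSum r I (fun s => e ((b : ℝ) * V / ((M : ℝ) * s))))
  calc ‖boxSum r I (fun s => ((rr W y V (M * s) : ℝ) : ℂ))‖ ≤ SS * l ^ (-A) +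
        l ^ (5 * A + 2) * δ * SS := hfin.trans (add_le_add hdec hmain)
    _ = (l ^ (5 * A + 2) * δ + l ^ (-A)) * SS := by ring

end Vale.Agent.P013.J
end

section

/-!
# Section 5 of the blueprint, classes: definitions and statements of the pieces of `ClassStmt`

For a key `(H, β)`: `M = ∏ H`, `M1` the product of the elements `≤ exp (ℓ ^ 0.94)` of `H`,
`M2` the product of the others, `ℓ = log y`, `κ = ℓ ^ (-A₃)`.
-/

open Finset Real

namespace Vale.Agent.P013.J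

/-- data of a box vector: lower ends `P`, sets of primes `I` -/
structure BoxV (y : ℕ) (κ : ℝ) (r : ℕ) (P : ℕ → ℝ) (I : ℕ → Finset ℕ) : Prop where
  zon : ∀ j ≤ r, 0 < P j ∧ zlo y j ≤ log (P j) ∧ log (P j) ≤ zhi y j
  card : ∀ j ≤ r, ((I j).card : ℝ) ≤ κ * P j + 1
  mem : ∀ j ≤ r, ∀ p ∈ I j, p.Prime ∧ P j ≤ (p : ℝ) ∧ (p : ℝ) ≤ (1 + κ) * P j

/-- the small part of `H` -/
noncomputable def smH (y : ℕ) (H : Finset ℕ) : Finset ℕ := by
  classical
  exact H.filter (fun p : ℕ => (p : ℝ) ≤ exp ((log y) ^ (0.94 : ℝ)))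

/-- the large part of `H` -/
noncomputable def lgH (y : ℕ) (H : Finset ℕ) : Finset ℕ := by
  classical
  exact H.filter (fun p : ℕ => ¬ (p : ℝ) ≤ exp ((log y) ^ (0.94 : ℝ)))

/-- size properties of a key -/
structure Key (y : ℕ) (A₂ : ℝ) (r : ℕ) (DD : Finset (ℕ × ℕ)) (P : ℕ → ℝ) (I : ℕ → Finset ℕ)
    (H : Finset ℕ) : Prop where
  prime : ∀ p ∈ H, p.Prime
  top : ∃ pq ∈ DD, top2 H pq.1 pq.2
  disj : ∀ j ≤ r, ∀ p ∈ I j, p ∉ H
  lower : y / (log y) ^ 3 ≤ ((∏ p ∈ H, p : ℕ) : ℝ) * ∏ j ∈ range (r + 1), P j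
  upper : ((∏ p ∈ H, p : ℕ) : ℝ) * ∏ j ∈ range (r + 1), P j ≤ y * (log y) ^ A₂
  smlo : exp ((log y) ^ (0.93 : ℝ) + 1) ≤ ((∏ p ∈ smH y H, p : ℕ) : ℝ)
  smhi : ((∏ p ∈ smH y H, p : ℕ) : ℝ) ≤ exp ((log y) ^ (0.95 : ℝ))

/-- `H` is bad for `b` with exponent `A` -/
def Bad (y : ℕ) (κ : ℝ) (r : ℕ) (P : ℕ → ℝ) (I : ℕ → Finset ℕ) (V : ℤ) (A : ℝ) (b : ℤ)
    (H : Finset ℕ) : Prop :=
  (log y) ^ (-A) * ∏ j ∈ range (r + 1), (κ * P j + 1) <
    ‖boxSum r I (fun s => e ((b : ℝ) * V / (((∏ p ∈ H, p : ℕ) : ℝ) * s)))‖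

/-- `H` is structured for `b`: conclusion of the inverse theorem -/
def Strd (y : ℕ) (V b : ℤ) (H : Finset ℕ) : Prop :=
  ∃ (k : ℕ) (u c : ℤ), exp ((log y) ^ (0.93 : ℝ)) ≤ (2 : ℝ) ^ k ∧
    (2 : ℝ) ^ k ≤ ((∏ p ∈ smH y H, p : ℕ) : ℝ) ∧
    ((∏ p ∈ smH y H, p : ℕ) : ℝ) ≤ 2 * (2 : ℝ) ^ k ∧
    1 ≤ u ∧ (u : ℝ) ≤ ((2 : ℝ) ^ k) ^ (0.2 : ℝ) ∧ |(c : ℝ)| ≤ 6 * ((2 : ℝ) ^ k) ^ (1.2 : ℝ) ∧
    ((∏ p ∈ smH y H, p : ℕ) : ℤ) ∣ u * (b * V / ((∏ p ∈ lgH y H, p : ℕ) : ℤ)) - c ∧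
    ((2 : ℝ) ^ k) ^ (0.8 : ℝ) ≤ (((Icc 1 ⌊2 * (2 : ℝ) ^ k⌋₊).filter
      (fun M' : ℕ => (2 : ℝ) ^ k ≤ (M' : ℝ) ∧
        (M' : ℤ) ∣ u * (b * V / ((∏ p ∈ lgH y H, p : ℕ) : ℤ)) - c)).card : ℝ)

/-- C1 (file `ClassBox.lean`): the boxes -/
def BoxVStmt : Prop := ∀ (A₃ : ℝ) (r : ℕ), 1 ≤ A₃ → ∃ y₀ : ℕ, ∀ y : ℕ, y₀ ≤ y →
  ∀ β : Fin (r + 1) → ℕ,
  (∀ j ≤ r, 0 < Pb y ((log y) ^ (-A₃)) j (ext β j) ∧
      zlo y j ≤ log (Pb y ((log y) ^ (-A₃)) j (ext β j)) ∧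
      log (Pb y ((log y) ^ (-A₃)) j (ext β j)) ≤ zhi y j) →
  BoxV y ((log y) ^ (-A₃)) r (fun j => Pb y ((log y) ^ (-A₃)) j (ext β j))
    (fun j => box y ((log y) ^ (-A₃)) j (ext β j))

/-- C2 (file `ClassBox.lean`): sum over the box vectors -/
def BetaSumStmt : Prop := ∀ (A₃ : ℝ) (r : ℕ), 1 ≤ A₃ → ∃ y₀ : ℕ, ∀ y : ℕ, y₀ ≤ y →
  ∀ BB : Finset (Fin (r + 1) → ℕ),
  (∀ β ∈ BB, ∀ j ≤ r, 0 < Pb y ((log y) ^ (-A₃)) j (ext β j) ∧
      zlo y j ≤ log (Pb y ((log y) ^ (-A₃)) j (ext β j)) ∧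
      log (Pb y ((log y) ^ (-A₃)) j (ext β j)) ≤ zhi y j) →
  ∑ β ∈ BB, ∏ j ∈ range (r + 1), (((log y) ^ (-A₃) * Pb y ((log y) ^ (-A₃)) j (ext β j) + 1) /
    Pb y ((log y) ^ (-A₃)) j (ext β j)) ≤ log y

/-- C3 (file `ClassGood.lean`): trivial bound for a class -/
def TrivStmt : Prop := ∀ W : ℝ → ℝ, GoodW W → ∀ (A₂ A₃ : ℝ) (r : ℕ), 0 < A₂ → 1 ≤ A₃ →
  ∃ y₀ : ℕ, ∀ y : ℕ, y₀ ≤ y → ∀ (V : ℤ) (DD : Finset (ℕ × ℕ)) (P : ℕ → ℝ) (I : ℕ → Finset ℕ),
  BoxV y ((log y) ^ (-A₃)) r P I → ∀ H : Finset ℕ, Key y A₂ r DD P I H →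
  ‖boxSum r I (fun s => ((rr W y V ((∏ p ∈ H, p) * s) : ℝ) : ℂ))‖ ≤
    (log y) ^ (4 : ℝ) * ∏ j ∈ range (r + 1), ((log y) ^ (-A₃) * P j + 1)

/-- C4 (file `ClassGood.lean`): the classes which are not bad -/
def GoodFiberStmt : Prop := ∀ W : ℝ → ℝ, GoodW W → ∀ A₂ : ℝ, 0 < A₂ → ∃ B₂ : ℝ, 0 < B₂ ∧
  ∀ (A₃ : ℝ) (r : ℕ), B₂ ≤ A₃ → 1 ≤ A₃ → ∃ y₀ : ℕ, ∀ y : ℕ, y₀ ≤ y →
  ∀ (V : ℤ) (DD : Finset (ℕ × ℕ)) (P : ℕ → ℝ) (I : ℕ → Finset ℕ),
  BoxV y ((log y) ^ (-A₃)) r P I → ∀ HH : Finset (Finset ℕ),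
  (∀ H ∈ HH, Key y A₂ r DD P I H) →
  (∀ H ∈ HH, ∀ b : ℤ, b ≠ 0 → |(b : ℝ)| ≤ (log y) ^ B₂ →
    ¬ Bad y ((log y) ^ (-A₃)) r P I V (B₂ + A₂ + 20) b H) →
  ∑ H ∈ HH, ‖boxSum r I (fun s => ((rr W y V ((∏ p ∈ H, p) * s) : ℝ) : ℂ))‖ ≤
    y * (log y) ^ (-7 : ℝ) * ∏ j ∈ range (r + 1), (((log y) ^ (-A₃) * P j + 1) / P j)

/-- C5 (file `ClassExc.lean`): bad keys are structured, with few exceptions -/
def ExcFiberStmt : Prop := ∀ A₃ A₄ : ℝ, 1 ≤ A₃ → 0 < A₄ → ∃ r : ℕ, ∀ A₂ A₅ : ℝ, 0 < A₂ →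
  0 < A₅ → ∃ y₀ : ℕ, ∀ y : ℕ, y₀ ≤ y →
  ∀ (V : ℤ) (DD : Finset (ℕ × ℕ)) (P : ℕ → ℝ) (I : ℕ → Finset ℕ),
  BoxV y ((log y) ^ (-A₃)) r P I → ∀ HH : Finset (Finset ℕ),
  (∀ H ∈ HH, Key y A₂ r DD P I H) → ∀ b : ℤ,
  (∀ H ∈ HH, Bad y ((log y) ^ (-A₃)) r P I V A₄ b H ∧ ¬ Strd y V b H) →
  (HH.card : ℝ) * ∏ j ∈ range (r + 1), P j ≤ y * (log y) ^ (-A₅)

/-- C6 (file `ClassNat.lean`): structured bad keys are rare -/
def NatFiberStmt : Prop := ∀ (A₂ A₃ A₄ A₅ B₂ c : ℝ) (r : ℕ), 0 < A₂ → 1 ≤ A₃ → 0 < A₄ →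
  0 < A₅ → 0 < B₂ → 0 < c → ∃ C₄ : ℝ, 0 < C₄ ∧ ∃ y₀ : ℕ, ∀ y : ℕ, y₀ ≤ y →
  ∀ (V : ℤ) (z : ℕ) (DD : Finset (ℕ × ℕ)), AdmPairs y c z DD →
  ∀ (B₀ : ℤ) (D₀ : ℕ), IsCoprime B₀ (D₀ : ℤ) → 1 ≤ D₀ →
  (D₀ : ℝ) ≤ exp ((log y) ^ (0.96 : ℝ)) → |(B₀ : ℝ)| ≤ y * exp ((log y) ^ (0.96 : ℝ)) →
  (log y) ^ C₄ ≤ max (D₀ : ℝ) (|(B₀ : ℝ)| / y) →
  (∀ pq ∈ DD, ∀ ρ : ℤ × ℕ, Lab y V ρ → Natl V ρ (pq.1 * pq.2) → ρ = (B₀, D₀)) →
  ∀ (P : ℕ → ℝ) (I : ℕ → Finset ℕ),
  BoxV y ((log y) ^ (-A₃)) r P I → ∀ HH : Finset (Finset ℕ),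
  (∀ H ∈ HH, Key y A₂ r DD P I H) → ∀ b : ℤ, b ≠ 0 → |(b : ℝ)| ≤ (log y) ^ B₂ →
  (∀ H ∈ HH, Bad y ((log y) ^ (-A₃)) r P I V A₄ b H ∧ Strd y V b H) →
  (HH.card : ℝ) * ∏ j ∈ range (r + 1), P j ≤ y * (log y) ^ (-A₅)

end Vale.Agent.P013.J
end

section

/-!
# Inverse theorem: statements of the independent lemmas
-/

open Finset Real

namespace Vale.Agent.P013.J

/-- (I1a) Exact relations between reciprocals of products of primes of widely separated scales are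
trivial. `s i j` is the prime of scale `j` of the `i`-th term, `a i` its integer coefficient. -/
def ExactRelStmt : Prop := ∀ (ι : Type) [DecidableEq ι] (r : ℕ) (P : Fin r → ℝ) (U : Finset ι)
  (a : ι → ℤ) (s : ι → Fin r → ℕ),
  (∀ i ∈ U, ∀ j, (s i j).Prime ∧ P j ≤ (s i j : ℝ) ∧ (s i j : ℝ) ≤ 2 * P j) →
  (∀ j : Fin r, (∑ i ∈ U, |(a i : ℝ)|) *
    (∏ i ∈ univ.filter (fun i => i < j), (2 * P i)) ^ U.card < P j) →
  (∀ j : Fin r, 1 ≤ P j) →
  ∑ i ∈ U, (a i : ℚ) / ((∏ j, s i j : ℕ) : ℚ) = 0 →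
  ∀ s0 : Fin r → ℕ, ∑ i ∈ U.filter (fun i => s i = s0), a i = 0

/-- (I1b) Pairs of `k`-tuples which are permutations of each other are few. -/
def CountPermStmt : Prop := ∀ (α : Type) [DecidableEq α] (TT : Finset α) (k : ℕ)
  (E : Finset ((Fin k → α) × (Fin k → α))),
  (∀ fg ∈ E, (∀ i, fg.1 i ∈ TT) ∧ ∀ x, (univ.filter (fun i => fg.1 i = x)).card =
    (univ.filter (fun i => fg.2 i = x)).card) →
  E.card ≤ k.factorial * TT.card ^ k

/-- (I3) A relation which is not exact holds modulo few primes. -/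
def NonexactStmt : Prop := ∀ (r k : ℕ) (P : Fin r → ℝ) (P0 : ℝ) (f g : Fin k → Fin r → ℕ),
  1 < P0 → 1 ≤ k → (∀ j, 1 ≤ P j) →
  (∀ i j, 1 ≤ f i j ∧ (f i j : ℝ) ≤ 2 * P j) → (∀ i j, 1 ≤ g i j ∧ (g i j : ℝ) ≤ 2 * P j) →
  ∑ i, 1 / ((∏ j, f i j : ℕ) : ℚ) ≠ ∑ i, 1 / ((∏ j, g i j : ℕ) : ℚ) →
  ∀ Q : Finset ℕ, (∀ q ∈ Q, q.Prime ∧ P0 ≤ (q : ℝ) ∧ (∀ i j, ¬ q ∣ f i j) ∧
    (∀ i j, ¬ q ∣ g i j) ∧
    ∑ i, ((∏ j, f i j : ℕ) : ZMod q)⁻¹ = ∑ i, ((∏ j, g i j : ℕ) : ZMod q)⁻¹) →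
  (Q.card : ℝ) * log P0 ≤ log k + 2 * k * ∑ j, log (2 * P j)

/-- (I2) Moment bound for exponential sums over `ZMod q`. -/
def MomentStmt : Prop := ∀ (α : Type) [DecidableEq α] (q : ℕ) [NeZero q] (TT : Finset α)
  (b : α → ZMod q) (c : α → ℂ), (∀ x ∈ TT, ‖c x‖ ≤ 1) → ∀ (k : ℕ) (lam : ℝ), 0 ≤ lam →
  ((univ.filter (fun β : ZMod q =>
    lam ≤ ‖∑ x ∈ TT, c x * e (((β * b x).val : ℝ) / q)‖)).card : ℝ) * lam ^ (2 * k) ≤
  q * (((Fintype.piFinset (fun _ : Fin k => TT) ×ˢ Fintype.piFinset (fun _ : Fin k => TT)).filter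
    (fun fg => ∑ i, b (fg.1 i) = ∑ i, b (fg.2 i))).card : ℝ)

/-- (I5) Blocks: if a double sum is large then for one tuple of blocks of size `n0` the block sum
is large for many `q`. -/
def BlockStmt : Prop := ∀ (r : ℕ) (Q : Finset ℕ) (S0 : ℝ) (I : Fin r → Finset ℕ) (S : Fin r → ℝ)
  (n0 : ℕ) (δ : ℝ), 1 ≤ n0 → 0 < δ → 0 < S0 → (Q.card : ℝ) ≤ S0 →
  (∀ j, 0 < S j ∧ ((I j).card : ℝ) ≤ S j) → ∑ j, (n0 : ℝ) / S j ≤ δ / 2 →
  ∃ BB : Fin r → Finset (Finset ℕ), (∀ j, ∀ B ∈ BB j, B ⊆ I j ∧ B.card = n0) ∧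
    (∀ j, (BB j).card ≤ (I j).card) ∧
    ∀ F : ℕ → (Fin r → ℕ) → ℂ, (∀ q s, ‖F q s‖ ≤ 1) →
      δ * (S0 * ∏ j, S j) ≤ ‖∑ q ∈ Q, ∑ s ∈ Fintype.piFinset I, F q s‖ →
      ∃ B ∈ Fintype.piFinset BB, δ / 4 * S0 ≤ ((Q.filter (fun q =>
        δ / 4 * (n0 : ℝ) ^ r ≤ ‖∑ s ∈ Fintype.piFinset B, F q s‖)).card : ℝ)

/-- (I6) Collinearity. -/
def LineStmt : Prop := ∀ (T : ℝ) (t : ℤ) (C : Finset ℕ) (Λ : ℕ), 1 ≤ T →
  (∀ M ∈ C, T ≤ (M : ℝ) ∧ (M : ℝ) ≤ 2 * T) → 4 * T ^ 2 < (Λ : ℝ) →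
  (∀ M ∈ C, ∀ M' ∈ C, (Λ : ℤ) ∣ t / (M : ℤ) - t / (M' : ℤ)) → 2 ≤ C.card →
  ∃ u c : ℤ, 1 ≤ u ∧ (u : ℝ) * ((C.card : ℝ) - 1) ≤ T ∧
    |(c : ℝ)| * ((C.card : ℝ) - 1) ≤ 6 * T ^ 2 ∧ ∀ M ∈ C, (M : ℤ) ∣ u * t - c

/-- (I5e) Greedy choice of primes `q` with common residues. -/
def GreedyStmt : Prop := ∀ (Q : Finset ℕ) (τ : ℕ → ℤ) (G : ℕ → Finset ℕ) (Exc : ℕ → Finset ℤ)
  (g S e : ℝ), 0 < g → (Q.card : ℝ) ≤ S → 1 ≤ e → (∀ q ∈ Q, ((Exc q).card : ℝ) ≤ e) →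
  ∀ C : Finset ℕ, (∀ M ∈ C, G M ⊆ Q ∧ g ≤ ((G M).card : ℝ) ∧ ∀ q ∈ G M, τ M % q ∈ Exc q) →
  C.Nonempty → ∀ J : ℕ, (J : ℝ) ≤ g / 2 → ∃ QQ ⊆ Q, QQ.card = J ∧ ∃ C' ⊆ C,
    (C.card : ℝ) * (g / (2 * S * e)) ^ J ≤ (C'.card : ℝ) ∧
    ∀ M ∈ C', ∀ M' ∈ C', ∀ q ∈ QQ, τ M % q = τ M' % q

/-- (I7) Choice of the parameters. `δ = (log y)^(-A)`. -/
def ParamStmt : Prop := ∀ A : ℝ, 0 < A → ∃ r : ℕ, ∃ y₀ : ℝ, ∀ y : ℝ, y₀ ≤ y → ∀ P S : ℕ → ℝ,
  (∀ j ≤ r, 0 < P j ∧ zlo y j ≤ log (P j) ∧ log (P j) ≤ zhi y j) →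
  (∀ j ≤ r, P j / (log y) ^ A ≤ S j) →
  ∀ T : ℝ, exp ((log y) ^ (0.93 : ℝ)) ≤ T → T ≤ y →
  ∃ (k n0 J : ℕ) (w ex : ℝ), 1 ≤ k ∧ 1 ≤ n0 ∧ 0 < (log y) ^ (-A) ∧ 1 < P 0 ∧
    (∀ j : Fin r, 1 ≤ P (j + 1)) ∧ (∀ j : Fin r, 2 * P 0 < P (j + 1)) ∧
    0 < S 0 ∧ (∀ j : Fin r, 0 < S (j + 1)) ∧
    (∑ j : Fin r, (n0 : ℝ) / S (j + 1) ≤ (log y) ^ (-A) / 2) ∧
    (∀ j : Fin r, (2 * k : ℝ) *
      (∏ i ∈ (univ : Finset (Fin r)).filter (fun i => i < j), (2 * P (i + 1))) ^ (2 * k) <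
        P (j + 1)) ∧
    0 < w ∧ (log k + 2 * k * ∑ j : Fin r, log (2 * P (j + 1)) ≤ w * log (P 0)) ∧ 1 ≤ ex ∧
    (2 * P 0 * (k.factorial * ((n0 : ℝ) ^ r) ^ k +
      8 * ((n0 : ℝ) ^ r) ^ (2 * k) * w / ((log y) ^ (-A) * S 0)) ≤
        ex * ((log y) ^ (-A) / 4 * (n0 : ℝ) ^ r) ^ (2 * k)) ∧
    ((J : ℝ) ≤ (log y) ^ (-A) * S 0 / 16) ∧ 1 ≤ T ∧ 4 * T ^ 2 < P 0 ^ J ∧
    (∏ j : Fin r, (2 * P (j + 1))) ^ (n0 + 1) * (16 * ex / (log y) ^ (-A)) ^ J *
      (T ^ (0.8 : ℝ) + 1) ≤ T ^ (0.95 : ℝ)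

/-- (I1 + I3) Number of relations modulo `q`, outside a small set of bad `q`. -/
def RelCountStmt : Prop := ∀ (r k : ℕ) (P : Fin r → ℝ) (P0 w θ : ℝ) (B : Fin r → Finset ℕ)
  (Q0 : Finset ℕ), 1 ≤ k → 1 < P0 → 0 < θ → (∀ j, 1 ≤ P j) → (∀ j, 2 * P0 < P j) →
  (∀ j, ∀ p ∈ B j, p.Prime ∧ P j ≤ (p : ℝ) ∧ (p : ℝ) ≤ 2 * P j) →
  (∀ q ∈ Q0, q.Prime ∧ P0 ≤ (q : ℝ) ∧ (q : ℝ) ≤ 2 * P0) →
  (∀ j : Fin r, (2 * k : ℝ) * (∏ i ∈ univ.filter (fun i => i < j), (2 * P i)) ^ (2 * k) < P j) →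
  log k + 2 * k * ∑ j, log (2 * P j) ≤ w * log P0 →
  ∃ Bad ⊆ Q0, (Bad.card : ℝ) * θ ≤ (∏ j, ((B j).card : ℝ)) ^ (2 * k) * w ∧
    ∀ q ∈ Q0, q ∉ Bad →
      (((Fintype.piFinset (fun _ : Fin k => Fintype.piFinset B) ×ˢ
        Fintype.piFinset (fun _ : Fin k => Fintype.piFinset B)).filter
        (fun fg => ∑ i, ((∏ j, fg.1 i j : ℕ) : ZMod q)⁻¹ =
          ∑ i, ((∏ j, fg.2 i j : ℕ) : ZMod q)⁻¹)).card : ℝ) ≤
      k.factorial * (∏ j, ((B j).card : ℝ)) ^ k + θ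

end Vale.Agent.P013.J
end

section

/-!
# Inverse theorem: basic facts on exponentials
-/

open Finset Real

namespace Vale.Agent.P013.J

theorem norm_e (x : ℝ) : ‖e x‖ = 1 := by
  unfold e
  have : (2 * π * x * Complex.I : ℂ) = ((2 * π * x : ℝ) : ℂ) * Complex.I := by push_cast; ring
  rw [this, Complex.norm_exp_ofReal_mul_I]

theorem e_add (x y : ℝ) : e (x + y) = e x * e y := by
  unfold e
  rw [← Complex.exp_add]
  congr 1
  push_cast
  ring

theorem e_int (n : ℤ) : e (n : ℝ) = 1 := by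
  unfold e
  rw [Complex.exp_eq_one_iff]
  exact ⟨n, by push_cast; ring⟩

theorem e_sub_int {x y : ℝ} {n : ℤ} (h : x - y = n) : e x = e y := by
  have : x = y + n := by linarith
  rw [this, e_add, e_int, mul_one]

/-- periodicity: `e (a / m)` only depends on `a` modulo `m` -/
theorem e_div_congr {a b : ℤ} {m : ℕ} (hm : 0 < m) (h : (m : ℤ) ∣ a - b) :
    e ((a : ℝ) / m) = e ((b : ℝ) / m) := by
  obtain ⟨n, hn⟩ := h
  apply e_sub_int (n := n)
  have hm' : (m : ℝ) ≠ 0 := by exact_mod_cast hm.ne'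
  rw [← sub_div, div_eq_iff hm']
  have : ((a - b : ℤ) : ℝ) = ((m * n : ℤ) : ℝ) := by rw [hn]
  push_cast at this
  linarith

/-- reciprocity -/
theorem e_recip {q m : ℕ} (hq : 0 < q) (hm : 0 < m) (h : Nat.Coprime q m) (t : ℤ) :
    e ((t : ℝ) / (q * m)) = e (((t * Nat.gcdA q m : ℤ) : ℝ) / m) *
      e (((t * Nat.gcdB q m : ℤ) : ℝ) / q) := by
  rw [← e_add]
  congr 1
  have hb := Nat.gcd_eq_gcd_ab q m
  rw [Nat.Coprime.gcd_eq_one h] at hb
  have hb' : (1 : ℝ) = q * (Nat.gcdA q m : ℝ) + m * (Nat.gcdB q m : ℝ) := by exact_mod_cast hb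
  have hq' : (q : ℝ) ≠ 0 := by exact_mod_cast hq.ne'
  have hm' : (m : ℝ) ≠ 0 := by exact_mod_cast hm.ne'
  push_cast
  rw [div_add_div _ _ hm' hq', div_eq_div_iff (mul_ne_zero hq' hm') (mul_ne_zero hm' hq')]
  have : (t : ℝ) * (m * q) = (t : ℝ) * 1 * (m * q) := by ring
  rw [this, hb']
  ring

/-- `gcdB` is the inverse modulo `q` -/
theorem gcdB_eq_inv {q m : ℕ} (h : Nat.Coprime q m) :
    ((Nat.gcdB q m : ℤ) : ZMod q) = (m : ZMod q)⁻¹ := by
  have hb := Nat.gcd_eq_gcd_ab q m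
  rw [Nat.Coprime.gcd_eq_one h] at hb
  have h1 : ((1 : ℤ) : ZMod q) = ((q * Nat.gcdA q m + m * Nat.gcdB q m : ℤ) : ZMod q) := by
    rw [← hb]; norm_cast
  push_cast at h1
  rw [ZMod.natCast_self, zero_mul, zero_add] at h1
  have h2 : (m : ZMod q) * (m : ZMod q)⁻¹ = 1 := ZMod.coe_mul_inv_eq_one m h.symm
  calc ((Nat.gcdB q m : ℤ) : ZMod q) = ((m : ZMod q) * (m : ZMod q)⁻¹) * (Nat.gcdB q m : ℤ) := by
        rw [h2, one_mul]
    _ = (m : ZMod q)⁻¹ * (m * (Nat.gcdB q m : ℤ)) := by ring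
    _ = _ := by rw [← h1, mul_one]

/-- exponentials of residue classes -/
theorem e_val {q : ℕ} (hq : 0 < q) {a : ℤ} {x : ZMod q} (h : (a : ZMod q) = x) :
    e ((a : ℝ) / q) = e ((x.val : ℝ) / q) := by
  have : NeZero q := ⟨hq.ne'⟩
  have h2 : (q : ℤ) ∣ a - (x.val : ℤ) := by
    rw [← ZMod.intCast_zmod_eq_zero_iff_dvd]
    push_cast
    rw [h]; simp
  have := e_div_congr hq h2
  rw [this, Int.cast_natCast]

end Vale.Agent.P013.J
end

section

/-!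
# Inverse theorem: moment bound (J3c)
-/

open Finset Real

namespace Vale.Agent.P013.J

namespace Moment

lemma e_val {q : ℕ} [NeZero q] (a : ZMod q) :
    e ((a.val : ℝ) / q) = ZMod.stdAddChar (N := q) a := by
  rw [ZMod.stdAddChar_apply, ZMod.toCircle_apply]
  unfold e
  congr 1
  push_cast
  ring

lemma char_sum {q : ℕ} (ψ : AddChar (ZMod q) ℂ) {ι : Type} [DecidableEq ι] (s : Finset ι)
    (f : ι → ZMod q) : ψ (∑ i ∈ s, f i) = ∏ i ∈ s, ψ (f i) := by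
  induction s using Finset.induction with
  | empty => simp
  | insert i s hi ih => rw [Finset.sum_insert hi, Finset.prod_insert hi, AddChar.map_add_eq_mul, ih]

lemma conj_char {q : ℕ} [NeZero q] (a : ZMod q) :
    (starRingEnd ℂ) (ZMod.stdAddChar (N := q) a) = ZMod.stdAddChar (N := q) (-a) := by
  rw [AddChar.map_neg_eq_inv, ZMod.stdAddChar_apply, ← Circle.coe_inv_eq_conj]
  rfl

/-- the `k`-th power of an exponential sum -/
lemma sum_pow_char {α : Type} [DecidableEq α] {q : ℕ} [NeZero q] (TT : Finset α)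
    (b : α → ZMod q) (c : α → ℂ) (k : ℕ) (β : ZMod q) :
    (∑ x ∈ TT, c x * ZMod.stdAddChar (N := q) (β * b x)) ^ k =
      ∑ f ∈ Fintype.piFinset (fun _ : Fin k => TT), (∏ i, c (f i)) *
        ZMod.stdAddChar (N := q) (β * ∑ i, b (f i)) := by
  have h1 : (∑ x ∈ TT, c x * ZMod.stdAddChar (N := q) (β * b x)) ^ k =
      ∏ _i : Fin k, ∑ x ∈ TT, c x * ZMod.stdAddChar (N := q) (β * b x) := by
    rw [Finset.prod_const, Finset.card_univ, Fintype.card_fin]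
  rw [h1, Finset.prod_univ_sum]
  refine Finset.sum_congr rfl fun f _ => ?_
  rw [Finset.prod_mul_distrib, Finset.mul_sum, char_sum]

lemma sum_norm_pow {α : Type} [DecidableEq α] {q : ℕ} [NeZero q] (TT : Finset α)
    (b : α → ZMod q) (c : α → ℂ) (hc : ∀ x ∈ TT, ‖c x‖ ≤ 1) (k : ℕ) :
    ∑ β : ZMod q, ‖∑ x ∈ TT, c x * ZMod.stdAddChar (N := q) (β * b x)‖ ^ (2 * k) ≤
      q * (((Fintype.piFinset (fun _ : Fin k => TT) ×ˢ
        Fintype.piFinset (fun _ : Fin k => TT)).filter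
        (fun fg => ∑ i, b (fg.1 i) = ∑ i, b (fg.2 i))).card : ℝ) := by
  set PP := Fintype.piFinset (fun _ : Fin k => TT) with hPP
  set A : (Fin k → α) → ℂ := fun f => ∏ i, c (f i) with hA
  set B : (Fin k → α) → ZMod q := fun f => ∑ i, b (f i) with hB
  have hA1 : ∀ f ∈ PP, ‖A f‖ ≤ 1 := by
    intro f hf
    rw [hPP, Fintype.mem_piFinset] at hf
    rw [hA]
    simp only [norm_prod]
    exact Finset.prod_le_one (fun _ _ => norm_nonneg _) fun i _ => hc _ (hf i)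
  -- the complex identity
  have h1 : ∀ β : ZMod q, ((‖∑ x ∈ TT, c x * ZMod.stdAddChar (N := q) (β * b x)‖ ^ (2 * k) : ℝ) : ℂ)
      = ∑ f ∈ PP, ∑ g ∈ PP, A f * (starRingEnd ℂ) (A g) *
        ZMod.stdAddChar (N := q) (β * (B f - B g)) := by
    intro β
    set S := ∑ x ∈ TT, c x * ZMod.stdAddChar (N := q) (β * b x) with hS
    have h2 : ((‖S‖ ^ (2 * k) : ℝ) : ℂ) = S ^ k * (starRingEnd ℂ) (S ^ k) := by
      rw [Complex.mul_conj, Complex.normSq_eq_norm_sq, norm_pow]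
      push_cast
      ring
    rw [h2, hS, sum_pow_char, map_sum, Finset.sum_mul_sum]
    refine Finset.sum_congr rfl fun f _ => Finset.sum_congr rfl fun g _ => ?_
    rw [map_mul (starRingEnd ℂ), conj_char, mul_sub, sub_eq_add_neg, AddChar.map_add_eq_mul]
    simp only [hA, hB]
    ring
  have h4 : ∀ f g : Fin k → α, ∑ β : ZMod q, A f * (starRingEnd ℂ) (A g) *
      ZMod.stdAddChar (N := q) (β * (B f - B g)) =
      A f * (starRingEnd ℂ) (A g) * (if B f = B g then (q : ℂ) else 0) := by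
    intro f g
    rw [← Finset.mul_sum]
    have h5 := AddChar.sum_mulShift (B f - B g) (ZMod.isPrimitive_stdAddChar q)
    rw [h5]
    congr 1
    by_cases h : B f = B g
    · rw [if_pos h, if_pos (sub_eq_zero.2 h), ZMod.card]
    · rw [if_neg h, if_neg (sub_ne_zero.2 h)]
      simp
  have h6 : ((∑ β : ZMod q, ‖∑ x ∈ TT, c x * ZMod.stdAddChar (N := q) (β * b x)‖ ^ (2 * k) : ℝ) : ℂ)
      = ∑ f ∈ PP, ∑ g ∈ PP, A f * (starRingEnd ℂ) (A g) * (if B f = B g then (q : ℂ) else 0) := by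
    rw [Complex.ofReal_sum]
    simp_rw [h1]
    rw [Finset.sum_comm]
    refine Finset.sum_congr rfl fun f _ => ?_
    rw [Finset.sum_comm]
    exact Finset.sum_congr rfl fun g _ => h4 f g
  have h7 : ∑ β : ZMod q, ‖∑ x ∈ TT, c x * ZMod.stdAddChar (N := q) (β * b x)‖ ^ (2 * k) =
      ‖((∑ β : ZMod q, ‖∑ x ∈ TT, c x * ZMod.stdAddChar (N := q) (β * b x)‖ ^ (2 * k) : ℝ) : ℂ)‖ := by
    rw [Complex.norm_real, Real.norm_eq_abs, abs_of_nonneg]
    exact Finset.sum_nonneg fun _ _ => by positivity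
  rw [h7, h6, ← Finset.sum_product']
  refine (norm_sum_le _ _).trans ?_
  have h8 : ∀ fg ∈ PP ×ˢ PP, ‖A fg.1 * (starRingEnd ℂ) (A fg.2) *
      (if B fg.1 = B fg.2 then (q : ℂ) else 0)‖ ≤ if B fg.1 = B fg.2 then (q : ℝ) else 0 := by
    intro fg hfg
    rw [Finset.mem_product] at hfg
    have h9 := hA1 _ hfg.1
    have h10 := hA1 _ hfg.2
    split_ifs with h
    · rw [norm_mul, norm_mul, RCLike.norm_conj, Complex.norm_natCast]
      have : ‖A fg.1‖ * ‖A fg.2‖ ≤ 1 := mul_le_one₀ h9 (norm_nonneg _) h10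
      calc _ ≤ 1 * (q : ℝ) := mul_le_mul_of_nonneg_right this (Nat.cast_nonneg q)
        _ = q := one_mul _
    · simp
  refine (Finset.sum_le_sum h8).trans ?_
  rw [← Finset.sum_filter, Finset.sum_const, nsmul_eq_mul, mul_comm]

end Moment

theorem moment : MomentStmt := by
  intro α _ q _ TT b c hc k lam hlam
  refine le_trans ?_ (Moment.sum_norm_pow TT b c hc k)
  simp_rw [Moment.e_val]
  have h1 : ∀ β ∈ univ.filter (fun β : ZMod q =>
      lam ≤ ‖∑ x ∈ TT, c x * ZMod.stdAddChar (N := q) (β * b x)‖),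
      lam ^ (2 * k) ≤ ‖∑ x ∈ TT, c x * ZMod.stdAddChar (N := q) (β * b x)‖ ^ (2 * k) := by
    intro β hβ
    rw [Finset.mem_filter] at hβ
    exact pow_le_pow_left₀ hlam hβ.2 _
  have h2 := Finset.sum_le_sum h1
  rw [Finset.sum_const, nsmul_eq_mul] at h2
  refine h2.trans ?_
  exact Finset.sum_le_sum_of_subset_of_nonneg (Finset.filter_subset _ _)
    fun _ _ _ => by positivity

end Vale.Agent.P013.J
end

section

/-!
# Inverse theorem: block decomposition (I5)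
-/

open Finset Real

namespace Vale.Agent.P013.J

namespace Block

theorem exists_blocks (n0 : ℕ) (hn0 : 1 ≤ n0) : ∀ (N : ℕ) (X : Finset ℕ), X.card = N →
    ∃ BB : Finset (Finset ℕ), (∀ B ∈ BB, B ⊆ X ∧ B.card = n0) ∧
      (∀ B ∈ BB, ∀ B' ∈ BB, B ≠ B' → Disjoint B B') ∧ (X \ BB.biUnion id).card < n0 := by
  intro N
  induction N using Nat.strong_induction_on with
  | _ N ih =>
    intro X hX
    by_cases h : X.card < n0
    · exact ⟨∅, by simp, by simp, by simpa using h⟩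
    · push Not at h
      obtain ⟨B, hBX, hB⟩ := Finset.exists_subset_card_eq h
      have hc : (X \ B).card = N - n0 := by
        rw [Finset.card_sdiff_of_subset hBX, hB, hX]
      obtain ⟨BB, h1, h2, h3⟩ := ih (N - n0) (by omega) (X \ B) hc
      refine ⟨insert B BB, ?_, ?_, ?_⟩
      · intro C hC
        rcases Finset.mem_insert.mp hC with rfl | hC
        · exact ⟨hBX, hB⟩
        · exact ⟨(h1 C hC).1.trans Finset.sdiff_subset, (h1 C hC).2⟩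
      · have hd : ∀ C ∈ BB, Disjoint B C := fun C hC =>
          Finset.disjoint_of_subset_right (h1 C hC).1 Finset.disjoint_sdiff
        intro C hC C' hC' hne
        rcases Finset.mem_insert.mp hC with h | hC1
        · rcases Finset.mem_insert.mp hC' with h' | hC1'
          · exact absurd (h.trans h'.symm) hne
          · rw [h]
            exact hd C' hC1'
        · rcases Finset.mem_insert.mp hC' with h' | hC1'
          · rw [h']
            exact (hd C hC1).symm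
          · exact h2 C hC1 C' hC1' hne
      · refine lt_of_le_of_lt (Finset.card_le_card ?_) h3
        intro x hx
        simp only [Finset.biUnion_insert, id, Finset.mem_sdiff, Finset.mem_union, not_or] at hx ⊢
        exact ⟨⟨hx.1, hx.2.1⟩, hx.2.2⟩

end Block

open Block in
theorem block : BlockStmt := by
  intro r Q S0 I S n0 δ hn0 hδ hS0 hQ hI hsum
  choose BBf hB1 hB2 hB3 using fun X : Finset ℕ => exists_blocks n0 hn0 X.card X rfl
  set BB : Fin r → Finset (Finset ℕ) := fun j => BBf (I j) with hBB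
  have hcard : ∀ j, (BB j).card * n0 ≤ (I j).card := by
    intro j
    have h1 : ((BB j).biUnion id).card = ∑ B ∈ BB j, (id B : Finset ℕ).card :=
      Finset.card_biUnion (fun B hB B' hB' hne => hB2 (I j) B hB B' hB' hne)
    have h2 : ∑ B ∈ BB j, (id B : Finset ℕ).card = (BB j).card * n0 := by
      have h3 : ∀ B ∈ BB j, (id B : Finset ℕ).card = n0 := fun B hB => (hB1 (I j) B hB).2
      rw [Finset.sum_congr rfl h3]
      simp
    rw [← h2, ← h1]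
    apply Finset.card_le_card
    intro x hx
    obtain ⟨B, hB, hxB⟩ := Finset.mem_biUnion.mp hx
    exact (hB1 (I j) B hB).1 hxB
  refine ⟨BB, fun j B hB => hB1 (I j) B hB, fun j => ?_, ?_⟩
  · have := hcard j
    nlinarith only [Nat.zero_le (BB j).card, this, hn0]
  intro F hF hbig
  -- leftover sets
  set L : Fin r → Finset ℕ := fun j => I j \ (BB j).biUnion id with hL
  have hLc : ∀ j, ((L j).card : ℝ) ≤ n0 := fun j => by
    exact_mod_cast (hB3 (I j)).le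
  set good : Finset (Fin r → ℕ) := (Fintype.piFinset BB).biUnion (fun B => Fintype.piFinset B)
    with hgood
  set bad : Finset (Fin r → ℕ) := Finset.univ.biUnion
    (fun j => Fintype.piFinset (Function.update I j (L j))) with hbad
  have hgoodsub : good ⊆ Fintype.piFinset I := by
    intro s hs
    obtain ⟨B, hB, hsB⟩ := Finset.mem_biUnion.mp hs
    rw [Fintype.mem_piFinset] at hB hsB ⊢
    exact fun j => (hB1 (I j) (B j) (hB j)).1 (hsB j)
  have hcover : Fintype.piFinset I \ good ⊆ bad := by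
    intro s hs
    rw [Finset.mem_sdiff, Fintype.mem_piFinset] at hs
    by_contra hcon
    apply hs.2
    have hall : ∀ j, ∃ B ∈ BB j, s j ∈ B := by
      intro j
      by_contra hj
      apply hcon
      rw [hbad, Finset.mem_biUnion]
      refine ⟨j, Finset.mem_univ _, ?_⟩
      rw [Fintype.mem_piFinset]
      intro i
      by_cases hij : i = j
      · subst hij
        rw [Function.update_self, hL]
        simp only [Finset.mem_sdiff, Finset.mem_biUnion, id]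
        exact ⟨hs.1 i, fun ⟨B, hB, hsB⟩ => hj ⟨B, hB, hsB⟩⟩
      · rw [Function.update_of_ne hij]
        exact hs.1 i
    choose B hBm hBs using hall
    rw [hgood, Finset.mem_biUnion]
    exact ⟨B, Fintype.mem_piFinset.mpr hBm, Fintype.mem_piFinset.mpr hBs⟩
  have hSpos : ∀ j, 0 < S j := fun j => (hI j).1
  have hPpos : 0 < ∏ j, S j := Finset.prod_pos fun j _ => hSpos j
  have hbadcard : (bad.card : ℝ) ≤ δ / 2 * ∏ j, S j := by
    calc (bad.card : ℝ) ≤ ∑ j, ((Fintype.piFinset (Function.update I j (L j))).card : ℝ) := by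
          exact_mod_cast Finset.card_biUnion_le
      _ ≤ ∑ j, ((n0 : ℝ) / S j) * ∏ j, S j := by
          apply Finset.sum_le_sum
          intro j _
          rw [Fintype.card_piFinset]
          push_cast
          have e1 : ∏ i, ((Function.update I j (L j) i).card : ℝ) =
              ((L j).card : ℝ) * ∏ i ∈ Finset.univ.erase j, ((I i).card : ℝ) := by
            rw [← Finset.mul_prod_erase Finset.univ _ (Finset.mem_univ j), Function.update_self]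
            congr 1
            apply Finset.prod_congr rfl
            intro i hi
            rw [Function.update_of_ne (Finset.ne_of_mem_erase hi)]
          have e2 : ∏ i, S i = S j * ∏ i ∈ Finset.univ.erase j, S i :=
            (Finset.mul_prod_erase Finset.univ _ (Finset.mem_univ j)).symm
          rw [e1, e2]
          have e3 : (n0 : ℝ) / S j * (S j * ∏ i ∈ Finset.univ.erase j, S i) =
              n0 * ∏ i ∈ Finset.univ.erase j, S i := by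
            have := (hSpos j).ne'
            field_simp
          rw [e3]
          apply mul_le_mul (hLc j)
          · exact Finset.prod_le_prod (fun i _ => by (clear * -; positivity)) (fun i _ => (hI i).2)
          · exact Finset.prod_nonneg fun i _ => by (clear * -; positivity)
          · positivity
      _ = (∑ j, (n0 : ℝ) / S j) * ∏ j, S j := by rw [Finset.sum_mul]
      _ ≤ δ / 2 * ∏ j, S j := mul_le_mul_of_nonneg_right hsum hPpos.le
  have hdisj : ((Fintype.piFinset BB : Finset (Fin r → Finset ℕ)) : Set (Fin r → Finset ℕ)).PairwiseDisjoint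
      (fun B => Fintype.piFinset B) := by
    intro B hB B' hB' hne
    rw [Finset.mem_coe, Fintype.mem_piFinset] at hB hB'
    rw [Function.onFun, Finset.disjoint_left]
    intro s hs hs'
    rw [Fintype.mem_piFinset] at hs hs'
    apply hne
    funext j
    by_contra hj
    exact Finset.disjoint_left.mp (hB2 (I j) (B j) (hB j) (B' j) (hB' j) hj) (hs j) (hs' j)
  -- the bound for each `q`
  have hq : ∀ q, ‖∑ s ∈ Fintype.piFinset I, F q s‖ ≤
      ∑ B ∈ Fintype.piFinset BB, ‖∑ s ∈ Fintype.piFinset B, F q s‖ + δ / 2 * ∏ j, S j := by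
    intro q
    rw [← Finset.sum_sdiff hgoodsub]
    have e1 : ‖∑ s ∈ Fintype.piFinset I \ good, F q s‖ ≤ δ / 2 * ∏ j, S j := by
      calc ‖∑ s ∈ Fintype.piFinset I \ good, F q s‖
          ≤ ∑ s ∈ Fintype.piFinset I \ good, ‖F q s‖ := norm_sum_le _ _
        _ ≤ ∑ s ∈ Fintype.piFinset I \ good, (1 : ℝ) := Finset.sum_le_sum fun s _ => hF q s
        _ = ((Fintype.piFinset I \ good).card : ℝ) := by simp
        _ ≤ (bad.card : ℝ) := by exact_mod_cast Finset.card_le_card hcover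
        _ ≤ _ := hbadcard
    have e2 : ‖∑ s ∈ good, F q s‖ ≤ ∑ B ∈ Fintype.piFinset BB, ‖∑ s ∈ Fintype.piFinset B, F q s‖ := by
      rw [hgood, Finset.sum_biUnion hdisj]
      exact norm_sum_le _ _
    calc ‖∑ s ∈ Fintype.piFinset I \ good, F q s + ∑ s ∈ good, F q s‖
        ≤ ‖∑ s ∈ Fintype.piFinset I \ good, F q s‖ + ‖∑ s ∈ good, F q s‖ := norm_add_le _ _
      _ ≤ _ := by linarith only [e1, e2]
  have hbig2 : δ / 2 * S0 * ∏ j, S j ≤
      ∑ B ∈ Fintype.piFinset BB, ∑ q ∈ Q, ‖∑ s ∈ Fintype.piFinset B, F q s‖ := by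
    have h1 : ‖∑ q ∈ Q, ∑ s ∈ Fintype.piFinset I, F q s‖ ≤
        ∑ q ∈ Q, (∑ B ∈ Fintype.piFinset BB, ‖∑ s ∈ Fintype.piFinset B, F q s‖ +
          δ / 2 * ∏ j, S j) :=
      (norm_sum_le _ _).trans (Finset.sum_le_sum fun q _ => hq q)
    rw [Finset.sum_add_distrib, Finset.sum_const, nsmul_eq_mul,
      Finset.sum_comm (s := Q) (t := Fintype.piFinset BB)] at h1
    have h2 : (Q.card : ℝ) * (δ / 2 * ∏ j, S j) ≤ S0 * (δ / 2 * ∏ j, S j) :=
      mul_le_mul_of_nonneg_right hQ (by positivity)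
    have h3 := hbig.trans h1
    linarith only [h1, hbig, h2]
  by_contra hcon
  push Not at hcon
  have hpos : 0 < δ / 2 * S0 * ∏ j, S j := by positivity
  have hne : (Fintype.piFinset BB).Nonempty := by
    rw [Finset.nonempty_iff_ne_empty]
    intro h0
    rw [h0] at hbig2
    simp only [Finset.sum_empty] at hbig2
    linarith only [hbig2, hpos]
  have hn0' : (0 : ℝ) < n0 := by exact_mod_cast hn0
  have hB : ∀ B ∈ Fintype.piFinset BB, ∑ q ∈ Q, ‖∑ s ∈ Fintype.piFinset B, F q s‖ <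
      δ / 2 * S0 * (n0 : ℝ) ^ r := by
    intro B hBm
    have hc := hcon B hBm
    have htriv : ∀ q, ‖∑ s ∈ Fintype.piFinset B, F q s‖ ≤ (n0 : ℝ) ^ r := by
      intro q
      calc ‖∑ s ∈ Fintype.piFinset B, F q s‖ ≤ ∑ s ∈ Fintype.piFinset B, ‖F q s‖ := norm_sum_le _ _
        _ ≤ ∑ s ∈ Fintype.piFinset B, (1 : ℝ) := Finset.sum_le_sum fun s _ => hF q s
        _ = ((Fintype.piFinset B).card : ℝ) := by simp
        _ = (n0 : ℝ) ^ r := by
            rw [Fintype.card_piFinset]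
            rw [Fintype.mem_piFinset] at hBm
            rw [Finset.prod_congr rfl (fun j _ => (hB1 (I j) (B j) (hBm j)).2)]
            simp
    rw [← Finset.sum_filter_add_sum_filter_not Q
      (fun q => δ / 4 * (n0 : ℝ) ^ r ≤ ‖∑ s ∈ Fintype.piFinset B, F q s‖)]
    have h1 : ∑ q ∈ Q.filter (fun q => δ / 4 * (n0 : ℝ) ^ r ≤ ‖∑ s ∈ Fintype.piFinset B, F q s‖),
        ‖∑ s ∈ Fintype.piFinset B, F q s‖ ≤
        ((Q.filter (fun q => δ / 4 * (n0 : ℝ) ^ r ≤ ‖∑ s ∈ Fintype.piFinset B, F q s‖)).card : ℝ)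
          * (n0 : ℝ) ^ r := by
      rw [← nsmul_eq_mul]
      exact Finset.sum_le_card_nsmul _ _ _ fun q _ => htriv q
    have h2 : ∑ q ∈ Q.filter (fun q => ¬ δ / 4 * (n0 : ℝ) ^ r ≤ ‖∑ s ∈ Fintype.piFinset B, F q s‖),
        ‖∑ s ∈ Fintype.piFinset B, F q s‖ ≤ S0 * (δ / 4 * (n0 : ℝ) ^ r) := by
      calc ∑ q ∈ Q.filter (fun q => ¬ δ / 4 * (n0 : ℝ) ^ r ≤ ‖∑ s ∈ Fintype.piFinset B, F q s‖),
            ‖∑ s ∈ Fintype.piFinset B, F q s‖
          ≤ ((Q.filter (fun q => ¬ δ / 4 * (n0 : ℝ) ^ r ≤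
              ‖∑ s ∈ Fintype.piFinset B, F q s‖)).card : ℝ) * (δ / 4 * (n0 : ℝ) ^ r) := by
            rw [← nsmul_eq_mul]
            apply Finset.sum_le_card_nsmul
            intro q hq
            have := (Finset.mem_filter.mp hq).2
            exact (lt_of_not_ge this).le
        _ ≤ (Q.card : ℝ) * (δ / 4 * (n0 : ℝ) ^ r) := by
            apply mul_le_mul_of_nonneg_right _ (by positivity)
            exact_mod_cast Finset.card_filter_le _ _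
        _ ≤ S0 * (δ / 4 * (n0 : ℝ) ^ r) := mul_le_mul_of_nonneg_right hQ (by positivity)
    have h3 : ((Q.filter (fun q => δ / 4 * (n0 : ℝ) ^ r ≤
        ‖∑ s ∈ Fintype.piFinset B, F q s‖)).card : ℝ) * (n0 : ℝ) ^ r <
        δ / 4 * S0 * (n0 : ℝ) ^ r := mul_lt_mul_of_pos_right hc (by positivity)
    linarith only [h1, h2, h3]
  have hsumlt : ∑ B ∈ Fintype.piFinset BB, ∑ q ∈ Q, ‖∑ s ∈ Fintype.piFinset B, F q s‖ <
      ∑ B ∈ Fintype.piFinset BB, δ / 2 * S0 * (n0 : ℝ) ^ r :=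
    Finset.sum_lt_sum_of_nonempty hne hB
  rw [Finset.sum_const, nsmul_eq_mul, Fintype.card_piFinset] at hsumlt
  have hprod : ((∏ j, (BB j).card : ℕ) : ℝ) * (n0 : ℝ) ^ r ≤ ∏ j, S j := by
    have e1 : ((∏ j, (BB j).card : ℕ) : ℝ) * (n0 : ℝ) ^ r =
        ∏ j : Fin r, (((BB j).card : ℝ) * n0) := by
      rw [Finset.prod_mul_distrib]
      push_cast
      simp
    rw [e1]
    apply Finset.prod_le_prod
    · intro j _
      (clear * - hn0; positivity)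
    · intro j _
      exact le_trans (by exact_mod_cast hcard j) (hI j).2
  have : ((∏ j, (BB j).card : ℕ) : ℝ) * (δ / 2 * S0 * (n0 : ℝ) ^ r) ≤
      δ / 2 * S0 * ∏ j, S j := by
    have h5 := mul_le_mul_of_nonneg_left hprod (by positivity : (0:ℝ) ≤ δ / 2 * S0)
    linarith only [h5, hsumlt, hbig2]
  linarith only [this, hsumlt, hbig2]

end Vale.Agent.P013.J
end

section

/-! Labels (section 4): there are few labels, and few primes have two labels. -/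

open Finset Real

namespace Vale.Agent.P013.J

/-! ### Small divisors of a nonzero integer -/

theorem lab_sum_sqrt (N : ℕ) : ∑ n ∈ Icc 1 N, (1 / √(n : ℝ)) ≤ 2 * √(N : ℝ) := by
  induction N with
  | zero => simp
  | succ N ih =>
    rw [Finset.sum_Icc_succ_top (by omega)]
    set a := √(N : ℝ) with ha
    set b := √((N + 1 : ℕ) : ℝ) with hb
    have ha2 : a ^ 2 = N := Real.sq_sqrt (Nat.cast_nonneg _)
    have hb2 : b ^ 2 = N + 1 := by
      rw [hb, Real.sq_sqrt (Nat.cast_nonneg _)]; push_cast; ring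
    have hb0 : 0 < b := Real.sqrt_pos.mpr (by positivity)
    have h1 : 1 / b ≤ 2 * (b - a) := by
      rw [div_le_iff₀ hb0]
      linarith only [hb2, ha2, sq_nonneg (b - a)]
    linarith only [h1, ih]

theorem lab_sum_inv_sqrt (s : Finset ℕ) (hs : ∀ p ∈ s, 1 ≤ p) :
    ∑ p ∈ s, (1 / √(p : ℝ)) ≤ 3 * √(s.card : ℝ) := by
  set N := s.card with hN
  rcases Nat.eq_zero_or_pos N with h0 | h0
  · have hs0 : s = ∅ := Finset.card_eq_zero.mp (hN.symm.trans h0)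
    rw [hs0, Finset.sum_empty]; positivity
  have hN' : (0 : ℝ) < N := by exact_mod_cast h0
  have hsN : 0 < √(N : ℝ) := Real.sqrt_pos.mpr hN'
  rw [← Finset.sum_filter_add_sum_filter_not s (fun p => p ≤ N)]
  have h1 : ∑ p ∈ s.filter (fun p => p ≤ N), (1 / √(p : ℝ)) ≤ 2 * √(N : ℝ) := by
    refine (Finset.sum_le_sum_of_subset_of_nonneg ?_ fun _ _ _ => by positivity).trans
      (lab_sum_sqrt N)
    intro p hp
    rw [Finset.mem_filter] at hp
    exact Finset.mem_Icc.mpr ⟨hs p hp.1, hp.2⟩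
  have h2 : ∑ p ∈ s.filter (fun p => ¬ p ≤ N), (1 / √(p : ℝ)) ≤ √(N : ℝ) := by
    calc ∑ p ∈ s.filter (fun p => ¬ p ≤ N), (1 / √(p : ℝ))
        ≤ ∑ p ∈ s.filter (fun p => ¬ p ≤ N), (1 / √(N : ℝ)) := by
          refine Finset.sum_le_sum fun p hp => ?_
          rw [Finset.mem_filter, not_le] at hp
          refine one_div_le_one_div_of_le hsN (Real.sqrt_le_sqrt ?_)
          exact_mod_cast hp.2.le
      _ = ((s.filter (fun p => ¬ p ≤ N)).card : ℝ) * (1 / √(N : ℝ)) := by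
          rw [Finset.sum_const, nsmul_eq_mul]
      _ ≤ (N : ℝ) * (1 / √(N : ℝ)) := by
          refine mul_le_mul_of_nonneg_right ?_ (by positivity)
          exact_mod_cast Finset.card_filter_le _ _
      _ = √(N : ℝ) := by
          rw [mul_one_div, Real.div_sqrt]
  linarith only [h1, h2]

theorem lab_factor {x : ℝ} (h0 : 0 ≤ x) (h1 : x ≤ 3 / 4) : (1 - x)⁻¹ ≤ exp (4 * x) := by
  have hx : 0 < 1 - x := by linarith
  have h2 : (1 - x)⁻¹ = x / (1 - x) + 1 := by field_simp; ring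
  rw [h2]
  refine (Real.add_one_le_exp _).trans (Real.exp_le_exp.mpr ?_)
  rw [div_le_iff₀ hx]
  linarith only [mul_nonneg (sub_nonneg.2 h0) (sub_nonneg.2 h1)]

theorem lab_sqrt_two {p : ℕ} (hp : 2 ≤ p) : 1 / √(p : ℝ) ≤ 3 / 4 := by
  have hp' : (2 : ℝ) ≤ p := by exact_mod_cast hp
  have h1 : (4 / 3 : ℝ) ≤ √(p : ℝ) := by
    refine Real.le_sqrt_of_sq_le ?_
    linarith only [hp']
  calc 1 / √(p : ℝ) ≤ 1 / (4 / 3) := one_div_le_one_div_of_le (by norm_num) h1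
    _ = 3 / 4 := by norm_num

theorem lab_prod (s : Finset ℕ) (hs : ∀ p ∈ s, p.Prime) :
    ∏ p ∈ s, (1 - 1 / √(p : ℝ))⁻¹ ≤ exp (12 * √(s.card : ℝ)) := by
  calc ∏ p ∈ s, (1 - 1 / √(p : ℝ))⁻¹ ≤ ∏ p ∈ s, exp (4 * (1 / √(p : ℝ))) := by
        refine Finset.prod_le_prod (fun p hp => ?_) fun p hp => ?_
        · have := lab_sqrt_two (hs p hp).two_le
          exact inv_nonneg.mpr (by linarith only [this])
        · exact lab_factor (by positivity) (lab_sqrt_two (hs p hp).two_le)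
    _ = exp (∑ p ∈ s, 4 * (1 / √(p : ℝ))) := (Real.exp_sum _ _).symm
    _ ≤ exp (12 * √(s.card : ℝ)) := by
        refine Real.exp_le_exp.mpr ?_
        rw [← Finset.mul_sum]
        have := lab_sum_inv_sqrt s (fun p hp => (hs p hp).one_le)
        linarith

/-- `n ↦ 1 / √n` as a monoid homomorphism. -/
noncomputable def labF : ℕ →* ℝ where
  toFun n := 1 / √(n : ℝ)
  map_one' := by simp
  map_mul' m n := by
    push_cast
    rw [Real.sqrt_mul (Nat.cast_nonneg _)]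
    field_simp

theorem labF_apply (n : ℕ) : labF n = 1 / √(n : ℝ) := rfl

/-- few small divisors. -/
theorem lab_divisors (G : ℕ) (hG : G ≠ 0) (X : ℝ) (hX : 0 ≤ X) :
    (((Icc 1 ⌊X⌋₊).filter (fun M : ℕ => M ∣ G)).card : ℝ) ≤
      √X * exp (12 * √(G.primeFactors.card : ℝ)) := by
  set A := (Icc 1 ⌊X⌋₊).filter (fun M : ℕ => M ∣ G) with hA
  obtain ⟨hsum, hhas⟩ :=
    EulerProduct.summable_and_hasSum_factoredNumbers_prod_filter_prime_geometric (f := labF)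
      (fun {p} hp => by
        rw [labF_apply, Real.norm_of_nonneg (by positivity)]
        linarith only [lab_sqrt_two hp.two_le]) G.primeFactors
  have hfilt : G.primeFactors.filter Nat.Prime = G.primeFactors :=
    Finset.filter_true_of_mem fun p hp => Nat.prime_of_mem_primeFactors hp
  rw [hfilt] at hhas
  have hmem : ∀ M ∈ A, M ∈ Nat.factoredNumbers G.primeFactors := by
    intro M hM
    rw [hA, Finset.mem_filter, Finset.mem_Icc] at hM
    exact Nat.mem_factoredNumbers_of_primeFactors_subset (by omega)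
      (Nat.primeFactors_mono hM.2 hG)
  have h1 : ∑ M ∈ A, 1 / √(M : ℝ) ≤ ∏ p ∈ G.primeFactors, (1 - labF p)⁻¹ := by
    classical
    have h2 : ∑ M ∈ A, 1 / √(M : ℝ) =
        ∑ M ∈ A.attach.map ⟨fun M => (⟨M.1, hmem M.1 M.2⟩ : Nat.factoredNumbers G.primeFactors),
          fun a b h => Subtype.ext (by simpa using h)⟩, labF (M : ℕ) := by
      rw [Finset.sum_map, ← Finset.sum_attach]
      rfl
    rw [h2]
    refine sum_le_hasSum _ (fun M _ => ?_) hhas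
    rw [labF_apply]; (clear * -; positivity)
  have h3 : ∏ p ∈ G.primeFactors, (1 - labF p)⁻¹ ≤ exp (12 * √(G.primeFactors.card : ℝ)) :=
    lab_prod _ fun p hp => Nat.prime_of_mem_primeFactors hp
  have h4 : (A.card : ℝ) ≤ √X * ∑ M ∈ A, 1 / √(M : ℝ) := by
    rw [Finset.mul_sum, Finset.card_eq_sum_ones]
    push_cast
    refine Finset.sum_le_sum fun M hM => ?_
    rw [hA, Finset.mem_filter, Finset.mem_Icc] at hM
    have hM1 : (1 : ℝ) ≤ M := by exact_mod_cast hM.1.1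
    have hMX : (M : ℝ) ≤ X := (Nat.le_floor_iff hX).mp hM.1.2
    have h5 : 0 < √(M : ℝ) := Real.sqrt_pos.mpr (by linarith only [hM1])
    rw [mul_one_div, le_div_iff₀ h5, one_mul]
    exact Real.sqrt_le_sqrt hMX
  calc (A.card : ℝ) ≤ √X * ∑ M ∈ A, 1 / √(M : ℝ) := h4
    _ ≤ √X * exp (12 * √(G.primeFactors.card : ℝ)) :=
        mul_le_mul_of_nonneg_left (h1.trans h3) (Real.sqrt_nonneg _)

theorem lab_two_pow (G : ℕ) (hG : G ≠ 0) : 2 ^ G.primeFactors.card ≤ G := by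
  calc 2 ^ G.primeFactors.card = ∏ _p ∈ G.primeFactors, 2 := by rw [Finset.prod_const]
    _ ≤ ∏ p ∈ G.primeFactors, p :=
        Finset.prod_le_prod' fun p hp => (Nat.prime_of_mem_primeFactors hp).two_le
    _ ≤ G := Nat.le_of_dvd (Nat.pos_of_ne_zero hG) (Nat.prod_primeFactors_dvd G)

theorem lab_card_primeFactors (G : ℕ) (hG : G ≠ 0) {y : ℝ} (hy : 1 ≤ y) (h : (G : ℝ) ≤ y ^ 2) :
    (G.primeFactors.card : ℝ) ≤ 3 * log y := by
  have h1 : (2 : ℝ) ^ G.primeFactors.card ≤ y ^ 2 := by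
    refine le_trans ?_ h
    exact_mod_cast lab_two_pow G hG
  have h2 := Real.log_le_log (by positivity) h1
  rw [Real.log_pow, Real.log_pow] at h2
  have h3 : (0.6931471803 : ℝ) < log 2 := Real.log_two_gt_d9
  have h4 : 0 ≤ log y := Real.log_nonneg hy
  push_cast at h2
  have h5 : (0 : ℝ) ≤ G.primeFactors.card := Nat.cast_nonneg _
  (by_contra nlg; linarith only [h2, mul_pos (sub_pos.2 (not_le.1 nlg)) (sub_pos.2 h3), mul_nonneg (sub_nonneg.2 h4) (le_of_lt (sub_pos.2 h3)), nlg])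

/-- The number of `M ≤ X` dividing a nonzero integer of size at most `y²`. -/
theorem lab_divisors' (G : ℤ) (hG : G ≠ 0) {y : ℝ} (hy : 1 ≤ y) (h : |(G : ℝ)| ≤ y ^ 2)
    (X : ℝ) (hX : 0 ≤ X) :
    (((Icc 1 ⌊X⌋₊).filter (fun M : ℕ => (M : ℤ) ∣ G)).card : ℝ) ≤
      √X * exp (21 * √(log y)) := by
  have h0 : G.natAbs ≠ 0 := Int.natAbs_ne_zero.mpr hG
  have h1 : (G.natAbs : ℝ) ≤ y ^ 2 := by
    rw [Nat.cast_natAbs, Int.cast_abs]; exact h
  have h2 := lab_divisors G.natAbs h0 X hX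
  have h3 : (Icc 1 ⌊X⌋₊).filter (fun M : ℕ => (M : ℤ) ∣ G) =
      (Icc 1 ⌊X⌋₊).filter (fun M : ℕ => M ∣ G.natAbs) := by
    refine Finset.filter_congr fun M _ => ?_
    rw [Int.natCast_dvd]
  rw [h3]
  refine h2.trans (mul_le_mul_of_nonneg_left (Real.exp_le_exp.mpr ?_) (Real.sqrt_nonneg _))
  have h4 := lab_card_primeFactors G.natAbs h0 hy h1
  have h5 : √(G.natAbs.primeFactors.card : ℝ) ≤ √(3 * log y) := Real.sqrt_le_sqrt h4
  have h6 : √(3 * log y) = √3 * √(log y) := Real.sqrt_mul (by norm_num) _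
  have h7 : √(3 : ℝ) ≤ 7 / 4 := by
    rw [show (7 / 4 : ℝ) = √((7 / 4) ^ 2) by rw [Real.sqrt_sq (by norm_num)]]
    exact Real.sqrt_le_sqrt (by norm_num)
  have h8 := Real.sqrt_nonneg (log y)
  linarith only [h5, h6, mul_nonneg (sub_nonneg.2 h7) (sub_nonneg.2 h8)]

/-! ### Inclusion-exclusion -/

/-- sets of size `≥ m` in a set of size `n` with pairwise intersections `≤ d`, `2 n d ≤ m²`:
there are at most `2 n / m` of them. -/
theorem lab_incl_excl {ι α : Type*} [DecidableEq ι] [DecidableEq α] (R : Finset ι)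
    (A : ι → Finset α) (U : Finset α) (n m d : ℝ) (hn : (U.card : ℝ) ≤ n) (hm : 0 < m)
    (hA : ∀ i ∈ R, A i ⊆ U) (hAm : ∀ i ∈ R, m ≤ ((A i).card : ℝ))
    (hd : ∀ i ∈ R, ∀ j ∈ R, i ≠ j → ((A i ∩ A j).card : ℝ) ≤ d) (hd0 : 0 ≤ d)
    (hnd : 2 * n * d ≤ m ^ 2) :
    (R.card : ℝ) * m ≤ 2 * n := by
  set a : ℝ := ∑ i ∈ R, ((A i).card : ℝ) with ha
  set K : ℝ := (R.card : ℝ) with hK
  have hK0 : 0 ≤ K := Nat.cast_nonneg _
  have hn0 : 0 ≤ n := (Nat.cast_nonneg _).trans hn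
  have h1 : K * m ≤ a := by
    rw [ha, hK, ← nsmul_eq_mul, ← Finset.sum_const]
    exact Finset.sum_le_sum hAm
  have h2 : a = ∑ x ∈ U, ∑ i ∈ R, (if x ∈ A i then (1 : ℝ) else 0) := by
    rw [Finset.sum_comm, ha]
    refine Finset.sum_congr rfl fun i hi => ?_
    rw [Finset.sum_ite_mem, Finset.sum_const, nsmul_eq_mul, mul_one,
      Finset.inter_eq_right.mpr (hA i hi)]
  have h3 : a ^ 2 ≤ n * ∑ x ∈ U, (∑ i ∈ R, (if x ∈ A i then (1 : ℝ) else 0)) ^ 2 := by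
    rw [h2]
    refine (sq_sum_le_card_mul_sum_sq).trans ?_
    exact mul_le_mul_of_nonneg_right hn (Finset.sum_nonneg fun _ _ => sq_nonneg _)
  have h4 : ∑ x ∈ U, (∑ i ∈ R, (if x ∈ A i then (1 : ℝ) else 0)) ^ 2 =
      ∑ i ∈ R, ∑ j ∈ R, ((A i ∩ A j).card : ℝ) := by
    have e1 : ∀ x, (∑ i ∈ R, (if x ∈ A i then (1 : ℝ) else 0)) ^ 2 =
        ∑ i ∈ R, ∑ j ∈ R, (if x ∈ A i ∩ A j then (1 : ℝ) else 0) := by
      intro x
      rw [sq, Finset.sum_mul_sum]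
      refine Finset.sum_congr rfl fun i _ => Finset.sum_congr rfl fun j _ => ?_
      by_cases h1 : x ∈ A i <;> by_cases h2 : x ∈ A j <;> simp [h1, h2]
    simp_rw [e1]
    rw [Finset.sum_comm]
    refine Finset.sum_congr rfl fun i hi => ?_
    rw [Finset.sum_comm]
    refine Finset.sum_congr rfl fun j _ => ?_
    rw [Finset.sum_ite_mem, Finset.sum_const, nsmul_eq_mul, mul_one,
      Finset.inter_eq_right.mpr (Finset.inter_subset_left.trans (hA i hi))]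
  have h5 : ∑ i ∈ R, ∑ j ∈ R, ((A i ∩ A j).card : ℝ) ≤ a + K ^ 2 * d := by
    have e2 : ∀ i ∈ R, ∑ j ∈ R, ((A i ∩ A j).card : ℝ) ≤ ((A i).card : ℝ) + K * d := by
      intro i hi
      rw [← Finset.add_sum_erase _ _ hi, Finset.inter_self]
      refine add_le_add le_rfl ?_
      calc ∑ j ∈ R.erase i, ((A i ∩ A j).card : ℝ) ≤ ∑ j ∈ R.erase i, d :=
            Finset.sum_le_sum fun j hj => hd i hi j (Finset.mem_of_mem_erase hj)
              (Finset.ne_of_mem_erase hj).symm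
        _ = ((R.erase i).card : ℝ) * d := by rw [Finset.sum_const, nsmul_eq_mul]
        _ ≤ K * d := by
            refine mul_le_mul_of_nonneg_right ?_ hd0
            rw [hK]
            exact_mod_cast Finset.card_le_card (Finset.erase_subset i R)
    calc ∑ i ∈ R, ∑ j ∈ R, ((A i ∩ A j).card : ℝ) ≤ ∑ i ∈ R, (((A i).card : ℝ) + K * d) :=
          Finset.sum_le_sum e2
      _ = a + K ^ 2 * d := by
          rw [Finset.sum_add_distrib, Finset.sum_const, nsmul_eq_mul]; ring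
  -- `a² ≤ n a + n K² d ≤ n a + K² m²/2 ≤ n a + a²/2`
  have h6 : a ^ 2 ≤ n * (a + K ^ 2 * d) := by
    refine h3.trans (mul_le_mul_of_nonneg_left ?_ hn0)
    rw [h4]; exact h5
  have h7 : (K * m) ^ 2 ≤ a ^ 2 := pow_le_pow_left₀ (by (clear * - hm; positivity)) h1 2
  have h8 : 2 * (n * (K ^ 2 * d)) ≤ a ^ 2 := by
    calc 2 * (n * (K ^ 2 * d)) = K ^ 2 * (2 * n * d) := by ring
      _ ≤ K ^ 2 * m ^ 2 := mul_le_mul_of_nonneg_left hnd (sq_nonneg _)
      _ = (K * m) ^ 2 := by ring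
      _ ≤ a ^ 2 := h7
  have h9 : a * a ≤ 2 * n * a := by linarith only [h8, h6]
  have ha0 : 0 ≤ a := (by (clear * - hm; positivity) : (0 : ℝ) ≤ K * m).trans h1
  rcases ha0.eq_or_lt with h10 | h10
  · rw [← h10] at h1; linarith
  · have := le_of_mul_le_mul_right h9 h10
    linarith

/-! ### Asymptotic conditions -/

theorem lab_ev {p q : ℝ} (h : p < q) (C : ℝ) : ∀ᶠ l : ℝ in Filter.atTop, C * l ^ p ≤ l ^ q := by
  filter_upwards [(tendsto_rpow_atTop (sub_pos.mpr h)).eventually_ge_atTop C,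
    Filter.eventually_gt_atTop 0] with l h1 h2
  have : l ^ q = l ^ (q - p) * l ^ p := by
    rw [← Real.rpow_add h2]; ring_nf
  rw [this]
  exact mul_le_mul_of_nonneg_right h1 (Real.rpow_nonneg h2.le _)

/-- `y` is large enough. -/
structure LabOK (y : ℕ) : Prop where
  one_le : 1 ≤ log y
  h1 : 1 + 21 * √(log y) ≤ 0.05 * (log y) ^ (0.93 : ℝ)
  h2 : 1 + 0.6 * (log y) ^ (0.95 : ℝ) ≤ log y
  h3 : 40 ≤ (log y) ^ (0.93 : ℝ)
  h4 : 100 ≤ (log y) ^ (0.9 : ℝ)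

theorem lab_log_tendsto : Filter.Tendsto (fun y : ℕ => log (y : ℝ)) Filter.atTop Filter.atTop :=
  Real.tendsto_log_atTop.comp tendsto_natCast_atTop_atTop

theorem labOK_ev : ∀ᶠ y : ℕ in Filter.atTop, LabOK y := by
  have H : ∀ᶠ l : ℝ in Filter.atTop, 1 ≤ l ∧ 1 + 21 * √l ≤ 0.05 * l ^ (0.93 : ℝ) ∧
      1 + 0.6 * l ^ (0.95 : ℝ) ≤ l ∧ 40 ≤ l ^ (0.93 : ℝ) ∧ 100 ≤ l ^ (0.9 : ℝ) := by
    filter_upwards [Filter.eventually_ge_atTop 1, lab_ev (show (0.5 : ℝ) < 0.93 by norm_num) 440,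
      lab_ev (show (0 : ℝ) < 0.93 by norm_num) 40, lab_ev (show (0 : ℝ) < 0.9 by norm_num) 100,
      lab_ev (show (0.95 : ℝ) < 1 by norm_num) 2] with l h1 h2 h3 h4 h5
    rw [Real.rpow_zero] at h3 h4
    rw [Real.rpow_one] at h5
    have hs : √l = l ^ (0.5 : ℝ) := by rw [Real.sqrt_eq_rpow]; norm_num
    have hs1 : 1 ≤ √l := Real.one_le_sqrt.mpr h1
    rw [← hs] at h2
    refine ⟨h1, by linarith only [h2, hs1], ?_, by linarith only [h2, hs1], by linarith only [h4]⟩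
    have h6 : 1 ≤ l ^ (0.95 : ℝ) := Real.one_le_rpow h1 (by norm_num)
    linarith only [h5, h6]
  filter_upwards [lab_log_tendsto.eventually H] with y hy
  exact ⟨hy.1, hy.2.1, hy.2.2.1, hy.2.2.2.1, hy.2.2.2.2⟩

theorem LabOK.pos {y : ℕ} (h : LabOK y) : (1 : ℝ) ≤ y := by
  by_contra hc
  push Not at hc
  have : log (y : ℝ) ≤ 0 := Real.log_nonpos (Nat.cast_nonneg _) hc.le
  linarith [h.one_le]

/-- `T` is an admissible scale. -/
structure LabT (y : ℕ) (T : ℝ) : Prop where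
  lo : exp ((log y) ^ (0.93 : ℝ)) ≤ T
  hi : T ≤ exp ((log y) ^ (0.95 : ℝ))

theorem LabT.one_le {y : ℕ} {T : ℝ} (hy : LabOK y) (hT : LabT y T) : 1 ≤ T :=
  (Real.one_le_exp (by linarith [hy.h3])).trans hT.lo

theorem LabT.pos {y : ℕ} {T : ℝ} (hT : LabT y T) : 0 < T := (Real.exp_pos _).trans_le hT.lo

theorem LabT.log_ge {y : ℕ} {T : ℝ} (hT : LabT y T) : (log y) ^ (0.93 : ℝ) ≤ log T := by
  rw [← Real.log_exp ((log y) ^ (0.93 : ℝ))]
  exact Real.log_le_log (Real.exp_pos _) hT.lo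

theorem LabT.log_le {y : ℕ} {T : ℝ} (hT : LabT y T) : log T ≤ (log y) ^ (0.95 : ℝ) := by
  rw [← Real.log_exp ((log y) ^ (0.95 : ℝ))]
  exact Real.log_le_log hT.pos hT.hi

theorem lab_rpow_eq {T : ℝ} (hT : 0 < T) (a : ℝ) : T ^ a = exp (a * log T) := by
  rw [Real.rpow_def_of_pos hT, mul_comm]

/-- `√(2T) exp(21 √l) ≤ T^0.55`. -/
theorem lab_b {y : ℕ} {T : ℝ} (hy : LabOK y) (hT : LabT y T) :
    √(2 * T) * exp (21 * √(log y)) ≤ T ^ (0.55 : ℝ) := by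
  have hT0 := hT.pos
  have h1 : √(2 * T) = exp ((log 2 + log T) / 2) := by
    rw [Real.sqrt_eq_rpow, Real.rpow_def_of_pos (by positivity), Real.log_mul (by norm_num) hT0.ne']
    ring_nf
  rw [h1, lab_rpow_eq hT0, ← Real.exp_add]
  refine Real.exp_le_exp.mpr ?_
  have h2 := hy.h1
  have h3 := hT.log_ge
  have h4 : log 2 ≤ 1 := by linarith only [Real.log_two_lt_d9]
  linarith only [h4, h3, h2]

/-- `4 T · T^0.55 ≤ (T^0.8)²`. -/
theorem lab_c {y : ℕ} {T : ℝ} (hy : LabOK y) (hT : LabT y T) :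
    2 * (2 * T) * T ^ (0.55 : ℝ) ≤ (T ^ (0.8 : ℝ)) ^ 2 := by
  have hT0 := hT.pos
  have h1 : 2 * (2 * T) * T ^ (0.55 : ℝ) = exp (log 4 + 1.55 * log T) := by
    rw [lab_rpow_eq hT0, Real.exp_add, Real.exp_log (by norm_num),
      show (1.55 : ℝ) * log T = log T + 0.55 * log T by ring, Real.exp_add, Real.exp_log hT0]
    ring
  rw [h1, lab_rpow_eq hT0, ← Real.exp_nat_mul]
  refine Real.exp_le_exp.mpr ?_
  have h3 := hT.log_ge
  have h4 : log 4 ≤ 2 := by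
    have : log 4 = 2 * log 2 := by
      rw [show (4 : ℝ) = 2 ^ 2 by norm_num, Real.log_pow]; norm_num
    linarith only [Real.log_two_lt_d9, this]
  have h5 := hy.h3
  push_cast
  linarith only [h5, h4, h3]

/-- `2 T^0.3 (y T'^0.3) ≤ y²`. -/
theorem lab_e {y : ℕ} {T T' : ℝ} (hy : LabOK y) (hT : LabT y T) (hT' : LabT y T') :
    2 * (T ^ (0.3 : ℝ) * (y * T' ^ (0.3 : ℝ))) ≤ (y : ℝ) ^ 2 := by
  have hy0 : (0 : ℝ) < y := lt_of_lt_of_le one_pos hy.pos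
  have h1 : 2 * (T ^ (0.3 : ℝ) * T' ^ (0.3 : ℝ)) ≤ y := by
    have e1 : 2 * (T ^ (0.3 : ℝ) * T' ^ (0.3 : ℝ)) = exp (log 2 + (0.3 * log T + 0.3 * log T')) := by
      rw [lab_rpow_eq hT.pos, lab_rpow_eq hT'.pos, Real.exp_add, Real.exp_log (by norm_num),
        Real.exp_add]
    rw [e1]
    refine le_trans (Real.exp_le_exp.mpr ?_) (Real.exp_log hy0).le
    have := hT.log_le
    have := hT'.log_le
    have := hy.h2
    linarith [Real.log_two_lt_d9]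
  nlinarith only [h1]

/-! ### Pairs of labels -/

theorem lab_ne {B B' : ℤ} {D D' : ℕ} (h : IsCoprime B (D : ℤ)) (h' : IsCoprime B' (D' : ℤ))
    (hD : 1 ≤ D) (hD' : 1 ≤ D') (hne : (B, D) ≠ (B', D')) :
    (D : ℤ) * B' - D' * B ≠ 0 := by
  intro h0
  have h1 : (D : ℤ) * B' = D' * B := by linarith only [h0]
  have h2 : (D : ℤ) ∣ D' := by
    have : (D : ℤ) ∣ D' * B := ⟨B', h1.symm⟩
    exact h.symm.dvd_of_dvd_mul_right this
  have h3 : (D' : ℤ) ∣ D := by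
    have : (D' : ℤ) ∣ D * B' := ⟨B, h1⟩
    exact h'.symm.dvd_of_dvd_mul_right this
  have h4 : D = D' := Nat.dvd_antisymm (by exact_mod_cast h2) (by exact_mod_cast h3)
  subst h4
  have h5 : (D : ℤ) ≠ 0 := by exact_mod_cast (by omega : D ≠ 0)
  have h6 : B' = B := mul_left_cancel₀ h5 h1
  exact hne (by rw [h6])

/-- the determinant of two popular rationals. -/
theorem lab_pair {y : ℕ} {V : ℤ} {T T' : ℝ} (hy : LabOK y) (hT : LabT y T) (hT' : LabT y T')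
    {ρ ρ' : ℤ × ℕ} (hρ : IsCoprime ρ.1 (ρ.2 : ℤ)) (hρ' : IsCoprime ρ'.1 (ρ'.2 : ℤ))
    (hne : ρ ≠ ρ') {g g' : ℕ} (hg : Pop y V T (g * ρ.1) (g * ρ.2))
    (hg' : Pop y V T' (g' * ρ'.1) (g' * ρ'.2)) :
    (((g * ρ.2 : ℕ) : ℤ) * (g' * ρ'.1) - ((g' * ρ'.2 : ℕ) : ℤ) * (g * ρ.1)) ≠ 0 ∧
    |((((g * ρ.2 : ℕ) : ℤ) * (g' * ρ'.1) - ((g' * ρ'.2 : ℕ) : ℤ) * (g * ρ.1) : ℤ) : ℝ)| ≤
      (y : ℝ) ^ 2 := by
  obtain ⟨p1, p2, p3, -⟩ := hg
  obtain ⟨q1, q2, q3, -⟩ := hg'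
  have hg0 : 1 ≤ g := Nat.pos_of_ne_zero (by rintro rfl; simp at p1)
  have hD0 : 1 ≤ ρ.2 := Nat.pos_of_ne_zero (by intro h; rw [h] at p1; simp at p1)
  have hg0' : 1 ≤ g' := Nat.pos_of_ne_zero (by rintro rfl; simp at q1)
  have hD0' : 1 ≤ ρ'.2 := Nat.pos_of_ne_zero (by intro h; rw [h] at q1; simp at q1)
  constructor
  · have e1 : (((g * ρ.2 : ℕ) : ℤ) * (g' * ρ'.1) - ((g' * ρ'.2 : ℕ) : ℤ) * (g * ρ.1)) =
        (g : ℤ) * g' * ((ρ.2 : ℤ) * ρ'.1 - ρ'.2 * ρ.1) := by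
      push_cast; ring
    rw [e1]
    refine mul_ne_zero (mul_ne_zero ?_ ?_) (lab_ne hρ hρ' hD0 hD0' hne)
    · exact_mod_cast (by omega : g ≠ 0)
    · exact_mod_cast (by omega : g' ≠ 0)
  · have hT0 := hT.pos
    have hT0' := hT'.pos
    have hy0 : (0 : ℝ) < y := lt_of_lt_of_le one_pos hy.pos
    have b1 : |(((g * ρ.2 : ℕ) : ℤ) : ℝ)| ≤ T ^ (0.3 : ℝ) := by
      rw [Int.cast_natCast, abs_of_nonneg (Nat.cast_nonneg _)]; exact p2
    have b2 : |(((g' * ρ'.2 : ℕ) : ℤ) : ℝ)| ≤ T' ^ (0.3 : ℝ) := by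
      rw [Int.cast_natCast, abs_of_nonneg (Nat.cast_nonneg _)]; exact q2
    rw [Int.cast_sub, Int.cast_mul ((g * ρ.2 : ℕ) : ℤ), Int.cast_mul ((g' * ρ'.2 : ℕ) : ℤ)]
    refine (abs_sub _ _).trans ?_
    rw [abs_mul, abs_mul]
    have m1 := mul_le_mul b1 q3 (abs_nonneg _) (by positivity)
    have m2 := mul_le_mul b2 p3 (abs_nonneg _) (by positivity)
    have e1 := lab_e hy hT hT'
    have e2 := lab_e hy hT' hT
    linarith only [m1, m2, e1]

/-- popular rationals at a given scale -/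
def LabAt (y : ℕ) (V : ℤ) (T : ℝ) (ρ : ℤ × ℕ) : Prop :=
  IsCoprime ρ.1 (ρ.2 : ℤ) ∧ ∃ g : ℕ, 1 ≤ g ∧ Pop y V T (g * ρ.1) (g * ρ.2)

theorem lab_at_card {y : ℕ} {V : ℤ} {T : ℝ} (hy : LabOK y) (hT : LabT y T)
    (R : Finset (ℤ × ℕ)) (hR : ∀ ρ ∈ R, LabAt y V T ρ) :
    (R.card : ℝ) ≤ 4 * T ^ (0.2 : ℝ) := by
  classical
  have hT0 := hT.pos
  have hT1 := LabT.one_le hy hT
  choose! g hg1 hg using fun ρ hρ => (hR ρ hρ).2
  set A : ℤ × ℕ → Finset ℕ := fun ρ => (Icc 1 ⌊2 * T⌋₊).filter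
    (fun M : ℕ => T ≤ (M : ℝ) ∧ (M : ℤ) ∣ ((g ρ * ρ.2 : ℕ) : ℤ) * V - g ρ * ρ.1) with hA
  set U : Finset ℕ := Icc ⌈T⌉₊ ⌊2 * T⌋₊ with hU
  have hUc : (U.card : ℝ) ≤ 2 * T := by
    rw [hU, Nat.card_Icc]
    have h1 : T ≤ (⌈T⌉₊ : ℝ) := Nat.le_ceil T
    have h2 : (⌊2 * T⌋₊ : ℝ) ≤ 2 * T := Nat.floor_le (by linarith)
    rcases le_or_gt (⌊2 * T⌋₊ + 1) ⌈T⌉₊ with h3 | h3
    · rw [Nat.sub_eq_zero_of_le h3]; simp; linarith only [hT0]
    · rw [Nat.cast_sub h3.le]; push_cast; linarith only [hT1, h1, h2]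
  have key := lab_incl_excl R A U (2 * T) (T ^ (0.8 : ℝ)) (T ^ (0.55 : ℝ)) hUc (by positivity)
    (fun ρ _ M hM => by
      rw [hA, Finset.mem_filter, Finset.mem_Icc] at hM
      rw [hU, Finset.mem_Icc]
      exact ⟨Nat.ceil_le.mpr hM.2.1, hM.1.2⟩)
    (fun ρ hρ => (hg ρ hρ).2.2.2)
    (fun ρ hρ ρ' hρ' hne => by
      obtain ⟨hG, hGy⟩ := lab_pair hy hT hT (hR ρ hρ).1 (hR ρ' hρ').1 hne (hg ρ hρ) (hg ρ' hρ')
      have h1 := lab_divisors' _ hG hy.pos hGy (2 * T) (by linarith)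
      refine le_trans ?_ (h1.trans (lab_b hy hT))
      have h2 : A ρ ∩ A ρ' ⊆ (Icc 1 ⌊2 * T⌋₊).filter (fun M : ℕ => (M : ℤ) ∣
          (((g ρ * ρ.2 : ℕ) : ℤ) * (g ρ' * ρ'.1) - ((g ρ' * ρ'.2 : ℕ) : ℤ) * (g ρ * ρ.1))) := by
        intro M hM
        rw [hA, Finset.mem_inter, Finset.mem_filter, Finset.mem_filter] at hM
        rw [Finset.mem_filter]
        refine ⟨hM.1.1, ?_⟩
        have d1 := hM.1.2.2.mul_left ((g ρ' * ρ'.2 : ℕ) : ℤ)
        have d2 := hM.2.2.2.mul_left ((g ρ * ρ.2 : ℕ) : ℤ)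
        have d3 := dvd_sub d1 d2
        have e1 : ((g ρ' * ρ'.2 : ℕ) : ℤ) * (((g ρ * ρ.2 : ℕ) : ℤ) * V - g ρ * ρ.1) -
            ((g ρ * ρ.2 : ℕ) : ℤ) * (((g ρ' * ρ'.2 : ℕ) : ℤ) * V - g ρ' * ρ'.1) =
            (((g ρ * ρ.2 : ℕ) : ℤ) * (g ρ' * ρ'.1) - ((g ρ' * ρ'.2 : ℕ) : ℤ) * (g ρ * ρ.1)) := by
          ring
        rwa [e1] at d3
      exact_mod_cast Finset.card_le_card h2)
    (by positivity) (lab_c hy hT)
  have h3 : T = T ^ (0.2 : ℝ) * T ^ (0.8 : ℝ) := by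
    rw [← Real.rpow_add hT0]; norm_num
  have h4 : (R.card : ℝ) * T ^ (0.8 : ℝ) ≤ (4 * T ^ (0.2 : ℝ)) * T ^ (0.8 : ℝ) := by
    calc (R.card : ℝ) * T ^ (0.8 : ℝ) ≤ 2 * (2 * T) := key
      _ = 4 * T := by ring
      _ = (4 * T ^ (0.2 : ℝ)) * T ^ (0.8 : ℝ) := by rw [mul_assoc, ← h3]
  exact le_of_mul_le_mul_right h4 (by positivity)

theorem lab_at_finite {y : ℕ} {V : ℤ} {T : ℝ} (hy : LabOK y) (hT : LabT y T) :
    {ρ : ℤ × ℕ | LabAt y V T ρ}.Finite := by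
  by_contra hinf
  have hinf' : {ρ : ℤ × ℕ | LabAt y V T ρ}.Infinite := hinf
  obtain ⟨R, hR, hRc⟩ := hinf'.exists_subset_card_eq (⌊4 * T ^ (0.2 : ℝ)⌋₊ + 1)
  have h1 := lab_at_card hy hT R (fun ρ hρ => hR hρ)
  rw [hRc] at h1
  have h2 := Nat.lt_floor_add_one (4 * T ^ (0.2 : ℝ))
  push_cast at h1
  linarith only [h2, h1]

/-- the set of all labels, as a finset. -/
theorem lab_set {y : ℕ} (hy : LabOK y) (V : ℤ) : ∃ LL : Finset (ℤ × ℕ),
    (∀ ρ, Lab y V ρ ↔ ρ ∈ LL) ∧ (LL.card : ℝ) ≤ exp ((log y) ^ (0.95 : ℝ)) := by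
  classical
  set l := log (y : ℝ) with hl
  have hl1 : 1 ≤ l := hy.one_le
  -- for each `k` the set of labels at scale `2^k`
  have hk : ∀ k : ℕ, ∃ S : Finset (ℤ × ℕ), (∀ ρ, ρ ∈ S ↔ (exp (l ^ (0.93 : ℝ)) ≤ (2 : ℝ) ^ k ∧
      (2 : ℝ) ^ k ≤ exp (l ^ (0.95 : ℝ)) ∧ LabAt y V ((2 : ℝ) ^ k) ρ)) ∧
      (S.card : ℝ) ≤ 4 * exp (0.2 * l ^ (0.95 : ℝ)) := by
    intro k
    by_cases h : exp (l ^ (0.93 : ℝ)) ≤ (2 : ℝ) ^ k ∧ (2 : ℝ) ^ k ≤ exp (l ^ (0.95 : ℝ))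
    · have hT : LabT y ((2 : ℝ) ^ k) := ⟨h.1, h.2⟩
      refine ⟨(lab_at_finite (V := V) hy hT).toFinset, fun ρ => ?_, ?_⟩
      · rw [Set.Finite.mem_toFinset]
        exact ⟨fun h' => ⟨h.1, h.2, h'⟩, fun h' => h'.2.2⟩
      · refine (lab_at_card hy hT _ (fun ρ hρ => by
          rwa [Set.Finite.mem_toFinset] at hρ)).trans ?_
        rw [lab_rpow_eq hT.pos]
        have := hT.log_le
        have h5 : exp (0.2 * log ((2 : ℝ) ^ k)) ≤ exp (0.2 * l ^ (0.95 : ℝ)) :=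
          Real.exp_le_exp.mpr (by linarith only [this])
        linarith only [h5]
    · refine ⟨∅, fun ρ => ?_, ?_⟩
      · simp only [Finset.notMem_empty, false_iff]
        exact fun h' => h ⟨h'.1, h'.2.1⟩
      · simp; positivity
  choose S hS hSc using hk
  refine ⟨(range (⌊2 * l⌋₊ + 1)).biUnion S, fun ρ => ?_, ?_⟩
  · rw [Finset.mem_biUnion]
    constructor
    · rintro ⟨hco, k, g, h1, h2, h3, h4⟩
      refine ⟨k, ?_, (hS k ρ).mpr ⟨h1, h2, hco, g, h3, h4⟩⟩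
      rw [Finset.mem_range, Nat.lt_succ_iff]
      refine Nat.le_floor ?_
      have h5 : (k : ℝ) * log 2 ≤ l ^ (0.95 : ℝ) := by
        have := Real.log_le_log (by positivity) h2
        rwa [Real.log_exp, Real.log_pow] at this
      have h6 : l ^ (0.95 : ℝ) ≤ l := by
        nth_rw 2 [← Real.rpow_one l]
        exact Real.rpow_le_rpow_of_exponent_le hl1 (by norm_num)
      have h7 : (0.6931471803 : ℝ) < log 2 := Real.log_two_gt_d9
      have h8 : (0 : ℝ) ≤ k := Nat.cast_nonneg _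
      nlinarith only [hl1, h5, h6, h7]
    · rintro ⟨k, -, hk⟩
      obtain ⟨h1, h2, hco, g, h3, h4⟩ := (hS k ρ).mp hk
      exact ⟨hco, k, g, h1, h2, h3, h4⟩
  · have h1 : (((range (⌊2 * l⌋₊ + 1)).biUnion S).card : ℝ) ≤
        ∑ k ∈ range (⌊2 * l⌋₊ + 1), ((S k).card : ℝ) := by
      exact_mod_cast Finset.card_biUnion_le
    have h2 : ∑ k ∈ range (⌊2 * l⌋₊ + 1), ((S k).card : ℝ) ≤
        (2 * l + 1) * (4 * exp (0.2 * l ^ (0.95 : ℝ))) := by
      calc ∑ k ∈ range (⌊2 * l⌋₊ + 1), ((S k).card : ℝ)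
          ≤ ∑ k ∈ range (⌊2 * l⌋₊ + 1), (4 * exp (0.2 * l ^ (0.95 : ℝ))) :=
            Finset.sum_le_sum fun k _ => hSc k
        _ = ((⌊2 * l⌋₊ + 1 : ℕ) : ℝ) * (4 * exp (0.2 * l ^ (0.95 : ℝ))) := by
            rw [Finset.sum_const, Finset.card_range, nsmul_eq_mul]
        _ ≤ (2 * l + 1) * (4 * exp (0.2 * l ^ (0.95 : ℝ))) := by
            refine mul_le_mul_of_nonneg_right ?_ (by positivity)
            push_cast
            have := Nat.floor_le (show (0 : ℝ) ≤ 2 * l by linarith)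
            linarith
    refine h1.trans (h2.trans ?_)
    set x := l ^ (0.95 : ℝ) with hx
    -- `12 l ≤ exp (0.8 x)`
    have h3 : exp x = exp (0.2 * x) * exp (0.8 * x) := by
      rw [← Real.exp_add]; ring_nf
    have h4 : 12 * l ≤ exp (0.8 * x) := by
      have e1 : exp (0.8 * x) = exp (0.4 * x) ^ 2 := by
        rw [← Real.exp_nat_mul]; ring_nf
      have e2 : 0.4 * x ≤ exp (0.4 * x) := by linarith only [Real.add_one_le_exp (0.4 * x)]
      have hx0 : 0 ≤ x := by positivity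
      have e3 : (0.4 * x) ^ 2 ≤ exp (0.4 * x) ^ 2 := pow_le_pow_left₀ (by positivity) e2 2
      have e4 : x ^ 2 = l * l ^ (0.9 : ℝ) := by
        rw [hx, ← Real.rpow_natCast, ← Real.rpow_mul (by linarith only [hl1])]
        nth_rw 2 [← Real.rpow_one l]
        rw [← Real.rpow_add (by linarith only [hl1])]
        norm_num
      have e5 := hy.h4
      rw [← hl] at e5
      have e6 : l * 100 ≤ l * l ^ (0.9 : ℝ) := mul_le_mul_of_nonneg_left e5 (by linarith only [hl1])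
      rw [e1]
      linarith only [e6, e4, e3, hl1]
    rw [h3]
    have h5 : 0 < exp (0.2 * x) := Real.exp_pos _
    nlinarith only [hl1, h4, h1, h2]

theorem label_count : LabelCountStmt := by
  obtain ⟨y₀, hy₀⟩ := Filter.eventually_atTop.mp labOK_ev
  refine ⟨y₀, fun y hy V => ?_⟩
  obtain ⟨LL, h1, h2⟩ := lab_set (hy₀ y hy) V
  refine ⟨LL, fun ρ hρ => (h1 ρ).mp hρ, h2.trans (Real.exp_le_exp.mpr ?_)⟩
  exact Real.rpow_le_rpow_of_exponent_le (hy₀ y hy).one_le (by norm_num)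

/-! ### Primes with two labels -/

/-- a nonzero integer of size at most `y²` has at most `2/c` prime factors `≥ y^c`. -/
theorem lab_big_primes {y : ℕ} (hy : LabOK y) {c : ℝ} (hc : 0 < c) (G : ℤ) (hG : G ≠ 0)
    (h : |(G : ℝ)| ≤ (y : ℝ) ^ 2) :
    ((G.natAbs.primeFactors.filter (fun p : ℕ => (y : ℝ) ^ c ≤ p)).card : ℝ) ≤ 2 / c := by
  set F := G.natAbs.primeFactors.filter (fun p : ℕ => (y : ℝ) ^ c ≤ p) with hF
  have h0 : G.natAbs ≠ 0 := Int.natAbs_ne_zero.mpr hG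
  have hy0 : (0 : ℝ) < y := lt_of_lt_of_le one_pos hy.pos
  have h1 : ((y : ℝ) ^ c) ^ F.card ≤ (y : ℝ) ^ 2 := by
    calc ((y : ℝ) ^ c) ^ F.card = ∏ _p ∈ F, (y : ℝ) ^ c := by rw [Finset.prod_const]
      _ ≤ ∏ p ∈ F, (p : ℝ) := Finset.prod_le_prod (fun _ _ => by positivity) fun p hp => by
          rw [hF, Finset.mem_filter] at hp; exact hp.2
      _ = ((∏ p ∈ F, p : ℕ) : ℝ) := by push_cast; rfl
      _ ≤ ((∏ p ∈ G.natAbs.primeFactors, p : ℕ) : ℝ) := by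
          refine Nat.cast_le.mpr (Finset.prod_le_prod_of_subset_of_one_le' ?_ ?_)
          · exact Finset.filter_subset _ _
          · exact fun p hp _ => (Nat.prime_of_mem_primeFactors hp).one_le
      _ ≤ (G.natAbs : ℝ) := Nat.cast_le.mpr
          (Nat.le_of_dvd (Nat.pos_of_ne_zero h0) (Nat.prod_primeFactors_dvd _))
      _ ≤ (y : ℝ) ^ 2 := by rw [Nat.cast_natAbs, Int.cast_abs]; exact h
  have h2 := Real.log_le_log (by positivity) h1
  rw [Real.log_pow, Real.log_pow, Real.log_rpow hy0] at h2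
  have h3 : 0 < log (y : ℝ) := lt_of_lt_of_le one_pos hy.one_le
  rw [le_div_iff₀ hc]
  push_cast at h2
  have h4 : ((F.card : ℝ) * c) * log y ≤ 2 * log y := by linarith only [h2]
  exact le_of_mul_le_mul_right h4 h3

theorem two_label : TwoLabelStmt := by
  classical
  intro c hc hc1
  have hev : ∀ᶠ l : ℝ in Filter.atTop, 2 * l ^ (0.95 : ℝ) + log (2 / c) ≤ c / 2 * l := by
    filter_upwards [lab_ev (show (0.95 : ℝ) < 1 by norm_num) (8 / c),
      Filter.eventually_ge_atTop (4 / c * log (2 / c)), Filter.eventually_ge_atTop 0]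
      with l h1 h2 h3
    rw [Real.rpow_one] at h1
    have e1 : 2 * l ^ (0.95 : ℝ) ≤ c / 4 * l := by
      have := mul_le_mul_of_nonneg_left h1 (show 0 ≤ c / 4 by positivity)
      calc 2 * l ^ (0.95 : ℝ) = c / 4 * (8 / c * l ^ (0.95 : ℝ)) := by field_simp; ring
        _ ≤ c / 4 * l := this
    have e2 : log (2 / c) ≤ c / 4 * l := by
      have := mul_le_mul_of_nonneg_left h2 (show 0 ≤ c / 4 by positivity)
      calc log (2 / c) = c / 4 * (4 / c * log (2 / c)) := by field_simp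
        _ ≤ c / 4 * l := this
    linarith only [e2, e1]
  obtain ⟨y₀, hy₀⟩ := Filter.eventually_atTop.mp (labOK_ev.and (lab_log_tendsto.eventually hev))
  refine ⟨y₀, fun y hy V => ?_⟩
  obtain ⟨hOK, hlarge⟩ := hy₀ y hy
  obtain ⟨LL, hLL, hLLc⟩ := lab_set hOK V
  have hy1 := hOK.pos
  have hy0 : (0 : ℝ) < y := lt_of_lt_of_le one_pos hy1
  set F : (ℤ × ℕ) × (ℤ × ℕ) → Finset ℕ := fun q =>
    ((q.1.2 : ℤ) * q.2.1 - q.2.2 * q.1.1).natAbs.primeFactors.filter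
      (fun p : ℕ => (y : ℝ) ^ c ≤ p) with hF
  set W := (LL ×ˢ LL).filter (fun q => q.1 ≠ q.2) with hW
  -- the determinant is small
  have hdet : ∀ q ∈ W, (q.1.2 : ℤ) * q.2.1 - q.2.2 * q.1.1 ≠ 0 ∧
      |(((q.1.2 : ℤ) * q.2.1 - q.2.2 * q.1.1 : ℤ) : ℝ)| ≤ (y : ℝ) ^ 2 := by
    intro q hq
    rw [hW, Finset.mem_filter, Finset.mem_product] at hq
    obtain ⟨hco, k, g, h1, h2, h3, h4⟩ := (hLL q.1).mpr hq.1.1
    obtain ⟨hco', k', g', h1', h2', h3', h4'⟩ := (hLL q.2).mpr hq.1.2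
    obtain ⟨e1, e2⟩ := lab_pair hOK ⟨h1, h2⟩ ⟨h1', h2'⟩ hco hco' hq.2 h4 h4'
    have e3 : (((g * q.1.2 : ℕ) : ℤ) * (g' * q.2.1) - ((g' * q.2.2 : ℕ) : ℤ) * (g * q.1.1)) =
        (g : ℤ) * g' * ((q.1.2 : ℤ) * q.2.1 - q.2.2 * q.1.1) := by
      push_cast; ring
    rw [e3] at e1 e2
    refine ⟨right_ne_zero_of_mul e1, le_trans ?_ e2⟩
    rw [Int.cast_mul ((g : ℤ) * g'), abs_mul]
    refine le_mul_of_one_le_left (abs_nonneg _) ?_
    have : (1 : ℤ) ≤ |(g : ℤ) * g'| := by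
      rw [abs_of_nonneg (by positivity)]
      exact_mod_cast Nat.mul_le_mul h3 h3'
    rw [← Int.cast_abs]
    exact_mod_cast this
  refine ⟨W.biUnion F, ?_, ?_⟩
  · -- the total mass
    have hcard : ((W.biUnion F).card : ℝ) ≤ exp (2 * (log y) ^ (0.95 : ℝ)) * (2 / c) := by
      calc ((W.biUnion F).card : ℝ) ≤ ∑ q ∈ W, ((F q).card : ℝ) := by
            exact_mod_cast Finset.card_biUnion_le
        _ ≤ ∑ q ∈ W, (2 / c) := Finset.sum_le_sum fun q hq =>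
            lab_big_primes hOK hc _ (hdet q hq).1 (hdet q hq).2
        _ = (W.card : ℝ) * (2 / c) := by rw [Finset.sum_const, nsmul_eq_mul]
        _ ≤ exp (2 * (log y) ^ (0.95 : ℝ)) * (2 / c) := by
            refine mul_le_mul_of_nonneg_right ?_ (by positivity)
            calc (W.card : ℝ) ≤ ((LL ×ˢ LL).card : ℝ) := by
                  exact_mod_cast Finset.card_filter_le _ _
              _ = (LL.card : ℝ) * LL.card := by rw [Finset.card_product]; push_cast; rfl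
              _ ≤ exp ((log y) ^ (0.95 : ℝ)) * exp ((log y) ^ (0.95 : ℝ)) :=
                  mul_le_mul hLLc hLLc (Nat.cast_nonneg _) (Real.exp_pos _).le
              _ = exp (2 * (log y) ^ (0.95 : ℝ)) := by rw [← Real.exp_add]; ring_nf
    have hsum : ∑ p ∈ W.biUnion F, 1 / (p : ℝ) ≤ ((W.biUnion F).card : ℝ) * (y : ℝ) ^ (-c) := by
      rw [← nsmul_eq_mul, ← Finset.sum_const]
      refine Finset.sum_le_sum fun p hp => ?_
      rw [Finset.mem_biUnion] at hp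
      obtain ⟨q, -, hq⟩ := hp
      rw [hF, Finset.mem_filter] at hq
      rw [Real.rpow_neg hy0.le, one_div]
      exact inv_anti₀ (Real.rpow_pos_of_pos hy0 _) hq.2
    refine hsum.trans ?_
    calc ((W.biUnion F).card : ℝ) * (y : ℝ) ^ (-c)
        ≤ (exp (2 * (log y) ^ (0.95 : ℝ)) * (2 / c)) * (y : ℝ) ^ (-c) :=
          mul_le_mul_of_nonneg_right hcard (by positivity)
      _ = exp (2 * (log y) ^ (0.95 : ℝ) + log (2 / c) - c * log y) := by
          rw [lab_rpow_eq hy0, sub_eq_add_neg, Real.exp_add, Real.exp_add,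
            Real.exp_log (by positivity)]
          ring_nf
      _ ≤ exp (-(c / 2) * log y) := Real.exp_le_exp.mpr (by linarith only [hlarge])
      _ = (y : ℝ) ^ (-(c / 2)) := by rw [lab_rpow_eq hy0]
  · intro p hp hpy ρ ρ' hρ hρ' hne hn hn'
    rw [Finset.mem_biUnion]
    have hq : (ρ, ρ') ∈ W := by
      rw [hW, Finset.mem_filter, Finset.mem_product]
      exact ⟨⟨(hLL ρ).mp hρ, (hLL ρ').mp hρ'⟩, hne⟩
    refine ⟨(ρ, ρ'), hq, ?_⟩
    rw [hF, Finset.mem_filter]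
    refine ⟨?_, hpy⟩
    rw [Nat.mem_primeFactors]
    refine ⟨hp, ?_, Int.natAbs_ne_zero.mpr (hdet _ hq).1⟩
    rw [← Int.natCast_dvd]
    have d1 := hn.mul_left (ρ'.2 : ℤ)
    have d2 := hn'.mul_left (ρ.2 : ℤ)
    have d3 := dvd_sub d1 d2
    have e1 : (ρ'.2 : ℤ) * (ρ.2 * V - ρ.1) - (ρ.2 : ℤ) * (ρ'.2 * V - ρ'.1) =
        (ρ.2 : ℤ) * ρ'.1 - ρ'.2 * ρ.1 := by ring
    rwa [e1] at d3

end Vale.Agent.P013.J
end

section

/-!
# Siegel-Walfisz: interface of the modules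

All bounds are in the form `(q (|t| + 2)) ^ ε` for every `ε > 0`; no zero free region is used.
-/

open Finset Real

namespace Vale.Agent.P013.J

/-- (R) approximation of `L(s, χ)` by its partial sums for `Re s > 0` -/
def LApproxStmt : Prop := ∀ (q : ℕ) [NeZero q] (χ : DirichletCharacter ℂ q), χ ≠ 1 →
  ∀ s : ℂ, 0 < s.re → ∀ N : ℕ, 1 ≤ N →
    ‖DirichletCharacter.LFunction χ s - ∑ n ∈ Icc 1 N, χ (n : ZMod q) * (n : ℂ) ^ (-s)‖ ≤
      2 * q * ‖s‖ / s.re * (N : ℝ) ^ (-s.re)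

/-- (R) for zeta -/
def ZApproxStmt : Prop := ∀ s : ℂ, 0 < s.re → s ≠ 1 → ∀ N : ℕ, 1 ≤ N →
    ‖riemannZeta s - ∑ n ∈ Icc 1 N, (n : ℂ) ^ (-s) - (N : ℂ) ^ (1 - s) / (s - 1)‖ ≤
      ‖s‖ / s.re * (N : ℝ) ^ (-s.re)

/-- (A) growth of all derivatives of `L(s, χ)`, `1 ≤ Re s ≤ 2` -/
def LGrowthStmt : Prop := ∀ (j : ℕ) (ε : ℝ), 0 < ε → ∃ C : ℝ, 0 < C ∧
  ∀ (q : ℕ) [NeZero q] (χ : DirichletCharacter ℂ q), χ ≠ 1 → ∀ s : ℂ, 1 ≤ s.re → s.re ≤ 2 →
    ‖iteratedDeriv j (DirichletCharacter.LFunction χ) s‖ ≤ C * ((q : ℝ) * (|s.im| + 2)) ^ ε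

/-- (A) for zeta -/
def ZGrowthStmt : Prop := ∀ (j : ℕ) (ε : ℝ), 0 < ε → ∃ C : ℝ, 0 < C ∧
  ∀ s : ℂ, 1 ≤ s.re → s.re ≤ 2 → 1 ≤ |s.im| →
    ‖iteratedDeriv j riemannZeta s‖ ≤ C * (|s.im| + 2) ^ ε

/-- (B) lower bound for `L(s, χ)`, `1 < Re s ≤ 2` -/
def LLowerStmt : Prop := ∀ ε : ℝ, 0 < ε → ∃ c : ℝ, 0 < c ∧
  ∀ (q : ℕ) [NeZero q] (χ : DirichletCharacter ℂ q), χ ≠ 1 → ∀ s : ℂ, 1 < s.re → s.re ≤ 2 →
    c * ((q : ℝ) * (|s.im| + 2)) ^ (-ε) ≤ ‖DirichletCharacter.LFunction χ s‖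

/-- (B) for zeta -/
def ZLowerStmt : Prop := ∀ ε : ℝ, 0 < ε → ∃ c : ℝ, 0 < c ∧
  ∀ s : ℂ, 1 < s.re → s.re ≤ 2 → 1 ≤ |s.im| → c * (|s.im| + 2) ^ (-ε) ≤ ‖riemannZeta s‖

/-- (C0) derivatives of a quotient -/
def QuotStmt : Prop := ∀ j : ℕ, ∃ C : ℝ, 0 < C ∧ ∀ (f g : ℂ → ℂ) (s : ℂ) (R : ℝ),
  AnalyticAt ℂ f s → AnalyticAt ℂ g s → g s ≠ 0 → 1 ≤ R →
  (∀ i ≤ j, ‖iteratedDeriv i f s‖ ≤ R) → (∀ i ≤ j, ‖iteratedDeriv i g s‖ ≤ R) → ‖g s‖⁻¹ ≤ R →
    ‖iteratedDeriv j (fun z => f z / g z) s‖ ≤ C * R ^ (2 * j + 2)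

/-- the point `σ + 2 π i t` -/
noncomputable def lin (σ t : ℝ) : ℂ := (σ : ℂ) + 2 * π * t * Complex.I

/-- the function `t ↦ F(s) / (s (s + 1))`, `s = σ + 2 π i t` -/
noncomputable def Gk (F : ℂ → ℂ) (σ t : ℝ) : ℂ := F (lin σ t) / (lin σ t * (lin σ t + 1))

/-- (C1) from bounds for the derivatives of `F` to bounds for the derivatives of `Gk F σ` -/
def GkBoundStmt : Prop := ∀ j : ℕ, ∃ C : ℝ, 0 < C ∧ ∀ (F : ℂ → ℂ) (σ B : ℝ), 1 < σ → σ ≤ 2 →
  (∀ s : ℂ, 1 < s.re → AnalyticAt ℂ F s) →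
  (∀ i ≤ j, ∀ t : ℝ, ‖iteratedDeriv i F (lin σ t)‖ ≤ B * (|t| + 1) ^ (1 / 2 : ℝ)) →
    ContDiff ℝ j (Gk F σ) ∧ (∀ i ≤ j, MeasureTheory.Integrable (iteratedDeriv i (Gk F σ))) ∧
      ∫ t, ‖iteratedDeriv j (Gk F σ) t‖ ≤ C * B

/-- (D) Riesz means by Fourier inversion -/
def RieszStmt : Prop := ∀ (a : ℕ → ℂ) (c : ℂ) (F : ℂ → ℂ) (σ : ℝ), 1 < σ →
  LSeriesSummable a σ →
  (∀ t : ℝ, LSeries a (lin σ t) = F (lin σ t) + c / (lin σ t - 1)) →
  ∀ j : ℕ, ContDiff ℝ j (Gk F σ) → (∀ i ≤ j, MeasureTheory.Integrable (iteratedDeriv i (Gk F σ))) →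
  ∀ x : ℝ, 1 ≤ x →
    ‖∑ n ∈ Icc 1 ⌊x⌋₊, a n * (1 - (n : ℂ) / x) - c * (x / 2 - 1 + 1 / (2 * x))‖ *
      (2 * π * log x) ^ j ≤ x ^ σ * ∫ t, ‖iteratedDeriv j (Gk F σ) t‖

/-- (E0) bound for the `F` belonging to `χ` -/
def LogDerivStmt : Prop := ∀ (j : ℕ) (ε : ℝ), 0 < ε → ∃ C : ℝ, 0 < C ∧
  ∀ (q : ℕ) [NeZero q] (χ : DirichletCharacter ℂ q), χ ≠ 1 → ∀ σ t : ℝ, 1 < σ → σ ≤ 2 →
    ‖iteratedDeriv j (fun s => deriv (DirichletCharacter.LFunction χ) s /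
      DirichletCharacter.LFunction χ s) (lin σ t)‖ ≤ C * (q : ℝ) ^ ε * (|t| + 1) ^ (1 / 2 : ℝ)

/-- (E0) for zeta -/
def ZLogDerivStmt : Prop := ∀ j : ℕ, ∃ C : ℝ, 0 < C ∧ ∀ σ t : ℝ, 1 < σ → σ ≤ 2 →
    ‖iteratedDeriv j (fun s => - deriv riemannZeta s / riemannZeta s - 1 / (s - 1)) (lin σ t)‖ ≤
      C * (|t| + 1) ^ (1 / 2 : ℝ)

/-- (E1) Riesz means over a nonprincipal character -/
def RieszCharStmt : Prop := ∀ C : ℝ, 0 < C → ∃ x₀ : ℝ, ∀ x : ℝ, x₀ ≤ x →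
  ∀ (q : ℕ) [NeZero q] (χ : DirichletCharacter ℂ q), (q : ℝ) ≤ (log x) ^ C → χ ≠ 1 →
    ‖∑ n ∈ Icc 1 ⌊x⌋₊, χ (n : ZMod q) * (ArithmeticFunction.vonMangoldt n : ℂ) *
      (1 - (n : ℂ) / x)‖ ≤ x / (log x) ^ C

/-- (E2) Riesz mean of `Λ` -/
def RieszZetaStmt : Prop := ∀ C : ℝ, 0 < C → ∃ x₀ : ℝ, ∀ x : ℝ, x₀ ≤ x →
    |∑ n ∈ Icc 1 ⌊x⌋₊, ArithmeticFunction.vonMangoldt n * (1 - (n : ℝ) / x) - x / 2| ≤
      x / (log x) ^ C

/-- (E3) Riesz means in progressions -/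
def RieszAPStmt : Prop := ∀ C : ℝ, 0 < C → ∃ x₀ : ℝ, ∀ x : ℝ, x₀ ≤ x → ∀ q a : ℕ, 1 ≤ q →
  (q : ℝ) ≤ (log x) ^ C → Nat.Coprime a q →
    |∑ n ∈ (Icc 1 ⌊x⌋₊).filter (fun n => n ≡ a [MOD q]),
      ArithmeticFunction.vonMangoldt n * (1 - (n : ℝ) / x) - x / (2 * (Nat.totient q : ℝ))| ≤
      x / (log x) ^ C

/-- (E4) de-smoothing -/
def DesmoothStmt : Prop := ∀ (b : ℕ → ℝ) (κ δ X : ℝ), (∀ n, 0 ≤ b n) → 0 ≤ κ → κ ≤ 1 →
  0 < δ → δ ≤ 1 / 4 → 1 ≤ X →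
  (∀ x : ℝ, X / 2 ≤ x → x ≤ 2 * X →
    |∑ n ∈ Icc 1 ⌊x⌋₊, b n * (1 - (n : ℝ) / x) - κ * x / 2| ≤ δ * x) →
    |∑ n ∈ Icc 1 ⌊X⌋₊, b n - κ * X| ≤ 20 * √δ * X

end Vale.Agent.P013.J
end

section

/-!
# De-smoothing and the Siegel-Walfisz theorem
-/

open Finset Real

namespace Vale.Agent.P013.J

theorem riesz_mul_eq (b : ℕ → ℝ) (N : ℕ) {x : ℝ} (hx : 0 < x) (hN : ⌊x⌋₊ ≤ N) :
    x * ∑ n ∈ Icc 1 ⌊x⌋₊, b n * (1 - (n : ℝ) / x) =
      ∑ n ∈ Icc 1 N, b n * max (x - (n : ℝ)) 0 := by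
  rw [Finset.mul_sum]
  have hsub : Icc 1 ⌊x⌋₊ ⊆ Icc 1 N := Finset.Icc_subset_Icc le_rfl hN
  rw [← Finset.sum_subset hsub]
  · apply Finset.sum_congr rfl
    intro n hn
    have h1 : (n : ℝ) ≤ x := by
      have := (Finset.mem_Icc.mp hn).2
      exact (Nat.cast_le.mpr this).trans (Nat.floor_le hx.le)
    rw [max_eq_left (by linarith only [h1])]
    field_simp
  · intro n hn hn'
    have h1 : ⌊x⌋₊ < n := by
      by_contra h
      exact hn' (Finset.mem_Icc.mpr ⟨(Finset.mem_Icc.mp hn).1, not_lt.mp h⟩)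
    have h2 : x < n := (Nat.floor_lt hx.le).mp h1
    rw [max_eq_right (by linarith only [h2]), mul_zero]

theorem desmooth_alg {κ δ X s h' B a1 a2 a3 : ℝ} (hκ1 : κ ≤ 1) (hδ0 : 0 < δ)
    (hX : 1 ≤ X) (hs0 : 0 < s) (hs2 : s ^ 2 = δ) (hh : h' = s * X) (hh0 : 0 < h')
    (hh1 : h' ≤ X / 2) (hup : h' * B ≤ a1 - a2) (hlo : a2 - a3 ≤ h' * B)
    (e1 : a1 - κ * (X + h') ^ 2 / 2 ≤ δ * (X + h') ^ 2)
    (e2 : a2 - κ * X ^ 2 / 2 ≤ δ * X ^ 2) (e2' : -(δ * X ^ 2) ≤ a2 - κ * X ^ 2 / 2)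
    (e3 : a3 - κ * (X - h') ^ 2 / 2 ≤ δ * (X - h') ^ 2) : |B - κ * X| ≤ 20 * s * X := by
  have t2 : h' ^ 2 = δ * X ^ 2 := by rw [hh, mul_pow, hs2]
  have hd2 : 0 ≤ δ * X ^ 2 := by positivity
  have t3 : κ * (h' ^ 2 / 2) ≤ δ * X ^ 2 / 2 := by
    rw [t2]
    have := mul_le_mul_of_nonneg_right hκ1 hd2
    linarith only [this]
  have k1 : h' * B ≤ h' * (κ * X + 4 * s * X) := by
    have h1 : h' * (κ * X + 4 * s * X) = κ * X * h' + 4 * (δ * X ^ 2) := by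
      rw [← hs2, hh]; ring
    rw [h1]
    have t1 : h' * B ≤ κ * X * h' + κ * (h' ^ 2 / 2) + (δ * (X + h') ^ 2 + δ * X ^ 2) := by
      have h2 : κ * (X + h') ^ 2 / 2 - κ * X ^ 2 / 2 = κ * X * h' + κ * (h' ^ 2 / 2) := by ring
      linarith only [hup, e1, e2']
    have t4 : δ * (X + h') ^ 2 ≤ δ * (9 / 4 * X ^ 2) := by
      apply mul_le_mul_of_nonneg_left _ hδ0.le
      have h3 : (X + h') ^ 2 ≤ (3 / 2 * X) ^ 2 := by
        apply pow_le_pow_left₀ (by linarith only [hh0, hh1])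
        linarith only [hh1]
      calc (X + h') ^ 2 ≤ (3 / 2 * X) ^ 2 := h3
        _ = 9 / 4 * X ^ 2 := by ring
    linarith only [t4, t3, e2', e2, e1, hup]
  have k2 : h' * (κ * X - 4 * s * X) ≤ h' * B := by
    have h1 : h' * (κ * X - 4 * s * X) = κ * X * h' - 4 * (δ * X ^ 2) := by
      rw [← hs2, hh]; ring
    rw [h1]
    have t1 : κ * X * h' - κ * (h' ^ 2 / 2) - (δ * X ^ 2 + δ * (X - h') ^ 2) ≤ h' * B := by
      have h2 : κ * X ^ 2 / 2 - κ * (X - h') ^ 2 / 2 = κ * X * h' - κ * (h' ^ 2 / 2) := by ring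
      linarith only [hlo, e2', e3]
    have t4 : δ * (X - h') ^ 2 ≤ δ * X ^ 2 := by
      apply mul_le_mul_of_nonneg_left _ hδ0.le
      apply pow_le_pow_left₀ (by linarith only [hh0, hh1])
      linarith only [hh0]
    linarith only [t4, t3, e3, e2', e2, hlo]
  have k1' := le_of_mul_le_mul_left k1 hh0
  have k2' := le_of_mul_le_mul_left k2 hh0
  have hsX : 0 ≤ s * X := by positivity
  rw [abs_le]
  constructor <;> linarith only [hh, hh0, k2', k1']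

theorem desmooth : DesmoothStmt := by
  intro b κ δ X hb hκ0 hκ1 hδ0 hδ1 hX h
  set N := ⌊2 * X⌋₊ with hN
  set A : ℝ → ℝ := fun x => ∑ n ∈ Icc 1 N, b n * max (x - (n : ℝ)) 0 with hA
  set B := ∑ n ∈ Icc 1 ⌊X⌋₊, b n with hB
  have hXN : ⌊X⌋₊ ≤ N := Nat.floor_mono (by linarith only [hδ0, hδ1, hX])
  have hsub : Icc 1 ⌊X⌋₊ ⊆ Icc 1 N := Finset.Icc_subset_Icc le_rfl hXN
  have hAb : ∀ x : ℝ, X / 2 ≤ x → x ≤ 2 * X → |A x - κ * x ^ 2 / 2| ≤ δ * x ^ 2 := by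
    intro x hx1 hx2
    have hx0 : 0 < x := by linarith only [hδ0, hδ1, hX, hx1]
    have h1 := h x hx1 hx2
    have h2 : A x = x * ∑ n ∈ Icc 1 ⌊x⌋₊, b n * (1 - (n : ℝ) / x) :=
      (riesz_mul_eq b N hx0 (Nat.floor_mono hx2)).symm
    rw [h2]
    have h3 : x * ∑ n ∈ Icc 1 ⌊x⌋₊, b n * (1 - (n : ℝ) / x) - κ * x ^ 2 / 2 =
        x * (∑ n ∈ Icc 1 ⌊x⌋₊, b n * (1 - (n : ℝ) / x) - κ * x / 2) := by ring
    rw [h3, abs_mul, abs_of_pos hx0]
    calc x * |∑ n ∈ Icc 1 ⌊x⌋₊, b n * (1 - (n : ℝ) / x) - κ * x / 2| ≤ x * (δ * x) :=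
          mul_le_mul_of_nonneg_left h1 hx0.le
      _ = δ * x ^ 2 := by ring
  set s := √δ with hs
  have hs0 : 0 < s := Real.sqrt_pos.mpr hδ0
  have hs2 : s ^ 2 = δ := Real.sq_sqrt hδ0.le
  have hs1 : s ≤ 1 / 2 := by
    nlinarith only [hs2, hδ0, hδ1, hs0]
  set h' := s * X with hh
  have hh0 : 0 < h' := by positivity
  have hh1 : h' ≤ X / 2 := by nlinarith only [hs1, hδ0, hδ1, hX]
  have hup : h' * B ≤ A (X + h') - A X := by
    rw [hA, hB]
    simp only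
    rw [← Finset.sum_sub_distrib, Finset.mul_sum]
    calc ∑ n ∈ Icc 1 ⌊X⌋₊, h' * b n ≤ ∑ n ∈ Icc 1 ⌊X⌋₊,
          (b n * max (X + h' - (n : ℝ)) 0 - b n * max (X - (n : ℝ)) 0) := by
          apply Finset.sum_le_sum
          intro n hn
          have h1 : (n : ℝ) ≤ X := by
            have := (Finset.mem_Icc.mp hn).2
            exact (Nat.cast_le.mpr this).trans (Nat.floor_le (by linarith only [hδ0, hδ1, hX]))
          rw [max_eq_left (by linarith only [hh0, h1]), max_eq_left (by linarith only [h1])]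
          apply le_of_eq
          ring
      _ ≤ _ := by
          apply Finset.sum_le_sum_of_subset_of_nonneg hsub
          intro n _ _
          have h2 : max (X - (n : ℝ)) 0 ≤ max (X + h' - (n : ℝ)) 0 :=
            max_le_max (by linarith only [hh0]) le_rfl
          have h3 := hb n
          (by_contra nlg; linarith only [nlg, mul_nonneg (sub_nonneg.2 h2) (sub_nonneg.2 h3), mul_nonneg (le_of_lt (sub_pos.2 (not_le.1 nlg))) (sub_nonneg.2 hδ1), mul_pos (sub_pos.2 (not_le.1 nlg)) (sub_pos.2 hδ0)])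
  have hlo : A X - A (X - h') ≤ h' * B := by
    rw [hA, hB]
    simp only
    rw [← Finset.sum_sub_distrib, Finset.mul_sum]
    rw [← Finset.sum_subset (s₁ := Icc 1 ⌊X⌋₊) hsub]
    · apply Finset.sum_le_sum
      intro n hn
      have h1 : (n : ℝ) ≤ X := by
        have := (Finset.mem_Icc.mp hn).2
        exact (Nat.cast_le.mpr this).trans (Nat.floor_le (by linarith only [hδ0, hδ1, hX]))
      have h2 : max (X - (n : ℝ)) 0 - max (X - h' - (n : ℝ)) 0 ≤ h' := by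
        rw [max_eq_left (by linarith only [h1])]
        have := le_max_left (X - h' - (n : ℝ)) 0
        linarith only [this]
      have h3 := hb n
      (by_contra nlg; linarith only [nlg, mul_nonneg (sub_nonneg.2 h2) (sub_nonneg.2 h3), mul_nonneg (le_of_lt (sub_pos.2 (not_le.1 nlg))) (sub_nonneg.2 hδ1), mul_pos (sub_pos.2 (not_le.1 nlg)) (sub_pos.2 hδ0)])
    · intro n hn hn'
      have h1 : ⌊X⌋₊ < n := by
        by_contra h
        exact hn' (Finset.mem_Icc.mpr ⟨(Finset.mem_Icc.mp hn).1, not_lt.mp h⟩)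
      have h2 : X < n := (Nat.floor_lt (by linarith only [hδ0, hδ1, hX])).mp h1
      rw [max_eq_right (by linarith only [h2]), max_eq_right (by linarith only [hh0, h2])]
      ring
  have e1 := abs_le.mp (hAb (X + h') (by linarith only [hδ0, hδ1, hX, hh0]) (by linarith only [hδ0, hδ1, hX, hh1]))
  have e2 := abs_le.mp (hAb X (by linarith only [hδ0, hδ1, hX]) (by linarith only [hδ0, hδ1, hX]))
  have e3 := abs_le.mp (hAb (X - h') (by linarith only [hh1]) (by linarith only [hδ0, hδ1, hX, hh0]))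
  exact desmooth_alg hκ1 hδ0 hX hs0 hs2 hh hh0 hh1 hup hlo e1.2 e2.2 e2.1 e3.2

theorem sw_of (h : RieszAPStmt) (hd : DesmoothStmt) : SWStmt := by
  intro C hC
  obtain ⟨x₁, hx₁⟩ := h (2 * C + 2) (by linarith only [hC])
  set K : ℝ := 20 * 2 ^ (C + 1) + 4 with hK
  have h2C : (1 : ℝ) ≤ 2 ^ (C + 1) := Real.one_le_rpow (by norm_num) (by linarith only [hC])
  have hK1 : 24 ≤ K := by rw [hK]; linarith only [h2C]
  refine ⟨max (max (2 * x₁) 4) (exp K), ?_⟩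
  intro X hX q a hq hqX hcop
  have hX1 : 2 * x₁ ≤ X := (le_max_left _ _).trans ((le_max_left _ _).trans hX)
  have hX4 : 4 ≤ X := (le_max_right _ _).trans ((le_max_left _ _).trans hX)
  have hXK : exp K ≤ X := (le_max_right _ _).trans hX
  have hX0 : 0 < X := by linarith only [hX4]
  have hlK : K ≤ log X := by
    rw [← Real.log_exp K]
    exact Real.log_le_log (Real.exp_pos _) hXK
  set l := log X with hl
  have hl0 : 0 < l := by linarith only [h2C, hlK]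
  have hl1 : 1 ≤ l := by linarith only [h2C, hlK]
  have hφ : (1 : ℝ) ≤ (Nat.totient q : ℝ) := by
    have : 0 < Nat.totient q := Nat.totient_pos.mpr (by omega)
    exact_mod_cast this
  set δ : ℝ := 2 ^ (2 * C + 2) * l ^ (-(2 * C + 2)) with hδ
  have hδ0 : 0 < δ := by positivity
  have hsq : √δ = 2 ^ (C + 1) * l ^ (-(C + 1)) := by
    have h1 : δ = (2 ^ (C + 1) * l ^ (-(C + 1))) ^ 2 := by
      rw [hδ, mul_pow, ← Real.rpow_natCast, ← Real.rpow_natCast, ← Real.rpow_mul (by norm_num),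
        ← Real.rpow_mul hl0.le]
      congr 2 <;> push_cast <;> ring
    rw [h1, Real.sqrt_sq (by positivity)]
  have hlneg : l ^ (-(C + 1)) = l ^ (-C) * l⁻¹ := by
    rw [neg_add, Real.rpow_add hl0, Real.rpow_neg_one]
  have hlC : l ^ (-C) ≤ 1 := Real.rpow_le_one_of_one_le_of_nonpos hl1 (by linarith only [hC])
  have hlC0 : 0 < l ^ (-C) := by positivity
  have hsq20 : 20 * √δ ≤ l ^ (-C) := by
    rw [hsq, hlneg]
    have : 20 * 2 ^ (C + 1) * l⁻¹ ≤ 1 := by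
      rw [mul_inv_le_iff₀ hl0]
      linarith only [hlK]
    calc 20 * (2 ^ (C + 1) * (l ^ (-C) * l⁻¹)) = l ^ (-C) * (20 * 2 ^ (C + 1) * l⁻¹) := by ring
      _ ≤ l ^ (-C) * 1 := mul_le_mul_of_nonneg_left this hlC0.le
      _ = l ^ (-C) := by ring
  have hδ1 : δ ≤ 1 / 4 := by
    have h1 : √δ ≤ 1 / 20 := by linarith only [hlC, hsq20]
    have h2 : δ = √δ ^ 2 := (Real.sq_sqrt hδ0.le).symm
    rw [h2]
    have h3 : 0 ≤ √δ := Real.sqrt_nonneg _
    nlinarith only [hδ0, hlC, hsq20, h2, h3]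
  have hkey := hd (fun n => if n ≡ a [MOD q] then ArithmeticFunction.vonMangoldt n else 0)
    (1 / (Nat.totient q : ℝ)) δ X (fun n => by
      split_ifs
      · exact ArithmeticFunction.vonMangoldt_nonneg
      · exact le_rfl) (by positivity) (by
      rw [div_le_one (by linarith only [hφ, hδ0, hδ1])]; exact hφ) hδ0 hδ1 (by linarith only [hX4, hδ0, hδ1]) ?_
  · have h1 : ∑ n ∈ Icc 1 ⌊X⌋₊, (if n ≡ a [MOD q] then ArithmeticFunction.vonMangoldt n else 0) =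
        psiAP X q a := by
      unfold psiAP
      rw [Finset.sum_filter]
    rw [h1] at hkey
    have h2 : (1 / (Nat.totient q : ℝ)) * X = X / (Nat.totient q : ℝ) := by ring
    rw [h2] at hkey
    refine hkey.trans ?_
    rw [div_eq_mul_inv, ← Real.rpow_neg hl0.le, mul_comm X]
    exact mul_le_mul_of_nonneg_right hsq20 hX0.le
  · intro x hx1 hx2
    have hx0 : 0 < x := by linarith only [hX4, hδ0, hδ1, hx1]
    have hlx : l / 2 ≤ log x := by
      have h1 : log (X / 2) ≤ log x := Real.log_le_log (by linarith only [hX4, hδ0, hδ1]) hx1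
      rw [Real.log_div hX0.ne' (by norm_num)] at h1
      have h2 : log 2 ≤ 1 := by
        have := Real.log_two_lt_d9
        linarith only [hδ0, hδ1, this]
      linarith only [h2C, hlK, hδ0, hδ1, h1, h2]
    have hlx0 : 0 < log x := by linarith only [h2C, hlK, hδ0, hδ1, hlx]
    have hpow : l ^ (2 * C + 2) / 2 ^ (2 * C + 2) ≤ (log x) ^ (2 * C + 2) := by
      rw [← Real.div_rpow hl0.le (by norm_num)]
      exact Real.rpow_le_rpow (by positivity) hlx (by linarith only [hC, hδ0, hδ1])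
    have hpow2 : l ^ C ≤ l ^ (2 * C + 2) / 2 ^ (2 * C + 2) := by
      rw [le_div_iff₀ (by positivity)]
      have h1 : l ^ (2 * C + 2) = l ^ C * l ^ (C + 2) := by
        rw [← Real.rpow_add hl0]; congr 1; ring
      rw [h1]
      apply mul_le_mul_of_nonneg_left _ (by positivity)
      have h2 : (2 : ℝ) ^ (2 * C + 2) ≤ 4 ^ (C + 2) := by
        have : (4 : ℝ) = 2 ^ (2 : ℝ) := by norm_num
        rw [this, ← Real.rpow_mul (by norm_num)]
        exact Real.rpow_le_rpow_of_exponent_le (by norm_num) (by linarith only [hδ0, hδ1])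
      exact h2.trans (Real.rpow_le_rpow (by norm_num) (by linarith only [h2C, hlK, hδ0, hδ1]) (by linarith only [hC, hδ0, hδ1]))
    have h3 := hx₁ x (by linarith only [hX1, hx1]) q a hq (hqX.trans (hpow2.trans hpow)) hcop
    have h4 : ∑ n ∈ Icc 1 ⌊x⌋₊, (if n ≡ a [MOD q] then ArithmeticFunction.vonMangoldt n else 0) *
        (1 - (n : ℝ) / x) = ∑ n ∈ (Icc 1 ⌊x⌋₊).filter (fun n => n ≡ a [MOD q]),
        ArithmeticFunction.vonMangoldt n * (1 - (n : ℝ) / x) := by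
      rw [Finset.sum_filter]
      apply Finset.sum_congr rfl
      intro n _
      split_ifs <;> simp
    have h5 : 1 / (Nat.totient q : ℝ) * x / 2 = x / (2 * (Nat.totient q : ℝ)) := by
      field_simp
    rw [h4, h5]
    refine h3.trans ?_
    rw [div_le_iff₀ (by positivity)]
    have h6 : 1 ≤ 2 ^ (2 * C + 2) * l ^ (-(2 * C + 2)) * (log x) ^ (2 * C + 2) := by
      have : 2 ^ (2 * C + 2) * l ^ (-(2 * C + 2)) * (l ^ (2 * C + 2) / 2 ^ (2 * C + 2)) = 1 := by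
        rw [Real.rpow_neg hl0.le]
        field_simp
      calc 1 = 2 ^ (2 * C + 2) * l ^ (-(2 * C + 2)) * (l ^ (2 * C + 2) / 2 ^ (2 * C + 2)) := this.symm
        _ ≤ _ := mul_le_mul_of_nonneg_left hpow (by positivity)
    rw [hδ]
    calc x = 1 * x := (one_mul x).symm
      _ ≤ (2 ^ (2 * C + 2) * l ^ (-(2 * C + 2)) * (log x) ^ (2 * C + 2)) * x :=
        mul_le_mul_of_nonneg_right h6 hx0.le
      _ = _ := by ring

end Vale.Agent.P013.J
end

section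

/-!
# Siegel-Walfisz: Riesz means in progressions from Riesz means over characters
-/

open Finset Real

namespace Vale.Agent.P013.J

/-- prime powers not coprime to `q` contribute little -/
theorem rieszAP_small (N q : ℕ) (hq : 1 ≤ q) :
    ∑ n ∈ (Icc 1 N).filter (fun n => ¬ Nat.Coprime n q), ArithmeticFunction.vonMangoldt n ≤
      q * (Nat.log 2 N) * log N := by
  classical
  set T := ((Icc 1 N).filter (fun n => ¬ Nat.Coprime n q)).filter IsPrimePow with hT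
  have h1 : ∑ n ∈ (Icc 1 N).filter (fun n => ¬ Nat.Coprime n q),
      ArithmeticFunction.vonMangoldt n = ∑ n ∈ T, ArithmeticFunction.vonMangoldt n := by
    symm
    refine Finset.sum_filter_of_ne ?_
    intro n _ hn
    by_contra h
    exact hn (ArithmeticFunction.vonMangoldt_eq_zero_iff.2 h)
  have h2 : T ⊆ (q.primeFactors ×ˢ Icc 1 (Nat.log 2 N)).image (fun x => x.1 ^ x.2) := by
    intro n hn
    rw [hT, mem_filter, mem_filter, mem_Icc] at hn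
    obtain ⟨⟨⟨hn1, hnN⟩, hcop⟩, hpp⟩ := hn
    obtain ⟨p, k, hp, hk, rfl⟩ := hpp
    have hp' : p.Prime := hp.nat_prime
    have hpq : p ∣ q := by
      by_contra h
      exact hcop (Nat.Coprime.pow_left k ((Nat.Prime.coprime_iff_not_dvd hp').2 h))
    refine mem_image.2 ⟨(p, k), mem_product.2 ⟨Nat.mem_primeFactors.2 ⟨hp', hpq, by omega⟩,
      mem_Icc.2 ⟨hk, ?_⟩⟩, rfl⟩
    exact Nat.le_log_of_pow_le (by norm_num)
      (le_trans (Nat.pow_le_pow_left hp'.two_le k) hnN)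
  have h3 : T.card ≤ q * Nat.log 2 N := by
    refine (card_le_card h2).trans (card_image_le.trans ?_)
    rw [card_product, Nat.card_Icc]
    simp only [Nat.add_sub_cancel]
    refine Nat.mul_le_mul_right _ ?_
    have h4 : q.primeFactors ⊆ Icc 1 q := fun p hp =>
      mem_Icc.2 ⟨(Nat.prime_of_mem_primeFactors hp).one_le, Nat.le_of_mem_primeFactors hp⟩
    simpa using card_le_card h4
  rw [h1]
  calc ∑ n ∈ T, ArithmeticFunction.vonMangoldt n ≤ ∑ _n ∈ T, log N := by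
        refine sum_le_sum fun n hn => ?_
        have hn' := (mem_Icc.1 (mem_filter.1 (mem_filter.1 hn).1).1)
        exact (ArithmeticFunction.vonMangoldt_le_log).trans
          (log_le_log (by exact_mod_cast hn'.1) (by exact_mod_cast hn'.2))
    _ = (T.card : ℝ) * log N := by rw [sum_const, nsmul_eq_mul]
    _ ≤ q * (Nat.log 2 N) * log N := by
        refine mul_le_mul_of_nonneg_right (by exact_mod_cast h3) (log_natCast_nonneg N)

theorem rieszAP_orth (q a : ℕ) [NeZero q] (ha : Nat.Coprime a q) (s : Finset ℕ) (f : ℕ → ℂ) :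
    ((Nat.totient q : ℕ) : ℂ) * ∑ n ∈ s.filter (fun n => n ≡ a [MOD q]), f n =
      ∑ χ : DirichletCharacter ℂ q, χ ((a : ZMod q)⁻¹) * ∑ n ∈ s, χ (n : ZMod q) * f n := by
  classical
  have hu : IsUnit (a : ZMod q) := (ZMod.isUnit_iff_coprime a q).2 ha
  have h1 : ∀ n : ℕ, ∑ χ : DirichletCharacter ℂ q, χ ((a : ZMod q)⁻¹) * χ (n : ZMod q) =
      if n ≡ a [MOD q] then ((Nat.totient q : ℕ) : ℂ) else 0 := by
    intro n
    rw [DirichletCharacter.sum_char_inv_mul_char_eq ℂ hu]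
    refine if_congr ?_ rfl rfl
    rw [ZMod.natCast_eq_natCast_iff]
    exact ⟨fun h => h.symm, fun h => h.symm⟩
  simp only [mul_sum]
  rw [sum_comm]
  rw [sum_filter]
  refine sum_congr rfl fun n _ => ?_
  simp only [← mul_assoc]
  rw [← sum_mul, h1]
  split_ifs <;> simp

/-- (E3) -/
theorem rieszAP (h1 : RieszCharStmt) (h2 : RieszZetaStmt) : RieszAPStmt := by
  classical
  intro C hC
  obtain ⟨x₁, hx₁⟩ := h1 (C + 1) (by linarith only [hC])
  obtain ⟨x₂, hx₂⟩ := h2 (C + 1) (by linarith)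
  have hlim : ∀ᶠ x : ℝ in Filter.atTop, 2 * (log x) ^ (2 * C + 3) ≤ x := by
    have h := (isLittleO_log_rpow_rpow_atTop (2 * C + 3) (zero_lt_one)).bound
      (show (0 : ℝ) < 1 / 2 by norm_num)
    filter_upwards [h, Filter.eventually_ge_atTop (exp 1)] with x hx hx1
    have hx0 : 0 < x := lt_of_lt_of_le (exp_pos 1) hx1
    have hl : 0 ≤ log x := log_nonneg (by
      have := add_one_le_exp (1 : ℝ)
      linarith only [hx1, this])
    rw [rpow_one, norm_of_nonneg (rpow_nonneg hl _), norm_of_nonneg hx0.le] at hx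
    linarith only [hx]
  obtain ⟨x₃, hx₃⟩ := Filter.eventually_atTop.1 hlim
  refine ⟨max (max x₁ x₂) (max x₃ (exp 3)), fun x hx q a hq hqC ha => ?_⟩
  have hxx₁ : x₁ ≤ x := (le_max_left _ _).trans ((le_max_left _ _).trans hx)
  have hxx₂ : x₂ ≤ x := (le_max_right _ _).trans ((le_max_left _ _).trans hx)
  have hxx₃ : x₃ ≤ x := (le_max_left _ _).trans ((le_max_right _ _).trans hx)
  have hxe : exp 3 ≤ x := (le_max_right _ _).trans ((le_max_right _ _).trans hx)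
  have hx0 : 0 < x := lt_of_lt_of_le (exp_pos 3) hxe
  have hx1 : 1 ≤ x := by
    have := add_one_le_exp (3 : ℝ)
    linarith only [hxe, this]
  set ℓ := log x with hℓ
  have hℓ3 : 3 ≤ ℓ := by
    rw [hℓ, le_log_iff_exp_le hx0]
    exact hxe
  have hℓ0 : 0 < ℓ := by linarith only [hℓ3]
  have : NeZero q := ⟨by omega⟩
  set N := ⌊x⌋₊ with hN
  set f : ℕ → ℝ := fun n => ArithmeticFunction.vonMangoldt n * (1 - (n : ℝ) / x) with hf
  have hf0 : ∀ n ∈ Icc 1 N, 0 ≤ f n ∧ f n ≤ ArithmeticFunction.vonMangoldt n := by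
    intro n hn
    have hnx : (n : ℝ) ≤ x := (Nat.le_floor_iff hx0.le).1 (mem_Icc.1 hn).2
    have h3 : 0 ≤ 1 - (n : ℝ) / x := by
      have : (n : ℝ) / x ≤ 1 := (div_le_one hx0).2 hnx
      linarith only [this]
    have h4 : (0 : ℝ) ≤ n / x := by positivity
    have h5 : 0 ≤ ArithmeticFunction.vonMangoldt n := ArithmeticFunction.vonMangoldt_nonneg
    refine ⟨mul_nonneg h5 h3, ?_⟩
    have := mul_le_mul_of_nonneg_left (show 1 - (n : ℝ) / x ≤ 1 by linarith only [h4]) h5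
    simpa using this
  set φ : ℝ := (Nat.totient q : ℝ) with hφ
  have hφ1 : 1 ≤ φ := by
    rw [hφ]
    exact_mod_cast Nat.totient_pos.2 hq
  set S : ℝ := ∑ n ∈ (Icc 1 N).filter (fun n => n ≡ a [MOD q]), f n with hS
  set P : ℝ := ∑ n ∈ (Icc 1 N).filter (fun n => Nat.Coprime n q), f n with hP
  set Ebad : ℝ := ∑ n ∈ (Icc 1 N).filter (fun n => ¬ Nat.Coprime n q), f n with hEbad
  set err : ℝ := x / ℓ ^ (C + 1) with herr
  have herr0 : 0 ≤ err := by positivity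
  have hlqC : (q : ℝ) ≤ ℓ ^ (C + 1) := hqC.trans
    (rpow_le_rpow_of_exponent_le (by linarith only [hℓ3]) (by linarith only []))
  -- orthogonality
  have horth := rieszAP_orth q a ha (Icc 1 N) (fun n => ((f n : ℝ) : ℂ))
  have htriv : (1 : DirichletCharacter ℂ q) ((a : ZMod q)⁻¹) *
      ∑ n ∈ Icc 1 N, (1 : DirichletCharacter ℂ q) (n : ZMod q) * ((f n : ℝ) : ℂ) = (P : ℂ) := by
    have hu : IsUnit ((a : ZMod q)⁻¹) := by
      have hu' : IsUnit (a : ZMod q) := (ZMod.isUnit_iff_coprime a q).2 ha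
      obtain ⟨u, hu''⟩ := hu'
      rw [← hu'', ZMod.inv_coe_unit]
      exact (u⁻¹).isUnit
    rw [MulChar.one_apply hu, one_mul, hP, Complex.ofReal_sum, sum_filter]
    refine sum_congr rfl fun n _ => ?_
    by_cases hn : Nat.Coprime n q
    · rw [if_pos hn, MulChar.one_apply ((ZMod.isUnit_iff_coprime n q).2 hn), one_mul]
    · rw [if_neg hn, MulChar.map_nonunit _ (fun h => hn ((ZMod.isUnit_iff_coprime n q).1 h)),
        zero_mul]
  rw [← Finset.add_sum_erase _ _ (mem_univ (1 : DirichletCharacter ℂ q)), htriv] at horth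
  have hrest : ‖∑ χ ∈ (univ : Finset (DirichletCharacter ℂ q)).erase 1,
      χ ((a : ZMod q)⁻¹) * ∑ n ∈ Icc 1 N, χ (n : ZMod q) * ((f n : ℝ) : ℂ)‖ ≤ (φ - 1) * err := by
    have hcard : (((univ : Finset (DirichletCharacter ℂ q)).erase 1).card : ℝ) = φ - 1 := by
      rw [card_erase_of_mem (mem_univ _), card_univ, ← Nat.card_eq_fintype_card,
        DirichletCharacter.card_eq_totient_of_hasEnoughRootsOfUnity ℂ q,
        Nat.cast_sub (Nat.totient_pos.2 hq)]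
      simp [hφ]
    rw [← hcard]
    refine (norm_sum_le _ _).trans ?_
    rw [← nsmul_eq_mul, ← sum_const]
    refine sum_le_sum fun χ hχ => ?_
    rw [norm_mul]
    have h3 : ‖χ ((a : ZMod q)⁻¹)‖ ≤ 1 := DirichletCharacter.norm_le_one χ _
    have h4 := hx₁ x hxx₁ q χ hlqC (ne_of_mem_erase hχ)
    have h5 : ∑ n ∈ Icc 1 N, χ (n : ZMod q) * ((f n : ℝ) : ℂ) =
        ∑ n ∈ Icc 1 ⌊x⌋₊, χ (n : ZMod q) * (ArithmeticFunction.vonMangoldt n : ℂ) *
      (1 - (n : ℂ) / x) := by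
      refine sum_congr rfl fun n _ => ?_
      rw [hf]
      push_cast
      ring
    rw [h5]
    calc ‖χ ((a : ZMod q)⁻¹)‖ * _ ≤ 1 * _ := mul_le_mul_of_nonneg_right h3 (norm_nonneg _)
      _ ≤ err := by rw [one_mul]; exact h4
  have hmain : |φ * S - P| ≤ (φ - 1) * err := by
    have h3 : ((φ * S - P : ℝ) : ℂ) = ∑ χ ∈ (univ : Finset (DirichletCharacter ℂ q)).erase 1,
        χ ((a : ZMod q)⁻¹) * ∑ n ∈ Icc 1 N, χ (n : ZMod q) * ((f n : ℝ) : ℂ) := by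
      rw [hS, hφ]
      push_cast
      rw [horth]
      ring
    rw [← Real.norm_eq_abs, ← Complex.norm_real, h3]
    exact hrest
  -- zeta
  have hall : P + Ebad = ∑ n ∈ Icc 1 N, f n := sum_filter_add_sum_filter_not _ _ _
  have hz : |∑ n ∈ Icc 1 N, f n - x / 2| ≤ err := hx₂ x hxx₂
  -- bad part
  have hE0 : 0 ≤ Ebad := sum_nonneg fun n hn => (hf0 n (mem_filter.1 hn).1).1
  have hE1 : Ebad ≤ err := by
    have h3 : Ebad ≤ q * (Nat.log 2 N) * log N :=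
      (sum_le_sum fun n hn => (hf0 n (mem_filter.1 hn).1).2).trans (rieszAP_small N q hq)
    have hN1 : 1 ≤ N := (Nat.one_le_floor_iff x).2 hx1
    have hNx : (N : ℝ) ≤ x := Nat.floor_le hx0.le
    have hlogN : log N ≤ ℓ := log_le_log (by exact_mod_cast hN1) hNx
    have hlogN0 : 0 ≤ log N := log_natCast_nonneg N
    have h4 : ((Nat.log 2 N : ℕ) : ℝ) ≤ 2 * ℓ := by
      have h5 : (2 : ℝ) ^ (Nat.log 2 N) ≤ N := by
        exact_mod_cast Nat.pow_log_le_self 2 (by omega)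
      have h6 : (Nat.log 2 N : ℝ) * log 2 ≤ log N := by
        rw [← log_pow]
        exact log_le_log (by positivity) h5
      have h7 := log_two_gt_d9
      nlinarith only [show (0 : ℝ) ≤ Nat.log 2 N from Nat.cast_nonneg _, hℓ3, hlogN, h6, h7]
    have h8 : (q : ℝ) * (Nat.log 2 N) * log N ≤ ℓ ^ C * (2 * ℓ) * ℓ := by
      have hℓC : 0 ≤ ℓ ^ C := rpow_nonneg hℓ0.le _
      refine mul_le_mul (mul_le_mul hqC h4 (Nat.cast_nonneg _) hℓC) hlogN hlogN0 (by positivity)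
    have h9 : ℓ ^ C * (2 * ℓ) * ℓ ≤ err := by
      rw [herr, le_div_iff₀ (by positivity)]
      have h10 := hx₃ x hxx₃
      have h11 : ℓ ^ (2 * C + 3) = ℓ ^ C * ℓ * ℓ * ℓ ^ (C + 1) := by
        rw [show 2 * C + 3 = C + 1 + 1 + (C + 1) by ring, rpow_add hℓ0, rpow_add hℓ0, rpow_add hℓ0,
          rpow_one]
      calc ℓ ^ C * (2 * ℓ) * ℓ * ℓ ^ (C + 1) = 2 * ℓ ^ (2 * C + 3) := by rw [h11]; ring
        _ ≤ x := h10
    linarith only [h3, h8, h9]
  have hfin : |φ * S - x / 2| ≤ (φ + 1) * err := by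
    rw [abs_le] at hmain hz ⊢
    constructor <;> nlinarith only [hmain.1, hmain.2, hz.1, hz.2, hmain, hall, hz, hE1, herr0, hE0]
  have hdiv : |S - x / (2 * φ)| ≤ 2 * err := by
    have hφ0 : 0 < φ := by linarith only [hφ1]
    have h3 : S - x / (2 * φ) = (φ * S - x / 2) / φ := by
      field_simp
    rw [h3, abs_div, abs_of_pos hφ0, div_le_iff₀ hφ0]
    refine hfin.trans ?_
    nlinarith only [hφ1, herr0]
  have hlast : 2 * err ≤ x / ℓ ^ C := by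
    rw [herr, rpow_add hℓ0, rpow_one, ← mul_div_assoc, div_le_div_iff₀ (by positivity)
      (by positivity)]
    have : 0 ≤ x * ℓ ^ C := by positivity
    nlinarith only [this, hℓ3]
  exact hdiv.trans hlast

end Vale.Agent.P013.J
end

section

/-!
# Bounds for the derivatives of `L'/L`
-/

open Finset Real

namespace Vale.Agent.P013.J

lemma logDeriv_lin_re (σ t : ℝ) : (lin σ t).re = σ := by simp [lin]

lemma logDeriv_lin_im (σ t : ℝ) : (lin σ t).im = 2 * π * t := by simp [lin]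

theorem logDeriv (hG : LGrowthStmt) (hL : LLowerStmt) (hQ : QuotStmt) : LogDerivStmt := by
  intro j ε hε
  set m : ℝ := min ε (1 / 2) with hm
  have hm0 : 0 < m := lt_min hε (by norm_num)
  have hj0 : (0 : ℝ) < 2 * j + 2 := by positivity
  set ε' : ℝ := m / (2 * j + 2) with hε'
  have hε'0 : 0 < ε' := div_pos hm0 hj0
  choose C hC0 hC using fun i => hG i ε' hε'0
  obtain ⟨c, hc0, hc⟩ := hL ε' hε'0
  obtain ⟨Q, hQ0, hQ⟩ := hQ j
  set K : ℝ := 1 + ∑ i ∈ range (j + 2), C i + c⁻¹ with hK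
  have hsum0 : 0 ≤ ∑ i ∈ range (j + 2), C i := sum_nonneg fun i _ => (hC0 i).le
  have hcinv : 0 < c⁻¹ := inv_pos.mpr hc0
  have hK1 : 1 ≤ K := by rw [hK]; linarith only [hsum0, hcinv]
  have hKc : c⁻¹ ≤ K := by rw [hK]; linarith only [hsum0]
  have hKC : ∀ i ∈ range (j + 2), C i ≤ K := by
    intro i hi
    have := single_le_sum (fun i _ => (hC0 i).le) hi
    rw [hK]
    linarith only [hcinv, this]
  refine ⟨Q * K ^ (2 * j + 2) * (2 * π), by positivity, ?_⟩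
  intro q _ χ hχ σ t hσ hσ2
  set s : ℂ := lin σ t with hs
  have hsre : s.re = σ := logDeriv_lin_re σ t
  have hsim : |s.im| = 2 * π * |t| := by
    rw [hs, logDeriv_lin_im, abs_mul, abs_of_pos (by positivity : (0 : ℝ) < 2 * π)]
  have hq1 : (1 : ℝ) ≤ q := by exact_mod_cast Nat.one_le_iff_ne_zero.mpr (NeZero.ne q)
  set X : ℝ := (q : ℝ) * (|s.im| + 2) with hX
  have hX1 : 1 ≤ X := by
    have : (1 : ℝ) ≤ |s.im| + 2 := by linarith only [abs_nonneg s.im]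
    calc (1 : ℝ) = 1 * 1 := by ring
      _ ≤ _ := mul_le_mul hq1 this (by norm_num) (by linarith only [hq1])
  have hX0 : 0 < X := by linarith only [hX1]
  set R : ℝ := K * X ^ ε' with hR
  have hXε : 1 ≤ X ^ ε' := one_le_rpow hX1 hε'0.le
  have hR1 : 1 ≤ R := by
    calc (1 : ℝ) = 1 * 1 := by ring
      _ ≤ _ := mul_le_mul hK1 hXε (by norm_num) (by linarith only [hsum0, hcinv])
  have hdiff : Differentiable ℂ (DirichletCharacter.LFunction χ) :=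
    DirichletCharacter.differentiable_LFunction hχ
  have hgs : c * X ^ (-ε') ≤ ‖DirichletCharacter.LFunction χ s‖ :=
    hc q χ hχ s (by rw [hsre]; exact hσ) (by rw [hsre]; exact hσ2)
  have hpos : 0 < c * X ^ (-ε') := mul_pos hc0 (rpow_pos_of_pos hX0 _)
  have hbound : ∀ i ∈ range (j + 2),
      ‖iteratedDeriv i (DirichletCharacter.LFunction χ) s‖ ≤ R := by
    intro i hi
    refine (hC i q χ hχ s (by rw [hsre]; exact hσ.le) (by rw [hsre]; exact hσ2)).trans ?_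
    exact mul_le_mul_of_nonneg_right (hKC i hi) (by (clear * - hq1; positivity))
  have key := hQ (deriv (DirichletCharacter.LFunction χ)) (DirichletCharacter.LFunction χ) s R
    (hdiff.analyticAt s).deriv (hdiff.analyticAt s)
    (norm_pos_iff.mp (hpos.trans_le hgs)) hR1 ?_ ?_ ?_
  · refine key.trans ?_
    have e1 : R ^ (2 * j + 2) = K ^ (2 * j + 2) * X ^ m := by
      rw [hR, mul_pow, ← rpow_natCast (X ^ ε'), ← rpow_mul hX0.le]
      congr 2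
      rw [hε']
      push_cast
      field_simp
    have hXle : X ≤ (q : ℝ) * (2 * π * (|t| + 1)) := by
      rw [hX, hsim]
      have hπ : 1 ≤ π := by linarith only [pi_gt_three]
      have : 2 * π * |t| + 2 ≤ 2 * π * (|t| + 1) := by linarith only [hπ]
      exact mul_le_mul_of_nonneg_left this (by linarith only [hq1])
    have ht1 : 1 ≤ |t| + 1 := by linarith only [abs_nonneg t]
    have hπ1 : 1 ≤ 2 * π := by linarith only [pi_gt_three]
    have e2 : X ^ m ≤ (q : ℝ) ^ ε * ((2 * π) * (|t| + 1) ^ (1 / 2 : ℝ)) := by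
      calc X ^ m ≤ ((q : ℝ) * (2 * π * (|t| + 1))) ^ m := rpow_le_rpow hX0.le hXle hm0.le
        _ = (q : ℝ) ^ m * ((2 * π) ^ m * (|t| + 1) ^ m) := by
          rw [mul_rpow (by linarith only [hq1]) (by positivity), mul_rpow (by positivity) (by positivity)]
        _ ≤ (q : ℝ) ^ ε * ((2 * π) * (|t| + 1) ^ (1 / 2 : ℝ)) := by
          have a1 : (q : ℝ) ^ m ≤ (q : ℝ) ^ ε :=
            rpow_le_rpow_of_exponent_le hq1 (min_le_left _ _)
          have a2 : (2 * π) ^ m ≤ 2 * π := by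
            calc (2 * π) ^ m ≤ (2 * π) ^ (1 : ℝ) :=
                rpow_le_rpow_of_exponent_le hπ1 ((min_le_right _ _).trans (by norm_num))
              _ = 2 * π := rpow_one _
          have a3 : (|t| + 1) ^ m ≤ (|t| + 1) ^ (1 / 2 : ℝ) :=
            rpow_le_rpow_of_exponent_le ht1 (min_le_right _ _)
          exact mul_le_mul a1 (mul_le_mul a2 a3 (by positivity) (by positivity))
            (by positivity) (by positivity)
    rw [e1]
    calc Q * (K ^ (2 * j + 2) * X ^ m) ≤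
        Q * (K ^ (2 * j + 2) * ((q : ℝ) ^ ε * ((2 * π) * (|t| + 1) ^ (1 / 2 : ℝ)))) := by gcongr
      _ = _ := by ring
  · intro i hi
    rw [← iteratedDeriv_succ']
    exact hbound (i + 1) (mem_range.mpr (by omega))
  · intro i hi
    exact hbound i (mem_range.mpr (by omega))
  · have h1 : ‖DirichletCharacter.LFunction χ s‖⁻¹ ≤ (c * X ^ (-ε'))⁻¹ :=
      inv_anti₀ hpos hgs
    refine h1.trans ?_
    rw [mul_inv, rpow_neg hX0.le, inv_inv]
    exact mul_le_mul_of_nonneg_right hKc (by (clear * - hq1; positivity))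

end Vale.Agent.P013.J
end

section

/-!
# Siegel-Walfisz: derivatives of `-ζ'/ζ - 1/(s-1)`
-/

open Finset Real Topology

namespace Vale.Agent.P013.J

/-- the entire function `(s-1) ζ(s)` -/
noncomputable def zlG : ℂ → ℂ := Function.update (fun s => (s - 1) * riemannZeta s) 1 1

theorem zlG_of_ne {s : ℂ} (hs : s ≠ 1) : zlG s = (s - 1) * riemannZeta s :=
  Function.update_of_ne hs _ _

theorem zlG_one : zlG 1 = 1 := by simp [zlG]

theorem zlG_eventually {s : ℂ} (hs : s ≠ 1) :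
    zlG =ᶠ[𝓝 s] fun z => (z - 1) * riemannZeta z := by
  filter_upwards [isOpen_ne.mem_nhds hs] with z hz
  exact zlG_of_ne hz

theorem zlG_diffAt_of_ne {s : ℂ} (hs : s ≠ 1) : DifferentiableAt ℂ zlG s := by
  have h1 : DifferentiableAt ℂ (fun z : ℂ => (z - 1) * riemannZeta z) s :=
    (differentiableAt_id.sub_const 1).mul (differentiableAt_riemannZeta hs)
  exact h1.congr_of_eventuallyEq (zlG_eventually hs)

theorem zlG_differentiable : Differentiable ℂ zlG := by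
  intro s
  rcases ne_or_eq s 1 with hs | rfl
  · exact zlG_diffAt_of_ne hs
  · refine (Complex.analyticAt_of_differentiable_on_punctured_nhds_of_continuousAt
      ?_ ?_).differentiableAt
    · filter_upwards [self_mem_nhdsWithin] with t ht
      exact zlG_diffAt_of_ne ht
    · simpa only [zlG, continuousAt_update_same] using riemannZeta_residue_one

theorem zlG_analyticAt (s : ℂ) : AnalyticAt ℂ zlG s := zlG_differentiable.analyticAt s

theorem zlG_ne_zero {s : ℂ} (hs : 1 ≤ s.re) : zlG s ≠ 0 := by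
  rcases ne_or_eq s 1 with h | rfl
  · rw [zlG_of_ne h]
    exact mul_ne_zero (sub_ne_zero.2 h) (riemannZeta_ne_zero_of_one_le_re hs)
  · rw [zlG_one]
    exact one_ne_zero

theorem zl_ne_one {s : ℂ} (hs : 1 < s.re) : s ≠ 1 := by
  rintro rfl
  simp at hs

/-- the logarithmic derivative of `zlG` with a minus sign -/
noncomputable def zlH (s : ℂ) : ℂ := - deriv zlG s / zlG s

theorem zlH_analyticAt {s : ℂ} (hs : 1 ≤ s.re) : AnalyticAt ℂ zlH s :=
  ((zlG_analyticAt s).deriv.neg).div (zlG_analyticAt s) (zlG_ne_zero hs)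

theorem zlH_eq {s : ℂ} (hs : 1 < s.re) :
    - deriv riemannZeta s / riemannZeta s - 1 / (s - 1) = zlH s := by
  have h1 := zl_ne_one hs
  have h2 : s - 1 ≠ 0 := sub_ne_zero.2 h1
  have h3 : riemannZeta s ≠ 0 := riemannZeta_ne_zero_of_one_le_re hs.le
  have h4 : deriv zlG s = riemannZeta s + (s - 1) * deriv riemannZeta s := by
    rw [(zlG_eventually h1).deriv_eq]
    have h5 : HasDerivAt (fun z : ℂ => z - 1) 1 s := (hasDerivAt_id s).sub_const 1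
    have h6 := (differentiableAt_riemannZeta h1).hasDerivAt
    have h7 : HasDerivAt (fun z : ℂ => (z - 1) * riemannZeta z)
        (1 * riemannZeta s + (s - 1) * deriv riemannZeta s) s := h5.mul h6
    rw [h7.deriv, one_mul]
  unfold zlH
  rw [h4, zlG_of_ne h1]
  field_simp
  ring

theorem zlH_eventuallyEq {s : ℂ} (hs : 1 < s.re) :
    (fun z => - deriv riemannZeta z / riemannZeta z - 1 / (z - 1)) =ᶠ[𝓝 s] zlH := by
  have h1 : {z : ℂ | 1 < z.re} ∈ 𝓝 s :=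
    (isOpen_lt continuous_const Complex.continuous_re).mem_nhds hs
  filter_upwards [h1] with z hz
  exact zlH_eq hz

/-- the compact part -/
theorem zl_small (j : ℕ) : ∃ C : ℝ, 0 < C ∧ ∀ s : ℂ, 1 < s.re → s.re ≤ 2 → |s.im| ≤ 1 →
    ‖iteratedDeriv j (fun z => - deriv riemannZeta z / riemannZeta z - 1 / (z - 1)) s‖ ≤ C := by
  set K : Set ℂ := (Set.Icc (1 : ℝ) 2) ×ℂ (Set.Icc (-1 : ℝ) 1) with hK
  have hKc : IsCompact K := isCompact_Icc.reProdIm isCompact_Icc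
  have hcont : ContinuousOn (iteratedDeriv j zlH) K := by
    intro s hs
    have h1 : 1 ≤ s.re := hs.1.1
    have h2 := (zlH_analyticAt h1).iterated_deriv j
    rw [iteratedDeriv_eq_iterate]
    exact h2.continuousAt.continuousWithinAt
  obtain ⟨C, hC⟩ := hKc.exists_bound_of_continuousOn hcont
  refine ⟨|C| + 1, by positivity, fun s h1 h2 h3 => ?_⟩
  rw [((zlH_eventuallyEq h1).iteratedDeriv j).self_of_nhds]
  have h4 : s ∈ K := ⟨⟨h1.le, h2⟩, abs_le.1 h3⟩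
  have h5 := hC s h4
  have h6 := le_abs_self C
  linarith only [h5, h6]

theorem zl_zeta_analyticAt {s : ℂ} (hs : s ≠ 1) : AnalyticAt ℂ riemannZeta s := by
  have h1 : DifferentiableOn ℂ riemannZeta {z : ℂ | z ≠ 1} := fun z hz =>
    (differentiableAt_riemannZeta hz).differentiableWithinAt
  exact h1.analyticAt (isOpen_ne.mem_nhds hs)

theorem zl_large (hG : ZGrowthStmt) (hL : ZLowerStmt) (hQ : QuotStmt) (j : ℕ) :
    ∃ C : ℝ, 0 < C ∧ ∀ s : ℂ, 1 < s.re → s.re ≤ 2 → 1 ≤ |s.im| →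
      ‖iteratedDeriv j (fun z => deriv riemannZeta z / riemannZeta z) s‖ ≤
        C * (|s.im| + 2) ^ (1 / 2 : ℝ) := by
  set ε : ℝ := 1 / (4 * ((j : ℝ) + 1)) with hε
  have hε0 : 0 < ε := by positivity
  choose Cf hCf0 hCf using fun i : ℕ => hG i ε hε0
  obtain ⟨c, hc0, hc⟩ := hL ε hε0
  obtain ⟨CQ, hCQ0, hCQ⟩ := hQ j
  set A : ℝ := 1 + ∑ i ∈ range (j + 2), Cf i + c⁻¹ with hA
  have hS0 : 0 ≤ ∑ i ∈ range (j + 2), Cf i := Finset.sum_nonneg fun i _ => (hCf0 i).le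
  have hci : 0 < c⁻¹ := inv_pos.2 hc0
  have hA1 : 1 ≤ A := by linarith only [hS0, hci]
  have hAi : ∀ i < j + 2, Cf i ≤ A := by
    intro i hi
    have h1 : Cf i ≤ ∑ i ∈ range (j + 2), Cf i :=
      Finset.single_le_sum (fun i _ => (hCf0 i).le) (Finset.mem_range.2 hi)
    linarith only [hci, h1]
  refine ⟨CQ * A ^ (2 * j + 2), by positivity, fun s h1 h2 h3 => ?_⟩
  have hs1 := zl_ne_one h1
  have hζ := riemannZeta_ne_zero_of_one_le_re h1.le
  have hx2 : (0 : ℝ) < |s.im| + 2 := by positivity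
  have hx1 : 1 ≤ (|s.im| + 2) ^ ε := Real.one_le_rpow (by linarith only [abs_nonneg s.im, h3]) hε0.le
  set R : ℝ := A * (|s.im| + 2) ^ ε with hR
  have hR1 : 1 ≤ R := one_le_mul_of_one_le_of_one_le hA1 hx1
  have hAR : ∀ i < j + 2, ‖iteratedDeriv i riemannZeta s‖ ≤ R := by
    intro i hi
    refine (hCf i s h1.le h2 h3).trans ?_
    exact mul_le_mul_of_nonneg_right (hAi i hi) (by positivity)
  have hinv : ‖riemannZeta s‖⁻¹ ≤ R := by
    have h4 := hc s h1 h2 h3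
    have h5 : 0 < c * (|s.im| + 2) ^ (-ε) := by positivity
    have h6 : ‖riemannZeta s‖⁻¹ ≤ (c * (|s.im| + 2) ^ (-ε))⁻¹ := inv_anti₀ h5 h4
    refine h6.trans ?_
    rw [mul_inv, Real.rpow_neg hx2.le, inv_inv]
    exact mul_le_mul_of_nonneg_right (by linarith only [hS0]) (by positivity)
  have hmain := hCQ (deriv riemannZeta) riemannZeta s R (zl_zeta_analyticAt hs1).deriv
    (zl_zeta_analyticAt hs1) hζ hR1 (fun i hi => by
      rw [← iteratedDeriv_succ']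
      exact hAR (i + 1) (by omega)) (fun i hi => hAR i (by omega)) hinv
  refine hmain.trans (le_of_eq ?_)
  have hpow : ((|s.im| + 2) ^ ε) ^ (2 * j + 2) = (|s.im| + 2) ^ (1 / 2 : ℝ) := by
    rw [← Real.rpow_natCast, ← Real.rpow_mul hx2.le]
    congr 1
    rw [hε]
    push_cast
    field_simp
    ring
  rw [hR, mul_pow, hpow]
  ring

theorem zl_inv (j : ℕ) (s : ℂ) (hs : 1 ≤ |s.im|) :
    ‖iteratedDeriv j (fun z : ℂ => 1 / (z - 1)) s‖ ≤ j.factorial := by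
  have h1 : (fun z : ℂ => 1 / (z - 1)) = fun z : ℂ => (1 * z - 1)⁻¹ := by
    funext z
    rw [one_mul, one_div]
  rw [h1, iteratedDeriv_eq_iterate, iter_deriv_inv_linear_sub]
  have h2 : 1 ≤ ‖1 * s - 1‖ := by
    have h3 := Complex.abs_im_le_norm (1 * s - 1)
    have h4 : (1 * s - 1).im = s.im := by simp
    rw [h4] at h3
    linarith only [hs, h3]
  have h5 : ‖(1 * s - 1) ^ (-1 - (j : ℤ))‖ ≤ 1 := by
    rw [norm_zpow]
    exact zpow_le_one_of_nonpos₀ h2 (by omega)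
  rw [norm_mul, norm_mul, norm_mul]
  simp only [norm_pow, norm_neg, norm_one, one_pow, one_mul, mul_one, Complex.norm_natCast] at *
  calc (j.factorial : ℝ) * ‖(s - 1) ^ (-1 - (j : ℤ))‖ ≤ j.factorial * 1 :=
        mul_le_mul_of_nonneg_left h5 (by positivity)
    _ = j.factorial := mul_one _

theorem zlogDeriv (hG : ZGrowthStmt) (hL : ZLowerStmt) (hQ : QuotStmt) : ZLogDerivStmt := by
  intro j
  obtain ⟨C1, hC1, h1⟩ := zl_small j
  obtain ⟨C2, hC2, h2⟩ := zl_large hG hL hQ j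
  refine ⟨C1 + (3 * C2 + j.factorial), by positivity, fun σ t hσ hσ2 => ?_⟩
  set s := lin σ t with hs
  have hre : s.re = σ := by simp [hs, lin]
  have him : s.im = 2 * π * t := by simp [hs, lin]
  have ht1 : 1 ≤ |t| + 1 := by linarith only [abs_nonneg t]
  have hp1 : 1 ≤ (|t| + 1) ^ (1 / 2 : ℝ) := Real.one_le_rpow ht1 (by norm_num)
  rcases le_total |s.im| 1 with h | h
  · refine (h1 s (by rw [hre]; exact hσ) (by rw [hre]; exact hσ2) h).trans ?_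
    have h3 : C1 ≤ C1 * (|t| + 1) ^ (1 / 2 : ℝ) := le_mul_of_one_le_right hC1.le hp1
    have h4 : 0 ≤ (3 * C2 + (j.factorial : ℝ)) * (|t| + 1) ^ (1 / 2 : ℝ) := by positivity
    linarith only [h4, h3]
  · have hs1 : s ≠ 1 := zl_ne_one (by rw [hre]; exact hσ)
    have hζ : riemannZeta s ≠ 0 := riemannZeta_ne_zero_of_one_le_re (by rw [hre]; exact hσ.le)
    have ha1 : AnalyticAt ℂ (fun z => deriv riemannZeta z / riemannZeta z) s :=
      (zl_zeta_analyticAt hs1).deriv.div (zl_zeta_analyticAt hs1) hζ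
    have ha2 : AnalyticAt ℂ (fun z : ℂ => 1 / (z - 1)) s :=
      analyticAt_const.div (analyticAt_id.sub analyticAt_const) (sub_ne_zero.2 hs1)
    have he : (fun z => - deriv riemannZeta z / riemannZeta z - 1 / (z - 1)) =
        fun z => - (deriv riemannZeta z / riemannZeta z) - 1 / (z - 1) := by
      funext z
      rw [neg_div]
    have h3 : iteratedDeriv j (fun z => - deriv riemannZeta z / riemannZeta z - 1 / (z - 1)) s =
        - iteratedDeriv j (fun z => deriv riemannZeta z / riemannZeta z) s -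
          iteratedDeriv j (fun z : ℂ => 1 / (z - 1)) s := by
      have ha3 : AnalyticAt ℂ (fun z => - (deriv riemannZeta z / riemannZeta z)) s := ha1.neg
      rw [he, iteratedDeriv_fun_sub ha3.contDiffAt ha2.contDiffAt, iteratedDeriv_fun_neg]
    rw [h3]
    have h4 := h2 s (by rw [hre]; exact hσ) (by rw [hre]; exact hσ2) h
    have h5 := zl_inv j s h
    have h6 : (|s.im| + 2) ^ (1 / 2 : ℝ) ≤ 3 * (|t| + 1) ^ (1 / 2 : ℝ) := by
      have h7 : |s.im| + 2 ≤ 9 * (|t| + 1) := by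
        rw [him, abs_mul, abs_of_pos (by positivity : (0 : ℝ) < 2 * π)]
        have := Real.pi_lt_four
        linarith only [mul_nonneg (sub_nonneg.2 ht1) (le_of_lt (sub_pos.2 this)), ht1]
      have h8 : (9 : ℝ) ^ (1 / 2 : ℝ) = 3 := by
        rw [← Real.sqrt_eq_rpow, show (9 : ℝ) = 3 ^ 2 by norm_num, Real.sqrt_sq (by norm_num)]
      calc (|s.im| + 2) ^ (1 / 2 : ℝ) ≤ (9 * (|t| + 1)) ^ (1 / 2 : ℝ) :=
            Real.rpow_le_rpow (by positivity) h7 (by norm_num)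
        _ = 3 * (|t| + 1) ^ (1 / 2 : ℝ) := by
            rw [Real.mul_rpow (by norm_num) (by positivity), h8]
    calc ‖- iteratedDeriv j (fun z => deriv riemannZeta z / riemannZeta z) s -
          iteratedDeriv j (fun z : ℂ => 1 / (z - 1)) s‖
        ≤ ‖iteratedDeriv j (fun z => deriv riemannZeta z / riemannZeta z) s‖ +
          ‖iteratedDeriv j (fun z : ℂ => 1 / (z - 1)) s‖ := by
          refine (norm_sub_le _ _).trans ?_
          rw [norm_neg]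
      _ ≤ C2 * (3 * (|t| + 1) ^ (1 / 2 : ℝ)) + j.factorial * (|t| + 1) ^ (1 / 2 : ℝ) := by
          refine add_le_add (h4.trans (mul_le_mul_of_nonneg_left h6 hC2.le)) (h5.trans ?_)
          exact le_mul_of_one_le_right (by positivity) hp1
      _ ≤ (C1 + (3 * C2 + j.factorial)) * (|t| + 1) ^ (1 / 2 : ℝ) := by
          have : 0 ≤ C1 * (|t| + 1) ^ (1 / 2 : ℝ) := by positivity
          linarith only [this]

end Vale.Agent.P013.J
end

section

/-! Riesz means by Fourier inversion. -/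

open Finset Real MeasureTheory FourierTransform

namespace Vale.Agent.P013.J

/-- the kernel `(exp (-a v) - exp (-b v)) 1_{v ≥ 0}` -/
noncomputable def rzK (a b v : ℝ) : ℂ :=
  ((Real.exp (-(a * max v 0)) - Real.exp (-(b * max v 0)) : ℝ) : ℂ)

theorem rzK_cont (a b : ℝ) : Continuous (rzK a b) := by
  unfold rzK
  fun_prop

theorem rzK_of_nonpos {a b v : ℝ} (hv : v ≤ 0) : rzK a b v = 0 := by
  simp [rzK, max_eq_right hv]

theorem rzK_of_nonneg {a b v : ℝ} (hv : 0 ≤ v) :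
    rzK a b v = ((Real.exp (-(a * v)) - Real.exp (-(b * v)) : ℝ) : ℂ) := by
  simp [rzK, max_eq_left hv]

theorem rzK_ind (a b : ℝ) : rzK a b = (Set.Ioi (0 : ℝ)).indicator
    (fun v : ℝ => Complex.exp ((-a : ℂ) * v) - Complex.exp ((-b : ℂ) * v)) := by
  funext v
  by_cases hv : 0 < v
  · rw [Set.indicator_of_mem (Set.mem_Ioi.mpr hv), rzK_of_nonneg hv.le]
    push_cast
    simp only [neg_mul]
  · rw [Set.indicator_of_notMem (by simpa using hv), rzK_of_nonpos (not_lt.mp hv)]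

theorem rzK_integrable {a b : ℝ} (ha : 0 < a) (hb : 0 < b) : Integrable (rzK a b) := by
  rw [rzK_ind, integrable_indicator_iff measurableSet_Ioi]
  exact (integrableOn_exp_mul_complex_Ioi (by simpa using ha) 0).sub
    (integrableOn_exp_mul_complex_Ioi (by simpa using hb) 0)

theorem rz_lin_re (σ t : ℝ) : (lin σ t).re = σ := by simp [lin]

theorem rz_lin_im (σ t : ℝ) : (lin σ t).im = 2 * π * t := by simp [lin]

theorem rz_lin_ne_zero {σ : ℝ} (hσ : 0 < σ) (t : ℝ) : lin σ t ≠ 0 := by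
  intro h
  have := congrArg Complex.re h
  rw [rz_lin_re] at this
  simp at this
  linarith

theorem rz_lin_add_one (σ t : ℝ) : lin σ t + 1 = lin (σ + 1) t := by
  simp only [lin]; push_cast; ring

theorem rz_lin_sub_one (σ t : ℝ) : lin σ t - 1 = lin (σ - 1) t := by
  simp only [lin]; push_cast; ring

theorem rzK_fourier {a b : ℝ} (ha : 0 < a) (hb : 0 < b) (t : ℝ) :
    𝓕 (rzK a b) t = 1 / lin a t - 1 / lin b t := by
  rw [Real.fourier_real_eq_integral_exp_smul]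
  have h1 : (fun v : ℝ => Complex.exp (↑(-2 * π * v * t) * Complex.I) • rzK a b v) =
      (Set.Ioi (0 : ℝ)).indicator (fun v : ℝ =>
        Complex.exp (-lin a t * v) - Complex.exp (-lin b t * v)) := by
    funext v
    rw [rzK_ind]
    by_cases hv : v ∈ Set.Ioi (0 : ℝ)
    · rw [Set.indicator_of_mem hv, Set.indicator_of_mem hv, smul_eq_mul, mul_sub,
        ← Complex.exp_add, ← Complex.exp_add]
      congr 2
      · simp only [lin]; push_cast; ring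
      · simp only [lin]; push_cast; ring
    · rw [Set.indicator_of_notMem hv, Set.indicator_of_notMem hv, smul_zero]
  rw [h1, integral_indicator measurableSet_Ioi,
    integral_sub (integrableOn_exp_mul_complex_Ioi (by simpa [rz_lin_re] using ha) 0)
      (integrableOn_exp_mul_complex_Ioi (by simpa [rz_lin_re] using hb) 0),
    integral_exp_mul_complex_Ioi (by simpa [rz_lin_re] using ha),
    integral_exp_mul_complex_Ioi (by simpa [rz_lin_re] using hb)]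
  simp [neg_div_neg_eq]

theorem rz_diff {a b : ℝ} (ha : 0 < a) (hb : 0 < b) (t : ℝ) :
    1 / lin a t - 1 / lin b t = ((b - a : ℝ) : ℂ) / (lin a t * lin b t) := by
  have h1 := rz_lin_ne_zero ha t
  have h2 := rz_lin_ne_zero hb t
  field_simp
  simp only [lin]; push_cast; ring

theorem rz_norm_lin {m a : ℝ} (hm : 0 < m) (hm1 : m ≤ 1) (hma : m ≤ a) (t : ℝ) :
    m ^ 2 * (1 + t ^ 2) ≤ ‖lin a t‖ ^ 2 := by
  rw [← Complex.normSq_eq_norm_sq, Complex.normSq_apply, rz_lin_re, rz_lin_im]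
  have hpi : 1 ≤ 2 * π := by linarith only [Real.pi_gt_three]
  have h1 : m ^ 2 ≤ a * a := by linarith [mul_nonneg (sub_nonneg.2 hma) (sub_nonneg.2 hma), mul_nonneg (le_of_lt (sub_pos.2 hm)) (sub_nonneg.2 hma)]
  have h2 : m ^ 2 * t ^ 2 ≤ (2 * π * t) * (2 * π * t) := by
    have : m ^ 2 ≤ 1 := by nlinarith only [hm1, hm]
    have h3 : (1 : ℝ) ≤ (2 * π) * (2 * π) := by nlinarith only [hpi]
    linarith only [mul_nonneg (sq_nonneg t) (sub_nonneg.2 h3), mul_nonneg (sq_nonneg t) (sub_nonneg.2 this)]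
  linarith only [h2, h1]

theorem rz_lin_continuous (a : ℝ) : Continuous (lin a) := by
  unfold lin
  fun_prop

theorem rz_integrable {a b : ℝ} (ha : 0 < a) (hb : 0 < b) :
    Integrable (fun t : ℝ => 1 / (lin a t * lin b t)) := by
  set m := min (min a b) 1 with hm
  have hm0 : 0 < m := lt_min (lt_min ha hb) one_pos
  have hm1 : m ≤ 1 := min_le_right _ _
  have hma : m ≤ a := (min_le_left _ _).trans (min_le_left _ _)
  have hmb : m ≤ b := (min_le_left _ _).trans (min_le_right _ _)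
  refine Integrable.mono' (g := fun t : ℝ => (m ^ 2)⁻¹ * (1 + t ^ 2)⁻¹)
    (integrable_inv_one_add_sq.const_mul _) ?_ ?_
  · refine Continuous.aestronglyMeasurable ?_
    refine Continuous.div continuous_const ((rz_lin_continuous a).mul (rz_lin_continuous b)) fun t => ?_
    exact mul_ne_zero (rz_lin_ne_zero ha t) (rz_lin_ne_zero hb t)
  · refine Filter.Eventually.of_forall fun t => ?_
    rw [norm_div, norm_one, norm_mul, one_div, ← mul_inv]
    have h1 := rz_norm_lin hm0 hm1 hma t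
    have h2 := rz_norm_lin hm0 hm1 hmb t
    have h3 : 0 < m ^ 2 * (1 + t ^ 2) := by positivity
    refine inv_anti₀ h3 ?_
    have h4 : (m ^ 2 * (1 + t ^ 2)) ^ 2 ≤ (‖lin a t‖ * ‖lin b t‖) ^ 2 := by
      rw [mul_pow ‖lin a t‖, sq (m ^ 2 * (1 + t ^ 2))]
      exact mul_le_mul h1 h2 h3.le (by positivity)
    exact (sq_le_sq₀ h3.le (by positivity)).mp h4

theorem rz_inversion {a b : ℝ} (ha : 0 < a) (hb : 0 < b) (u : ℝ) :
    ∫ t : ℝ, Complex.exp (↑(2 * π * (u * t)) * Complex.I) *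
      (((b - a : ℝ) : ℂ) / (lin a t * lin b t)) = rzK a b u := by
  have h1 : 𝓕 (rzK a b) = fun t => ((b - a : ℝ) : ℂ) / (lin a t * lin b t) := by
    funext t
    rw [rzK_fourier ha hb, rz_diff ha hb]
  have h2 : Integrable (𝓕 (rzK a b)) := by
    rw [h1]
    have := (rz_integrable ha hb).const_mul ((b - a : ℝ) : ℂ)
    refine this.congr (Filter.Eventually.of_forall fun t => ?_)
    simp only [mul_one_div]
  have h3 := congrFun ((rzK_cont a b).fourierInv_fourier_eq (rzK_integrable ha hb) h2) u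
  rw [Real.fourierInv_eq', h1] at h3
  rw [← h3]
  refine integral_congr_ae (Filter.Eventually.of_forall fun t => ?_)
  simp only [smul_eq_mul]
  rfl

/-- `E u t = exp (2 π i u t)` -/
noncomputable def rzE (u t : ℝ) : ℂ := Complex.exp (↑(2 * π * (u * t)) * Complex.I)

theorem rzE_norm (u t : ℝ) : ‖rzE u t‖ = 1 := Complex.norm_exp_ofReal_mul_I _

theorem rzE_cont (u : ℝ) : Continuous (rzE u) := by
  unfold rzE
  fun_prop

theorem rzE_integrable {f : ℝ → ℂ} (hf : Integrable f) (u : ℝ) :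
    Integrable (fun t => rzE u t * f t) := by
  refine hf.mono ((rzE_cont u).aestronglyMeasurable.mul hf.1)
    (Filter.Eventually.of_forall fun t => ?_)
  rw [norm_mul, rzE_norm, one_mul]

theorem rz_term (a : ℕ → ℂ) (σ t : ℝ) (n : ℕ) :
    LSeries.term a (lin σ t) n =
      LSeries.term a σ n * Complex.exp (↑(2 * π * (-Real.log n * t)) * Complex.I) := by
  rcases Nat.eq_zero_or_pos n with rfl | hn
  · simp
  · have hn0 : (n : ℂ) ≠ 0 := by exact_mod_cast hn.ne'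
    rw [LSeries.term_of_ne_zero hn.ne', LSeries.term_of_ne_zero hn.ne']
    have h1 : (n : ℂ) ^ lin σ t = (n : ℂ) ^ (σ : ℂ) *
        Complex.exp (-(↑(2 * π * (-Real.log n * t)) * Complex.I)) := by
      rw [lin, Complex.cpow_add _ _ hn0]
      congr 1
      rw [Complex.cpow_def_of_ne_zero hn0, ← Complex.natCast_log]
      congr 1
      push_cast
      ring
    rw [h1, Complex.exp_neg, div_mul_eq_div_div, div_inv_eq_mul]

theorem rz_term_norm (a : ℕ → ℂ) (σ t : ℝ) (n : ℕ) :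
    ‖LSeries.term a (lin σ t) n‖ = ‖LSeries.term a σ n‖ := by
  rw [rz_term, norm_mul, Complex.norm_exp_ofReal_mul_I, mul_one]

theorem rz_one_div (σ t : ℝ) :
    1 / (lin σ t * (lin σ t + 1)) = ((σ + 1 - σ : ℝ) : ℂ) / (lin σ t * lin (σ + 1) t) := by
  rw [rz_lin_add_one]
  congr 1
  simp

theorem rz_single (a : ℕ → ℂ) {σ : ℝ} (hσ : 0 < σ) (u : ℝ) (n : ℕ) :
    ∫ t : ℝ, rzE u t * (LSeries.term a (lin σ t) n / (lin σ t * (lin σ t + 1))) =
      LSeries.term a σ n * rzK σ (σ + 1) (u - Real.log n) := by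
  rw [← rz_inversion hσ (by linarith : 0 < σ + 1) (u - Real.log n), ← integral_const_mul]
  refine integral_congr_ae (Filter.Eventually.of_forall fun t => ?_)
  simp only
  rw [rz_term, div_eq_mul_one_div _ (lin σ t * (lin σ t + 1)), rz_one_div σ]
  have h1 : Complex.exp (↑(2 * π * ((u - Real.log n) * t)) * Complex.I) =
      rzE u t * Complex.exp (↑(2 * π * (-Real.log n * t)) * Complex.I) := by
    rw [rzE, ← Complex.exp_add]
    congr 1
    push_cast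
    ring
  rw [h1]
  ring

theorem rz_series (a : ℕ → ℂ) {σ : ℝ} (hσ : 0 < σ) (ha : LSeriesSummable a σ) (u : ℝ) :
    ∫ t : ℝ, rzE u t * (LSeries a (lin σ t) / (lin σ t * (lin σ t + 1))) =
      ∑' n, LSeries.term a σ n * rzK σ (σ + 1) (u - Real.log n) := by
  have hint : Integrable (fun t : ℝ => 1 / (lin σ t * (lin σ t + 1))) := by
    have := rz_integrable hσ (by linarith : 0 < σ + 1)
    simpa only [rz_lin_add_one] using this
  have hcont : Continuous fun t : ℝ => 1 / (lin σ t * (lin σ t + 1)) := by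
    refine Continuous.div continuous_const
      ((rz_lin_continuous σ).mul ((rz_lin_continuous σ).add continuous_const)) fun t => ?_
    rw [rz_lin_add_one]
    exact mul_ne_zero (rz_lin_ne_zero hσ t) (rz_lin_ne_zero (by linarith) t)
  have hF : ∀ n : ℕ, Integrable (fun t : ℝ =>
      rzE u t * (LSeries.term a (lin σ t) n / (lin σ t * (lin σ t + 1)))) := by
    intro n
    apply rzE_integrable
    have h1 : (fun t : ℝ => LSeries.term a (lin σ t) n / (lin σ t * (lin σ t + 1))) =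
        fun t : ℝ => LSeries.term a σ n * (rzE (-Real.log n) t *
          (1 / (lin σ t * (lin σ t + 1)))) := by
      funext t
      rw [rz_term, rzE, div_eq_mul_one_div _ (lin σ t * (lin σ t + 1))]
      ring
    rw [h1]
    exact (rzE_integrable hint _).const_mul _
  have hnorm : ∀ n : ℕ, ∫ t : ℝ,
      ‖rzE u t * (LSeries.term a (lin σ t) n / (lin σ t * (lin σ t + 1)))‖ =
        ‖LSeries.term a σ n‖ * ∫ t : ℝ, ‖1 / (lin σ t * (lin σ t + 1))‖ := by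
    intro n
    rw [← integral_const_mul]
    refine integral_congr_ae (Filter.Eventually.of_forall fun t => ?_)
    simp only
    rw [norm_mul, rzE_norm, one_mul, div_eq_mul_one_div _ (lin σ t * (lin σ t + 1)), norm_mul,
      rz_term_norm]
  have hsum : Summable fun n : ℕ => ∫ t : ℝ,
      ‖rzE u t * (LSeries.term a (lin σ t) n / (lin σ t * (lin σ t + 1)))‖ := by
    simp only [hnorm]
    exact ha.norm.mul_right _
  have h1 := integral_tsum_of_summable_integral_norm hF hsum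
  simp only [rz_single a hσ u] at h1
  rw [h1]
  refine integral_congr_ae (Filter.Eventually.of_forall fun t => ?_)
  simp only
  rw [tsum_mul_left, tsum_div_const]
  rfl

theorem rz_finite (a : ℕ → ℂ) {σ : ℝ} (x : ℝ) (hx : 1 ≤ x) :
    ∑' n, LSeries.term a σ n * rzK σ (σ + 1) (Real.log x - Real.log n) =
      ((x ^ (-σ) : ℝ) : ℂ) * ∑ n ∈ Icc 1 ⌊x⌋₊, a n * (1 - (n : ℂ) / x) := by
  have hx0 : 0 < x := by linarith
  rw [tsum_eq_sum (s := Icc 1 ⌊x⌋₊), Finset.mul_sum]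
  · refine Finset.sum_congr rfl fun n hn => ?_
    rw [Finset.mem_Icc] at hn
    have hn1 : 0 < n := hn.1
    have hnx : (n : ℝ) ≤ x := (Nat.le_floor_iff hx0.le).mp hn.2
    have hn0 : (0 : ℝ) < n := by exact_mod_cast hn1
    have hlog : 0 ≤ Real.log x - Real.log n := by
      rw [sub_nonneg]; exact Real.log_le_log hn0 hnx
    have h1 : Real.exp (-(σ * (Real.log x - Real.log n))) = x ^ (-σ) * (n : ℝ) ^ σ := by
      rw [Real.rpow_def_of_pos hx0, Real.rpow_def_of_pos hn0, ← Real.exp_add]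
      congr 1; ring
    have h2 : Real.exp (-((σ + 1) * (Real.log x - Real.log n))) =
        x ^ (-σ) * (n : ℝ) ^ σ * (n / x) := by
      rw [Real.rpow_def_of_pos hx0, Real.rpow_def_of_pos hn0]
      have h3 : (n : ℝ) / x = Real.exp (Real.log n - Real.log x) := by
        rw [Real.exp_sub, Real.exp_log hn0, Real.exp_log hx0]
      rw [h3, ← Real.exp_add, ← Real.exp_add]
      congr 1; ring
    rw [rzK_of_nonneg hlog, h1, h2, LSeries.term_of_ne_zero hn1.ne']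
    have h4 : ((n : ℝ) ^ σ : ℝ) = (((n : ℝ) ^ σ : ℝ) : ℝ) := rfl
    have h5 : (n : ℂ) ^ (σ : ℂ) = (((n : ℝ) ^ σ : ℝ) : ℂ) := by
      rw [Complex.ofReal_cpow hn0.le]; simp
    have h6 : (((n : ℝ) ^ σ : ℝ) : ℂ) ≠ 0 := by
      exact_mod_cast (Real.rpow_pos_of_pos hn0 σ).ne'
    rw [h5]
    push_cast
    field_simp
  · intro n hn
    rcases Nat.eq_zero_or_pos n with rfl | hn1
    · simp
    · have hnx : x < n := by
        by_contra hcon
        exact hn (Finset.mem_Icc.mpr ⟨hn1, (Nat.le_floor_iff hx0.le).mpr (not_lt.mp hcon)⟩)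
      rw [rzK_of_nonpos, mul_zero]
      rw [sub_nonpos]
      exact Real.log_le_log hx0 hnx.le

theorem rz_pole {σ : ℝ} (hσ : 1 < σ) (c : ℂ) (x : ℝ) (hx : 1 ≤ x) :
    Integrable (fun t : ℝ => c / (lin σ t - 1) / (lin σ t * (lin σ t + 1))) ∧
    ∫ t : ℝ, rzE (Real.log x) t * (c / (lin σ t - 1) / (lin σ t * (lin σ t + 1))) =
      ((x ^ (-σ) : ℝ) : ℂ) * (c * (x / 2 - 1 + 1 / (2 * x))) := by
  have hx0 : 0 < x := by linarith
  have hσ0 : 0 < σ := by linarith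
  have hσ1 : 0 < σ - 1 := by linarith
  have hσ2 : 0 < σ + 1 := by linarith
  have heq : ∀ t : ℝ, c / (lin σ t - 1) / (lin σ t * (lin σ t + 1)) =
      c / 2 * (((σ - (σ - 1) : ℝ) : ℂ) / (lin (σ - 1) t * lin σ t)) -
        c / 2 * (((σ + 1 - σ : ℝ) : ℂ) / (lin σ t * lin (σ + 1) t)) := by
    intro t
    have h1 := rz_lin_ne_zero hσ0 t
    have h2 := rz_lin_ne_zero hσ1 t
    have h3 := rz_lin_ne_zero hσ2 t
    rw [rz_lin_add_one, rz_lin_sub_one]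
    have e1 : lin (σ + 1) t = lin σ t + 1 := (rz_lin_add_one σ t).symm
    have e2 : lin (σ - 1) t = lin σ t - 1 := (rz_lin_sub_one σ t).symm
    rw [e1] at h3 ⊢
    rw [e2] at h2 ⊢
    push_cast
    field_simp
    ring
  have hi1 : Integrable (fun t : ℝ =>
      c / 2 * (((σ - (σ - 1) : ℝ) : ℂ) / (lin (σ - 1) t * lin σ t))) := by
    have := ((rz_integrable hσ1 hσ0).const_mul ((σ - (σ - 1) : ℝ) : ℂ)).const_mul (c / 2)
    simpa only [mul_one_div] using this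
  have hi2 : Integrable (fun t : ℝ =>
      c / 2 * (((σ + 1 - σ : ℝ) : ℂ) / (lin σ t * lin (σ + 1) t))) := by
    have := ((rz_integrable hσ0 hσ2).const_mul ((σ + 1 - σ : ℝ) : ℂ)).const_mul (c / 2)
    simpa only [mul_one_div] using this
  have hfun : (fun t : ℝ => c / (lin σ t - 1) / (lin σ t * (lin σ t + 1))) = fun t : ℝ =>
      c / 2 * (((σ - (σ - 1) : ℝ) : ℂ) / (lin (σ - 1) t * lin σ t)) -
        c / 2 * (((σ + 1 - σ : ℝ) : ℂ) / (lin σ t * lin (σ + 1) t)) := funext heq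
  refine ⟨by rw [hfun]; exact hi1.sub hi2, ?_⟩
  have h1 : ∫ t : ℝ, rzE (Real.log x) t * (c / (lin σ t - 1) / (lin σ t * (lin σ t + 1))) =
      c / 2 * rzK (σ - 1) σ (Real.log x) - c / 2 * rzK σ (σ + 1) (Real.log x) := by
    rw [← rz_inversion hσ1 hσ0, ← rz_inversion hσ0 hσ2, ← integral_const_mul,
      ← integral_const_mul, ← integral_sub]
    · refine integral_congr_ae (Filter.Eventually.of_forall fun t => ?_)
      simp only
      rw [heq, rzE]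
      ring
    · have := rzE_integrable hi1 (Real.log x)
      refine this.congr (Filter.Eventually.of_forall fun t => ?_)
      simp only [rzE]
      ring
    · have := rzE_integrable hi2 (Real.log x)
      refine this.congr (Filter.Eventually.of_forall fun t => ?_)
      simp only [rzE]
      ring
  rw [h1, rzK_of_nonneg (Real.log_nonneg hx), rzK_of_nonneg (Real.log_nonneg hx)]
  have e0 : x ^ (-σ) = Real.exp (-(σ * Real.log x)) := by
    rw [Real.rpow_def_of_pos hx0]; congr 1; ring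
  have e1 : Real.exp (-((σ - 1) * Real.log x)) = x ^ (-σ) * x := by
    have e3 : x = Real.exp (Real.log x) := (Real.exp_log hx0).symm
    calc Real.exp (-((σ - 1) * Real.log x))
        = Real.exp (-(σ * Real.log x)) * Real.exp (Real.log x) := by
          rw [← Real.exp_add]; congr 1; ring
      _ = x ^ (-σ) * x := by rw [← e3, e0]
  have e2 : Real.exp (-((σ + 1) * Real.log x)) = x ^ (-σ) / x := by
    rw [e0, eq_div_iff hx0.ne']
    have e3 : x = Real.exp (Real.log x) := (Real.exp_log hx0).symm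
    calc Real.exp (-((σ + 1) * Real.log x)) * x
        = Real.exp (-((σ + 1) * Real.log x)) * Real.exp (Real.log x) := by rw [← e3]
      _ = Real.exp (-(σ * Real.log x)) := by rw [← Real.exp_add]; congr 1; ring
  rw [e1, e2, ← e0]
  have hxc : (x : ℂ) ≠ 0 := by exact_mod_cast hx0.ne'
  push_cast
  field_simp
  ring

theorem riesz : RieszStmt := by
  intro a c F σ hσ ha hF j hC hI x hx
  have hx0 : 0 < x := by linarith only [hx]
  have hσ0 : 0 < σ := by linarith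
  set G := Gk F σ with hG
  have hGi : Integrable G := by simpa using hI 0 (Nat.zero_le j)
  obtain ⟨hp1, hp2⟩ := rz_pole hσ c x hx
  have hGeq : ∀ t : ℝ, LSeries a (lin σ t) / (lin σ t * (lin σ t + 1)) =
      G t + c / (lin σ t - 1) / (lin σ t * (lin σ t + 1)) := by
    intro t
    rw [hF t, hG, Gk, add_div]
  have h1 : ∫ t : ℝ, rzE (Real.log x) t * (LSeries a (lin σ t) / (lin σ t * (lin σ t + 1))) =
      (∫ t : ℝ, rzE (Real.log x) t * G t) + ∫ t : ℝ, rzE (Real.log x) t *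
        (c / (lin σ t - 1) / (lin σ t * (lin σ t + 1))) := by
    rw [← integral_add (rzE_integrable hGi _) (rzE_integrable hp1 _)]
    refine integral_congr_ae (Filter.Eventually.of_forall fun t => ?_)
    simp only
    rw [hGeq, mul_add]
  rw [rz_series a hσ0 ha, rz_finite a x hx, hp2] at h1
  have hA : (∫ t : ℝ, rzE (Real.log x) t * G t) = ((x ^ (-σ) : ℝ) : ℂ) *
      (∑ n ∈ Icc 1 ⌊x⌋₊, a n * (1 - (n : ℂ) / x) - c * (x / 2 - 1 + 1 / (2 * x))) := by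
    rw [mul_sub, h1]; ring
  have hA2 : (∫ t : ℝ, rzE (Real.log x) t * G t) = 𝓕 G (-Real.log x) := by
    rw [Real.fourier_real_eq_integral_exp_smul]
    refine integral_congr_ae (Filter.Eventually.of_forall fun t => ?_)
    simp only [smul_eq_mul, rzE]
    congr 3
    push_cast
    ring
  have hD := congrFun (Real.fourier_iteratedDeriv (N := (j : ℕ∞)) (n := j) hC
    (fun n hn => hI n (by exact_mod_cast hn)) le_rfl) (-Real.log x)
  have hB : ‖𝓕 (iteratedDeriv j G) (-Real.log x)‖ ≤ ∫ t, ‖iteratedDeriv j G t‖ := by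
    rw [Real.fourier_real_eq_integral_exp_smul]
    refine (norm_integral_le_integral_norm _).trans (le_of_eq ?_)
    refine integral_congr_ae (Filter.Eventually.of_forall fun t => ?_)
    simp only
    rw [norm_smul, Complex.norm_exp_ofReal_mul_I, one_mul]
  rw [hD, ← hA2, hA, norm_smul, norm_mul, norm_pow] at hB
  have hlog : 0 ≤ Real.log x := Real.log_nonneg hx
  have hn1 : ‖(2 * π * Complex.I * ((-Real.log x : ℝ) : ℂ) : ℂ)‖ = 2 * π * Real.log x := by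
    rw [norm_mul, norm_mul, norm_mul, Complex.norm_I, Complex.norm_real, Complex.norm_real,
      Real.norm_eq_abs, Real.norm_eq_abs, abs_neg, abs_of_nonneg hlog, abs_of_pos Real.pi_pos]
    simp
  rw [hn1, Complex.norm_real, Real.norm_of_nonneg (Real.rpow_nonneg hx0.le _)] at hB
  have hxx : x ^ σ * x ^ (-σ) = 1 := by rw [← Real.rpow_add hx0]; simp
  set N := ‖∑ n ∈ Icc 1 ⌊x⌋₊, a n * (1 - (n : ℂ) / x) - c * (x / 2 - 1 + 1 / (2 * x))‖ with hN
  calc N * (2 * π * Real.log x) ^ j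
      = x ^ σ * ((2 * π * Real.log x) ^ j * (x ^ (-σ) * N)) := by
        rw [show x ^ σ * ((2 * π * Real.log x) ^ j * (x ^ (-σ) * N)) =
          (x ^ σ * x ^ (-σ)) * (N * (2 * π * Real.log x) ^ j) by ring, hxx, one_mul]
    _ ≤ x ^ σ * ∫ t, ‖iteratedDeriv j G t‖ :=
        mul_le_mul_of_nonneg_left hB (Real.rpow_nonneg hx0.le _)

end Vale.Agent.P013.J
end

section

/-!
# Siegel-Walfisz, module (A): growth of the derivatives of `L(s, χ)` and `ζ(s)`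
-/

open Finset Real

namespace Vale.Agent.P013.J

theorem growth_sum (r : ℝ) (hr : 0 < r) (N : ℕ) (hN : 1 ≤ N) (σ : ℝ) (hσ : 1 - r ≤ σ) :
    ∑ n ∈ Icc 1 N, (n : ℝ) ^ (-σ) ≤ (1 + 1 / r) * (N : ℝ) ^ (2 * r) := by
  have hN1 : (1 : ℝ) ≤ N := by exact_mod_cast hN
  have hN0 : (0 : ℝ) < N := by linarith only [hN1]
  have h1 : ∀ n ∈ Icc 1 N, (n : ℝ) ^ (-σ) ≤ (N : ℝ) ^ r * (n : ℝ)⁻¹ := by
    intro n hn
    rw [mem_Icc] at hn
    have hn1 : (1 : ℝ) ≤ n := by exact_mod_cast hn.1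
    have hn0 : (0 : ℝ) < n := by linarith only [hn1]
    have hnN : (n : ℝ) ≤ N := by exact_mod_cast hn.2
    calc (n : ℝ) ^ (-σ) ≤ (n : ℝ) ^ (r + (-1)) :=
          rpow_le_rpow_of_exponent_le hn1 (by linarith only [hσ])
      _ = (n : ℝ) ^ r * (n : ℝ)⁻¹ := by rw [rpow_add hn0, rpow_neg_one]
      _ ≤ (N : ℝ) ^ r * (n : ℝ)⁻¹ := by
          refine mul_le_mul_of_nonneg_right ?_ (by positivity)
          exact rpow_le_rpow hn0.le hnN hr.le
  have h2 : ∑ n ∈ Icc 1 N, ((n : ℝ))⁻¹ ≤ 1 + Real.log N := by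
    have := harmonic_le_one_add_log N
    rw [harmonic_eq_sum_Icc] at this
    push_cast at this
    exact this
  have h3 : (1 : ℝ) ≤ (N : ℝ) ^ r := one_le_rpow hN1 hr.le
  have h4 : Real.log N ≤ (N : ℝ) ^ r / r := log_le_rpow_div hN0.le hr
  calc ∑ n ∈ Icc 1 N, (n : ℝ) ^ (-σ) ≤ ∑ n ∈ Icc 1 N, (N : ℝ) ^ r * (n : ℝ)⁻¹ := sum_le_sum h1
    _ = (N : ℝ) ^ r * ∑ n ∈ Icc 1 N, ((n : ℝ))⁻¹ := by rw [mul_sum]
    _ ≤ (N : ℝ) ^ r * (1 + Real.log N) := mul_le_mul_of_nonneg_left h2 (by positivity)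
    _ ≤ (N : ℝ) ^ r * ((N : ℝ) ^ r + (N : ℝ) ^ r / r) := by
        refine mul_le_mul_of_nonneg_left (add_le_add h3 h4) (by positivity)
    _ = (1 + 1 / r) * (N : ℝ) ^ (2 * r) := by
        rw [two_mul, rpow_add hN0]
        ring

theorem growth_norm_le (w : ℂ) (h1 : 0 ≤ w.re) (h2 : w.re ≤ 3) : ‖w‖ ≤ 3 / 2 * (|w.im| + 2) := by
  have := Complex.norm_le_abs_re_add_abs_im w
  rw [abs_of_nonneg h1] at this
  have h3 := abs_nonneg w.im
  linarith

theorem growth_ceil (x : ℝ) (hx : 1 ≤ x) : 1 ≤ ⌈x⌉₊ ∧ x ≤ (⌈x⌉₊ : ℝ) ∧ (⌈x⌉₊ : ℝ) ≤ 2 * x := by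
  have h1 : x ≤ (⌈x⌉₊ : ℝ) := Nat.le_ceil x
  have h2 : (⌈x⌉₊ : ℝ) < x + 1 := Nat.ceil_lt_add_one (by linarith)
  refine ⟨?_, h1, by linarith⟩
  exact_mod_cast (le_trans hx h1)

theorem growth_L (h : LApproxStmt) (r : ℝ) (hr : 0 < r) (hr1 : r ≤ 1 / 2) (q : ℕ) [NeZero q]
    (χ : DirichletCharacter ℂ q) (hχ : χ ≠ 1) (w : ℂ) (h1 : 1 - r ≤ w.re) (h2 : w.re ≤ 3) :
    ‖DirichletCharacter.LFunction χ w‖ ≤
      (7 + 1 / r) * (2 * ((q : ℝ) * (|w.im| + 2))) ^ (2 * r) := by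
  have hq : (1 : ℝ) ≤ q := by exact_mod_cast Nat.one_le_iff_ne_zero.2 (NeZero.ne q)
  have hre : 1 / 2 ≤ w.re := by linarith only [hr1, h1]
  have hX : 1 ≤ (q : ℝ) * (|w.im| + 2) := by nlinarith only [abs_nonneg w.im, hr, hr1, hq]
  obtain ⟨hN1, hN2, hN3⟩ := growth_ceil _ hX
  set N := ⌈(q : ℝ) * (|w.im| + 2)⌉₊ with hN
  have hNr : (1 : ℝ) ≤ N := by exact_mod_cast hN1
  have hN0 : (0 : ℝ) < N := by linarith only [hr, hr1, hX, hN2]
  have hA := h q χ hχ w (by linarith only [hr, hr1, h1]) N hN1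
  have hS : ‖∑ n ∈ Icc 1 N, χ (n : ZMod q) * (n : ℂ) ^ (-w)‖ ≤ (1 + 1 / r) * (N : ℝ) ^ (2 * r) := by
    refine (norm_sum_le _ _).trans (le_trans (sum_le_sum fun n hn => ?_)
      (growth_sum r hr N hN1 w.re h1))
    rw [mem_Icc] at hn
    rw [norm_mul, Complex.norm_natCast_cpow_of_pos (by omega), Complex.neg_re]
    refine mul_le_of_le_one_left (by positivity) (DirichletCharacter.norm_le_one χ _)
  have hw := growth_norm_le w (by linarith only [hr, hr1, h1]) h2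
  have hT : 2 * (q : ℝ) * ‖w‖ / w.re * (N : ℝ) ^ (-w.re) ≤ 6 * (N : ℝ) ^ (2 * r) := by
    have e1 : 2 * (q : ℝ) * ‖w‖ ≤ 3 * N := by
      have : 2 * (q : ℝ) * ‖w‖ ≤ 2 * (q : ℝ) * (3 / 2 * (|w.im| + 2)) :=
        mul_le_mul_of_nonneg_left hw (by positivity)
      linarith only [hN2, this]
    have e2 : 2 * (q : ℝ) * ‖w‖ / w.re ≤ 6 * N := by
      rw [div_le_iff₀ (by linarith only [hr, hr1, h1])]
      nlinarith only [e1, hr1, h1]
    have e3 : (N : ℝ) ^ (-w.re) ≤ (N : ℝ) ^ (2 * r + (-1)) :=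
      rpow_le_rpow_of_exponent_le hNr (by linarith only [hr, h1])
    rw [rpow_add hN0, rpow_neg_one] at e3
    calc 2 * (q : ℝ) * ‖w‖ / w.re * (N : ℝ) ^ (-w.re) ≤
          (6 * N) * ((N : ℝ) ^ (2 * r) * (N : ℝ)⁻¹) :=
            mul_le_mul e2 e3 (by positivity) (by positivity)
      _ = 6 * (N : ℝ) ^ (2 * r) := by field_simp
  have hP : (N : ℝ) ^ (2 * r) ≤ (2 * ((q : ℝ) * (|w.im| + 2))) ^ (2 * r) :=
    rpow_le_rpow hN0.le hN3 (by linarith only [hr])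
  calc ‖DirichletCharacter.LFunction χ w‖ =
        ‖(DirichletCharacter.LFunction χ w - ∑ n ∈ Icc 1 N, χ (n : ZMod q) * (n : ℂ) ^ (-w)) +
          ∑ n ∈ Icc 1 N, χ (n : ZMod q) * (n : ℂ) ^ (-w)‖ := by rw [sub_add_cancel]
    _ ≤ 6 * (N : ℝ) ^ (2 * r) + (1 + 1 / r) * (N : ℝ) ^ (2 * r) :=
        (norm_add_le _ _).trans (add_le_add (hA.trans hT) hS)
    _ = (7 + 1 / r) * (N : ℝ) ^ (2 * r) := by ring
    _ ≤ _ := mul_le_mul_of_nonneg_left hP (by positivity)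

theorem growth_Z (h : ZApproxStmt) (r : ℝ) (hr : 0 < r) (hr1 : r ≤ 1 / 2) (w : ℂ)
    (h1 : 1 - r ≤ w.re) (h2 : w.re ≤ 3) (h3 : 1 / 2 ≤ |w.im|) :
    ‖riemannZeta w‖ ≤ (7 + 1 / r) * (2 * (|w.im| + 2)) ^ (2 * r) := by
  have hre : 1 / 2 ≤ w.re := by linarith only [hr1, h1]
  have hX : 1 ≤ |w.im| + 2 := by linarith only [hr, hr1, h3]
  obtain ⟨hN1, hN2, hN3⟩ := growth_ceil _ hX
  set N := ⌈|w.im| + 2⌉₊ with hN
  have hNr : (1 : ℝ) ≤ N := by exact_mod_cast hN1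
  have hN0 : (0 : ℝ) < N := by linarith only [hr, hr1, h3, hN2]
  have hw1 : w ≠ 1 := by
    intro hc
    rw [hc, Complex.one_im, abs_zero] at h3
    linarith only [hr, hr1, h3]
  have hA := h w (by linarith only [hr, hr1, h1]) hw1 N hN1
  have hS : ‖∑ n ∈ Icc 1 N, (n : ℂ) ^ (-w)‖ ≤ (1 + 1 / r) * (N : ℝ) ^ (2 * r) := by
    refine (norm_sum_le _ _).trans (le_trans (sum_le_sum fun n hn => ?_)
      (growth_sum r hr N hN1 w.re h1))
    rw [mem_Icc] at hn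
    rw [Complex.norm_natCast_cpow_of_pos (by omega), Complex.neg_re]
  have hw := growth_norm_le w (by linarith only [hr, hr1, h1]) h2
  have hT : ‖w‖ / w.re * (N : ℝ) ^ (-w.re) ≤ 3 * (N : ℝ) ^ (2 * r) := by
    have e1 : ‖w‖ ≤ 3 / 2 * N := by linarith only [hN2, hw]
    have e2 : ‖w‖ / w.re ≤ 3 * N := by
      rw [div_le_iff₀ (by linarith only [hr, hr1, h1])]
      nlinarith only [hN2, hw, hr1, h1]
    have e3 : (N : ℝ) ^ (-w.re) ≤ (N : ℝ) ^ (2 * r + (-1)) :=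
      rpow_le_rpow_of_exponent_le hNr (by linarith only [hr, h1])
    rw [rpow_add hN0, rpow_neg_one] at e3
    calc ‖w‖ / w.re * (N : ℝ) ^ (-w.re) ≤
          (3 * N) * ((N : ℝ) ^ (2 * r) * (N : ℝ)⁻¹) :=
            mul_le_mul e2 e3 (by positivity) (by positivity)
      _ = 3 * (N : ℝ) ^ (2 * r) := by field_simp
  have hM : ‖(N : ℂ) ^ (1 - w) / (w - 1)‖ ≤ 2 * (N : ℝ) ^ (2 * r) := by
    rw [norm_div, Complex.norm_natCast_cpow_of_pos (by omega)]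
    have e1 : 1 / 2 ≤ ‖w - 1‖ := by
      have := Complex.abs_im_le_norm (w - 1)
      rw [Complex.sub_im, Complex.one_im, sub_zero] at this
      linarith only [h3, this]
    have e2 : (N : ℝ) ^ (1 - w).re ≤ (N : ℝ) ^ (2 * r) := by
      refine rpow_le_rpow_of_exponent_le hNr ?_
      rw [Complex.sub_re, Complex.one_re]
      linarith only [hr, h1]
    rw [div_le_iff₀ (by linarith only [hr, hr1, e1])]
    have e3 : 0 ≤ (N : ℝ) ^ (2 * r) := by positivity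
    nlinarith only [e2, hr, hr1, e1, e3]
  have hP : (N : ℝ) ^ (2 * r) ≤ (2 * (|w.im| + 2)) ^ (2 * r) :=
    rpow_le_rpow hN0.le hN3 (by linarith only [hr])
  have hN2r : 0 ≤ (N : ℝ) ^ (2 * r) := by positivity
  calc ‖riemannZeta w‖ =
        ‖(riemannZeta w - ∑ n ∈ Icc 1 N, (n : ℂ) ^ (-w) - (N : ℂ) ^ (1 - w) / (w - 1)) +
          (∑ n ∈ Icc 1 N, (n : ℂ) ^ (-w) + (N : ℂ) ^ (1 - w) / (w - 1))‖ := by
            congr 1
            ring
    _ ≤ 3 * (N : ℝ) ^ (2 * r) + ((1 + 1 / r) * (N : ℝ) ^ (2 * r) + 2 * (N : ℝ) ^ (2 * r)) :=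
        (norm_add_le _ _).trans (add_le_add (hA.trans hT)
          ((norm_add_le _ _).trans (add_le_add hS hM)))
    _ ≤ (7 + 1 / r) * (N : ℝ) ^ (2 * r) := by linarith only [hN2r]
    _ ≤ _ := mul_le_mul_of_nonneg_left hP (by positivity)

/-- geometry of the Cauchy disc -/
theorem growth_disc (r : ℝ) (hr1 : r ≤ 1 / 2) (s w : ℂ) (hs1 : 1 ≤ s.re) (hs2 : s.re ≤ 2)
    (hw : w ∈ Metric.closedBall s r) :
    1 - r ≤ w.re ∧ w.re ≤ 3 ∧ |w.im| ≤ |s.im| + 1 / 2 ∧ |s.im| - 1 / 2 ≤ |w.im| := by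
  rw [Metric.mem_closedBall, dist_eq_norm] at hw
  have h1 := (Complex.abs_re_le_norm (w - s)).trans hw
  have h2 := (Complex.abs_im_le_norm (w - s)).trans hw
  rw [Complex.sub_re, abs_le] at h1
  rw [Complex.sub_im] at h2
  have h3 := abs_sub_abs_le_abs_sub w.im s.im
  have h4 := abs_sub_abs_le_abs_sub s.im w.im
  rw [abs_sub_comm s.im w.im] at h4
  refine ⟨by linarith only [h1.1, hs1, h1], by linarith only [h1.2, hr1, hs2, h1], by linarith only [hr1, h2, h3], by linarith only [hr1, h2, h4]⟩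

theorem growth_pow (r ε Y X : ℝ) (hr : 0 < r) (hrε : 2 * r ≤ ε) (hX : 1 ≤ X) (hY : 0 ≤ Y)
    (hYX : Y ≤ 4 * X) : Y ^ (2 * r) ≤ 4 ^ (2 * r) * X ^ ε := by
  calc Y ^ (2 * r) ≤ (4 * X) ^ (2 * r) := rpow_le_rpow hY hYX (by linarith only [hr])
    _ = 4 ^ (2 * r) * X ^ (2 * r) := mul_rpow (by norm_num) (by linarith)
    _ ≤ 4 ^ (2 * r) * X ^ ε :=
        mul_le_mul_of_nonneg_left (rpow_le_rpow_of_exponent_le hX hrε) (by positivity)

theorem lgrowth (h : LApproxStmt) : LGrowthStmt := by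
  intro j ε hε
  set r : ℝ := min ε 1 / 2 with hr
  have hr0 : 0 < r := by positivity
  have hr1 : r ≤ 1 / 2 := by
    have := min_le_right ε 1
    linarith only [hr, this]
  have hrε : 2 * r ≤ ε := by
    have := min_le_left ε 1
    linarith only [hr, this]
  refine ⟨j.factorial * ((7 + 1 / r) * 4 ^ (2 * r)) / r ^ j, by positivity, ?_⟩
  intro q _ χ hχ s hs1 hs2
  have hq : (1 : ℝ) ≤ q := by exact_mod_cast Nat.one_le_iff_ne_zero.2 (NeZero.ne q)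
  have hX : 1 ≤ (q : ℝ) * (|s.im| + 2) := by nlinarith only [abs_nonneg s.im, hr0, hr1, hq]
  have hC : ∀ w ∈ Metric.sphere s r, ‖DirichletCharacter.LFunction χ w‖ ≤
      (7 + 1 / r) * (4 ^ (2 * r) * ((q : ℝ) * (|s.im| + 2)) ^ ε) := by
    intro w hw
    obtain ⟨g1, g2, g3, -⟩ := growth_disc r hr1 s w hs1 hs2 (Metric.sphere_subset_closedBall hw)
    refine (growth_L h r hr0 hr1 q χ hχ w g1 g2).trans ?_
    refine mul_le_mul_of_nonneg_left (growth_pow r ε _ _ hr0 hrε hX ?_ ?_) (by positivity)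
    · positivity
    · nlinarith only [abs_nonneg s.im, hr0, hr1, hX, g3]
  have hd : DiffContOnCl ℂ (DirichletCharacter.LFunction χ) (Metric.ball s r) :=
    (DirichletCharacter.differentiable_LFunction hχ).diffContOnCl
  refine (Complex.norm_iteratedDeriv_le_of_forall_mem_sphere_norm_le j hr0 hd hC).trans
    (le_of_eq ?_)
  ring

theorem zgrowth (h : ZApproxStmt) : ZGrowthStmt := by
  intro j ε hε
  set r : ℝ := min ε 1 / 2 with hr
  have hr0 : 0 < r := by positivity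
  have hr1 : r ≤ 1 / 2 := by
    have := min_le_right ε 1
    linarith only [hr, this]
  have hrε : 2 * r ≤ ε := by
    have := min_le_left ε 1
    linarith only [hr, this]
  refine ⟨j.factorial * ((7 + 1 / r) * 4 ^ (2 * r)) / r ^ j, by positivity, ?_⟩
  intro s hs1 hs2 hs3
  have hX : 1 ≤ |s.im| + 2 := by linarith only [hr0, hr1, hs3]
  have hC : ∀ w ∈ Metric.sphere s r, ‖riemannZeta w‖ ≤
      (7 + 1 / r) * (4 ^ (2 * r) * (|s.im| + 2) ^ ε) := by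
    intro w hw
    obtain ⟨g1, g2, g3, g4⟩ := growth_disc r hr1 s w hs1 hs2 (Metric.sphere_subset_closedBall hw)
    refine (growth_Z h r hr0 hr1 w g1 g2 (by linarith only [hs3, g4])).trans ?_
    refine mul_le_mul_of_nonneg_left (growth_pow r ε _ _ hr0 hrε hX ?_ ?_) (by positivity)
    · positivity
    · linarith only [hr0, hr1, hs3, g3]
  have hd : DiffContOnCl ℂ riemannZeta (Metric.ball s r) := by
    refine DifferentiableOn.diffContOnCl_ball (U := Metric.closedBall s r) ?_ subset_rfl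
    intro w hw
    obtain ⟨-, -, -, g4⟩ := growth_disc r hr1 s w hs1 hs2 hw
    refine (differentiableAt_riemannZeta ?_).differentiableWithinAt
    intro hc
    rw [hc, Complex.one_im, abs_zero] at g4
    linarith only [hr0, hr1, hs3, g4]
  refine (Complex.norm_iteratedDeriv_le_of_forall_mem_sphere_norm_le j hr0 hd hC).trans
    (le_of_eq ?_)
  ring

end Vale.Agent.P013.J
end

section

/-!
# The second moment of the divisor function
-/

open Finset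

namespace Vale.Agent.P005.BV

/-- the number of divisors as a real number -/
noncomputable def tau (n : ℕ) : ℝ := (n.divisors.card : ℝ)

lemma harm_le (X : ℕ) : ∑ d ∈ Icc 1 X, (1 / (d : ℝ)) ≤ 1 + Real.log X := by
  have := harmonic_le_one_add_log X
  have h2 : ((harmonic X : ℚ) : ℝ) = ∑ d ∈ Icc 1 X, (1 / (d : ℝ)) := by
    rw [harmonic_eq_sum_Icc]
    push_cast
    apply Finset.sum_congr rfl
    intro i _
    rw [one_div]
  rw [← h2]; exact this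

lemma harm_nonneg (X : ℕ) : 0 ≤ ∑ d ∈ Icc 1 X, (1 / (d : ℝ)) :=
  Finset.sum_nonneg fun _ _ => by positivity

lemma harm_dvd (X g : ℕ) (hg : 0 < g) :
    ∑ d ∈ Icc 1 X, (if g ∣ d then 1 / (d : ℝ) else 0) ≤ (1 / (g : ℝ)) * ∑ d ∈ Icc 1 X, (1 / (d : ℝ)) := by
  rw [← Finset.sum_filter]
  have hgr : (0 : ℝ) < g := by exact_mod_cast hg
  calc ∑ d ∈ (Icc 1 X).filter (fun d => g ∣ d), 1 / (d : ℝ)
      = ∑ d ∈ (Icc 1 X).filter (fun d => g ∣ d), (1 / (g : ℝ)) * (1 / ((d / g : ℕ) : ℝ)) := by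
        apply Finset.sum_congr rfl
        intro d hd
        rw [Finset.mem_filter] at hd
        obtain ⟨k, rfl⟩ := hd.2
        rw [Nat.mul_div_cancel_left k hg]
        push_cast
        rw [one_div_mul_one_div]
    _ = ∑ k ∈ ((Icc 1 X).filter (fun d => g ∣ d)).image (fun d => d / g),
          (1 / (g : ℝ)) * (1 / (k : ℝ)) := by
        rw [Finset.sum_image]
        intro d hd e he hde
        rw [Finset.mem_coe, Finset.mem_filter] at hd he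
        obtain ⟨k, rfl⟩ := hd.2
        obtain ⟨l, rfl⟩ := he.2
        simp only at hde
        rw [Nat.mul_div_cancel_left k hg, Nat.mul_div_cancel_left l hg] at hde
        rw [hde]
    _ ≤ ∑ k ∈ Icc 1 X, (1 / (g : ℝ)) * (1 / (k : ℝ)) := by
        apply Finset.sum_le_sum_of_subset_of_nonneg
        · intro k hk
          rw [Finset.mem_image] at hk
          obtain ⟨d, hd, rfl⟩ := hk
          rw [Finset.mem_filter, Finset.mem_Icc] at hd
          rw [Finset.mem_Icc]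
          constructor
          · exact Nat.div_pos (Nat.le_of_dvd (by omega) hd.2) hg
          · exact (Nat.div_le_self d g).trans hd.1.2
        · intro k _ _; positivity
    _ = _ := by rw [Finset.mul_sum]

lemma tau_sq_sum (X : ℕ) : ∑ n ∈ Icc 1 X, (tau n) ^ 2 ≤ X * (1 + Real.log X) ^ 3 := by
  set H : ℝ := ∑ d ∈ Icc 1 X, (1 / (d : ℝ)) with hH
  have hH0 : 0 ≤ H := harm_nonneg X
  have hH1 : H ≤ 1 + Real.log X := harm_le X
  have htau : ∀ n ∈ Icc 1 X, tau n = ∑ d ∈ Icc 1 X, (if d ∣ n then (1 : ℝ) else 0) := by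
    intro n hn
    rw [Finset.mem_Icc] at hn
    unfold tau
    rw [← Finset.sum_filter, Finset.sum_const, nsmul_eq_mul, mul_one]
    congr 2
    ext d
    rw [Nat.mem_divisors, Finset.mem_filter, Finset.mem_Icc]
    constructor
    · rintro ⟨h1, h2⟩
      exact ⟨⟨Nat.pos_of_dvd_of_pos h1 (by omega), (Nat.le_of_dvd (by omega) h1).trans hn.2⟩, h1⟩
    · rintro ⟨_, h1⟩
      exact ⟨h1, by omega⟩
  have h1 : ∑ n ∈ Icc 1 X, (tau n) ^ 2 =
      ∑ d ∈ Icc 1 X, ∑ e ∈ Icc 1 X, ∑ n ∈ Icc 1 X, (if d ∣ n then (1 : ℝ) else 0) *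
        (if e ∣ n then (1 : ℝ) else 0) := by
    calc ∑ n ∈ Icc 1 X, (tau n) ^ 2
        = ∑ n ∈ Icc 1 X, ∑ d ∈ Icc 1 X, ∑ e ∈ Icc 1 X, (if d ∣ n then (1 : ℝ) else 0) *
            (if e ∣ n then (1 : ℝ) else 0) := by
          apply Finset.sum_congr rfl
          intro n hn
          rw [htau n hn, sq, Finset.sum_mul_sum]
      _ = _ := by
          rw [Finset.sum_comm]
          apply Finset.sum_congr rfl
          intro d _
          rw [Finset.sum_comm]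
  have h2 : ∀ d ∈ Icc 1 X, ∀ e ∈ Icc 1 X, ∑ n ∈ Icc 1 X, (if d ∣ n then (1 : ℝ) else 0) *
        (if e ∣ n then (1 : ℝ) else 0) ≤
      X * ∑ g ∈ Icc 1 X, (g : ℝ) * ((if g ∣ d then 1 / (d : ℝ) else 0) *
        (if g ∣ e then 1 / (e : ℝ) else 0)) := by
    intro d hd e he
    rw [Finset.mem_Icc] at hd he
    have e1 : ∑ n ∈ Icc 1 X, (if d ∣ n then (1 : ℝ) else 0) * (if e ∣ n then (1 : ℝ) else 0) =
        ((X / Nat.lcm d e : ℕ) : ℝ) := by
      have e2 : ∀ n ∈ Icc 1 X, (if d ∣ n then (1 : ℝ) else 0) * (if e ∣ n then (1 : ℝ) else 0) =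
          if Nat.lcm d e ∣ n then 1 else 0 := by
        intro n _
        by_cases h : Nat.lcm d e ∣ n
        · rw [if_pos h, if_pos ((Nat.dvd_lcm_left d e).trans h),
            if_pos ((Nat.dvd_lcm_right d e).trans h), mul_one]
        · rw [if_neg h]
          by_cases h3 : d ∣ n
          · rw [if_neg (fun h4 => h (Nat.lcm_dvd h3 h4)), mul_zero]
          · rw [if_neg h3, zero_mul]
      rw [Finset.sum_congr rfl e2, ← Finset.sum_filter, Finset.sum_const, nsmul_eq_mul, mul_one]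
      have hIcc : Icc 1 X = Ioc 0 X := by ext; simp [Finset.mem_Icc, Finset.mem_Ioc]; omega
      rw [hIcc, Nat.Ioc_filter_dvd_card_eq_div]
    rw [e1]
    have hdr : (0 : ℝ) < d := by exact_mod_cast hd.1
    have her : (0 : ℝ) < e := by exact_mod_cast he.1
    have hl : 0 < Nat.lcm d e := Nat.lcm_pos (by omega) (by omega)
    have hlr : (0 : ℝ) < Nat.lcm d e := by exact_mod_cast hl
    have e3 : ((X / Nat.lcm d e : ℕ) : ℝ) ≤ X * ((Nat.gcd d e : ℝ) * (1 / (d : ℝ) * (1 / (e : ℝ)))) := by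
      calc ((X / Nat.lcm d e : ℕ) : ℝ) ≤ (X : ℝ) / Nat.lcm d e := Nat.cast_div_le
        _ = X * ((Nat.gcd d e : ℝ) * (1 / (d : ℝ) * (1 / (e : ℝ)))) := by
            have : ((Nat.gcd d e : ℕ) : ℝ) * (Nat.lcm d e : ℕ) = d * e := by
              exact_mod_cast Nat.gcd_mul_lcm d e
            field_simp
            rw [mul_assoc, ← this]
            ring
    refine e3.trans ?_
    apply mul_le_mul_of_nonneg_left _ (Nat.cast_nonneg X)
    have hg : Nat.gcd d e ∈ Icc 1 X := by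
      rw [Finset.mem_Icc]
      exact ⟨Nat.gcd_pos_of_pos_left e (by omega),
        (Nat.le_of_dvd (by omega) (Nat.gcd_dvd_left d e)).trans hd.2⟩
    have e4 := Finset.single_le_sum (f := fun g : ℕ => (g : ℝ) * ((if g ∣ d then 1 / (d : ℝ) else 0) *
        (if g ∣ e then 1 / (e : ℝ) else 0))) (fun g _ => by (clear * - hdr her; positivity)) hg
    refine le_trans (le_of_eq ?_) e4
    rw [if_pos (Nat.gcd_dvd_left d e), if_pos (Nat.gcd_dvd_right d e)]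
  rw [h1]
  calc ∑ d ∈ Icc 1 X, ∑ e ∈ Icc 1 X, ∑ n ∈ Icc 1 X, (if d ∣ n then (1 : ℝ) else 0) *
        (if e ∣ n then (1 : ℝ) else 0)
      ≤ ∑ d ∈ Icc 1 X, ∑ e ∈ Icc 1 X, X * ∑ g ∈ Icc 1 X, (g : ℝ) *
          ((if g ∣ d then 1 / (d : ℝ) else 0) * (if g ∣ e then 1 / (e : ℝ) else 0)) :=
        Finset.sum_le_sum fun d hd => Finset.sum_le_sum fun e he => h2 d hd e he
    _ = X * ∑ g ∈ Icc 1 X, (g : ℝ) * ((∑ d ∈ Icc 1 X, if g ∣ d then 1 / (d : ℝ) else 0) *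
          (∑ e ∈ Icc 1 X, if g ∣ e then 1 / (e : ℝ) else 0)) := by
        have e5 : ∀ g ∈ Icc 1 X, (g : ℝ) * ((∑ d ∈ Icc 1 X, if g ∣ d then 1 / (d : ℝ) else 0) *
          (∑ e ∈ Icc 1 X, if g ∣ e then 1 / (e : ℝ) else 0)) =
            ∑ d ∈ Icc 1 X, ∑ e ∈ Icc 1 X, (g : ℝ) *
          ((if g ∣ d then 1 / (d : ℝ) else 0) * (if g ∣ e then 1 / (e : ℝ) else 0)) := by
          intro g _
          rw [Finset.sum_mul_sum, Finset.mul_sum]
          apply Finset.sum_congr rfl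
          intro d _
          rw [Finset.mul_sum]
        rw [Finset.sum_congr rfl e5]
        have e6 : ∑ g ∈ Icc 1 X, ∑ d ∈ Icc 1 X, ∑ e ∈ Icc 1 X, (g : ℝ) *
          ((if g ∣ d then 1 / (d : ℝ) else 0) * (if g ∣ e then 1 / (e : ℝ) else 0)) =
          ∑ d ∈ Icc 1 X, ∑ e ∈ Icc 1 X, ∑ g ∈ Icc 1 X, (g : ℝ) *
          ((if g ∣ d then 1 / (d : ℝ) else 0) * (if g ∣ e then 1 / (e : ℝ) else 0)) := by
          rw [Finset.sum_comm]
          apply Finset.sum_congr rfl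
          intro d _
          rw [Finset.sum_comm]
        rw [e6, Finset.mul_sum]
        apply Finset.sum_congr rfl
        intro d _
        rw [Finset.mul_sum]
    _ ≤ X * ∑ g ∈ Icc 1 X, (g : ℝ) * (((1 / (g : ℝ)) * H) * ((1 / (g : ℝ)) * H)) := by
        apply mul_le_mul_of_nonneg_left _ (Nat.cast_nonneg X)
        apply Finset.sum_le_sum
        intro g hg
        rw [Finset.mem_Icc] at hg
        apply mul_le_mul_of_nonneg_left _ (Nat.cast_nonneg g)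
        have h3 := harm_dvd X g (by omega)
        have h4 : 0 ≤ ∑ d ∈ Icc 1 X, (if g ∣ d then 1 / (d : ℝ) else 0) :=
          Finset.sum_nonneg fun _ _ => by (clear * -; positivity)
        exact mul_le_mul h3 h3 h4 (h4.trans h3)
    _ = X * H ^ 3 := by
        have h5 : ∀ g ∈ Icc 1 X, (g : ℝ) * (((1 / (g : ℝ)) * H) * ((1 / (g : ℝ)) * H)) =
            (1 / (g : ℝ)) * H ^ 2 := by
          intro g hg
          rw [Finset.mem_Icc] at hg
          have : (g : ℝ) ≠ 0 := by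
            have : (0 : ℝ) < g := by exact_mod_cast hg.1
            exact this.ne'
          field_simp
        rw [Finset.sum_congr rfl h5, ← Finset.sum_mul, ← hH]
        ring
    _ ≤ X * (1 + Real.log X) ^ 3 := by
        apply mul_le_mul_of_nonneg_left _ (Nat.cast_nonneg X)
        exact pow_le_pow_left₀ hH0 hH1 3

end Vale.Agent.P005.BV
end
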