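import Vale.Agent.P013.MathlibUsed
import Vale.Agent.P013.Jacobsthal
attribute [-instance] instCoeTOfCoeDep Vector.instHMul NumberField.to_charZero MeasureTheory.MeasureSpace.pi Pi.addMonoidWithOne Pi.partialOrder SemiRingCat.instSemiringObjForgetRingHomCarrier NormedDivisionRing.toDivisionRing Pi.topologicalSpace IdemCommSemiring.toIdemSemiring KleeneAlgebra.toIdemSemiring LinearOrderedCommGroupWithZero.toLinearOrderedCommMonoidWithZero Pi.mulZeroClass LinOrd.str LinearOrderedCommGroupWithZero.toCommGroupWithZero AddGrpCat.str Part.ofOptionDecidable CommSemiRingCat.instCommSemiringObjForgetRingHomCarrier EquivLike.toFunLike IdemSemiring.toSemiring IdemSemiring.toCanonicallyOrderedAdd LinearOrderedCommMonoidWithZero.toPosMulStrictMono Pi.normedAddCommGroup SemimoduleCat.isAddCommMonoid CategoryTheory.Limits.Concrete.instUniqueToTypeTerminal OrderDual.instPow_1 EuclideanDomain.toCommRing SeminormedCommRing.toCommRing Valued.toUniformSpace LinearOrderedCommMonoidWithZero.toCommMonoidWithZero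 NormedDivisionRing.toNormedRing Pi.opensMeasurableSpace_of_subsingleton UpgradedStandardBorel.toTopologicalSpace Pi.seminormedAddCommGroup Pi.addGroupWithOne instSubsingleton IsEmpty.instSubsingleton instClosedIicTopologyOrderDual Std.Time.Duration.instHMulInt_1 SeminormedRing.toRing MeasurableSpace.pi CompleteAtomicBooleanAlgebra.toCompletelyDistribLattice Pi.nonUnitalNonAssocSemiring BoxIntegral.Box.instMembershipForallReal ChainCompletePartialOrder.instOmegaCompletePartialOrder CompleteDistribLattice.toCoframe CompleteLattice.toCompletePartialOrder CompleteLinearOrder.toCompleteLattice CompletePartialOrder.toOmegaCompletePartialOrder CompletePartialOrder.toPartialOrder CompletelyDistribLattice.toCompleteDistribLattice OmegaCompletePartialOrder.toPartialOrder Order.Coframe.toCompleteLattice Order.Frame.toCompleteLattice instCoeTC System.FilePath.instHDivString ModuleCat.instAddCommGroupCarrierMkOfSMul' Ring.toNonAssocRing Pi.normedRing NonUnitalCommCStarAlgebra.toNonUnitalNormedCommRing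 NonUnitalNormedCommRing.toNonUnitalSeminormedCommRing CommRing.toAddCommGroupWithOne instPosMulMonoWithZeroOfMulLeftMono OrderDual.instDivisionRing ModuleCat.isModule Invertible.toNeZero Nat.AtLeastTwo.toNeZero NonUnitalNormedCommRing.toNonUnitalCommRing NonUnitalSeminormedCommRing.toNonUnitalCommRing instCoeHTC instCoeHTCT instCoeOTC Padic.instNontriviallyNormedField Set.instAddRightMono IdemCommSemiring.toCommSemiring Semifield.toCommSemiring Pi.mulOneClass AlgebraicClosure.instGroupWithZero CStarAlgebra.toNonUnitalCStarAlgebra NonAssocCommRing.toNonUnitalNonAssocCommRing NonUnitalCStarAlgebra.toNonUnitalNormedRing Pi.instOne SeminormedRing.toNonUnitalSeminormedRing instCoeTCOfCoe RCLike.algebraMapCoe NormedCommGroup.toSeminormedCommGroup Fintype.decidablePiFintype Fintype.decidableForallFintype EReal.instPosMulReflectLT Pi.instTopForall CategoryTheory.instFinCategoryOfFintypeOfIsThin SetLike.instFintype Unique.fintype CategoryTheory.FinCategory.fintypeObj NormedCommGroup.toCommGroup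 SeminormedCommGroup.toCommGroup Pi.nonAssocSemiring Topology.IsUpper.instClosedIicTopology Pi.instZeroLEOneClass AddCommGroupWithOne.toAddCommGroup NonAssocRing.toNonUnitalNonAssocRing NonUnitalCommRing.toNonUnitalRing NonUnitalNonAssocRing.toAddCommGroup NonUnitalNormedRing.toNonUnitalRing NonUnitalRing.toNonUnitalNonAssocRing NonUnitalSeminormedRing.toNonUnitalRing Ring.toNonUnitalRing NormedCommGroup.toNormedGroup NormedGroup.toSeminormedGroup SeminormedCommGroup.toSeminormedGroup Pi.nonUnitalSemiring AlgEquivClass.toAlgHomClass AlgHomClass.toRingHomClass MulSemiringActionSemiHomClass.toRingHomClass RingEquivClass.toRingHomClass NormedAddGroup.toAddGroup NormedAddGroup.toSeminormedAddGroup Std.Time.WallTime.instHAddOffset_1 Pi.addZeroClass WithTop.instLocallyFiniteOrder NormedGroup.toGroup SeminormedGroup.toGroup CommMonCat.str Array.instDecidableForallForallMemOfDecidablePred Multiset.decidableDforallMultiset Option.decidableForallMem Vector.instDecidableForallForallMemOfDecidablePred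 Pi.subtractionMonoid EReal.instMulPosReflectLT Pi.isOrderedAddMonoid OrderDual.instDivisionSemiring instFiniteProp Finite.of_fintype Finite.of_subsingleton SetLike.instFinite Std.Time.WallTime.instHSubDuration_1 instContinuousSMulForall Pi.divisionCommMonoid instMulPosMonoWithZeroOfMulRightMono instNonemptyOfMonad instContinuousSMulForall_1 Pi.seminormedAddGroup Pi.semigroup LinearOrderedAddCommGroupWithTop.toSubNegMonoid instIsBotOneClass Pi.instSubtractionCommMonoid Pi.instFintype AddOpposite.instAddZero UniformSpace.Completion.instNorm DiscreteUniformity.inst DiscreteUniformity.instDiscreteTopology DiscreteUniformity.instOfFiniteOfDiscreteTopology Finite.instDiscreteTopology Subsingleton.discreteTopology LinearOrderedAddCommGroupWithTop.instLinearOrderedAddCommMonoidWithTop Nat.decidableBallLE Nat.decidableBallLT Nat.decidableLoHi Nat.decidableLoHiLe bot_nonempty infSet_to_nonempty instInhabitedOfMonad supSet_to_nonempty top_nonempty AddTorsor.nonempty ConnectedSpace.toNonempty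 IrreducibleSpace.toNonempty Nontrivial.to_nonempty One.instNonempty Torsor.nonempty Unique.instInhabited Zero.instNonempty CategoryTheory.IsConnected.is_nonempty instFloorSemiringNat CanonicallyOrderedAdd.toMulLeftMono CanonicallyOrderedMul.toMulLeftMono IdemSemiring.toMulLeftMono IsOrderedCancelMonoid.toIsOrderedMonoid IsOrderedMonoid.toIsOrderedCancelMonoid LinearOrderedCommMonoidWithZero.toIsOrderedMonoid Pi.commMagma coePNatNat instCoeHTCOfCoeHeadOfCoeOTC instCoeHTCTOfCoeTailOfCoeHTC instCoeOTCOfCoeOut instCoeOutOfCoeFun instCoeOutOfCoeSort instCoeTailIntOfIntCast instCoeTailNatOfNatCast instCoeTailRatOfRatCast instNatCastNat ContinuousAddMonoidHom.instCoeOutOfAddMonoidHomClassOfContinuousMapClass ContinuousMonoidHom.instCoeOutOfMonoidHomClassOfContinuousMapClass DivisionRing.toNNRatCast DivisionSemiring.toNNRatCast HomeomorphClass.instCoeOutHomeomorph IsometryClass.instCoeOutIsometryEquiv LinearMapClass.instCoeToLinearMap NNRatCast.toCoeTail NonUnitalStarRingHomClass.instCoeHeadNonUnitalStarRingHom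 SemilinearMapClass.instCoeToSemilinearMap SetLike.instCoeSortType StarAlgEquivClass.instCoeHead StarRingEquivClass.instCoeHead Nat.Primes.coeNat Nat.Primes.coePNat Pi.divInvMonoid instIndiscreteTopology instIndiscreteTopologyOfSubsingleton Pi.orderClosedTopology' Pi.normedSpace Set.instAddLeftMono instNonUnitalAlgHomClassOfNonUnitalAlgEquivClass AlgHom.instNonUnitalAlgHomClassOfAlgHomClass TopologicalSpace.UpgradedIsCompletelyPseudoMetrizableSpace.toPseudoMetricSpace Pi.isOrderedRing Ordinal.leftDistribClass OrderDual.instSemifield instUniqueAddUnitsOfSubsingleton CanonicallyOrderedCommMonoid.toUniqueAddUnits Pi.mulZeroOneClass continuousSub_of_discreteTopology continuousSub_of_indiscreteTopology SeparationQuotient.instContinuousSub CompleteLinearOrder.toConditionallyCompleteLinearOrderBot CompleteLinearOrder.toLinearOrder ConditionallyCompleteLinearOrder.toLinearOrder ConditionallyCompleteLinearOrderBot.toConditionallyCompleteLinearOrder LinearOrderedAddCommGroupWithTop.toLinearOrder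 LinearOrderedAddCommMonoidWithTop.toLinearOrder LinearOrderedCommMonoidWithZero.toLinearOrder TopologicalSpace.instSecondCountableTopologyForallOfCountable Pi.continuousMul' Pi.divisionMonoid Pi.addCommMagma OrderDual.instRightDistribClass AlgHom.instContinuousLinearMapClassOfAlgHomClass AlgHomClass.linearMapClass ContinuousSemilinearEquivClass.continuousSemilinearMapClass ContinuousSemilinearMapClass.toSemilinearMapClass NonUnitalAlgHomClass.instLinearMapClass NonUnitalAlgHomClass.instSemilinearMapClassOfNonUnitalAlgSemiHomClassToMonoidHomRingHom RingHomClass.toLinearMapClassNNRat RingHomClass.toLinearMapClassRat SemilinearEquivClass.instSemilinearMapClass SemilinearIsometryClass.toContinuousSemilinearMapClass SemilinearIsometryClass.toSemilinearMapClass UniformSpace.Completion.instNormedFieldOfCompletableTopField RingCat.instRingObjForgetRingHomCarrier instOrderTopologyOrderDual Pi.instOrderTop Pi.commMonoidWithZero -- iprune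

set_option linter.all false

section

open MeasureTheory Set Filter Real
open scoped ENNReal

namespace Vale.Agent.P013

noncomputable def tm (u : ℝ → ℝ≥0∞) (s : ℝ) : ℝ≥0∞ :=
  ENNReal.ofReal (1 / s) * ∫⁻ t in Ioi (s - 1), u t

noncomputable def tp (v : ℝ → ℝ≥0∞) (s : ℝ) : ℝ≥0∞ :=
  ENNReal.ofReal (1 / s) * (ENNReal.ofReal (3 - s) + ∫⁻ t in Ioi (max s 3 - 1), v t)

theorem tm_mono {u v : ℝ → ℝ≥0∞} (h : u ≤ v) : tm u ≤ tm v := by
  intro s
  unfold tm
  gcongr
  exact h _

theorem tp_mono {u v : ℝ → ℝ≥0∞} (h : u ≤ v) : tp u ≤ tp v := by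
  intro s
  unfold tp
  gcongr
  exact h _

theorem tp_mono' {u v : ℝ → ℝ≥0∞} (h : ∀ s, 2 ≤ s → u s ≤ v s) : tp u ≤ tp v := by
  intro s
  unfold tp
  gcongr ENNReal.ofReal (1 / s) * (ENNReal.ofReal (3 - s) + ?_)
  apply setLIntegral_mono' measurableSet_Ioi
  intro x hx
  apply h
  have : (3:ℝ) ≤ max s 3 := le_max_right _ _
  have hx' : max s 3 - 1 < x := hx
  linarith

noncomputable def op : (ℝ → ℝ≥0∞) →o (ℝ → ℝ≥0∞) :=
  ⟨fun u => tp (tm u), fun _ _ h => tp_mono (tm_mono h)⟩

noncomputable def phiP : ℝ → ℝ≥0∞ := OrderHom.lfp op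

noncomputable def phiM : ℝ → ℝ≥0∞ := tm phiP

theorem phiP_eq : phiP = tp phiM := (OrderHom.map_lfp op).symm

theorem phiM_eq : phiM = tm phiP := rfl

theorem measurable_tail (u : ℝ → ℝ≥0∞) : Measurable (fun s : ℝ => ∫⁻ t in Ioi s, u t) := by
  apply Antitone.measurable
  intro a b hab
  apply lintegral_mono_set
  exact Ioi_subset_Ioi hab

theorem measurable_phiM : Measurable phiM := by
  rw [phiM_eq]
  unfold tm
  have h1 : Measurable (fun s : ℝ => ∫⁻ t in Ioi (s - 1), phiP t) :=
    (measurable_tail phiP).comp (measurable_id.sub_const 1)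
  have h2 : Measurable (fun s : ℝ => ENNReal.ofReal (1 / s)) := by fun_prop
  exact h2.mul h1

theorem measurable_phiP : Measurable phiP := by
  rw [phiP_eq]
  unfold tp
  have h1 : Measurable (fun s : ℝ => ∫⁻ t in Ioi (max s 3 - 1), phiM t) :=
    (measurable_tail phiM).comp ((measurable_id.max measurable_const).sub_const 1)
  have h2 : Measurable (fun s : ℝ => ENNReal.ofReal (1 / s)) := by fun_prop
  have h3 : Measurable (fun s : ℝ => ENNReal.ofReal (3 - s)) := by fun_prop
  exact h2.mul (h3.add h1)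

end Vale.Agent.P013
end

section
open MeasureTheory Set Filter Real
open scoped ENNReal Topology

namespace Vale.Agent.P013

theorem lintegral_tail_eq {g G : ℝ → ℝ} {x : ℝ} (hG : ∀ t ∈ Ici x, HasDerivAt G (-g t) t)
    (hg : ∀ t ∈ Ioi x, 0 ≤ g t) (hlim : Tendsto G atTop (𝓝 0)) :
    ∫⁻ t in Ioi x, ENNReal.ofReal (g t) = ENNReal.ofReal (G x) := by
  have hd : ∀ t ∈ Ici x, HasDerivAt (fun y => - G y) (g t) t := by
    intro t ht
    have := (hG t ht).fun_neg
    simpa using this
  have hl : Tendsto (fun y => - G y) atTop (𝓝 0) := by simpa using hlim.neg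
  have hi := integrableOn_Ioi_deriv_of_nonneg' hd hg hl
  have he := integral_Ioi_of_hasDerivAt_of_nonneg' hd hg hl
  have hnn : 0 ≤ᵐ[volume.restrict (Ioi x)] g := by
    rw [EventuallyLE, ae_restrict_iff' measurableSet_Ioi]
    exact Eventually.of_forall hg
  rw [← ofReal_integral_eq_lintegral_ofReal hi hnn, he]
  simp

theorem lintegral_Ioc_eq {g G : ℝ → ℝ} {x y : ℝ} (hxy : x ≤ y)
    (hG : ∀ t ∈ Icc x y, HasDerivAt G (g t) t) (hc : ContinuousOn g (Icc x y))
    (hg : ∀ t ∈ Ioc x y, 0 ≤ g t) :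
    ∫⁻ t in Ioc x y, ENNReal.ofReal (g t) = ENNReal.ofReal (G y - G x) := by
  have hint : IntervalIntegrable g volume x y := by
    apply ContinuousOn.intervalIntegrable
    rwa [uIcc_of_le hxy]
  have h1 : ∫ t in x..y, g t = G y - G x := by
    apply intervalIntegral.integral_eq_sub_of_hasDerivAt
    · intro t ht
      rw [uIcc_of_le hxy] at ht
      exact hG t ht
    · exact hint
  rw [intervalIntegral.integral_of_le hxy] at h1
  have hi : IntegrableOn g (Ioc x y) := by
    rwa [intervalIntegrable_iff_integrableOn_Ioc_of_le hxy] at hint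
  have hnn : 0 ≤ᵐ[volume.restrict (Ioc x y)] g := by
    rw [EventuallyLE, ae_restrict_iff' measurableSet_Ioc]
    exact Eventually.of_forall hg
  rw [← ofReal_integral_eq_lintegral_ofReal hi hnn, h1]

noncomputable def hp (t : ℝ) : ℝ := (1 / t) * (max (3 - t) 0 + 80 / (max t 3 - 1) ^ 3)
noncomputable def hm (t : ℝ) : ℝ := 240 / t ^ 4

theorem tendsto_inv_cube (c b : ℝ) : Tendsto (fun t : ℝ => c / (t - b) ^ 3) atTop (𝓝 0) := by
  have h1 : Tendsto (fun t : ℝ => (t - b) ^ 3) atTop atTop :=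
    (tendsto_pow_atTop (by norm_num)).comp (tendsto_atTop_add_const_right _ (-b) tendsto_id)
  exact h1.const_div_atTop c

theorem lint_hm {x : ℝ} (hx : 2 ≤ x) :
    ∫⁻ t in Ioi x, ENNReal.ofReal (hm t) = ENNReal.ofReal (80 / x ^ 3) := by
  apply lintegral_tail_eq (G := fun t => 80 / t ^ 3)
  · intro t ht
    have ht' : x ≤ t := ht
    have htp : 0 < t := by linarith
    have h : HasDerivAt (fun t : ℝ => 80 / t ^ 3) ((0 * t ^ 3 - 80 * (3 * t ^ 2)) / (t ^ 3) ^ 2) t := by
      have := (hasDerivAt_const t (80:ℝ)).fun_div (hasDerivAt_pow 3 t) (by positivity)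
      simpa using this
    convert h using 1
    unfold hm
    field_simp
    norm_num
  · intro t ht
    unfold hm
    positivity
  · have := tendsto_inv_cube 80 0
    simpa using this

theorem tp_hm_le : tp (fun t => ENNReal.ofReal (hm t)) ≤ fun t => ENNReal.ofReal (hp t) := by
  intro s
  unfold tp
  have h3 : (2:ℝ) ≤ max s 3 - 1 := by
    have : (3:ℝ) ≤ max s 3 := le_max_right _ _
    linarith
  rw [lint_hm h3]
  rcases le_or_gt s 0 with hs | hs
  · have : ENNReal.ofReal (1 / s) = 0 := by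
      apply ENNReal.ofReal_of_nonpos
      exact div_nonpos_of_nonneg_of_nonpos zero_le_one hs
    rw [this]
    simp
  · have h1 : ENNReal.ofReal (3 - s) = ENNReal.ofReal (max (3 - s) 0) := by
      rcases le_total 0 (3 - s) with h | h
      · rw [max_eq_left h]
      · rw [max_eq_right h, ENNReal.ofReal_of_nonpos h, ENNReal.ofReal_zero]
    have hpos : 0 < max s 3 - 1 := by linarith
    rw [h1, ← ENNReal.ofReal_add (le_max_right _ _) (by positivity),
      ← ENNReal.ofReal_mul (by positivity)]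
    exact le_of_eq rfl


theorem lint_hp_ge {x : ℝ} (hx : 3 ≤ x) :
    ∫⁻ t in Ioi x, ENNReal.ofReal (hp t) ≤ ENNReal.ofReal (80 / 3 / (x - 1) ^ 3) := by
  have h1 : ∫⁻ t in Ioi x, ENNReal.ofReal (80 / (t - 1) ^ 4)
      = ENNReal.ofReal (80 / 3 / (x - 1) ^ 3) := by
    apply lintegral_tail_eq (G := fun t => 80 / 3 / (t - 1) ^ 3)
    · intro t ht
      have ht' : x ≤ t := ht
      have htp : 0 < t - 1 := by linarith
      have h0 : HasDerivAt (fun t : ℝ => (t - 1) ^ 3) (3 * (t - 1) ^ 2) t := by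
        have := ((hasDerivAt_id t).sub_const 1).fun_pow 3
        simpa using this
      have h := (hasDerivAt_const t (80 / 3:ℝ)).fun_div h0 (by positivity)
      have hne : t - 1 ≠ 0 := htp.ne'
      have he : -(80 / (t - 1) ^ 4) = (0 * (t - 1) ^ 3 - 80 / 3 * (3 * (t - 1) ^ 2)) / ((t - 1) ^ 3) ^ 2 := by
        field_simp
        ring
      rw [he]
      exact h
    · intro t ht
      have ht' : x < t := ht
      have htp : 0 < t - 1 := by linarith
      positivity
    · exact tendsto_inv_cube (80 / 3) 1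
  rw [← h1]
  apply setLIntegral_mono' measurableSet_Ioi
  intro t ht
  have ht' : x < t := ht
  apply ENNReal.ofReal_le_ofReal
  unfold hp
  rw [max_eq_right (by linarith : 3 - t ≤ 0), max_eq_left (by linarith : (3:ℝ) ≤ t), zero_add]
  have htp : 0 < t - 1 := by linarith
  rw [div_mul_div_comm, one_mul]
  apply div_le_div_of_nonneg_left (by norm_num) (by positivity)
  have : (t - 1) ^ 4 = (t - 1) * (t - 1) ^ 3 := by ring
  rw [this]
  gcongr
  linarith

theorem hp_of_le {t : ℝ} (ht0 : 0 < t) (ht : t ≤ 3) : hp t = 13 / t - 1 := by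
  unfold hp
  rw [max_eq_left (by linarith : (0:ℝ) ≤ 3 - t), max_eq_right ht]
  field_simp
  norm_num
  ring

theorem lint_hp_Ioc {x : ℝ} (hx1 : 0 < x) (hx : x ≤ 3) :
    ∫⁻ t in Ioc x 3, ENNReal.ofReal (hp t) =
      ENNReal.ofReal ((13 * Real.log 3 - 3) - (13 * Real.log x - x)) := by
  have h1 : ∫⁻ t in Ioc x 3, ENNReal.ofReal (hp t) = ∫⁻ t in Ioc x 3, ENNReal.ofReal (13 / t - 1) := by
    apply setLIntegral_congr_fun measurableSet_Ioc
    intro t ht
    simp only
    rw [hp_of_le (lt_trans hx1 ht.1) ht.2]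
  rw [h1]
  rw [lintegral_Ioc_eq (G := fun t => 13 * Real.log t - t) hx]
  · intro t ht
    have htp : 0 < t := lt_of_lt_of_le hx1 ht.1
    have h2 := ((Real.hasDerivAt_log htp.ne').const_mul 13).fun_sub (hasDerivAt_id t)
    simpa [div_eq_mul_inv] using h2
  · apply ContinuousOn.sub _ continuousOn_const
    apply ContinuousOn.div continuousOn_const continuousOn_id
    intro t ht
    exact (lt_of_lt_of_le hx1 ht.1).ne'
  · intro t ht
    have htp : 0 < t := lt_trans hx1 ht.1
    have : 1 ≤ 13 / t := by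
      rw [le_div_iff₀ htp]
      linarith [ht.2]
    linarith

theorem log_le_pade {y : ℝ} (hy : 1 ≤ y) : Real.log y ≤ (y ^ 2 - 1) / (2 * y) := by
  have h0 : ∀ t ∈ Ici (1:ℝ), HasDerivAt (fun y : ℝ => (y ^ 2 - 1) / (2 * y) - Real.log y)
      ((t - 1) ^ 2 / (2 * t ^ 2)) t := by
    intro t ht
    have ht1 : (1:ℝ) ≤ t := ht
    have htp : 0 < t := by linarith
    have h1 : HasDerivAt (fun y : ℝ => y ^ 2 - 1) (2 * t) t := by
      have := ((hasDerivAt_id t).fun_pow 2).sub_const 1
      simpa using this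
    have h2 : HasDerivAt (fun y : ℝ => 2 * y) 2 t := by
      have := (hasDerivAt_id t).const_mul 2
      simpa using this
    have h3 := (h1.fun_div h2 (by positivity)).fun_sub (Real.hasDerivAt_log htp.ne')
    have he : (t - 1) ^ 2 / (2 * t ^ 2) = (2 * t * (2 * t) - (t ^ 2 - 1) * 2) / (2 * t) ^ 2 - t⁻¹ := by
      field_simp
      ring
    rw [he]
    exact h3
  have hmono : MonotoneOn (fun y : ℝ => (y ^ 2 - 1) / (2 * y) - Real.log y) (Ici 1) := by
    apply monotoneOn_of_deriv_nonneg (convex_Ici 1)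
    · intro t ht
      exact (h0 t ht).continuousAt.continuousWithinAt
    · intro t ht
      rw [interior_Ici] at ht
      exact (h0 t (mem_Ici.2 (le_of_lt ht))).differentiableAt.differentiableWithinAt
    · intro t ht
      rw [interior_Ici] at ht
      rw [(h0 t (mem_Ici.2 (le_of_lt ht))).deriv]
      positivity
  have h2 := hmono (mem_Ici.2 (le_refl (1:ℝ))) (mem_Ici.2 hy) hy
  simp at h2
  linarith

theorem poly_ineq {x : ℝ} (h1 : 1 ≤ x) (h3 : x ≤ 3) :
    (117 + 2 * x - 7 * x ^ 2) * (x + 1) ^ 3 ≤ 1440 * x := by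
  nlinarith [mul_nonneg (sub_nonneg.2 h1) (sub_nonneg.2 h3), mul_nonneg (mul_nonneg (sub_nonneg.2 h1) (sub_nonneg.2 h3)) (sq_nonneg (x - 2)), mul_nonneg (mul_nonneg (sub_nonneg.2 h1) (sub_nonneg.2 h3)) (sq_nonneg (x - 3)), sq_nonneg (x - 2), sq_nonneg (x - 5/2), mul_nonneg (sub_nonneg.2 h1) (sq_nonneg (x - 5/2)), mul_nonneg (sub_nonneg.2 h3) (sq_nonneg (x - 5/2)), mul_nonneg (sub_nonneg.2 h1) (sq_nonneg (x^2 - 6)), mul_nonneg (sub_nonneg.2 h3) (sq_nonneg (x^2 - 6))]


theorem lint_split (u : ℝ → ℝ≥0∞) {x y : ℝ} (hxy : x ≤ y) :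
    ∫⁻ t in Ioi x, u t = (∫⁻ t in Ioc x y, u t) + ∫⁻ t in Ioi y, u t := by
  rw [← lintegral_union measurableSet_Ioi, Ioc_union_Ioi_eq_Ioi hxy]
  rw [Set.disjoint_left]
  intro a ha hb
  exact absurd ha.2 (not_le.2 hb)

theorem real_ineq {x : ℝ} (h1 : 1 ≤ x) (h3 : x ≤ 3) :
    ((13 * Real.log 3 - 3) - (13 * Real.log x - x)) + 80 / 3 / (3 - 1) ^ 3 ≤ 240 / (x + 1) ^ 3 := by
  have hx : 0 < x := by linarith
  have h2 : Real.log 3 - Real.log x = Real.log (3 / x) := by
    rw [Real.log_div (by norm_num) hx.ne']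
  have h4 : Real.log (3 / x) ≤ ((3 / x) ^ 2 - 1) / (2 * (3 / x)) := by
    apply log_le_pade
    rw [le_div_iff₀ hx]
    linarith
  have h5 : ((3 / x) ^ 2 - 1) / (2 * (3 / x)) = (9 - x ^ 2) / (6 * x) := by
    field_simp
    ring
  rw [h5] at h4
  have h6 : 13 * ((9 - x ^ 2) / (6 * x)) - 3 + x + 10 / 3 ≤ 240 / (x + 1) ^ 3 := by
    rw [le_div_iff₀ (by positivity)]
    have h7 : 13 * ((9 - x ^ 2) / (6 * x)) - 3 + x + 10 / 3 = (117 + 2 * x - 7 * x ^ 2) / (6 * x) := by
      field_simp
      ring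
    rw [h7, div_mul_eq_mul_div, div_le_iff₀ (by positivity)]
    have := poly_ineq h1 h3
    linarith
  have h8 : (80 / 3 / (3 - 1) ^ 3 : ℝ) = 10 / 3 := by norm_num
  rw [h8]
  linarith only [h6, h4, h2]

theorem lint_hp_le {s : ℝ} (hs : 2 ≤ s) :
    ∫⁻ t in Ioi (s - 1), ENNReal.ofReal (hp t) ≤ ENNReal.ofReal (240 / s ^ 3) := by
  rcases le_total 3 (s - 1) with h | h
  · refine (lint_hp_ge h).trans (ENNReal.ofReal_le_ofReal ?_)
    have h2 : 0 < s - 1 - 1 := by linarith
    rw [div_le_div_iff₀ (by positivity) (by positivity)]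
    have h3 : s ≤ 2 * (s - 1 - 1) := by linarith
    have h4 : s ^ 3 ≤ (2 * (s - 1 - 1)) ^ 3 := by gcongr
    have h5 : 0 < (s - 1 - 1) ^ 3 := by positivity
    linarith only [h5, h4]
  · rw [lint_split _ h, lint_hp_Ioc (by linarith) h]
    refine (add_le_add_right (lint_hp_ge (le_refl 3)) _).trans ?_
    have h2 : 0 ≤ (13 * Real.log 3 - 3) - (13 * Real.log (s - 1) - (s - 1)) := by
      have h3 : 1 - ((s-1)/3) ≤ Real.log (3 / (s - 1)) := by
        have := Real.one_sub_inv_le_log_of_pos (show 0 < 3 / (s - 1) by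
          apply div_pos (by norm_num); linarith)
        rwa [inv_div] at this
      rw [Real.log_div (by norm_num) (by linarith)] at h3
      linarith
    rw [← ENNReal.ofReal_add h2 (by norm_num)]
    apply ENNReal.ofReal_le_ofReal
    have := real_ineq (x := s - 1) (by linarith) h
    have he : s - 1 + 1 = s := by ring
    rw [he] at this
    exact this

theorem tm_hp_le {s : ℝ} (hs : 2 ≤ s) :
    tm (fun t => ENNReal.ofReal (hp t)) s ≤ ENNReal.ofReal (hm s) := by
  unfold tm
  calc _ ≤ ENNReal.ofReal (1 / s) * ENNReal.ofReal (240 / s ^ 3) := by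
        gcongr
        exact lint_hp_le hs
    _ = ENNReal.ofReal (hm s) := by
        rw [← ENNReal.ofReal_mul (by positivity)]
        congr 1
        unfold hm
        field_simp

theorem phiP_le : phiP ≤ fun t => ENNReal.ofReal (hp t) := by
  apply OrderHom.lfp_le
  show tp (tm _) ≤ _
  exact (tp_mono' (fun s hs => tm_hp_le hs)).trans tp_hm_le

theorem phiM_le {s : ℝ} (hs : 2 ≤ s) : phiM s ≤ ENNReal.ofReal (hm s) :=
  (tm_mono phiP_le s).trans (tm_hp_le hs)

theorem phiP_ne_top (s : ℝ) : phiP s ≠ ⊤ := ne_top_of_le_ne_top ENNReal.ofReal_ne_top (phiP_le s)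

theorem phiM_ne_top {s : ℝ} (hs : 2 ≤ s) : phiM s ≠ ⊤ :=
  ne_top_of_le_ne_top ENNReal.ofReal_ne_top (phiM_le hs)

/-- tail integrals -/
noncomputable def tA (x : ℝ) : ℝ≥0∞ := ∫⁻ t in Ioi x, phiP t
noncomputable def tB (x : ℝ) : ℝ≥0∞ := ∫⁻ t in Ioi x, phiM t

theorem tA_ne_top {x : ℝ} (hx : 1 ≤ x) : tA x ≠ ⊤ := by
  have h : tA x ≤ ENNReal.ofReal (240 / (x + 1) ^ 3) := by
    have h1 := lint_hp_le (s := x + 1) (by linarith)
    have he : x + 1 - 1 = x := by ring
    rw [he] at h1
    exact (lintegral_mono phiP_le).trans h1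
  exact ne_top_of_le_ne_top ENNReal.ofReal_ne_top h

theorem tB_ne_top {x : ℝ} (hx : 2 ≤ x) : tB x ≠ ⊤ := by
  have h : tB x ≤ ENNReal.ofReal (80 / x ^ 3) := by
    rw [← lint_hm hx]
    apply setLIntegral_mono' measurableSet_Ioi
    intro t ht
    exact phiM_le (hx.trans (le_of_lt ht))
  exact ne_top_of_le_ne_top ENNReal.ofReal_ne_top h

end Vale.Agent.P013
end

section
open MeasureTheory Set Filter Real
open scoped ENNReal Topology

namespace Vale.Agent.P013

theorem tA_antitone : Antitone tA := by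
  intro a b hab
  exact lintegral_mono_set (Ioi_subset_Ioi hab)

theorem tB_antitone : Antitone tB := by
  intro a b hab
  exact lintegral_mono_set (Ioi_subset_Ioi hab)

theorem phiM_apply (s : ℝ) : phiM s = ENNReal.ofReal (1 / s) * tA (s - 1) := rfl

theorem phiP_apply (s : ℝ) :
    phiP s = ENNReal.ofReal (1 / s) * (ENNReal.ofReal (3 - s) + tB (max s 3 - 1)) :=
  congrFun phiP_eq s

theorem phiP_anti {s t : ℝ} (hs : 0 < s) (hst : s ≤ t) : phiP t ≤ phiP s := by
  rw [phiP_apply, phiP_apply]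
  gcongr
  apply tB_antitone
  gcongr

theorem phiM_anti {s t : ℝ} (hs : 0 < s) (hst : s ≤ t) : phiM t ≤ phiM s := by
  rw [phiM_apply, phiM_apply]
  gcongr
  apply tA_antitone
  gcongr

theorem ofReal_mul_phiM {s : ℝ} (hs : 0 < s) : ENNReal.ofReal s * phiM s = tA (s - 1) := by
  rw [phiM_apply, ← mul_assoc, ← ENNReal.ofReal_mul hs.le, mul_one_div_cancel hs.ne']
  simp

theorem ofReal_mul_phiP {s : ℝ} (hs : 0 < s) :
    ENNReal.ofReal s * phiP s = ENNReal.ofReal (3 - s) + tB (max s 3 - 1) := by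
  rw [phiP_apply, ← mul_assoc, ← ENNReal.ofReal_mul hs.le, mul_one_div_cancel hs.ne']
  simp

noncomputable def ca : ℝ := 3 + (tB 2).toReal

theorem ca_ge : 3 ≤ ca := by
  unfold ca
  have := ENNReal.toReal_nonneg (a := tB 2)
  linarith

theorem tB2_eq : tB 2 = ENNReal.ofReal (ca - 3) := by
  unfold ca
  rw [add_sub_cancel_left, ENNReal.ofReal_toReal (tB_ne_top (le_refl 2))]

theorem phiP_small {r : ℝ} (h0 : 0 < r) (h3 : r ≤ 3) : phiP r = ENNReal.ofReal (ca / r - 1) := by
  have hca := ca_ge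
  rw [phiP_apply, max_eq_right h3]
  norm_num only
  rw [tB2_eq, ← ENNReal.ofReal_add (by linarith) (by linarith), ← ENNReal.ofReal_mul (by positivity)]
  congr 1
  field_simp
  ring

theorem tA_diff {x y : ℝ} (hx : 0 < x) (hxy : x ≤ y) (hy : y ≤ 3) :
    tA x = ENNReal.ofReal ((ca * Real.log y - y) - (ca * Real.log x - x)) + tA y := by
  have hca := ca_ge
  unfold tA
  rw [lint_split _ hxy]
  congr 1
  have h1 : ∫⁻ t in Ioc x y, phiP t = ∫⁻ t in Ioc x y, ENNReal.ofReal (ca / t - 1) := by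
    apply setLIntegral_congr_fun measurableSet_Ioc
    intro t ht
    exact phiP_small (lt_trans hx ht.1) (ht.2.trans hy)
  rw [h1]
  rw [lintegral_Ioc_eq (G := fun t => ca * Real.log t - t) hxy]
  · intro t ht
    have htp : 0 < t := lt_of_lt_of_le hx ht.1
    have h2 := ((Real.hasDerivAt_log htp.ne').const_mul ca).fun_sub (hasDerivAt_id t)
    simpa [div_eq_mul_inv] using h2
  · apply ContinuousOn.sub _ continuousOn_const
    apply ContinuousOn.div continuousOn_const continuousOn_id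
    intro t ht
    exact (lt_of_lt_of_le hx ht.1).ne'
  · intro t ht
    have htp : 0 < t := lt_trans hx ht.1
    have : 1 ≤ ca / t := by
      rw [le_div_iff₀ htp]
      linarith [ht.2]
    linarith

/-- Tonelli -/
theorem tonelli (X : ℝ → ℝ≥0∞) (hX : Measurable X) :
    ∫⁻ u in Ioi (3:ℝ), (∫⁻ v in Ioi (u - 1), X v) = ∫⁻ v in Ioi (2:ℝ), ENNReal.ofReal (v - 2) * X v := by
  have h1 : ∀ u : ℝ, (∫⁻ v in Ioi (u - 1), X v) = ∫⁻ v, (Ioi (u - 1)).indicator X v := by
    intro u
    rw [lintegral_indicator measurableSet_Ioi]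
  have h2 : ∫⁻ u in Ioi (3:ℝ), (∫⁻ v in Ioi (u - 1), X v)
      = ∫⁻ u, ∫⁻ v, (Ioi (3:ℝ)).indicator (fun u => (Ioi (u - 1)).indicator X v) u := by
    rw [← lintegral_indicator measurableSet_Ioi]
    apply lintegral_congr
    intro u
    by_cases hu : u ∈ Ioi (3:ℝ)
    · simp only [indicator_of_mem hu]
      rw [h1]
    · simp only [indicator_of_notMem hu, lintegral_zero]
  rw [h2, lintegral_lintegral_swap]
  · rw [← lintegral_indicator measurableSet_Ioi]
    apply lintegral_congr
    intro v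
    have h3 : ∀ u : ℝ, (Ioi (3:ℝ)).indicator (fun u => (Ioi (u - 1)).indicator X v) u
        = (Ioo 3 (v + 1)).indicator (fun _ => X v) u := by
      intro u
      by_cases hu : 3 < u
      · rw [indicator_of_mem (mem_Ioi.2 hu)]
        by_cases hv : u - 1 < v
        · rw [indicator_of_mem (mem_Ioi.2 hv), indicator_of_mem (mem_Ioo.2 ⟨hu, by linarith⟩)]
        · rw [indicator_of_notMem (by simpa using hv), indicator_of_notMem]
          intro h
          exact hv (by linarith [h.2])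
      · rw [indicator_of_notMem (by simpa using hu), indicator_of_notMem]
        intro h
        exact hu h.1
    simp_rw [h3]
    rw [lintegral_indicator measurableSet_Ioo, setLIntegral_const, Real.volume_Ioo]
    by_cases hv : 2 < v
    · rw [indicator_of_mem (mem_Ioi.2 hv), mul_comm]
      congr 2
      ring
    · rw [indicator_of_notMem (by simpa using hv), ENNReal.ofReal_of_nonpos (by linarith), mul_zero]
  · apply Measurable.aemeasurable
    have h4 : (Function.uncurry fun (u v : ℝ) => (Ioi (3:ℝ)).indicator (fun u => (Ioi (u - 1)).indicator X v) u)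
        = ({p : ℝ × ℝ | 3 < p.1 ∧ p.1 - 1 < p.2}).indicator (fun p => X p.2) := by
      ext p
      obtain ⟨u, v⟩ := p
      simp only [Function.uncurry]
      by_cases hu : 3 < u
      · rw [indicator_of_mem (mem_Ioi.2 hu)]
        by_cases hv : u - 1 < v
        · rw [indicator_of_mem (mem_Ioi.2 hv), indicator_of_mem]
          exact ⟨hu, hv⟩
        · rw [indicator_of_notMem (by simpa using hv), indicator_of_notMem]
          intro h
          exact hv h.2
      · rw [indicator_of_notMem (by simpa using hu), indicator_of_notMem]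
        intro h
        exact hu h.1
    rw [h4]
    apply Measurable.indicator (hX.comp measurable_snd)
    apply MeasurableSet.inter
    · exact measurableSet_lt measurable_const measurable_fst
    · exact measurableSet_lt (measurable_fst.sub_const 1) measurable_snd

end Vale.Agent.P013
end

section
open MeasureTheory Set Filter Real
open scoped ENNReal Topology

namespace Vale.Agent.P013

theorem tA_le {x : ℝ} (hx : 1 ≤ x) : tA x ≤ ENNReal.ofReal (240 / (x + 1) ^ 3) := by
  have h1 := lint_hp_le (s := x + 1) (by linarith)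
  have he : x + 1 - 1 = x := by ring
  rw [he] at h1
  exact (lintegral_mono phiP_le).trans h1

theorem tB_le {x : ℝ} (hx : 2 ≤ x) : tB x ≤ ENNReal.ofReal (80 / x ^ 3) := by
  rw [← lint_hm hx]
  apply setLIntegral_mono' measurableSet_Ioi
  intro t ht
  exact phiM_le (hx.trans (le_of_lt ht))

theorem W_ne_top : ∫⁻ u in Ioi (3:ℝ), (tA (u - 1) + tB (u - 1)) ≠ ⊤ := by
  have h1 : ∫⁻ u in Ioi (3:ℝ), ENNReal.ofReal (320 / (u - 1) ^ 3)
      = ENNReal.ofReal (160 / (3 - 1) ^ 2) := by
    apply lintegral_tail_eq (G := fun t => 160 / (t - 1) ^ 2)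
    · intro t ht
      have ht' : 3 ≤ t := ht
      have htp : 0 < t - 1 := by linarith
      have h0 : HasDerivAt (fun t : ℝ => (t - 1) ^ 2) (2 * (t - 1)) t := by
        have := ((hasDerivAt_id t).sub_const 1).fun_pow 2
        simpa using this
      have h := (hasDerivAt_const t (160:ℝ)).fun_div h0 (by positivity)
      have hne : t - 1 ≠ 0 := htp.ne'
      have he : -(320 / (t - 1) ^ 3) = (0 * (t - 1) ^ 2 - 160 * (2 * (t - 1))) / ((t - 1) ^ 2) ^ 2 := by
        field_simp
        ring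
      rw [he]
      exact h
    · intro t ht
      have ht' : 3 < t := ht
      have htp : 0 < t - 1 := by linarith
      positivity
    · have h1 : Tendsto (fun t : ℝ => (t - 1) ^ 2) atTop atTop :=
        (tendsto_pow_atTop (by norm_num)).comp (tendsto_atTop_add_const_right _ (-1) tendsto_id)
      exact h1.const_div_atTop 160
  have h2 : ∫⁻ u in Ioi (3:ℝ), (tA (u - 1) + tB (u - 1)) ≤
      ∫⁻ u in Ioi (3:ℝ), ENNReal.ofReal (320 / (u - 1) ^ 3) := by
    apply setLIntegral_mono' measurableSet_Ioi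
    intro u hu
    have hu' : 3 < u := hu
    have hup : 0 < u - 1 := by linarith
    have ha := tA_le (x := u - 1) (by linarith)
    have hb := tB_le (x := u - 1) (by linarith)
    refine (add_le_add ha hb).trans ?_
    rw [← ENNReal.ofReal_add (by positivity) (by positivity)]
    apply ENNReal.ofReal_le_ofReal
    have h3 : (240:ℝ) / (u - 1 + 1) ^ 3 ≤ 240 / (u - 1) ^ 3 := by
      apply div_le_div_of_nonneg_left (by norm_num) (by positivity)
      gcongr
      linarith
    have h4 : (320:ℝ) / (u - 1) ^ 3 = 240 / (u - 1) ^ 3 + 80 / (u - 1) ^ 3 := by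
      rw [← add_div]
      norm_num
    linarith only [h4, h3]
  exact ne_top_of_le_ne_top (h1 ▸ ENNReal.ofReal_ne_top) h2

noncomputable def xX (v : ℝ) : ℝ≥0∞ := phiP v + phiM v

theorem measurable_xX : Measurable xX := measurable_phiP.add measurable_phiM

theorem lint_xX (x : ℝ) : ∫⁻ v in Ioi x, xX v = tA x + tB x := by
  unfold xX tA tB
  rw [lintegral_add_left measurable_phiP]

theorem key1 : ∫⁻ u in Ioi (3:ℝ), ENNReal.ofReal u * xX u
    = ∫⁻ v in Ioi (2:ℝ), ENNReal.ofReal (v - 2) * xX v := by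
  rw [← tonelli xX measurable_xX]
  apply setLIntegral_congr_fun measurableSet_Ioi
  intro u hu
  have hu' : 3 < u := hu
  simp only
  rw [lint_xX]
  unfold xX
  rw [mul_add, ofReal_mul_phiP (by linarith), ofReal_mul_phiM (by linarith),
    max_eq_left hu'.le, ENNReal.ofReal_of_nonpos (by linarith), zero_add, add_comm]

theorem key1' : ∫⁻ u in Ioi (3:ℝ), ENNReal.ofReal u * xX u ≠ ⊤ := by
  have h : ∫⁻ u in Ioi (3:ℝ), ENNReal.ofReal u * xX u
      = ∫⁻ u in Ioi (3:ℝ), (tA (u - 1) + tB (u - 1)) := by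
    apply setLIntegral_congr_fun measurableSet_Ioi
    intro u hu
    have hu' : 3 < u := hu
    simp only
    unfold xX
    rw [mul_add, ofReal_mul_phiP (by linarith), ofReal_mul_phiM (by linarith),
      max_eq_left hu'.le, ENNReal.ofReal_of_nonpos (by linarith), zero_add, add_comm]
  rw [h]
  exact W_ne_top

theorem key2 : 2 * (tA 2 + tB 2) = ∫⁻ v in Ioc (2:ℝ) 3, ENNReal.ofReal v * xX v := by
  have h1 : ∫⁻ v in Ioi (2:ℝ), ENNReal.ofReal v * xX v
      = (∫⁻ v in Ioi (2:ℝ), ENNReal.ofReal (v - 2) * xX v) + 2 * (tA 2 + tB 2) := by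
    rw [← lint_xX, ← lintegral_const_mul _ measurable_xX, ← lintegral_add_left]
    · apply setLIntegral_congr_fun measurableSet_Ioi
      intro v hv
      have hv' : 2 < v := hv
      simp only
      rw [← add_mul]
      congr 1
      have : (2:ℝ≥0∞) = ENNReal.ofReal 2 := by simp
      rw [this, ← ENNReal.ofReal_add (by linarith) (by norm_num)]
      congr 1
      ring
    · have : Measurable fun v : ℝ => ENNReal.ofReal (v - 2) := by fun_prop
      exact this.mul measurable_xX
  have h2 := lint_split (fun v => ENNReal.ofReal v * xX v) (show (2:ℝ) ≤ 3 by norm_num)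
  rw [h1, ← key1] at h2
  have h3 := key1'
  rw [add_comm] at h2
  exact (ENNReal.add_left_inj h3).1 h2

theorem key3 : ∫⁻ v in Ioc (2:ℝ) 3, ENNReal.ofReal v * xX v
    = ENNReal.ofReal (ca * (1 - Real.log 2)) + (tA 2 + tB 2) := by
  have hca := ca_ge
  have h1 : ∫⁻ v in Ioc (2:ℝ) 3, ENNReal.ofReal v * xX v
      = ∫⁻ v in Ioc (2:ℝ) 3, (ENNReal.ofReal (ca * (Real.log 2 - Real.log (v - 1))) + (tA 2 + tB 2)) := by
    apply setLIntegral_congr_fun measurableSet_Ioc
    intro v hv
    have hv2 := hv.1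
    have hv3 := hv.2
    simp only
    unfold xX
    rw [mul_add, ofReal_mul_phiP (by linarith), ofReal_mul_phiM (by linarith), max_eq_right hv3,
      tA_diff (x := v - 1) (y := 2) (by linarith) (by linarith) (by norm_num)]
    norm_num only
    have h5 : 0 ≤ (ca * Real.log 2 - 2) - (ca * Real.log (v - 1) - (v - 1)) := by
      have h6 : 1 - (2 / (v - 1))⁻¹ ≤ Real.log (2 / (v - 1)) :=
        Real.one_sub_inv_le_log_of_pos (div_pos (by norm_num) (by linarith))
      rw [inv_div, Real.log_div (by norm_num) (by linarith)] at h6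
      have h7 : ca * (1 - (v - 1) / 2) ≤ ca * (Real.log 2 - Real.log (v - 1)) := by gcongr
      nlinarith
    have h8 : ENNReal.ofReal (ca * (Real.log 2 - Real.log (v - 1)))
        = ENNReal.ofReal (3 - v) +
          ENNReal.ofReal ((ca * Real.log 2 - 2) - (ca * Real.log (v - 1) - (v - 1))) := by
      rw [← ENNReal.ofReal_add (by linarith) h5]
      congr 1
      ring
    rw [h8]
    ring
  rw [h1, lintegral_add_right _ measurable_const, setLIntegral_const, Real.volume_Ioc]
  have h2 : (3:ℝ) - 2 = 1 := by norm_num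
  rw [h2, ENNReal.ofReal_one, mul_one]
  congr 1
  rw [lintegral_Ioc_eq (G := fun v => ca * (v * Real.log 2 - ((v - 1) * Real.log (v - 1) - (v - 1)))) (by norm_num)]
  · congr 1
    norm_num
    ring
  · intro v hv
    have hvp : 0 < v - 1 := by linarith [hv.1]
    have h3 : HasDerivAt (fun v : ℝ => (v - 1) * Real.log (v - 1)) (Real.log (v - 1) + 1) v := by
      have := (Real.hasDerivAt_mul_log hvp.ne').comp v ((hasDerivAt_id v).sub_const 1)
      simpa [Function.comp_def] using this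
    have h4 : HasDerivAt (fun v : ℝ => v * Real.log 2) (Real.log 2) v := by
      have := (hasDerivAt_id v).mul_const (Real.log 2)
      simpa using this
    have h5 := (h4.fun_sub (h3.fun_sub ((hasDerivAt_id v).sub_const 1))).const_mul ca
    have he : ca * (Real.log 2 - Real.log (v - 1)) = ca * (Real.log 2 - (Real.log (v - 1) + 1 - 1)) := by ring
    rw [he]
    exact h5
  · apply ContinuousOn.mul continuousOn_const
    apply ContinuousOn.sub continuousOn_const
    apply ContinuousOn.log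
    · exact (continuous_id.sub continuous_const).continuousOn
    · intro v hv
      have : 0 < v - 1 := by linarith [hv.1]
      exact this.ne'
  · intro v hv
    have h6 : Real.log (v - 1) ≤ Real.log 2 := by
      apply Real.log_le_log (by linarith [hv.1]) (by linarith [hv.2])
    have : 0 ≤ Real.log 2 - Real.log (v - 1) := by linarith
    positivity

theorem key4 : (tA 2).toReal + (tB 2).toReal = ca * (1 - Real.log 2) := by
  have hca := ca_ge
  have hA := tA_ne_top (x := 2) (by norm_num)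
  have hB := tB_ne_top (x := 2) (le_refl 2)
  have h := key2.trans key3
  have hS : tA 2 + tB 2 ≠ ⊤ := ENNReal.add_ne_top.2 ⟨hA, hB⟩
  rw [two_mul] at h
  have h2 := (ENNReal.add_left_inj hS).1 h
  have h3 : 0 ≤ ca * (1 - Real.log 2) := by
    have : Real.log 2 ≤ 1 := by
      have := Real.log_two_lt_d9
      linarith
    apply mul_nonneg (by linarith)
    linarith
  rw [← ENNReal.toReal_add hA hB, h2, ENNReal.toReal_ofReal h3]

theorem tA_one : (tA 1).toReal = 2 := by
  have hca := ca_ge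
  have hA := tA_ne_top (x := 2) (by norm_num)
  have h1 := tA_diff (x := 1) (y := 2) (by norm_num) (by norm_num) (by norm_num)
  have hl : 0 ≤ (ca * Real.log 2 - 2) - (ca * Real.log 1 - 1) := by
    have := Real.log_two_gt_d9
    rw [Real.log_one]
    linarith only [mul_nonneg (sub_nonneg.2 hca) (le_of_lt (sub_pos.2 this)), this, hca]
  rw [h1, ENNReal.toReal_add ENNReal.ofReal_ne_top hA, ENNReal.toReal_ofReal hl, Real.log_one]
  have h4 := key4
  have h5 : ca = 3 + (tB 2).toReal := rfl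
  nlinarith

end Vale.Agent.P013
end

section
open MeasureTheory Set Filter Real
open scoped ENNReal Topology

namespace Vale.Agent.P013

noncomputable def sF (s : ℝ) : ℝ := 1 + (phiP s).toReal
noncomputable def sf (s : ℝ) : ℝ := 1 - (phiM s).toReal

theorem mul_phiP_toReal {s : ℝ} (hs : 0 < s) :
    s * (phiP s).toReal = max (3 - s) 0 + (tB (max s 3 - 1)).toReal := by
  have hB : tB (max s 3 - 1) ≠ ⊤ := tB_ne_top (by have := le_max_right s 3; linarith)
  have h := congrArg ENNReal.toReal (ofReal_mul_phiP hs)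
  rw [ENNReal.toReal_mul, ENNReal.toReal_ofReal hs.le, ENNReal.toReal_add ENNReal.ofReal_ne_top hB,
    ENNReal.toReal_ofReal'] at h
  exact h

theorem mul_phiM_toReal {s : ℝ} (hs : 0 < s) :
    s * (phiM s).toReal = (tA (s - 1)).toReal := by
  have h := congrArg ENNReal.toReal (ofReal_mul_phiM hs)
  rw [ENNReal.toReal_mul, ENNReal.toReal_ofReal hs.le] at h
  exact h

theorem tA_real_diff {x y : ℝ} (hx : 1 ≤ x) (hxy : x ≤ y) :
    (y - x) * (phiP y).toReal ≤ (tA x).toReal - (tA y).toReal := by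
  have hA := tA_ne_top hx
  have hA2 := tA_ne_top (hx.trans hxy)
  have h1 : ENNReal.ofReal (y - x) * phiP y + tA y ≤ tA x := by
    unfold tA
    rw [lint_split phiP hxy]
    gcongr
    have h2 : ∫⁻ t in Ioc x y, phiP y ≤ ∫⁻ t in Ioc x y, phiP t := by
      apply setLIntegral_mono' measurableSet_Ioc
      intro t ht
      exact phiP_anti (by linarith only [ht.1, hx, ht]) ht.2
    rw [setLIntegral_const, Real.volume_Ioc, mul_comm] at h2
    exact h2
  have h3 := ENNReal.toReal_mono hA h1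
  rw [ENNReal.toReal_add (ENNReal.mul_ne_top ENNReal.ofReal_ne_top (phiP_ne_top y)) hA2,
    ENNReal.toReal_mul, ENNReal.toReal_ofReal (by linarith)] at h3
  linarith

theorem tB_real_diff {x y : ℝ} (hx : 2 ≤ x) (hxy : x ≤ y) :
    (y - x) * (phiM y).toReal ≤ (tB x).toReal - (tB y).toReal := by
  have hA := tB_ne_top hx
  have hA2 := tB_ne_top (hx.trans hxy)
  have h1 : ENNReal.ofReal (y - x) * phiM y + tB y ≤ tB x := by
    unfold tB
    rw [lint_split phiM hxy]
    gcongr
    have h2 : ∫⁻ t in Ioc x y, phiM y ≤ ∫⁻ t in Ioc x y, phiM t := by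
      apply setLIntegral_mono' measurableSet_Ioc
      intro t ht
      exact phiM_anti (by linarith only [ht.1, hx, ht]) ht.2
    rw [setLIntegral_const, Real.volume_Ioc, mul_comm] at h2
    exact h2
  have h3 := ENNReal.toReal_mono hA h1
  rw [ENNReal.toReal_add (ENNReal.mul_ne_top ENNReal.ofReal_ne_top (phiM_ne_top (hx.trans hxy))) hA2,
    ENNReal.toReal_mul, ENNReal.toReal_ofReal (by linarith)] at h3
  linarith

theorem phiM_two : (phiM 2).toReal = 1 := by
  have h := mul_phiM_toReal (s := 2) (by norm_num)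
  have h2 : (2:ℝ) - 1 = 1 := by norm_num
  rw [h2, tA_one] at h
  linarith

theorem sf_two : sf 2 = 0 := by
  unfold sf
  rw [phiM_two]
  norm_num

theorem sf_nonneg {s : ℝ} (hs : 2 ≤ s) : 0 ≤ sf s := by
  unfold sf
  have h := ENNReal.toReal_mono (phiM_ne_top (le_refl 2)) (phiM_anti (by norm_num) hs)
  rw [phiM_two] at h
  linarith

theorem sf_le_one (s : ℝ) : sf s ≤ 1 := by
  unfold sf
  have := ENNReal.toReal_nonneg (a := phiM s)
  linarith

theorem one_le_sF (s : ℝ) : 1 ≤ sF s := by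
  unfold sF
  have := ENNReal.toReal_nonneg (a := phiP s)
  linarith

theorem sF_F1 {t : ℝ} (h0 : 0 < t) (h3 : t ≤ 3) : t * sF t = ca := by
  unfold sF
  rw [mul_add, mul_phiP_toReal h0, max_eq_right h3, max_eq_left (by linarith)]
  have h2 : (3:ℝ) - 1 = 2 := by norm_num
  rw [h2]
  unfold ca
  ring

theorem sF_F2' {s t : ℝ} (hs : 3 ≤ s) (hst : s ≤ t) :
    t * sF t - s * sF s ≤ (t - s) * sf (t - 1) := by
  unfold sF sf
  have h1 := mul_phiP_toReal (s := s) (by linarith)
  have h2 := mul_phiP_toReal (s := t) (by linarith)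
  rw [max_eq_left hs, max_eq_right (by linarith : 3 - s ≤ 0)] at h1
  rw [max_eq_left (hs.trans hst), max_eq_right (by linarith : 3 - t ≤ 0)] at h2
  have h3 := tB_real_diff (x := s - 1) (y := t - 1) (by linarith) (by linarith)
  have h4 : t - 1 - (s - 1) = t - s := by ring
  rw [h4] at h3
  linarith only [h3, h2, h1]

theorem sF_F2 {s t : ℝ} (hs : 0 < s) (hst : s ≤ t) (ht : 3 ≤ t) :
    t * sF t - s * sF s ≤ (t - s) * sf (t - 1) := by
  rcases le_total 3 s with h | h
  · exact sF_F2' h hst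
  · have h1 := sF_F1 hs h
    have h2 := sF_F1 (t := 3) (by norm_num) (le_refl 3)
    have h3 := sF_F2' (le_refl 3) ht
    have h4 := sf_nonneg (s := t - 1) (by linarith)
    linarith only [mul_nonneg (sub_nonneg.2 h) (sub_nonneg.2 h4), h3, h2, h1]

theorem sf_F3 {s t : ℝ} (hs : 2 ≤ s) (hst : s ≤ t) :
    (t - s) * sF (t - 1) ≤ t * sf t - s * sf s := by
  unfold sF sf
  have h1 := mul_phiM_toReal (s := s) (by linarith)
  have h2 := mul_phiM_toReal (s := t) (by linarith)
  have h3 := tA_real_diff (x := s - 1) (y := t - 1) (by linarith) (by linarith)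
  have h4 : t - 1 - (s - 1) = t - s := by ring
  rw [h4] at h3
  linarith only [h3, h2, h1]

theorem sf_lower {t : ℝ} (ht : 2 ≤ t) : (t - 2) / t ≤ sf t := by
  have h := sf_F3 (le_refl 2) ht
  rw [sf_two] at h
  have h2 := one_le_sF (t - 1)
  rw [div_le_iff₀ (by linarith only [ht])]
  linarith only [mul_nonneg (sub_nonneg.2 ht) (sub_nonneg.2 h2), h]

end Vale.Agent.P013
end

section

open Finset Real

namespace Vale.Agent.P013

/-- the sieve product over the primes of `Q` below `x` -/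
noncomputable def vv (Q : Finset ℕ) (x : ℕ) : ℝ := ∏ q ∈ Q.filter (fun q => q < x), (1 - 1 / (q:ℝ))

noncomputable def tau (Q : Finset ℕ) (z x : ℕ) : ℝ := Real.log z * vv Q z / vv Q x

noncomputable def ee (Q : Finset ℕ) (z x : ℕ) : ℝ :=
  Real.exp (-(∑ p ∈ (Ico x z).filter (fun p => p.Prime ∧ p ∉ Q), 1 / (p:ℝ)))

noncomputable def mmc (Q : Finset ℕ) (C : ℝ) (x : ℕ) : ℝ :=
  ∑ p ∈ (range x).filter (fun p => p.Prime ∧ p ∉ Q), (Real.log p - C) / (p:ℝ)

noncomputable def pp (Q : Finset ℕ) (C : ℝ) (x : ℕ) : ℝ :=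
  ∏ q ∈ Q.filter (fun q => q < x), (1 + Real.exp C / (q:ℝ))

noncomputable def rem (Q : Finset ℕ) (C : ℝ) (z : ℕ) (T : ℝ) (x : ℕ) : ℝ :=
  Real.exp (ee Q z x * T - mmc Q C x) * pp Q C x

theorem filter_lt_succ_mem {Q : Finset ℕ} {x : ℕ} (hx : x ∈ Q) :
    Q.filter (fun q => q < x + 1) = insert x (Q.filter (fun q => q < x)) := by
  ext q
  simp only [mem_filter, mem_insert]
  constructor
  · rintro ⟨h1, h2⟩
    rcases Nat.lt_succ_iff_lt_or_eq.1 h2 with h | h
    · exact Or.inr ⟨h1, h⟩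
    · exact Or.inl h
  · rintro (h | h)
    · exact ⟨h ▸ hx, by omega⟩
    · exact ⟨h.1, by omega⟩

theorem filter_lt_succ_notMem {Q : Finset ℕ} {x : ℕ} (hx : x ∉ Q) :
    Q.filter (fun q => q < x + 1) = Q.filter (fun q => q < x) := by
  ext q
  simp only [mem_filter]
  constructor
  · rintro ⟨h1, h2⟩
    refine ⟨h1, ?_⟩
    rcases Nat.lt_succ_iff_lt_or_eq.1 h2 with h | h
    · exact h
    · exact absurd (h ▸ h1) hx
  · rintro ⟨h1, h2⟩
    exact ⟨h1, by omega⟩

theorem notMem_filter_lt (Q : Finset ℕ) (x : ℕ) : x ∉ Q.filter (fun q => q < x) := by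
  simp

theorem vv_succ_mem {Q : Finset ℕ} {x : ℕ} (hx : x ∈ Q) :
    vv Q (x + 1) = (1 - 1 / (x:ℝ)) * vv Q x := by
  unfold vv
  rw [filter_lt_succ_mem hx, prod_insert (notMem_filter_lt Q x)]

theorem vv_succ_notMem {Q : Finset ℕ} {x : ℕ} (hx : x ∉ Q) : vv Q (x + 1) = vv Q x := by
  unfold vv
  rw [filter_lt_succ_notMem hx]

theorem pp_succ_mem {Q : Finset ℕ} {C : ℝ} {x : ℕ} (hx : x ∈ Q) :
    pp Q C (x + 1) = (1 + Real.exp C / (x:ℝ)) * pp Q C x := by
  unfold pp
  rw [filter_lt_succ_mem hx, prod_insert (notMem_filter_lt Q x)]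

theorem pp_succ_notMem {Q : Finset ℕ} {C : ℝ} {x : ℕ} (hx : x ∉ Q) :
    pp Q C (x + 1) = pp Q C x := by
  unfold pp
  rw [filter_lt_succ_notMem hx]

theorem pp_ge_one (Q : Finset ℕ) (C : ℝ) (x : ℕ) : 1 ≤ pp Q C x := by
  unfold pp
  have : ∀ q ∈ Q.filter (fun q => q < x), (1:ℝ) ≤ 1 + Real.exp C / (q:ℝ) := by
    intro q _
    have : 0 ≤ Real.exp C / (q:ℝ) := by positivity
    linarith
  calc (1:ℝ) = ∏ q ∈ Q.filter (fun q => q < x), 1 := by simp
    _ ≤ _ := prod_le_prod (by intros; norm_num) this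

theorem vv_pos {Q : Finset ℕ} (hQ : ∀ q ∈ Q, q.Prime) (x : ℕ) : 0 < vv Q x := by
  unfold vv
  apply prod_pos
  intro q hq
  have h := (hQ q (mem_filter.1 hq).1).two_le
  have h2 : (2:ℝ) ≤ q := by exact_mod_cast h
  have : 1 / (q:ℝ) ≤ 1 / 2 := one_div_le_one_div_of_le (by norm_num) h2
  linarith only [this]

theorem vv_anti {Q : Finset ℕ} (hQ : ∀ q ∈ Q, q.Prime) (x : ℕ) : vv Q (x + 1) ≤ vv Q x := by
  by_cases hx : x ∈ Q
  · rw [vv_succ_mem hx]
    have h := vv_pos hQ x
    have h2 : 0 ≤ 1 / (x:ℝ) := by positivity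
    linarith only [mul_nonneg (le_of_lt (sub_pos.2 h)) (sub_nonneg.2 h2)]
  · rw [vv_succ_notMem hx]

theorem tau_pos {Q : Finset ℕ} (hQ : ∀ q ∈ Q, q.Prime) {z : ℕ} (hz : 2 ≤ z) (x : ℕ) :
    0 < tau Q z x := by
  unfold tau
  have h1 := vv_pos hQ x
  have h2 := vv_pos hQ z
  have h3 : 0 < Real.log z := Real.log_pos (by exact_mod_cast (by omega : 1 < z))
  positivity

theorem tau_mono_succ {Q : Finset ℕ} (hQ : ∀ q ∈ Q, q.Prime) {z : ℕ} (hz : 2 ≤ z) (x : ℕ) :
    tau Q z x ≤ tau Q z (x + 1) := by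
  unfold tau
  have h1 := vv_pos hQ x
  have h2 := vv_pos hQ (x + 1)
  have h2' := vv_pos hQ z
  have h3 : 0 < Real.log z := Real.log_pos (by exact_mod_cast (by omega : 1 < z))
  apply div_le_div_of_nonneg_left (by positivity) h2 (vv_anti hQ x)

theorem ico_filter_succ {Q : Finset ℕ} {z x : ℕ} (hx : x < z) (hp : x.Prime ∧ x ∉ Q) :
    (Ico x z).filter (fun p => p.Prime ∧ p ∉ Q)
      = insert x ((Ico (x + 1) z).filter (fun p => p.Prime ∧ p ∉ Q)) := by
  ext q
  simp only [mem_filter, mem_insert, mem_Ico]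
  constructor
  · rintro ⟨⟨h1, h2⟩, h3⟩
    rcases eq_or_lt_of_le h1 with h | h
    · exact Or.inl h.symm
    · exact Or.inr ⟨⟨h, h2⟩, h3⟩
  · rintro (h | ⟨⟨h1, h2⟩, h3⟩)
    · subst h
      exact ⟨⟨le_refl _, hx⟩, hp⟩
    · exact ⟨⟨by omega, h2⟩, h3⟩

theorem ico_filter_succ' {Q : Finset ℕ} {z x : ℕ} (hp : ¬ (x.Prime ∧ x ∉ Q)) :
    (Ico x z).filter (fun p => p.Prime ∧ p ∉ Q)
      = (Ico (x + 1) z).filter (fun p => p.Prime ∧ p ∉ Q) := by
  ext q
  simp only [mem_filter, mem_Ico]
  constructor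
  · rintro ⟨⟨h1, h2⟩, h3⟩
    rcases eq_or_lt_of_le h1 with h | h
    · subst h
      exact absurd h3 hp
    · exact ⟨⟨h, h2⟩, h3⟩
  · rintro ⟨⟨h1, h2⟩, h3⟩
    exact ⟨⟨by omega, h2⟩, h3⟩

theorem range_filter_succ {Q : Finset ℕ} {x : ℕ} (hp : x.Prime ∧ x ∉ Q) :
    (range (x + 1)).filter (fun p => p.Prime ∧ p ∉ Q)
      = insert x ((range x).filter (fun p => p.Prime ∧ p ∉ Q)) := by
  rw [range_add_one, filter_insert, if_pos hp]

theorem range_filter_succ' {Q : Finset ℕ} {x : ℕ} (hp : ¬ (x.Prime ∧ x ∉ Q)) :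
    (range (x + 1)).filter (fun p => p.Prime ∧ p ∉ Q)
      = (range x).filter (fun p => p.Prime ∧ p ∉ Q) := by
  rw [range_add_one, filter_insert, if_neg hp]

theorem ee_succ {Q : Finset ℕ} {z x : ℕ} (hx : x < z) (hp : x.Prime ∧ x ∉ Q) :
    ee Q z (x + 1) = Real.exp (1 / (x:ℝ)) * ee Q z x := by
  unfold ee
  rw [ico_filter_succ hx hp, sum_insert (by simp), ← Real.exp_add]
  congr 1
  ring

theorem ee_succ' {Q : Finset ℕ} {z x : ℕ} (hp : ¬ (x.Prime ∧ x ∉ Q)) :
    ee Q z (x + 1) = ee Q z x := by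
  unfold ee
  rw [ico_filter_succ' hp]

theorem mmc_succ {Q : Finset ℕ} {C : ℝ} {x : ℕ} (hp : x.Prime ∧ x ∉ Q) :
    mmc Q C (x + 1) = (Real.log x - C) / (x:ℝ) + mmc Q C x := by
  unfold mmc
  rw [range_filter_succ hp, sum_insert (by simp)]

theorem mmc_succ' {Q : Finset ℕ} {C : ℝ} {x : ℕ} (hp : ¬ (x.Prime ∧ x ∉ Q)) :
    mmc Q C (x + 1) = mmc Q C x := by
  unfold mmc
  rw [range_filter_succ' hp]

/-- consequence of the one-sided Mertens estimate -/
theorem ee_mul_tau_ge {Q : Finset ℕ} (hQ : ∀ q ∈ Q, q.Prime) {z : ℕ} (hz : 2 ≤ z) {C : ℝ}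
    (hM : ∀ x : ℕ, 2 ≤ x → x ≤ z →
      Real.log x - C ≤ Real.log z * ∏ p ∈ (Ico x z).filter Nat.Prime, (1 - 1 / (p:ℝ)))
    {x : ℕ} (hx2 : 2 ≤ x) (hxz : x ≤ z) :
    Real.log x - C ≤ ee Q z x * tau Q z x := by
  have hlog : 0 < Real.log z := Real.log_pos (by exact_mod_cast (by omega : 1 < z))
  have hvx := vv_pos hQ x
  have h1 : vv Q z = vv Q x * ∏ q ∈ (Ico x z).filter (fun q => q.Prime ∧ q ∈ Q), (1 - 1 / (q:ℝ)) := by
    unfold vv
    rw [← prod_union]
    · congr 1
      ext q
      simp only [mem_filter, mem_union, mem_Ico]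
      constructor
      · rintro ⟨h1, h2⟩
        rcases lt_or_ge q x with h | h
        · exact Or.inl ⟨h1, h⟩
        · exact Or.inr ⟨⟨h, h2⟩, hQ q h1, h1⟩
      · rintro (⟨h1, h2⟩ | ⟨⟨h1, h2⟩, h3, h4⟩)
        · exact ⟨h1, by omega⟩
        · exact ⟨h4, h2⟩
    · rw [Finset.disjoint_left]
      intro q hq hq2
      simp only [mem_filter, mem_Ico] at hq hq2
      omega
  have h2 : ∏ p ∈ (Ico x z).filter Nat.Prime, (1 - 1 / (p:ℝ))
      = (∏ q ∈ (Ico x z).filter (fun q => q.Prime ∧ q ∈ Q), (1 - 1 / (q:ℝ))) *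
        ∏ q ∈ (Ico x z).filter (fun q => q.Prime ∧ q ∉ Q), (1 - 1 / (q:ℝ)) := by
    rw [← prod_union]
    · congr 1
      ext q
      simp only [mem_filter, mem_union, mem_Ico]
      tauto
    · rw [Finset.disjoint_left]
      intro q hq hq2
      simp only [mem_filter, mem_Ico] at hq hq2
      exact hq2.2.2 hq.2.2
  have h3 : ∏ q ∈ (Ico x z).filter (fun q => q.Prime ∧ q ∉ Q), (1 - 1 / (q:ℝ)) ≤ ee Q z x := by
    unfold ee
    rw [← Finset.sum_neg_distrib, Real.exp_sum]
    apply prod_le_prod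
    · intro q hq
      have h := ((mem_filter.1 hq).2.1).two_le
      have h2 : (2:ℝ) ≤ q := by exact_mod_cast h
      have : 1 / (q:ℝ) ≤ 1 / 2 := one_div_le_one_div_of_le (by norm_num) h2
      linarith only [this]
    · intro q hq
      have := Real.add_one_le_exp (-(1 / (q:ℝ)))
      linarith only [this]
  have h4 : 0 ≤ ∏ q ∈ (Ico x z).filter (fun q => q.Prime ∧ q ∈ Q), (1 - 1 / (q:ℝ)) := by
    apply prod_nonneg
    intro q hq
    have h := ((mem_filter.1 hq).2.1).two_le
    have h2 : (2:ℝ) ≤ q := by exact_mod_cast h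
    have : 1 / (q:ℝ) ≤ 1 / 2 := one_div_le_one_div_of_le (by norm_num) h2
    linarith only [this]
  have h5 : tau Q z x = Real.log z * ∏ q ∈ (Ico x z).filter (fun q => q.Prime ∧ q ∈ Q), (1 - 1 / (q:ℝ)) := by
    unfold tau
    rw [h1]
    field_simp
  refine (hM x hx2 hxz).trans ?_
  rw [h2, h5]
  have h6 := mul_le_mul_of_nonneg_left h3 (mul_nonneg hlog.le h4)
  linarith only [h6]

theorem rem_pos (Q : Finset ℕ) (C : ℝ) (z : ℕ) (T : ℝ) (x : ℕ) : 0 < rem Q C z T x := by
  unfold rem
  have := pp_ge_one Q C x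
  positivity

/-- remainder recursion at a sieving prime -/
theorem rem_step_mem {Q : Finset ℕ} (hQ : ∀ q ∈ Q, q.Prime) {z : ℕ} (hz : 2 ≤ z) {C : ℝ}
    (hM : ∀ x : ℕ, 2 ≤ x → x ≤ z →
      Real.log x - C ≤ Real.log z * ∏ p ∈ (Ico x z).filter Nat.Prime, (1 - 1 / (p:ℝ)))
    {x : ℕ} (hx : x ∈ Q) (hxz : x < z) (T : ℝ) :
    rem Q C z T x + rem Q C z (T - tau Q z x) x ≤ rem Q C z T (x + 1) := by
  have hp := hQ x hx
  have hnp : ¬ (x.Prime ∧ x ∉ Q) := fun h => h.2 hx
  unfold rem
  rw [ee_succ' hnp, mmc_succ' hnp, pp_succ_mem hx]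
  have h1 := ee_mul_tau_ge hQ hz hM hp.two_le hxz.le
  have hxpos : (0:ℝ) < x := by exact_mod_cast hp.pos
  have h2 : Real.exp (ee Q z x * (T - tau Q z x) - mmc Q C x)
      = Real.exp (ee Q z x * T - mmc Q C x) * Real.exp (-(ee Q z x * tau Q z x)) := by
    rw [← Real.exp_add]
    congr 1
    ring
  have h3 : Real.exp (-(ee Q z x * tau Q z x)) ≤ Real.exp C / x := by
    rw [le_div_iff₀ hxpos]
    calc Real.exp (-(ee Q z x * tau Q z x)) * x
        = Real.exp (-(ee Q z x * tau Q z x)) * Real.exp (Real.log x) := by rw [Real.exp_log hxpos]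
      _ = Real.exp (-(ee Q z x * tau Q z x) + Real.log x) := by rw [Real.exp_add]
      _ ≤ Real.exp C := by
        apply Real.exp_le_exp.2
        linarith only [h1]
  rw [h2]
  have h4 := pp_ge_one Q C x
  have h5 : 0 < Real.exp (ee Q z x * T - mmc Q C x) := Real.exp_pos _
  have h6 : Real.exp (ee Q z x * T - mmc Q C x) * pp Q C x * Real.exp (-(ee Q z x * tau Q z x))
      ≤ Real.exp (ee Q z x * T - mmc Q C x) * pp Q C x * (Real.exp C / x) := by
    gcongr
  linarith only [h6]

/-- remainder monotonicity away from the sieving primes -/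
theorem rem_step_notMem {Q : Finset ℕ} (hQ : ∀ q ∈ Q, q.Prime) {z : ℕ} (hz : 2 ≤ z) {C : ℝ}
    (hM : ∀ x : ℕ, 2 ≤ x → x ≤ z →
      Real.log x - C ≤ Real.log z * ∏ p ∈ (Ico x z).filter Nat.Prime, (1 - 1 / (p:ℝ)))
    {x : ℕ} (hx : x ∉ Q) (hxz : x < z) {T : ℝ} (hT : tau Q z x ≤ T) :
    rem Q C z T x ≤ rem Q C z T (x + 1) := by
  by_cases hp : x.Prime
  · unfold rem
    rw [ee_succ hxz ⟨hp, hx⟩, mmc_succ ⟨hp, hx⟩, pp_succ_notMem hx]
    have h4 := pp_ge_one Q C x
    refine mul_le_mul_of_nonneg_right (Real.exp_le_exp.2 ?_) (by linarith only [h4])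
    have hxpos : (0:ℝ) < x := by exact_mod_cast hp.pos
    have h1 := ee_mul_tau_ge hQ hz hM hp.two_le hxz.le
    have h2 : 1 / (x:ℝ) + 1 ≤ Real.exp (1 / (x:ℝ)) := Real.add_one_le_exp _
    have h3 : 0 < ee Q z x := Real.exp_pos _
    have htau := tau_pos hQ hz x
    have h5 : ee Q z x * tau Q z x ≤ ee Q z x * T := by gcongr
    have h6 : (Real.log x - C) / x ≤ (ee Q z x * T) / x := by
      gcongr
      linarith only [h1, h5]
    have hT0 : 0 < T := lt_of_lt_of_le htau hT
    have h7 : (1 / (x:ℝ) + 1) * (ee Q z x * T) ≤ Real.exp (1 / (x:ℝ)) * (ee Q z x * T) := by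
      gcongr
    have h8 : (1 / (x:ℝ) + 1) * (ee Q z x * T) = ee Q z x * T + (ee Q z x * T) / x := by
      field_simp
      ring
    have h9 : Real.exp (1 / (x:ℝ)) * ee Q z x * T = Real.exp (1 / (x:ℝ)) * (ee Q z x * T) := by ring
    rw [h9]
    linarith only [h6, h7, h8]
  · have hnp : ¬ (x.Prime ∧ x ∉ Q) := fun h => hp h.1
    unfold rem
    rw [ee_succ' hnp, mmc_succ' hnp, pp_succ_notMem hx]


/-- number of elements of `(u, u+m]` divisible by `d` and by no prime of `Q` below `x` -/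
noncomputable def cnt (Q : Finset ℕ) (u : ℤ) (m : ℕ) (d x : ℕ) : ℕ :=
  ((Ioc u (u + m)).filter (fun t : ℤ => (d:ℤ) ∣ t ∧ ∀ q ∈ Q, q < x → ¬ (q:ℤ) ∣ t)).card

theorem cnt_succ_notMem {Q : Finset ℕ} {x : ℕ} (hx : x ∉ Q) (u : ℤ) (m d : ℕ) :
    cnt Q u m d (x + 1) = cnt Q u m d x := by
  unfold cnt
  congr 1
  apply filter_congr
  intro t _
  constructor
  · rintro ⟨h1, h2⟩
    exact ⟨h1, fun q hq hqx => h2 q hq (by omega)⟩
  · rintro ⟨h1, h2⟩
    refine ⟨h1, fun q hq hqx => h2 q hq ?_⟩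
    rcases Nat.lt_succ_iff_lt_or_eq.1 hqx with h | h
    · exact h
    · exact absurd (h ▸ hq) hx

theorem cnt_succ_mem {Q : Finset ℕ} {x : ℕ} (hx : x ∈ Q) (u : ℤ) (m : ℕ) {d : ℕ}
    (hd : Nat.Coprime d x) :
    cnt Q u m d (x + 1) + cnt Q u m (d * x) x = cnt Q u m d x := by
  unfold cnt
  rw [← card_union_of_disjoint]
  · congr 1
    ext t
    simp only [mem_union, mem_filter]
    constructor
    · rintro (⟨h1, h2, h3⟩ | ⟨h1, h2, h3⟩)
      · exact ⟨h1, h2, fun q hq hqx => h3 q hq (by omega)⟩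
      · refine ⟨h1, ?_, h3⟩
        push_cast at h2
        exact dvd_of_mul_right_dvd h2
    · rintro ⟨h1, h2, h3⟩
      by_cases hxt : (x:ℤ) ∣ t
      · refine Or.inr ⟨h1, ?_, h3⟩
        push_cast
        apply IsCoprime.mul_dvd _ h2 hxt
        exact Nat.isCoprime_iff_coprime.2 hd
      · refine Or.inl ⟨h1, h2, fun q hq hqx => ?_⟩
        rcases Nat.lt_succ_iff_lt_or_eq.1 hqx with h | h
        · exact h3 q hq h
        · exact h ▸ hxt
  · rw [Finset.disjoint_left]
    intro t ht ht2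
    simp only [mem_filter] at ht ht2
    apply ht.2.2 x hx (Nat.lt_succ_self x)
    have := ht2.2.1
    push_cast at this
    exact dvd_of_mul_left_dvd this

theorem cnt_zero_bounds (Q : Finset ℕ) (u : ℤ) (m : ℕ) {d : ℕ} (hd : 0 < d) :
    (m:ℝ) / d - 1 ≤ cnt Q u m d 0 ∧ (cnt Q u m d 0 : ℝ) ≤ (m:ℝ) / d + 1 := by
  have h1 : cnt Q u m d 0 = ((Ioc u (u + m)).filter (fun t : ℤ => (d:ℤ) ∣ t)).card := by
    unfold cnt
    congr 1
    apply filter_congr
    intro t _
    simp
  have h2 := Int.Ioc_filter_dvd_card (u) (u + m) (r := (d:ℤ)) (by exact_mod_cast hd)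
  rw [← h1] at h2
  have hdq : (0:ℚ) < d := by exact_mod_cast hd
  have hfl1 := Int.floor_le (((u + m : ℤ) : ℚ) / ((d:ℤ):ℚ))
  have hfl2 := Int.lt_floor_add_one (((u + m : ℤ) : ℚ) / ((d:ℤ):ℚ))
  have hfl3 := Int.floor_le (((u : ℤ) : ℚ) / ((d:ℤ):ℚ))
  have hfl4 := Int.lt_floor_add_one (((u : ℤ) : ℚ) / ((d:ℤ):ℚ))
  have hsplit : (((u + m : ℤ) : ℚ) / ((d:ℤ):ℚ)) = ((u : ℤ) : ℚ) / ((d:ℤ):ℚ) + (m:ℚ) / d := by
    push_cast
    rw [add_div]
  rw [hsplit] at hfl1 hfl2
  rw [hsplit] at h2
  have hmd : (0:ℚ) ≤ (m:ℚ) / d := by positivity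
  have hmono : ⌊((u : ℤ) : ℚ) / ((d:ℤ):ℚ)⌋ ≤ ⌊((u : ℤ) : ℚ) / ((d:ℤ):ℚ) + (m:ℚ) / d⌋ := by
    apply Int.floor_le_floor
    linarith only [hmd]
  rw [max_eq_left (by linarith only [hmono])] at h2
  have h3 : ((cnt Q u m d 0 : ℤ) : ℚ) = ((⌊((u : ℤ) : ℚ) / ((d:ℤ):ℚ) + (m:ℚ) / d⌋ - ⌊((u : ℤ) : ℚ) / ((d:ℤ):ℚ)⌋ : ℤ) : ℚ) := by
    rw [h2]
  push_cast at h3 hfl1 hfl2 hfl3 hfl4
  have h4 : (m:ℚ) / d - 1 ≤ cnt Q u m d 0 := by
    rw [h3]; linarith only [hfl2, hfl3]
  have h5 : (cnt Q u m d 0 : ℚ) ≤ (m:ℚ) / d + 1 := by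
    rw [h3]; linarith only [hfl1, hfl4]
  constructor
  · have : (((m:ℚ) / d - 1 : ℚ) : ℝ) ≤ ((cnt Q u m d 0 : ℚ) : ℝ) := by exact_mod_cast h4
    push_cast at this
    exact this
  · have : ((cnt Q u m d 0 : ℚ) : ℝ) ≤ (((m:ℚ) / d + 1 : ℚ) : ℝ) := by exact_mod_cast h5
    push_cast at this
    exact this

end Vale.Agent.P013
end

section

open Finset Real

namespace Vale.Agent.P013

theorem tau_succ_notMem {Q : Finset ℕ} {z x : ℕ} (hx : x ∉ Q) :
    tau Q z (x + 1) = tau Q z x := by
  unfold tau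
  rw [vv_succ_notMem hx]

/-- main induction of the linear sieve in `tau` units -/
theorem sieve_induction {Q : Finset ℕ} (hQ : ∀ q ∈ Q, q.Prime) {z : ℕ} (hz : 2 ≤ z) {C : ℝ}
    (hM : ∀ x : ℕ, 2 ≤ x → x ≤ z →
      Real.log x - C ≤ Real.log z * ∏ p ∈ (Ico x z).filter Nat.Prime, (1 - 1 / (p:ℝ)))
    (u : ℤ) (m : ℕ) :
    ∀ x : ℕ, x ≤ z → ∀ d : ℕ, 0 < d → (∀ q ∈ Q, q < x → Nat.Coprime d q) → ∀ T : ℝ,
      (tau Q z x ≤ T → (cnt Q u m d x : ℝ)
        ≤ (m:ℝ) / d * (vv Q x * sF (T / tau Q z x)) + rem Q C z T x) ∧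
      (2 * tau Q z x ≤ T → (m:ℝ) / d * (vv Q x * sf (T / tau Q z x)) - rem Q C z T x
        ≤ (cnt Q u m d x : ℝ)) := by
  have hlogz : 0 < Real.log z := Real.log_pos (by exact_mod_cast (by omega : 1 < z))
  intro x
  induction x with
  | zero =>
    intro _ d hd _ T
    have hb := cnt_zero_bounds Q u m hd
    have hv : vv Q 0 = 1 := by simp [vv]
    have hpp : pp Q C 0 = 1 := by simp [pp]
    have hmm : mmc Q C 0 = 0 := by simp [mmc]
    have htau := tau_pos hQ hz 0
    have hmd : (0:ℝ) ≤ (m:ℝ) / d := by positivity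
    have hrem : tau Q z 0 ≤ T → 1 ≤ rem Q C z T 0 := by
      intro hT
      unfold rem
      rw [hpp, hmm, mul_one, sub_zero]
      apply Real.one_le_exp
      have : 0 < ee Q z 0 := Real.exp_pos _
      have : 0 < T := lt_of_lt_of_le htau hT
      positivity
    constructor
    · intro hT
      rw [hv, one_mul]
      have h1 := one_le_sF (T / tau Q z 0)
      have h2 := hrem hT
      linarith only [mul_nonneg (mul_self_nonneg (1 : ℝ)) (sub_nonneg.2 h2), mul_nonneg (mul_self_nonneg (1 : ℝ)) (sub_nonneg.2 hb.2), mul_nonneg (sub_nonneg.2 hmd) (sub_nonneg.2 h1)]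
    · intro hT
      rw [hv, one_mul]
      have h1 := sf_le_one (T / tau Q z 0)
      have h2 := hrem (by linarith only [hT, htau])
      linarith only [mul_nonneg (mul_self_nonneg (1 : ℝ)) (sub_nonneg.2 h2), mul_nonneg (mul_self_nonneg (1 : ℝ)) (sub_nonneg.2 hb.1), mul_nonneg (sub_nonneg.2 hmd) (sub_nonneg.2 h1)]
  | succ x ih =>
    intro hxz d hd hcop T
    have hxz' : x < z := hxz
    have ih' := ih hxz'.le
    have htx := tau_pos hQ hz x
    have htx1 := tau_pos hQ hz (x + 1)
    have hmono := tau_mono_succ hQ hz x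
    by_cases hx : x ∈ Q
    · -- sieving prime
      have hp := hQ x hx
      have hxpos : (0:ℝ) < x := by exact_mod_cast hp.pos
      have hdpos : (0:ℝ) < d := by exact_mod_cast hd
      have hcopx : Nat.Coprime d x := hcop x hx (Nat.lt_succ_self x)
      have hcnt := cnt_succ_mem hx u m hcopx
      have hcntR : (cnt Q u m d (x + 1) : ℝ) + (cnt Q u m (d * x) x : ℝ) = cnt Q u m d x := by
        exact_mod_cast hcnt
      have hcop' : ∀ q ∈ Q, q < x → Nat.Coprime d q := fun q hq hqx => hcop q hq (by omega)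
      have hcop'' : ∀ q ∈ Q, q < x → Nat.Coprime (d * x) q := by
        intro q hq hqx
        apply Nat.Coprime.mul_left (hcop' q hq hqx)
        rw [Nat.coprime_primes hp (hQ q hq)]
        omega
      have hdx : 0 < d * x := Nat.mul_pos hd hp.pos
      set v := vv Q x with hv
      set v' := vv Q (x + 1) with hv'
      have hvpos : 0 < v := vv_pos hQ x
      have hv'pos : 0 < v' := vv_pos hQ (x + 1)
      have hvz := vv_pos hQ z
      set K := Real.log z * vv Q z with hK
      have hKpos : 0 < K := by positivity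
      have htau : tau Q z x = K / v := rfl
      have htau' : tau Q z (x + 1) = K / v' := rfl
      have hvx : v / x = v - v' := by
        rw [hv', vv_succ_mem hx, ← hv]
        field_simp
        ring
      have hmdx : (m:ℝ) / ((d * x : ℕ) : ℝ) = (m:ℝ) / d / x := by
        push_cast
        rw [div_div]
      have hmd : (0:ℝ) ≤ (m:ℝ) / d := by (clear * - hd; positivity)
      have hstep := rem_step_mem hQ hz hM hx hxz' T
      have hrempos := rem_pos Q C z (T - tau Q z x) x
      constructor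
      · intro hT
        have hTpos : 0 < T := lt_of_lt_of_le htx1 hT
        set t := T / tau Q z x with ht
        set s := T / tau Q z (x + 1) with hs
        have ht_eq : t = T * v / K := by rw [ht, htau]; field_simp
        have hs_eq : s = T * v' / K := by rw [hs, htau']; field_simp
        have hv_eq : v = K / T * t := by rw [ht_eq]; field_simp
        have hv'_eq : v' = K / T * s := by rw [hs_eq]; field_simp
        have hspos : 0 < s := by positivity
        have hst : s ≤ t := by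
          rw [ht, hs]
          exact div_le_div_of_nonneg_left hTpos.le htx hmono
        have hKT : 0 < K / T := by positivity
        have ihU := (ih' d hd hcop' T).1 (hmono.trans hT)
        rcases le_or_gt t 3 with h3 | h3
        · -- drop
          have h1 : (cnt Q u m d (x + 1) : ℝ) ≤ cnt Q u m d x := by
            have : (0:ℝ) ≤ cnt Q u m (d * x) x := by (clear * -; positivity)
            linarith only [this, hcntR]
          have h2 : v * sF t = v' * sF s := by
            rw [hv_eq, hv'_eq, mul_assoc, mul_assoc, sF_F1 (by positivity) h3, sF_F1 hspos (hst.trans h3)]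
          rw [← h2]
          linarith only [h1, ihU, hrempos, hstep]
        · have h2t : 2 * tau Q z x ≤ T - tau Q z x := by
            have : 3 * tau Q z x < T := by
              rw [ht, lt_div_iff₀ htx] at h3
              exact h3
            linarith only [this]
          have ihL := (ih' (d * x) hdx hcop'' (T - tau Q z x)).2 h2t
          have ht1 : (T - tau Q z x) / tau Q z x = t - 1 := by
            rw [ht, sub_div, div_self htx.ne']
          rw [ht1, hmdx] at ihL
          have h4 := sF_F2 hspos hst h3.le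
          have h5 : v * sF t - v / x * sf (t - 1) ≤ v' * sF s := by
            rw [hvx]
            have e1 : v * sF t - (v - v') * sf (t - 1) = K / T * (t * sF t - (t - s) * sf (t - 1)) := by
              rw [hv_eq, hv'_eq]; ring
            have e2 : v' * sF s = K / T * (s * sF s) := by rw [hv'_eq]; ring
            rw [e1, e2]
            apply mul_le_mul_of_nonneg_left _ hKT.le
            linarith only [h4]
          have h6 := mul_le_mul_of_nonneg_left h5 hmd
          have h7 : (m:ℝ) / d / x * (v * sf (t - 1)) = (m:ℝ) / d * (v / x * sf (t - 1)) := by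
            field_simp
          rw [h7] at ihL
          have h8 : (m:ℝ) / d * (v * sF t - v / x * sf (t - 1))
              = (m:ℝ) / d * (v * sF t) - (m:ℝ) / d * (v / x * sf (t - 1)) := by ring
          rw [h8] at h6
          linarith only [hcntR, hstep, ihU, ihL, h6]
      · intro hT
        have hTpos : 0 < T := lt_of_lt_of_le (by linarith only [htx1]) hT
        set t := T / tau Q z x with ht
        set s := T / tau Q z (x + 1) with hs
        have ht_eq : t = T * v / K := by rw [ht, htau]; field_simp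
        have hs_eq : s = T * v' / K := by rw [hs, htau']; field_simp
        have hv_eq : v = K / T * t := by rw [ht_eq]; field_simp
        have hv'_eq : v' = K / T * s := by rw [hs_eq]; field_simp
        have hspos : 0 < s := by positivity
        have hst : s ≤ t := by
          rw [ht, hs]
          exact div_le_div_of_nonneg_left hTpos.le htx hmono
        have hs2 : 2 ≤ s := by
          rw [hs, le_div_iff₀ htx1]
          exact hT
        have hKT : 0 < K / T := by positivity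
        have ihL := (ih' d hd hcop' T).2 (by linarith only [hT, hmono])
        have ihU := (ih' (d * x) hdx hcop'' (T - tau Q z x)).1 (by linarith only [hT, hmono])
        have ht1 : (T - tau Q z x) / tau Q z x = t - 1 := by
          rw [ht, sub_div, div_self htx.ne']
        rw [ht1, hmdx] at ihU
        have h4 := sf_F3 hs2 hst
        have h5 : v' * sf s ≤ v * sf t - v / x * sF (t - 1) := by
          rw [hvx]
          have e1 : v * sf t - (v - v') * sF (t - 1) = K / T * (t * sf t - (t - s) * sF (t - 1)) := by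
            rw [hv_eq, hv'_eq]; ring
          have e2 : v' * sf s = K / T * (s * sf s) := by rw [hv'_eq]; ring
          rw [e1, e2]
          apply mul_le_mul_of_nonneg_left _ hKT.le
          linarith only [h4]
        have h6 := mul_le_mul_of_nonneg_left h5 hmd
        have h7 : (m:ℝ) / d / x * (v * sF (t - 1)) = (m:ℝ) / d * (v / x * sF (t - 1)) := by
          field_simp
        rw [h7] at ihU
        have h8 : (m:ℝ) / d * (v * sf t - v / x * sF (t - 1))
            = (m:ℝ) / d * (v * sf t) - (m:ℝ) / d * (v / x * sF (t - 1)) := by ring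
        rw [h8] at h6
        linarith only [h6, ihU, ihL, hstep, hcntR]
    · -- not a sieving prime
      have hcop' : ∀ q ∈ Q, q < x → Nat.Coprime d q := fun q hq hqx => hcop q hq (by omega)
      rw [cnt_succ_notMem hx, vv_succ_notMem hx, tau_succ_notMem hx]
      constructor
      · intro hT
        have h1 := (ih' d hd hcop' T).1 hT
        have h2 := rem_step_notMem hQ hz hM hx hxz' hT
        linarith only [h2, h1]
      · intro hT
        have h1 := (ih' d hd hcop' T).2 hT
        have h2 := rem_step_notMem hQ hz hM hx hxz' (by linarith : tau Q z x ≤ T)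
        linarith only [h2, h1]

end Vale.Agent.P013
end

section

namespace Vale.Agent.P013

open Finset Real

/-- `∑_{p < x} log p / p`. -/
noncomputable def mA (x : ℕ) : ℝ := ∑ p ∈ (range x).filter Nat.Prime, Real.log p / p

lemma log_factorial_eq (n : ℕ) :
    Real.log (n.factorial : ℝ) =
      ∑ p ∈ (range (n + 1)).filter Nat.Prime, (padicValNat p n.factorial : ℝ) * Real.log p := by
  rw [Real.log_nat_eq_sum_factorization]
  unfold Finsupp.sum
  rw [Nat.support_factorization]
  have hsub : n.factorial.primeFactors ⊆ (range (n + 1)).filter Nat.Prime := by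
    intro p hp
    rw [Nat.mem_primeFactors] at hp
    rw [mem_filter, mem_range]
    refine ⟨?_, hp.1⟩
    have := (hp.1.dvd_factorial).mp hp.2.1
    omega
  rw [sum_subset hsub]
  · apply sum_congr rfl
    intro p hp
    rw [mem_filter] at hp
    rw [Nat.factorization_def _ hp.2]
  · intro p _ hp
    have : n.factorial.factorization p = 0 := by
      rw [← Finsupp.notMem_support_iff, Nat.support_factorization]; exact hp
    rw [this]; simp

lemma padic_le (p n : ℕ) (hp : p.Prime) :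
    (padicValNat p n.factorial : ℝ) ≤ n / ((p : ℝ) - 1) := by
  have := Fact.mk hp
  have h := @sub_one_mul_padicValNat_factorial p _ n
  have h1 : ((p : ℝ) - 1) * padicValNat p n.factorial ≤ n := by
    have h2 : (p - 1) * padicValNat p n.factorial ≤ n := by rw [h]; exact Nat.sub_le _ _
    have h3 : (((p - 1) * padicValNat p n.factorial : ℕ) : ℝ) ≤ n := by exact_mod_cast h2
    rw [Nat.cast_mul, Nat.cast_sub hp.one_le, Nat.cast_one] at h3
    exact h3
  have h4 : (0 : ℝ) < (p : ℝ) - 1 := by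
    have : (2 : ℝ) ≤ p := by exact_mod_cast hp.two_le
    linarith only [this]
  rw [le_div_iff₀ h4]
  linarith only [h1]

lemma le_padic (p n : ℕ) (hp : p.Prime) (hpn : p ≤ n) :
    ((n : ℝ) / p - 1) ≤ (padicValNat p n.factorial : ℝ) := by
  have := Fact.mk hp
  have h := padicValNat_factorial (p := p) (n := n) (b := Nat.log p n + 1) (Nat.lt_succ_self _)
  have h1 : n / p ≤ padicValNat p n.factorial := by
    rw [h]
    have hmem : 1 ∈ Ico 1 (Nat.log p n + 1) := by
      rw [mem_Ico]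
      refine ⟨le_refl _, ?_⟩
      have : 0 < Nat.log p n := Nat.log_pos hp.one_lt hpn
      omega
    calc n / p = n / p ^ 1 := by rw [pow_one]
      _ ≤ ∑ i ∈ Ico 1 (Nat.log p n + 1), n / p ^ i :=
        single_le_sum (f := fun i => n / p ^ i) (fun _ _ => Nat.zero_le _) hmem
  have h2 : (n : ℝ) / p < ((n / p : ℕ) : ℝ) + 1 := by
    have hp0 : (0 : ℝ) < p := by exact_mod_cast hp.pos
    rw [div_lt_iff₀ hp0]
    have := Nat.lt_div_mul_add hp.pos (a := n)
    have h3 : n < (n / p + 1) * p := by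
      rw [add_mul, one_mul]; exact this
    exact_mod_cast h3
  have h3 : ((n / p : ℕ) : ℝ) ≤ (padicValNat p n.factorial : ℝ) := by exact_mod_cast h1
  linarith only [h2, h3]

lemma log_factorial_le (n : ℕ) :
    Real.log (n.factorial : ℝ) ≤ n * Real.log n := by
  have h : (n.factorial : ℝ) ≤ (n : ℝ) ^ n := by exact_mod_cast Nat.factorial_le_pow n
  have h0 : (0 : ℝ) < n.factorial := by exact_mod_cast n.factorial_pos
  calc Real.log (n.factorial : ℝ) ≤ Real.log ((n : ℝ) ^ n) := Real.log_le_log h0 h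
    _ = n * Real.log n := by rw [Real.log_pow]

lemma le_log_factorial (n : ℕ) (hn : 1 ≤ n) :
    n * Real.log n - n ≤ Real.log (n.factorial : ℝ) := by
  have hn0 : (0 : ℝ) < n := by exact_mod_cast hn
  have h : (n : ℝ) ^ n / n.factorial ≤ Real.exp n := by
    have := Real.pow_div_factorial_le_exp (n : ℝ) (by positivity) n
    exact this
  have h0 : (0 : ℝ) < n.factorial := by exact_mod_cast n.factorial_pos
  have h2 : (0 : ℝ) < (n : ℝ) ^ n := pow_pos hn0 n
  have h1 : Real.log ((n : ℝ) ^ n / n.factorial) ≤ n := by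
    rw [Real.log_le_iff_le_exp (div_pos h2 h0)]
    exact h
  rw [Real.log_div h2.ne' h0.ne', Real.log_pow] at h1
  linarith only [h1]

lemma sum_log_le (n : ℕ) (hn : 1 ≤ n) :
    ∑ p ∈ (range (n + 1)).filter Nat.Prime, Real.log p / p ≤ Real.log n + Real.log 4 := by
  have hn0 : (0 : ℝ) < n := by exact_mod_cast hn
  have h1 := log_factorial_le n
  rw [log_factorial_eq] at h1
  have h2 : ∑ p ∈ (range (n + 1)).filter Nat.Prime, ((n : ℝ) / p - 1) * Real.log p ≤
      ∑ p ∈ (range (n + 1)).filter Nat.Prime, (padicValNat p n.factorial : ℝ) * Real.log p := by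
    apply sum_le_sum
    intro p hp
    rw [mem_filter, mem_range] at hp
    apply mul_le_mul_of_nonneg_right
    · exact le_padic p n hp.2 (by omega)
    · exact Real.log_nonneg (by exact_mod_cast hp.2.one_le)
  have h3 : ∑ p ∈ (range (n + 1)).filter Nat.Prime, Real.log p ≤ Real.log 4 * n := by
    have := Chebyshev.theta_le_log4_mul_x (x := (n : ℝ)) (by positivity)
    refine le_trans (le_of_eq ?_) this
    rw [Chebyshev.theta_eq_sum_primesLE_log]
    apply sum_congr _ (fun _ _ => rfl)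
    ext p
    simp [Nat.mem_primesLE, mem_filter, mem_range]
  have h4 : ∑ p ∈ (range (n + 1)).filter Nat.Prime, ((n : ℝ) / p - 1) * Real.log p =
      n * ∑ p ∈ (range (n + 1)).filter Nat.Prime, Real.log p / p -
      ∑ p ∈ (range (n + 1)).filter Nat.Prime, Real.log p := by
    rw [mul_sum, ← sum_sub_distrib]
    apply sum_congr rfl
    intro p _
    ring
  have h5 : n * ∑ p ∈ (range (n + 1)).filter Nat.Prime, Real.log p / p ≤
      n * (Real.log n + Real.log 4) := by linarith only [h1, h2, h3, h4]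
  exact le_of_mul_le_mul_left h5 hn0

lemma sum_log_ge : ∃ C : ℝ, 0 < C ∧ ∀ n : ℕ, 1 ≤ n →
    Real.log n - C ≤ ∑ p ∈ (range (n + 1)).filter Nat.Prime, Real.log p / p := by
  have hsum : Summable (fun n : ℕ => Real.log n / ((n : ℝ) * ((n : ℝ) - 1))) := by
    have h0 : Summable (fun n : ℕ => 4 * (1 / (n : ℝ) ^ (3 / 2 : ℝ))) := by
      apply Summable.mul_left
      exact Real.summable_one_div_nat_rpow.mpr (by norm_num)
    apply Summable.of_nonneg_of_le _ _ h0
    · intro n
      rcases Nat.eq_zero_or_pos n with rfl | hn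
      · simp
      · have h1 : (1 : ℝ) ≤ n := by exact_mod_cast hn
        apply div_nonneg (Real.log_nonneg h1)
        apply mul_nonneg (by linarith only [h1]) (by linarith only [h1])
    · intro n
      rcases Nat.lt_or_ge n 2 with hn | hn
      · interval_cases n <;> simp
      · have h1 : (2 : ℝ) ≤ n := by exact_mod_cast hn
        have hlog : Real.log n ≤ 2 * (n : ℝ) ^ (1 / 2 : ℝ) := by
          have := Real.log_le_rpow_div (x := (n : ℝ)) (ε := 1 / 2) (by linarith only [h1]) (by norm_num)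
          linarith only [this]
        have hn1 : (n : ℝ) / 2 ≤ (n : ℝ) - 1 := by linarith only [h1]
        have hn0 : (0 : ℝ) < n := by linarith only [h1]
        have hrp : (n : ℝ) ^ (3 / 2 : ℝ) * (n : ℝ) ^ (1 / 2 : ℝ) = n * n := by
          rw [← Real.rpow_add hn0]
          norm_num
          ring
        have hp1 : 0 < (n : ℝ) ^ (3 / 2 : ℝ) := Real.rpow_pos_of_pos hn0 _
        have hp2 : 0 < (n : ℝ) ^ (1 / 2 : ℝ) := Real.rpow_pos_of_pos hn0 _
        rw [div_le_iff₀ (by apply mul_pos hn0; linarith only [h1])]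
        have h5 : 4 * (1 / (n : ℝ) ^ (3 / 2 : ℝ)) * ((n : ℝ) * ((n : ℝ) - 1)) ≥
            4 * (1 / (n : ℝ) ^ (3 / 2 : ℝ)) * ((n : ℝ) * ((n : ℝ) / 2)) := by
          apply mul_le_mul_of_nonneg_left _ (by positivity)
          apply mul_le_mul_of_nonneg_left hn1 hn0.le
        have h6 : 4 * (1 / (n : ℝ) ^ (3 / 2 : ℝ)) * ((n : ℝ) * ((n : ℝ) / 2)) =
            2 * (n : ℝ) ^ (1 / 2 : ℝ) := by
          have : (n : ℝ) * ((n : ℝ) / 2) = (n : ℝ) ^ (3 / 2 : ℝ) * (n : ℝ) ^ (1 / 2 : ℝ) / 2 := by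
            rw [hrp]; ring
          rw [this]
          field_simp
          norm_num
        linarith only [hlog, h5, h6]
  refine ⟨1 + ∑' n : ℕ, Real.log n / ((n : ℝ) * ((n : ℝ) - 1)), ?_, ?_⟩
  · have : 0 ≤ ∑' n : ℕ, Real.log n / ((n : ℝ) * ((n : ℝ) - 1)) := by
      apply tsum_nonneg
      intro n
      rcases Nat.eq_zero_or_pos n with rfl | hn
      · simp
      · have h1 : (1 : ℝ) ≤ n := by exact_mod_cast hn
        apply div_nonneg (Real.log_nonneg h1)
        apply mul_nonneg (by linarith only [h1]) (by linarith)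
    linarith
  · intro n hn
    have hn0 : (0 : ℝ) < n := by exact_mod_cast hn
    have h1 := le_log_factorial n hn
    rw [log_factorial_eq] at h1
    have h2 : ∑ p ∈ (range (n + 1)).filter Nat.Prime, (padicValNat p n.factorial : ℝ) * Real.log p
        ≤ ∑ p ∈ (range (n + 1)).filter Nat.Prime, (n / ((p : ℝ) - 1)) * Real.log p := by
      apply sum_le_sum
      intro p hp
      rw [mem_filter, mem_range] at hp
      apply mul_le_mul_of_nonneg_right (padic_le p n hp.2)
      exact Real.log_nonneg (by exact_mod_cast hp.2.one_le)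
    have h3 : ∑ p ∈ (range (n + 1)).filter Nat.Prime, (n / ((p : ℝ) - 1)) * Real.log p =
        n * (∑ p ∈ (range (n + 1)).filter Nat.Prime, Real.log p / p +
          ∑ p ∈ (range (n + 1)).filter Nat.Prime, Real.log p / ((p : ℝ) * ((p : ℝ) - 1))) := by
      rw [← sum_add_distrib, mul_sum]
      apply sum_congr rfl
      intro p hp
      rw [mem_filter, mem_range] at hp
      have h1 : (2 : ℝ) ≤ p := by exact_mod_cast hp.2.two_le
      have h2 : (p : ℝ) - 1 ≠ 0 := by linarith only [h1]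
      have h3 : (p : ℝ) ≠ 0 := by linarith only [h1]
      field_simp
      ring
    have h4 : ∑ p ∈ (range (n + 1)).filter Nat.Prime, Real.log p / ((p : ℝ) * ((p : ℝ) - 1)) ≤
        ∑' n : ℕ, Real.log n / ((n : ℝ) * ((n : ℝ) - 1)) := by
      apply hsum.sum_le_tsum
      intro i _
      rcases Nat.eq_zero_or_pos i with rfl | hi
      · simp
      · have h1 : (1 : ℝ) ≤ i := by exact_mod_cast hi
        apply div_nonneg (Real.log_nonneg h1)
        apply mul_nonneg (by linarith only [h1]) (by linarith only [h1])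
    have h5 : n * (Real.log n - 1) ≤ n * (∑ p ∈ (range (n + 1)).filter Nat.Prime, Real.log p / p +
          ∑ p ∈ (range (n + 1)).filter Nat.Prime, Real.log p / ((p : ℝ) * ((p : ℝ) - 1))) := by
      linarith only [h1, h2, h3]
    have h6 := le_of_mul_le_mul_left h5 hn0
    linarith only [h4, h6]

/-- Mertens' first theorem. -/
theorem mertens_one : ∃ C : ℝ, 0 < C ∧ ∀ x : ℕ, 1 ≤ x →
    |(∑ p ∈ (range x).filter Nat.Prime, Real.log p / p) - Real.log x| ≤ C := by
  obtain ⟨C, hC, hlow⟩ := sum_log_ge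
  refine ⟨C + Real.log 4 + 1, by positivity, ?_⟩
  intro x hx
  have hlog4 : 0 ≤ Real.log 4 := Real.log_nonneg (by norm_num)
  rcases Nat.lt_or_ge x 2 with h | h
  · have : x = 1 := by omega
    subst this
    have : (range 1).filter Nat.Prime = ∅ := by decide
    rw [this]
    simp
    linarith only [hC, hlog4]
  · obtain ⟨n, rfl⟩ : ∃ n, x = n + 1 := ⟨x - 1, by omega⟩
    have hn : 1 ≤ n := by omega
    have hn0 : (0 : ℝ) < n := by exact_mod_cast hn
    have hn1 : (1 : ℝ) ≤ n := by exact_mod_cast hn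
    have h1 := sum_log_le n hn
    have h2 := hlow n hn
    have h3 : Real.log n ≤ Real.log ((n + 1 : ℕ) : ℝ) := by
      apply Real.log_le_log hn0
      push_cast; linarith only []
    have h4 : Real.log ((n + 1 : ℕ) : ℝ) ≤ Real.log n + 1 := by
      have : Real.log ((n + 1 : ℕ) : ℝ) ≤ Real.log (n * Real.exp 1) := by
        apply Real.log_le_log (by positivity)
        have : (2 : ℝ) ≤ Real.exp 1 := by
          have := Real.add_one_le_exp (1 : ℝ)
          linarith only [this]
        push_cast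
        nlinarith only [hn1, this]
      rw [Real.log_mul hn0.ne' (Real.exp_pos 1).ne', Real.log_exp] at this
      exact this
    rw [abs_le]
    constructor <;> linarith only [hlog4, h2, h4, hC, h1, h3]

/-- The step of the summation by parts in Mertens' second theorem. -/
lemma mertens_two_aux (C : ℝ) (hC : ∀ x : ℕ, 1 ≤ x → |mA x - Real.log x| ≤ C) (x : ℕ)
    (hx : 2 ≤ x) (z : ℕ) (hz : x ≤ z) :
    ∑ p ∈ (Ico x z).filter Nat.Prime, 1 / (p : ℝ) ≤
      Real.log (Real.log z) - Real.log (Real.log x) +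
      (mA z - Real.log z) / Real.log z - (mA x - Real.log x) / Real.log x +
      (C + 1) * (1 / Real.log x - 1 / Real.log z) := by
  induction z, hz using Nat.le_induction with
  | base => simp
  | succ z hz ih =>
    have hz2 : 2 ≤ z := hx.trans hz
    have hzR : (2 : ℝ) ≤ z := by exact_mod_cast hz2
    have hlz : 0 < Real.log z := Real.log_pos (by linarith only [hzR])
    have hlz1 : Real.log z < Real.log ((z + 1 : ℕ) : ℝ) := by
      apply Real.log_lt_log (by linarith only [hzR])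
      push_cast; linarith only []
    have hlz1' : 0 < Real.log ((z + 1 : ℕ) : ℝ) := hlz.trans hlz1
    set u := Real.log z with hu
    set v := Real.log ((z + 1 : ℕ) : ℝ) with hv
    have hIco : Ico x (z + 1) = insert z (Ico x z) := by
      rw [← Nat.Ico_succ_right_eq_insert_Ico hz]
    have hterm : ∑ p ∈ (Ico x (z + 1)).filter Nat.Prime, 1 / (p : ℝ) =
        ∑ p ∈ (Ico x z).filter Nat.Prime, 1 / (p : ℝ) + (mA (z + 1) - mA z) / u := by
      have hA : mA (z + 1) = mA z + (if z.Prime then u / z else 0) := by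
        unfold mA
        rw [range_add_one, filter_insert]
        split_ifs with hp
        · rw [sum_insert (by simp)]
          rw [hu]; ring
        · simp
      rw [hA, hIco, filter_insert]
      split_ifs with hp
      · rw [sum_insert (by simp)]
        have : (z : ℝ) ≠ 0 := by linarith only [hzR]
        field_simp
        ring
      · simp
    rw [hterm]
    have h1 : v - u ≤ 1 := by
      have : v ≤ Real.log (z * Real.exp 1) := by
        apply Real.log_le_log (by positivity)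
        have : (2 : ℝ) ≤ Real.exp 1 := by
          have := Real.add_one_le_exp (1 : ℝ)
          linarith only [this]
        push_cast
        nlinarith only [hzR, this]
      rw [Real.log_mul (by linarith only [hzR]) (Real.exp_pos 1).ne', Real.log_exp] at this
      linarith only [this]
    have h2 : (v - u) / v ≤ Real.log v - Real.log u := by
      have := Real.one_sub_inv_le_log_of_pos (show 0 < v / u by positivity)
      rw [Real.log_div hlz1'.ne' hlz.ne'] at this
      refine le_trans (le_of_eq ?_) this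
      field_simp
    have hE := hC (z + 1) (by omega)
    rw [abs_le] at hE
    set e := mA z - u with he
    set e' := mA (z + 1) - v with he'
    have hmA : mA (z + 1) - mA z = (v - u) + (e' - e) := by rw [he, he']; ring
    rw [hmA]
    have h3 : ((v - u) + (e' - e)) / u = (v - u) / v + (v - u) * (1 / u - 1 / v) +
        e' / v - e / u + e' * (1 / u - 1 / v) := by
      field_simp
      ring
    have h4 : 0 ≤ 1 / u - 1 / v := by
      rw [sub_nonneg]
      exact one_div_le_one_div_of_le hlz hlz1.le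
    have h5 : (v - u) * (1 / u - 1 / v) ≤ 1 * (1 / u - 1 / v) :=
      mul_le_mul_of_nonneg_right h1 h4
    have h6 : e' * (1 / u - 1 / v) ≤ C * (1 / u - 1 / v) :=
      mul_le_mul_of_nonneg_right hE.2 h4
    have h7 : (C + 1) * (1 / Real.log x - 1 / v) = (C + 1) * (1 / Real.log x - 1 / u) +
      (C * (1 / u - 1 / v) + 1 * (1 / u - 1 / v)) := by ring
    rw [h3, h7]
    linarith only [h2, ih, h5, h6]

/-- One-sided Mertens' second theorem. -/
theorem mertens_two : ∃ C : ℝ, 0 < C ∧ ∀ x z : ℕ, 2 ≤ x → x ≤ z →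
    ∑ p ∈ (Ico x z).filter Nat.Prime, 1 / (p : ℝ) ≤
      Real.log (Real.log z) - Real.log (Real.log x) + C / Real.log x := by
  obtain ⟨C, hC0, hC⟩ := mertens_one
  refine ⟨3 * C + 1, by linarith, ?_⟩
  intro x z hx hz
  have h := mertens_two_aux C (fun x hx => hC x hx) x hx z hz
  have hxR : (2 : ℝ) ≤ x := by exact_mod_cast hx
  have hzR : (x : ℝ) ≤ z := by exact_mod_cast hz
  have hlx : 0 < Real.log x := Real.log_pos (by linarith only [hxR])
  have hlz : Real.log x ≤ Real.log z := Real.log_le_log (by linarith only [hxR]) hzR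
  have hlz0 : 0 < Real.log z := lt_of_lt_of_le hlx hlz
  have hEz := hC z (by omega)
  have hEx := hC x (by omega)
  rw [abs_le] at hEz hEx
  have h1 : (mA z - Real.log z) / Real.log z ≤ C / Real.log x := by
    calc (mA z - Real.log z) / Real.log z ≤ C / Real.log z :=
          div_le_div_of_nonneg_right hEz.2 hlz0.le
      _ ≤ C / Real.log x := div_le_div_of_nonneg_left hC0.le hlx hlz
  have h2 : -((mA x - Real.log x) / Real.log x) ≤ C / Real.log x := by
    rw [← neg_div]
    apply div_le_div_of_nonneg_right _ hlx.le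
    have := hEx.1
    unfold mA
    linarith only [hEx]
  have h3 : (C + 1) * (1 / Real.log x - 1 / Real.log z) ≤ (C + 1) / Real.log x := by
    have : 0 ≤ 1 / Real.log z := by positivity
    calc (C + 1) * (1 / Real.log x - 1 / Real.log z) ≤ (C + 1) * (1 / Real.log x) := by
          apply mul_le_mul_of_nonneg_left _ (by linarith only [hC0])
          linarith only [this]
      _ = (C + 1) / Real.log x := by ring
  have h4 : (3 * C + 1) / Real.log x = C / Real.log x + C / Real.log x + (C + 1) / Real.log x := by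
    ring
  rw [h4]
  linarith only [h, h1, h2, h3]

lemma one_sub_inv_ge (p : ℕ) (hp : 2 ≤ p) :
    Real.exp (-(1 / (p : ℝ) + (1 / ((p : ℝ) - 1) - 1 / p))) ≤ 1 - 1 / (p : ℝ) := by
  have h1 : (2 : ℝ) ≤ p := by exact_mod_cast hp
  have h2 : (0 : ℝ) < (p : ℝ) - 1 := by linarith
  have h3 : -(1 / (p : ℝ) + (1 / ((p : ℝ) - 1) - 1 / p)) = -(1 / ((p : ℝ) - 1)) := by ring
  rw [h3, Real.exp_neg]
  have h4 := Real.add_one_le_exp (1 / ((p : ℝ) - 1))
  have h5 : 1 - 1 / (p : ℝ) = (1 / ((p : ℝ) - 1) + 1)⁻¹ := by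
    field_simp
    ring
  rw [h5]
  apply inv_anti₀ _ h4
  positivity

/-- Product form of Mertens, one-sided. -/
theorem mertens_prod : ∃ C : ℝ, 0 < C ∧ ∀ x z : ℕ, 2 ≤ x → x ≤ z →
    Real.log x - C ≤ Real.log z * ∏ p ∈ (Ico x z).filter Nat.Prime, (1 - 1 / (p : ℝ)) := by
  obtain ⟨C, hC0, hC⟩ := mertens_two
  refine ⟨C + 1, by linarith, ?_⟩
  intro x z hx hz
  have hxR : (2 : ℝ) ≤ x := by exact_mod_cast hx
  have hzR : (x : ℝ) ≤ z := by exact_mod_cast hz
  have hlx : 0 < Real.log x := Real.log_pos (by linarith only [hxR])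
  have hlz : Real.log x ≤ Real.log z := Real.log_le_log (by linarith only [hxR]) hzR
  have hlz0 : 0 < Real.log z := lt_of_lt_of_le hlx hlz
  have h1 := hC x z hx hz
  have h2 : ∀ z : ℕ, x ≤ z → ∑ p ∈ (Ico x z).filter Nat.Prime, (1 / ((p : ℝ) - 1) - 1 / p) ≤
      1 / ((x : ℝ) - 1) - 1 / ((z : ℝ) - 1) := by
    intro z hz
    induction z, hz using Nat.le_induction with
    | base => simp
    | succ z hz ih =>
      have hIco : Ico x (z + 1) = insert z (Ico x z) := by
        rw [← Nat.Ico_succ_right_eq_insert_Ico hz]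
      have hz2 : (2 : ℝ) ≤ z := by exact_mod_cast hx.trans hz
      have hpos : 0 ≤ 1 / ((z : ℝ) - 1) - 1 / z := by
        rw [sub_nonneg]
        apply one_div_le_one_div_of_le <;> linarith only [hz2]
      rw [hIco, filter_insert]
      push_cast
      have hz1 : (z : ℝ) + 1 - 1 = z := by ring
      rw [hz1]
      split_ifs with hp
      · rw [sum_insert (by simp)]
        linarith only [ih]
      · linarith only [ih, hpos]
  have h3 : ∑ p ∈ (Ico x z).filter Nat.Prime, (1 / ((p : ℝ) - 1) - 1 / p) ≤ 1 / Real.log x := by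
    refine (h2 z hz).trans ?_
    have h4 : 0 ≤ 1 / ((z : ℝ) - 1) := by
      apply div_nonneg zero_le_one
      linarith
    have h5 : 1 / ((x : ℝ) - 1) ≤ 1 / Real.log x := by
      apply one_div_le_one_div_of_le hlx
      have := Real.log_le_sub_one_of_pos (show (0 : ℝ) < x by linarith only [hxR])
      exact this
    linarith only [h4, h5]
  have h4 : Real.exp (-(∑ p ∈ (Ico x z).filter Nat.Prime,
      (1 / (p : ℝ) + (1 / ((p : ℝ) - 1) - 1 / p)))) ≤
      ∏ p ∈ (Ico x z).filter Nat.Prime, (1 - 1 / (p : ℝ)) := by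
    rw [← sum_neg_distrib, Real.exp_sum]
    apply prod_le_prod
    · intro p _; exact (Real.exp_pos _).le
    · intro p hp
      rw [mem_filter, mem_Ico] at hp
      exact one_sub_inv_ge p hp.2.two_le
  have h5 : ∑ p ∈ (Ico x z).filter Nat.Prime, (1 / (p : ℝ) + (1 / ((p : ℝ) - 1) - 1 / p)) ≤
      Real.log (Real.log z) - Real.log (Real.log x) + (C + 1) / Real.log x := by
    rw [sum_add_distrib]
    have : (C + 1) / Real.log x = C / Real.log x + 1 / Real.log x := by ring
    rw [this]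
    linarith only [h1, h3]
  have h6 : Real.exp (-(Real.log (Real.log z) - Real.log (Real.log x) + (C + 1) / Real.log x)) ≤
      ∏ p ∈ (Ico x z).filter Nat.Prime, (1 - 1 / (p : ℝ)) := by
    refine le_trans ?_ h4
    apply Real.exp_le_exp.mpr
    linarith only [h5]
  have h7 : Real.exp (-(Real.log (Real.log z) - Real.log (Real.log x) + (C + 1) / Real.log x)) =
      Real.log x / Real.log z * Real.exp (-((C + 1) / Real.log x)) := by
    have : -(Real.log (Real.log z) - Real.log (Real.log x) + (C + 1) / Real.log x) =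
      Real.log (Real.log x) - Real.log (Real.log z) + -((C + 1) / Real.log x) := by ring
    rw [this, Real.exp_add, Real.exp_sub, Real.exp_log hlx, Real.exp_log hlz0]
  have h8 : 1 - (C + 1) / Real.log x ≤ Real.exp (-((C + 1) / Real.log x)) := by
    have := Real.add_one_le_exp (-((C + 1) / Real.log x))
    linarith only [this]
  calc Real.log x - (C + 1) = Real.log z * (Real.log x / Real.log z *
        (1 - (C + 1) / Real.log x)) := by
        field_simp
    _ ≤ Real.log z * (Real.log x / Real.log z * Real.exp (-((C + 1) / Real.log x))) := by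
        apply mul_le_mul_of_nonneg_left _ hlz0.le
        apply mul_le_mul_of_nonneg_left h8 (by positivity)
    _ ≤ _ := by
        apply mul_le_mul_of_nonneg_left _ hlz0.le
        rw [← h7]; exact h6

theorem sum_inv_prime_le : ∃ C : ℝ, 0 < C ∧ ∀ z : ℕ, 2 ≤ z →
    ∑ p ∈ (range z).filter Nat.Prime, 1 / (p : ℝ) ≤ Real.log (Real.log z) + C := by
  obtain ⟨C, hC0, hC⟩ := mertens_two
  have hl2 : 0 < Real.log 2 := Real.log_pos (by norm_num)
  refine ⟨|Real.log (Real.log 2)| + C / Real.log 2, by positivity, ?_⟩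
  intro z hz
  have h1 := hC 2 z le_rfl hz
  have h2 : (range z).filter Nat.Prime = (Ico 2 z).filter Nat.Prime := by
    ext p
    simp only [mem_filter, mem_range, mem_Ico]
    constructor
    · rintro ⟨h1, h2⟩; exact ⟨⟨h2.two_le, h1⟩, h2⟩
    · rintro ⟨h1, h2⟩; exact ⟨h1.2, h2⟩
  rw [h2]
  have h3 := neg_abs_le (Real.log (Real.log 2))
  have h4 : Real.log (Real.log ((2 : ℕ) : ℝ)) = Real.log (Real.log 2) := by norm_num
  have h5 : Real.log ((2 : ℕ) : ℝ) = Real.log 2 := by norm_num
  rw [h4, h5] at h1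
  linarith only [h1, h3]

end Vale.Agent.P013
end

section

/-!
# Siegel's theorem, part A: integral representation and bounds for `L(s, χ)`
-/

open Finset Filter MeasureTheory Topology Complex Asymptotics

namespace Vale.Agent.P013.J.Siegel

variable {q : ℕ}

lemma sum_range_zmod [NeZero q] (f : ZMod q → ℂ) :
    ∑ k ∈ range q, f (k : ZMod q) = ∑ a, f a :=
  Finset.sum_nbij' (fun k => (k : ZMod q)) (fun a => a.val) (by simp)
    (by simp [ZMod.val_lt])
    (by intro k hk; simp [ZMod.val_natCast, Nat.mod_eq_of_lt (mem_range.mp hk)]) (by simp)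
    (by simp)

lemma sum_period [NeZero q] {χ : DirichletCharacter ℂ q} (hχ : χ ≠ 1) (m : ℕ) :
    ∑ k ∈ range q, χ ((m + k : ℕ) : ZMod q) = 0 := by
  have h := sum_range_zmod (q := q) (fun a => χ ((m : ZMod q) + a))
  simp only [← Nat.cast_add] at h
  rw [h, show (∑ a, χ ((m : ZMod q) + a)) = ∑ a, χ a from
    Equiv.sum_comp (Equiv.addLeft (m : ZMod q)) (fun a => χ a)]
  exact MulChar.sum_eq_zero_of_ne_one hχ

lemma sum_blocks [NeZero q] {χ : DirichletCharacter ℂ q} (hχ : χ ≠ 1) (m j : ℕ) :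
    ∑ k ∈ range (q * j), χ ((m + k : ℕ) : ZMod q) = 0 := by
  induction j with
  | zero => simp
  | succ j ih =>
    rw [Nat.mul_succ, Finset.sum_range_add, ih, zero_add]
    have := sum_period hχ (m + q * j)
    simpa [add_assoc] using this

lemma norm_sum_range_le [NeZero q] {χ : DirichletCharacter ℂ q} (hχ : χ ≠ 1) (m n : ℕ) :
    ‖∑ k ∈ range n, χ ((m + k : ℕ) : ZMod q)‖ ≤ q := by
  conv_lhs => rw [← Nat.div_add_mod n q]
  rw [Finset.sum_range_add, sum_blocks hχ, zero_add]
  refine (norm_sum_le _ _).trans ?_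
  calc ∑ x ∈ range (n % q), ‖χ ((m + (q * (n / q) + x) : ℕ) : ZMod q)‖
      ≤ ∑ x ∈ range (n % q), (1 : ℝ) := Finset.sum_le_sum fun _ _ => DirichletCharacter.norm_le_one χ _
    _ = (n % q : ℕ) := by simp
    _ ≤ q := by exact_mod_cast (Nat.mod_lt _ (Nat.pos_of_ne_zero (NeZero.ne q))).le

/-- the character sum -/
noncomputable def S (χ : DirichletCharacter ℂ q) (t : ℝ) : ℂ := ∑ k ∈ Icc 1 ⌊t⌋₊, χ (k : ZMod q)

lemma S_eq_range (χ : DirichletCharacter ℂ q) (n : ℕ) :
    ∑ k ∈ Icc 1 n, χ (k : ZMod q) = ∑ k ∈ range n, χ ((1 + k : ℕ) : ZMod q) := by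
  rw [Finset.range_eq_Ico, Finset.sum_Ico_add (fun k : ℕ => χ (k : ZMod q)) 0 n 1]
  congr 1

lemma norm_S_le [NeZero q] {χ : DirichletCharacter ℂ q} (hχ : χ ≠ 1) (t : ℝ) :
    ‖S χ t‖ ≤ q := by
  rw [S, S_eq_range]
  exact norm_sum_range_le hχ 1 _

lemma norm_S_le' (χ : DirichletCharacter ℂ q) {t : ℝ} (ht : 0 ≤ t) :
    ‖S χ t‖ ≤ t := by
  refine (norm_sum_le _ _).trans ?_
  calc ∑ k ∈ Icc 1 ⌊t⌋₊, ‖χ (k : ZMod q)‖ ≤ ∑ k ∈ Icc 1 ⌊t⌋₊, (1 : ℝ) :=
        Finset.sum_le_sum fun _ _ => DirichletCharacter.norm_le_one χ _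
    _ = (⌊t⌋₊ : ℕ) := by simp
    _ ≤ t := Nat.floor_le ht

lemma measurable_S (χ : DirichletCharacter ℂ q) : Measurable (S χ) :=
  (measurable_from_nat (f := fun n : ℕ => ∑ k ∈ Icc 1 n, χ (k : ZMod q))).comp Nat.measurable_floor

/-- the function whose Mellin transform is `L(s, χ) / s` -/
noncomputable def fS (χ : DirichletCharacter ℂ q) : ℝ → ℂ := (Set.Ioi (1 : ℝ)).indicator (S χ)

lemma norm_fS_le [NeZero q] {χ : DirichletCharacter ℂ q} (hχ : χ ≠ 1) (t : ℝ) :
    ‖fS χ t‖ ≤ q := by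
  unfold fS
  by_cases h : t ∈ Set.Ioi (1 : ℝ)
  · rw [Set.indicator_of_mem h]; exact norm_S_le hχ t
  · rw [Set.indicator_of_notMem h]; simp

lemma measurable_fS (χ : DirichletCharacter ℂ q) : Measurable (fS χ) :=
  (measurable_S χ).indicator measurableSet_Ioi

lemma mellin_fS (χ : DirichletCharacter ℂ q) (s : ℂ) :
    mellin (fS χ) (-s) = ∫ t in Set.Ioi (1 : ℝ), S χ t * (t : ℂ) ^ (-(s + 1)) := by
  rw [mellin]
  have h1 : ∀ t : ℝ, (t : ℂ) ^ (-s - 1) • fS χ t =
      (Set.Ioi (1 : ℝ)).indicator (fun t : ℝ => S χ t * (t : ℂ) ^ (-(s + 1))) t := by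
    intro t
    unfold fS
    by_cases h : t ∈ Set.Ioi (1 : ℝ)
    · rw [Set.indicator_of_mem h, Set.indicator_of_mem h, smul_eq_mul, mul_comm]
      congr 2
      ring
    · rw [Set.indicator_of_notMem h, Set.indicator_of_notMem h, smul_zero]
  simp_rw [h1]
  rw [setIntegral_indicator measurableSet_Ioi]
  congr 2
  ext t
  simp only [Set.mem_inter_iff, Set.mem_Ioi]
  constructor
  · exact fun h => h.2
  · exact fun h => ⟨by linarith, h⟩

lemma mellin_fS_differentiableAt [NeZero q] {χ : DirichletCharacter ℂ q} (hχ : χ ≠ 1) {s : ℂ}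
    (hs : s.re < 0) : DifferentiableAt ℂ (mellin (fS χ)) s := by
  refine mellin_differentiableAt_of_isBigO_rpow (a := 0) (b := s.re - 1) ?_ ?_ hs ?_ (by linarith)
  · refine (MeasureTheory.locallyIntegrable_const (μ := volume) ((q : ℝ))).mono
      (measurable_fS χ).aestronglyMeasurable ?_ |>.locallyIntegrableOn _
    refine Eventually.of_forall fun t => ?_
    simpa using norm_fS_le hχ t
  · refine IsBigO.of_bound q ?_
    filter_upwards with t
    simpa using norm_fS_le hχ t
  · refine IsBigO.of_bound 1 ?_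
    have : ∀ᶠ t : ℝ in 𝓝[>] 0, t < 1 :=
      eventually_nhdsWithin_of_eventually_nhds (eventually_lt_nhds one_pos)
    filter_upwards [this] with t ht
    have : fS χ t = 0 := Set.indicator_of_notMem (by simpa using ht.le) _
    rw [this, norm_zero]
    positivity

/-- integral representation of `L(s, χ)` for `Re s > 0` -/
theorem LFunction_eq_integral [NeZero q] {χ : DirichletCharacter ℂ q} (hχ : χ ≠ 1) {s : ℂ}
    (hs : 0 < s.re) :
    DirichletCharacter.LFunction χ s =
      s * ∫ t in Set.Ioi (1 : ℝ), S χ t * (t : ℂ) ^ (-(s + 1)) := by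
  rw [← mellin_fS]
  have hopen : IsOpen {s : ℂ | 0 < s.re} := continuous_re.isOpen_preimage _ isOpen_Ioi
  have hA : AnalyticOnNhd ℂ (DirichletCharacter.LFunction χ) {s : ℂ | 0 < s.re} :=
    (DirichletCharacter.differentiable_LFunction hχ).differentiableOn.analyticOnNhd hopen
  have hB : AnalyticOnNhd ℂ (fun s => s * mellin (fS χ) (-s)) {s : ℂ | 0 < s.re} := by
    refine DifferentiableOn.analyticOnNhd (fun s hs => ?_) hopen
    have h1 : DifferentiableAt ℂ (mellin (fS χ)) (-s) :=
      mellin_fS_differentiableAt hχ (by simpa using hs)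
    have h2 : DifferentiableAt ℂ (fun s : ℂ => mellin (fS χ) (-s)) s :=
      h1.comp s (differentiableAt_id.neg)
    exact (differentiableAt_id.mul h2).differentiableWithinAt
  have hpc : IsPreconnected {s : ℂ | 0 < s.re} := (convex_halfSpace_re_gt 0).isPreconnected
  refine hA.eqOn_of_preconnected_of_eventuallyEq hB hpc (z₀ := 2) (by simp) ?_ hs
  have h2 : {s : ℂ | 1 < s.re} ∈ 𝓝 (2 : ℂ) :=
    (continuous_re.isOpen_preimage _ isOpen_Ioi).mem_nhds (by simp)
  filter_upwards [h2] with z hz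
  have hz' : 1 < z.re := hz
  rw [mellin_fS, DirichletCharacter.LFunction_eq_LSeries χ hz']
  refine LSeries_eq_mul_integral (r := 0) _ le_rfl (by linarith)
    (DirichletCharacter.LSeriesSummable_of_one_lt_re χ hz') ?_
  refine IsBigO.of_bound q ?_
  filter_upwards with n
  have := norm_S_le hχ (n : ℝ)
  simpa [S] using this

lemma norm_integrand (χ : DirichletCharacter ℂ q) (s : ℂ) {t : ℝ} (ht : t ∈ Set.Ioi (1 : ℝ)) :
    ‖S χ t * (t : ℂ) ^ (-(s + 1))‖ = ‖S χ t‖ * t ^ (-(s.re + 1)) := by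
  have ht0 : 0 < t := lt_trans one_pos ht
  rw [norm_mul, Complex.norm_cpow_eq_rpow_re_of_pos ht0]
  simp

/-- `|L(s, χ)| ≤ |s| q / Re s` for `Re s > 0` -/
theorem norm_LFunction_le [NeZero q] {χ : DirichletCharacter ℂ q} (hχ : χ ≠ 1) {s : ℂ}
    (hs : 0 < s.re) :
    ‖DirichletCharacter.LFunction χ s‖ ≤ ‖s‖ * (q / s.re) := by
  rw [LFunction_eq_integral hχ hs, norm_mul]
  refine mul_le_mul_of_nonneg_left ?_ (norm_nonneg _)
  have hint : IntegrableOn (fun t : ℝ => (q : ℝ) * t ^ (-(s.re + 1))) (Set.Ioi 1) :=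
    (integrableOn_Ioi_rpow_of_lt (by linarith) one_pos).const_mul _
  calc ‖∫ t in Set.Ioi (1 : ℝ), S χ t * (t : ℂ) ^ (-(s + 1))‖
      ≤ ∫ t in Set.Ioi (1 : ℝ), (q : ℝ) * t ^ (-(s.re + 1)) := by
        refine norm_integral_le_of_norm_le hint ?_
        filter_upwards [ae_restrict_mem measurableSet_Ioi] with t ht
        rw [norm_integrand χ s ht]
        exact mul_le_mul_of_nonneg_right (norm_S_le hχ t)
          (Real.rpow_nonneg (lt_trans one_pos ht).le _)
    _ = q / s.re := by
        rw [integral_const_mul, integral_Ioi_rpow_of_lt (by linarith) one_pos]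
        simp
        field_simp

/-- `|L(1, χ)| ≤ q^η / η` -/
theorem norm_LFunction_one_le [NeZero q] {χ : DirichletCharacter ℂ q} (hχ : χ ≠ 1) {η : ℝ}
    (h0 : 0 < η) (h1 : η ≤ 1) :
    ‖DirichletCharacter.LFunction χ 1‖ ≤ (q : ℝ) ^ η / η := by
  rw [LFunction_eq_integral hχ (by simp), one_mul]
  have hint : IntegrableOn (fun t : ℝ => (q : ℝ) ^ η * t ^ (-(η + 1))) (Set.Ioi 1) :=
    (integrableOn_Ioi_rpow_of_lt (by linarith) one_pos).const_mul _
  calc ‖∫ t in Set.Ioi (1 : ℝ), S χ t * (t : ℂ) ^ (-((1 : ℂ) + 1))‖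
      ≤ ∫ t in Set.Ioi (1 : ℝ), (q : ℝ) ^ η * t ^ (-(η + 1)) := by
        refine norm_integral_le_of_norm_le hint ?_
        filter_upwards [ae_restrict_mem measurableSet_Ioi] with t ht
        have ht0 : 0 < t := lt_trans one_pos ht
        rw [norm_integrand χ 1 ht]
        have hS : ‖S χ t‖ ≤ (q : ℝ) ^ η * t ^ (1 - η) := by
          have ha : ‖S χ t‖ = ‖S χ t‖ ^ η * ‖S χ t‖ ^ (1 - η) := by
            rw [← Real.rpow_add_of_nonneg (norm_nonneg _) h0.le (by linarith)]
            simp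
          rw [ha]
          exact mul_le_mul (Real.rpow_le_rpow (norm_nonneg _) (norm_S_le hχ t) h0.le)
            (Real.rpow_le_rpow (norm_nonneg _) (norm_S_le' χ ht0.le) (by linarith))
            (Real.rpow_nonneg (norm_nonneg _) _) (Real.rpow_nonneg (Nat.cast_nonneg _) _)
        calc ‖S χ t‖ * t ^ (-((1 : ℂ).re + 1)) ≤ ((q : ℝ) ^ η * t ^ (1 - η)) * t ^ (-((1 : ℂ).re + 1)) :=
              mul_le_mul_of_nonneg_right hS (Real.rpow_nonneg ht0.le _)
          _ = (q : ℝ) ^ η * t ^ (-(η + 1)) := by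
              rw [mul_assoc, ← Real.rpow_add ht0]
              congr 2
              simp
              ring
    _ = (q : ℝ) ^ η / η := by
        rw [integral_const_mul, integral_Ioi_rpow_of_lt (by linarith) one_pos]
        simp
        field_simp

/-- values of real characters are real -/
lemma im_chi {χ : DirichletCharacter ℂ q} (hχ : χ ^ 2 = 1) (a : ZMod q) : (χ a).im = 0 := by
  rcases MulChar.isQuadratic_iff_sq_eq_one.mpr hχ a with h | h | h <;> simp [h]

lemma S_real {χ : DirichletCharacter ℂ q} (hχ : χ ^ 2 = 1) (t : ℝ) : S χ t = ((S χ t).re : ℂ) := by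
  apply Complex.ext
  · simp
  · simp only [ofReal_im, S, im_sum]
    exact Finset.sum_eq_zero fun k _ => im_chi hχ _

/-- `L(s, χ)` is real for real `s > 0` and real `χ` -/
theorem im_LFunction [NeZero q] {χ : DirichletCharacter ℂ q} (hχ : χ ≠ 1) (hχ2 : χ ^ 2 = 1)
    {s : ℝ} (hs : 0 < s) : (DirichletCharacter.LFunction χ s).im = 0 := by
  rw [LFunction_eq_integral hχ (by simpa using hs)]
  have : ∫ t in Set.Ioi (1 : ℝ), S χ t * (t : ℂ) ^ (-((s : ℂ) + 1)) =
      ∫ t in Set.Ioi (1 : ℝ), (((S χ t).re * t ^ (-(s + 1)) : ℝ) : ℂ) := by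
    refine setIntegral_congr_fun measurableSet_Ioi fun t ht => ?_
    have ht0 : 0 < t := lt_trans one_pos ht
    rw [S_real hχ2 t]
    push_cast
    rw [Complex.ofReal_cpow ht0.le]
    push_cast
    simp
  rw [this, integral_complex_ofReal, ← ofReal_mul, ofReal_im]

end Vale.Agent.P013.J.Siegel
end

section

/-!
# Siegel's theorem, part B: Dirichlet coefficients of `ζ(s) L(s,χ₁) L(s,χ₂) L(s,χ₁χ₂)`
-/

open Finset ArithmeticFunction
open scoped ComplexOrder

namespace Vale.Agent.P013.J.Siegel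

variable {q : ℕ}

/-- local series of an arithmetic function -/
noncomputable def PS (f : ArithmeticFunction ℂ) (p : ℕ) : PowerSeries ℂ :=
  PowerSeries.mk (fun k => f (p ^ k))

lemma PS_mul (f g : ArithmeticFunction ℂ) {p : ℕ} (hp : p.Prime) :
    PS (f * g) p = PS f p * PS g p := by
  ext k
  rw [PowerSeries.coeff_mul]
  simp only [PS, PowerSeries.coeff_mk]
  rw [ArithmeticFunction.mul_apply,
    Nat.sum_divisorsAntidiagonal (f := fun i j => f i * g j), Nat.sum_divisors_prime_pow hp,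
    Finset.Nat.sum_antidiagonal_eq_sum_range_succ (fun i j => f (p ^ i) * g (p ^ j))]
  refine Finset.sum_congr rfl fun x hx => ?_
  rw [Nat.pow_div (by simpa [Nat.lt_succ_iff] using hx) hp.pos]

/-- geometric series -/
noncomputable def G (u : ℂ) : PowerSeries ℂ := PowerSeries.mk (fun k => u ^ k)

/-- nonnegative coefficients -/
def NN (F : PowerSeries ℂ) : Prop := ∀ k, 0 ≤ PowerSeries.coeff k F

lemma NN.mul {A B : PowerSeries ℂ} (hA : NN A) (hB : NN B) : NN (A * B) := by
  intro k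
  rw [PowerSeries.coeff_mul]
  exact Finset.sum_nonneg fun x _ => mul_nonneg (hA _) (hB _)

lemma NN_one : NN (G 1) := by
  intro k; simp [G]

lemma NN_zero : NN (G 0) := by
  intro k
  simp only [G, PowerSeries.coeff_mk]
  exact pow_nonneg le_rfl k

lemma NN_neg : NN (G (-1) * G 1) := by
  intro k
  rw [PowerSeries.coeff_mul]
  simp only [G, PowerSeries.coeff_mk, one_pow, mul_one]
  rw [Finset.Nat.sum_antidiagonal_eq_sum_range_succ (fun i _ => (-1 : ℂ) ^ i)]
  rw [Nat.succ_eq_add_one, neg_one_geom_sum]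
  split_ifs
  exacts [le_rfl, zero_le_one]

lemma NN_four {u v : ℂ} (hu : u = 0 ∨ u = 1 ∨ u = -1) (hv : v = 0 ∨ v = 1 ∨ v = -1) :
    NN (G 1 * G u * G v * G (u * v)) := by
  rcases hu with rfl | rfl | rfl <;> rcases hv with rfl | rfl | rfl
  · rw [mul_zero]; exact ((NN_one.mul NN_zero).mul NN_zero).mul NN_zero
  · rw [zero_mul]; exact ((NN_one.mul NN_zero).mul NN_one).mul NN_zero
  · rw [zero_mul, show G 1 * G 0 * G (-1) * G 0 = (G (-1) * G 1) * G 0 * G 0 by ring]
    exact (NN_neg.mul NN_zero).mul NN_zero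
  · rw [mul_zero]; exact ((NN_one.mul NN_one).mul NN_zero).mul NN_zero
  · rw [mul_one]; exact ((NN_one.mul NN_one).mul NN_one).mul NN_one
  · rw [one_mul, show G 1 * G 1 * G (-1) * G (-1) = (G (-1) * G 1) * (G (-1) * G 1) by ring]
    exact NN_neg.mul NN_neg
  · rw [mul_zero, show G 1 * G (-1) * G 0 * G 0 = (G (-1) * G 1) * G 0 * G 0 by ring]
    exact (NN_neg.mul NN_zero).mul NN_zero
  · rw [mul_one, show G 1 * G (-1) * G 1 * G (-1) = (G (-1) * G 1) * (G (-1) * G 1) by ring]
    exact NN_neg.mul NN_neg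
  · rw [show (-1 : ℂ) * -1 = 1 by ring,
      show G 1 * G (-1) * G (-1) * G 1 = (G (-1) * G 1) * (G (-1) * G 1) by ring]
    exact NN_neg.mul NN_neg

/-- a character as an arithmetic function -/
noncomputable def af (χ : DirichletCharacter ℂ q) : ArithmeticFunction ℂ :=
  toArithmeticFunction (χ ·)

lemma PS_af (χ : DirichletCharacter ℂ q) {p : ℕ} (hp : p.Prime) : PS (af χ) p = G (χ p) := by
  ext k
  have : p ^ k ≠ 0 := pow_ne_zero _ hp.ne_zero
  simp [PS, af, G, toArithmeticFunction, this]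
  intro h
  exact absurd h hp.ne_zero

lemma PS_zeta {p : ℕ} (hp : p.Prime) : PS ((ArithmeticFunction.zeta : ArithmeticFunction ℕ) : ArithmeticFunction ℂ) p = G 1 := by
  ext k
  have : p ^ k ≠ 0 := pow_ne_zero _ hp.ne_zero
  simp [PS, G, natCoe_apply, zeta_apply, this]
  intro h
  exact absurd h hp.ne_zero

/-- the coefficients of the fourfold product -/
noncomputable def b4 (χ ψ : DirichletCharacter ℂ q) : ArithmeticFunction ℂ :=
  ((ArithmeticFunction.zeta : ArithmeticFunction ℕ) : ArithmeticFunction ℂ) * af χ * af ψ *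
    af (χ * ψ)

lemma b4_mult (χ ψ : DirichletCharacter ℂ q) : (b4 χ ψ).IsMultiplicative :=
  (((isMultiplicative_zeta.natCast).mul
    (DirichletCharacter.isMultiplicative_toArithmeticFunction χ)).mul
    (DirichletCharacter.isMultiplicative_toArithmeticFunction ψ)).mul
    (DirichletCharacter.isMultiplicative_toArithmeticFunction (χ * ψ))

lemma b4_nonneg {χ ψ : DirichletCharacter ℂ q} (hχ : χ ^ 2 = 1) (hψ : ψ ^ 2 = 1) (n : ℕ) :
    0 ≤ b4 χ ψ n := by
  rcases eq_or_ne n 0 with rfl | hn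
  · simp
  · rw [(b4_mult χ ψ).multiplicative_factorization _ hn]
    refine Finset.prod_nonneg fun p hp => ?_
    have hp' : p.Prime := Nat.prime_of_mem_primeFactors hp
    have h1 : PS (b4 χ ψ) p = G 1 * G (χ p) * G (ψ p) * G (χ p * ψ p) := by
      rw [b4, PS_mul _ _ hp', PS_mul _ _ hp', PS_mul _ _ hp', PS_af _ hp', PS_af _ hp',
        PS_af _ hp', PS_zeta hp', MulChar.mul_apply]
    have h2 := NN_four (MulChar.isQuadratic_iff_sq_eq_one.mpr hχ p)
      (MulChar.isQuadratic_iff_sq_eq_one.mpr hψ p) (n.factorization p)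
    rw [← h1] at h2
    simpa [PS] using h2

/-- the coefficients of the twofold product -/
noncomputable def b2 (χ : DirichletCharacter ℂ q) : ArithmeticFunction ℂ :=
  ((ArithmeticFunction.zeta : ArithmeticFunction ℕ) : ArithmeticFunction ℂ) * af χ

lemma b2_nonneg {χ : DirichletCharacter ℂ q} (hχ : χ ^ 2 = 1) (n : ℕ) :
    0 ≤ b2 χ n := DirichletCharacter.zetaMul_nonneg hχ n

lemma b2_one (χ : DirichletCharacter ℂ q) : b2 χ 1 = 1 :=
  (χ.isMultiplicative_zetaMul).map_one

lemma b4_one (χ ψ : DirichletCharacter ℂ q) : b4 χ ψ 1 = 1 := (b4_mult χ ψ).map_one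

lemma af_summable (χ : DirichletCharacter ℂ q) {s : ℂ} (hs : 1 < s.re) :
    LSeriesSummable (fun n => af χ n) s := by
  refine LSeriesSummable_of_bounded_of_one_lt_re (m := 1) (fun n hn ↦ ?_) hs
  simpa only [af, toArithmeticFunction, coe_mk, hn, ↓reduceIte]
    using DirichletCharacter.norm_le_one χ _

lemma af_LSeries [NeZero q] (χ : DirichletCharacter ℂ q) {s : ℂ} (hs : 1 < s.re) :
    LSeries (fun n => af χ n) s = DirichletCharacter.LFunction χ s := by
  rw [DirichletCharacter.LFunction_eq_LSeries χ hs]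
  exact (LSeries_congr (fun {n} hn => χ.apply_eq_toArithmeticFunction_apply hn) s).symm

lemma zeta_summable {s : ℂ} (hs : 1 < s.re) :
    LSeriesSummable (fun n => ((ArithmeticFunction.zeta : ArithmeticFunction ℕ) :
      ArithmeticFunction ℂ) n) s := by
  simpa [natCoe_apply] using LSeriesSummable_zeta_iff.mpr hs

lemma zeta_LSeries {s : ℂ} (hs : 1 < s.re) :
    LSeries (fun n => ((ArithmeticFunction.zeta : ArithmeticFunction ℕ) :
      ArithmeticFunction ℂ) n) s = riemannZeta s := by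
  simpa [natCoe_apply] using LSeries_zeta_eq_riemannZeta hs

lemma b2_summable (χ : DirichletCharacter ℂ q) {s : ℂ} (hs : 1 < s.re) :
    LSeriesSummable (fun n => b2 χ n) s :=
  LSeriesSummable_mul (zeta_summable hs) (af_summable χ hs)

lemma b2_LSeries [NeZero q] (χ : DirichletCharacter ℂ q) {s : ℂ} (hs : 1 < s.re) :
    LSeries (fun n => b2 χ n) s = riemannZeta s * DirichletCharacter.LFunction χ s := by
  rw [b2, LSeries_mul' (zeta_summable hs) (af_summable χ hs), zeta_LSeries hs, af_LSeries χ hs]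

lemma b4_summable (χ ψ : DirichletCharacter ℂ q) {s : ℂ} (hs : 1 < s.re) :
    LSeriesSummable (fun n => b4 χ ψ n) s :=
  LSeriesSummable_mul (LSeriesSummable_mul (LSeriesSummable_mul (zeta_summable hs)
    (af_summable χ hs)) (af_summable ψ hs)) (af_summable (χ * ψ) hs)

lemma b4_LSeries [NeZero q] (χ ψ : DirichletCharacter ℂ q) {s : ℂ} (hs : 1 < s.re) :
    LSeries (fun n => b4 χ ψ n) s = riemannZeta s * (DirichletCharacter.LFunction χ s *
      DirichletCharacter.LFunction ψ s * DirichletCharacter.LFunction (χ * ψ) s) := by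
  have h1 := zeta_summable hs
  have h2 := LSeriesSummable_mul h1 (af_summable χ hs)
  have h3 := LSeriesSummable_mul h2 (af_summable ψ hs)
  rw [b4, LSeries_mul' h3 (af_summable (χ * ψ) hs), LSeries_mul' h2 (af_summable ψ hs),
    LSeries_mul' h1 (af_summable χ hs), zeta_LSeries hs, af_LSeries χ hs, af_LSeries ψ hs,
    af_LSeries (χ * ψ) hs]
  ring

end Vale.Agent.P013.J.Siegel
end

section

/-!
# The large sieve for prime moduli, by a Fejer weight (no analysis)
-/

open Finset

namespace Vale.Agent.P005.LS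

end Vale.Agent.P005.LS
end

section

/-!
# Bilinear equidistribution in the class 1 on average over prime moduli
-/

open Finset

namespace Vale.Agent.P005.BV

open Vale.Agent.P005.LS

/-- inverse of the class `c` mod `q`, as a natural number -/
def inv (q c : ℕ) : ℕ := ((c : ZMod q)⁻¹ : ZMod q).val

lemma inv_inv {q c : ℕ} (hq : q.Prime) (hc : c ∈ Ico 1 q) : inv q (inv q c) = c := by
  have := Fact.mk hq
  rw [Finset.mem_Ico] at hc
  unfold inv
  rw [ZMod.natCast_val, ZMod.cast_id', id, _root_.inv_inv, ZMod.val_natCast, Nat.mod_eq_of_lt hc.2]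

end Vale.Agent.P005.BV
end

section

namespace Vale.Agent.P013

open Finset Real

/-- primes dividing `n` below `z` -/
def Qn (n z : ℕ) : Finset ℕ := n.primeFactors.filter (· < z)

/-- primes below `z` not dividing `n` -/
def Mn (n z : ℕ) : Finset ℕ := (range z).filter (fun p => p.Prime ∧ ¬ p ∣ n)

noncomputable def Vn (n z : ℕ) : ℝ := ∏ q ∈ Qn n z, (1 - 1 / (q : ℝ))

/-- The remainder in the sieve. -/
noncomputable def Wn (C1 : ℝ) (n z : ℕ) (T : ℝ) : ℝ :=
  Real.exp (T - ∑ p ∈ Mn n z, Real.log p / p + C1 * ∑ p ∈ Mn n z, 1 / (p : ℝ)) *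
    ∏ q ∈ Qn n z, (1 + Real.exp C1 / q)

/-- Number of `t` in `(u, u + m]` divisible by `d` and by no prime `q < z` dividing `n`. -/
noncomputable def cn (n z : ℕ) (u : ℤ) (m d : ℕ) : ℕ :=
  ((Finset.Ioc u (u + m)).filter
    (fun t : ℤ => (d : ℤ) ∣ t ∧ ∀ q ∈ Qn n z, ¬ (q : ℤ) ∣ t)).card

lemma jacobsthal_le {n m : ℕ} (hm : 0 < m)
    (h : ∀ x : ℤ, ∃ t : ℤ, x < t ∧ t ≤ x + m ∧ Int.gcd t n = 1) : jacobsthal n ≤ m :=
  Nat.sInf_le ⟨hm, h⟩

lemma card_dvd_Ioc_le (u : ℤ) (m q : ℕ) (hq : 0 < q) :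
    (((Finset.Ioc u (u + m)).filter (fun t : ℤ => (q : ℤ) ∣ t)).card : ℝ) ≤ m / q + 1 := by
  have hq' : (0 : ℤ) < q := by exact_mod_cast hq
  have h := Int.Ioc_filter_dvd_card u (u + m) hq'
  have hqQ : (0 : ℚ) < q := by exact_mod_cast hq
  have h1 : (⌊((u + m : ℤ) : ℚ) / ((q : ℤ) : ℚ)⌋ : ℤ) - ⌊(u : ℚ) / ((q : ℤ) : ℚ)⌋ ≤
      ⌊(m : ℚ) / q⌋ + 1 := by
    have e : ((u + m : ℤ) : ℚ) / ((q : ℤ) : ℚ) = (u : ℚ) / ((q : ℤ) : ℚ) + (m : ℚ) / q := by
      push_cast; ring
    rw [e]
    have := Int.le_floor_add_floor ((u : ℚ) / ((q : ℤ) : ℚ)) ((m : ℚ) / q)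
    linarith only [this]
  have h0 : (0 : ℤ) ≤ ⌊(m : ℚ) / q⌋ + 1 := by
    have : (0 : ℤ) ≤ ⌊(m : ℚ) / q⌋ := Int.floor_nonneg.mpr (by positivity)
    linarith only [this]
  have h2 : (((Finset.Ioc u (u + m)).filter (fun t : ℤ => (q : ℤ) ∣ t)).card : ℤ) ≤
      ⌊(m : ℚ) / q⌋ + 1 := by
    rw [h]
    exact max_le h1 h0
  have h3 : ((⌊(m : ℚ) / q⌋ + 1 : ℤ) : ℚ) ≤ (m : ℚ) / q + 1 := by
    push_cast
    have := Int.floor_le ((m : ℚ) / q)
    linarith only [this]
  have h4 : (((Finset.Ioc u (u + m)).filter (fun t : ℤ => (q : ℤ) ∣ t)).card : ℚ) ≤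
      (m : ℚ) / q + 1 := by
    refine le_trans ?_ h3
    exact_mod_cast h2
  have h5 : ((((Finset.Ioc u (u + m)).filter (fun t : ℤ => (q : ℤ) ∣ t)).card : ℚ) : ℝ) ≤
      (((m : ℚ) / q + 1 : ℚ) : ℝ) := by exact_mod_cast h4
  push_cast at h5
  exact h5

/-- If few elements are lost to the large primes then some element is coprime to `n`. -/
lemma exists_coprime (n z : ℕ) (hn : n ≠ 0) (u : ℤ) (m : ℕ)
    (h : (∑ q ∈ n.primeFactors.filter (fun q => z ≤ q), cn n z u m q) < cn n z u m 1) :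
    ∃ t : ℤ, u < t ∧ t ≤ u + m ∧ Int.gcd t n = 1 := by
  classical
  by_contra hcon
  push Not at hcon
  have hsub : (Finset.Ioc u (u + m)).filter
      (fun t : ℤ => ((1 : ℕ) : ℤ) ∣ t ∧ ∀ q ∈ Qn n z, ¬ (q : ℤ) ∣ t) ⊆
      (n.primeFactors.filter (fun q => z ≤ q)).biUnion (fun q =>
        (Finset.Ioc u (u + m)).filter
          (fun t : ℤ => (q : ℤ) ∣ t ∧ ∀ q ∈ Qn n z, ¬ (q : ℤ) ∣ t)) := by
    intro t ht
    rw [mem_filter, mem_Ioc] at ht
    obtain ⟨⟨h1, h2⟩, -, h3⟩ := ht
    have hg := hcon t h1 h2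
    obtain ⟨q, hq, hqd⟩ := Nat.exists_prime_and_dvd hg
    have hqt : (q : ℤ) ∣ t := (Int.natCast_dvd_natCast.mpr hqd).trans (Int.gcd_dvd_left t n)
    have hqn : q ∣ n := by
      have := (Int.natCast_dvd_natCast.mpr hqd).trans (Int.gcd_dvd_right t n)
      exact_mod_cast this
    have hqz : z ≤ q := by
      by_contra hlt
      push Not at hlt
      exact h3 q (by rw [Qn, mem_filter]; exact ⟨Nat.mem_primeFactors.mpr ⟨hq, hqn, hn⟩, hlt⟩) hqt
    rw [mem_biUnion]
    refine ⟨q, ?_, ?_⟩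
    · rw [mem_filter]; exact ⟨Nat.mem_primeFactors.mpr ⟨hq, hqn, hn⟩, hqz⟩
    · rw [mem_filter, mem_Ioc]; exact ⟨⟨h1, h2⟩, hqt, h3⟩
  have hc := (card_le_card hsub).trans card_biUnion_le
  unfold cn at h
  omega

lemma cn_le (n z : ℕ) (u : ℤ) (m q : ℕ) (hq : 0 < q) : (cn n z u m q : ℝ) ≤ m / q + 1 := by
  refine le_trans ?_ (card_dvd_Ioc_le u m q hq)
  unfold cn
  norm_cast
  apply card_le_card
  intro t ht
  rw [mem_filter] at ht ⊢
  exact ⟨ht.1, ht.2.1⟩

/-- lower bound for the density -/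
lemma Vn_lower : ∃ c : ℝ, 0 < c ∧ ∀ n z : ℕ, 2 ≤ z → c / Real.log z ≤ Vn n z := by
  obtain ⟨C, hC0, hC⟩ := sum_inv_prime_le
  refine ⟨Real.exp (-(C + 1)), Real.exp_pos _, ?_⟩
  intro n z hz
  have hzR : (2 : ℝ) ≤ z := by exact_mod_cast hz
  have hl : 0 < Real.log z := Real.log_pos (by linarith)
  have h1 := hC z hz
  have hsub : Qn n z ⊆ (range z).filter Nat.Prime := by
    intro p hp
    rw [Qn, mem_filter, Nat.mem_primeFactors] at hp
    rw [mem_filter, mem_range]
    exact ⟨hp.2, hp.1.1⟩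
  have h2 : ∑ p ∈ (range z).filter Nat.Prime, (1 / ((p : ℝ) - 1) - 1 / p) ≤ 1 := by
    have : ∀ z : ℕ, 2 ≤ z → ∑ p ∈ (range z).filter Nat.Prime, (1 / ((p : ℝ) - 1) - 1 / p) ≤
      1 - 1 / ((z : ℝ) - 1) := by
      intro z hz
      induction z, hz using Nat.le_induction with
      | base =>
        have : (range 2).filter Nat.Prime = ∅ := by decide
        rw [this]; norm_num
      | succ z hz ih =>
        have hz2 : (2 : ℝ) ≤ z := by exact_mod_cast hz
        have hpos : 0 ≤ 1 / ((z : ℝ) - 1) - 1 / z := by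
          rw [sub_nonneg]
          apply one_div_le_one_div_of_le <;> linarith
        rw [range_add_one, filter_insert]
        push_cast
        have hz1 : (z : ℝ) + 1 - 1 = z := by ring
        rw [hz1]
        split_ifs with hp
        · rw [sum_insert (by simp)]
          linarith only [ih]
        · linarith only [hpos, ih]
    refine (this z hz).trans ?_
    have h4 : 0 ≤ 1 / ((z : ℝ) - 1) := by
      apply div_nonneg zero_le_one
      linarith
    linarith
  have h3 : Real.exp (-(∑ p ∈ (range z).filter Nat.Prime,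
      (1 / (p : ℝ) + (1 / ((p : ℝ) - 1) - 1 / p)))) ≤
      ∏ p ∈ (range z).filter Nat.Prime, (1 - 1 / (p : ℝ)) := by
    rw [← sum_neg_distrib, Real.exp_sum]
    apply prod_le_prod
    · intro p _; exact (Real.exp_pos _).le
    · intro p hp
      rw [mem_filter] at hp
      exact one_sub_inv_ge p hp.2.two_le
  have h4 : ∏ p ∈ (range z).filter Nat.Prime, (1 - 1 / (p : ℝ)) ≤ Vn n z := by
    unfold Vn
    rw [← prod_sdiff hsub]
    have hnn : ∀ p ∈ (range z).filter Nat.Prime, 0 ≤ 1 - 1 / (p : ℝ) := by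
      intro p hp
      rw [mem_filter] at hp
      have : (1 : ℝ) ≤ p := by exact_mod_cast hp.2.one_le
      have h2 : 1 / (p : ℝ) ≤ 1 := by rw [div_le_one (by linarith)]; exact this
      linarith
    apply mul_le_of_le_one_left
    · exact prod_nonneg fun p hp => hnn p (hsub hp)
    · apply prod_le_one
      · intro p hp; exact hnn p (sdiff_subset hp)
      · intro p _
        have : 0 ≤ 1 / (p : ℝ) := by positivity
        linarith
  have h5 : Real.exp (-(C + 1)) / Real.log z ≤ Real.exp (-(∑ p ∈ (range z).filter Nat.Prime,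
      (1 / (p : ℝ) + (1 / ((p : ℝ) - 1) - 1 / p)))) := by
    rw [sum_add_distrib]
    have : Real.exp (-(C + 1)) / Real.log z = Real.exp (-(C + 1) - Real.log (Real.log z)) := by
      rw [Real.exp_sub, Real.exp_log hl]
    rw [this]
    apply Real.exp_le_exp.mpr
    linarith only [h2, h1]
  exact h5.trans (h3.trans h4)

/-- sum over the primes dividing `n` below `z` -/
noncomputable def Ln (n z : ℕ) : ℝ := ∑ p ∈ Qn n z, Real.log p / p

lemma Qn_disj_Mn (n z : ℕ) : Disjoint (Qn n z) (Mn n z) := by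
  rw [Finset.disjoint_left]
  intro p hp hp'
  rw [Qn, mem_filter, Nat.mem_primeFactors] at hp
  rw [Mn, mem_filter] at hp'
  exact hp'.2.2 hp.1.2.1

lemma Qn_union_Mn (n z : ℕ) (hn : n ≠ 0) : Qn n z ∪ Mn n z = (range z).filter Nat.Prime := by
  ext p
  rw [mem_union, Qn, mem_filter, Nat.mem_primeFactors, Mn, mem_filter, mem_filter, mem_range]
  constructor
  · rintro (⟨⟨h1, h2, h3⟩, h4⟩ | ⟨h1, h2, h3⟩)
    · exact ⟨h4, h1⟩
    · exact ⟨h1, h2⟩
  · rintro ⟨h1, h2⟩
    by_cases h : p ∣ n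
    · exact Or.inl ⟨⟨h2, h, hn⟩, h1⟩
    · exact Or.inr ⟨h1, h2, h⟩

/-- upper bound for the remainder -/
lemma Wn_upper (C1 : ℝ) (hC1 : 0 ≤ C1) : ∃ K A : ℝ, 0 < K ∧ 0 < A ∧
    ∀ n z : ℕ, n ≠ 0 → 2 ≤ z → ∀ T : ℝ,
      Wn C1 n z T ≤ K * (Real.log z) ^ A * (Real.exp (T - Real.log z) * Real.exp (Ln n z)) := by
  obtain ⟨C, hC0, hC⟩ := sum_inv_prime_le
  obtain ⟨D, hD0, hD⟩ := mertens_one
  refine ⟨Real.exp (D + (C1 + Real.exp C1) * C), C1 + Real.exp C1, Real.exp_pos _,
    by have := Real.exp_pos C1; linarith, ?_⟩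
  intro n z hn hz T
  have hzR : (2 : ℝ) ≤ z := by exact_mod_cast hz
  have hl : 0 < Real.log z := Real.log_pos (by linarith)
  have h1 := hC z hz
  have h2 := (abs_le.mp (hD z (by omega))).1
  rw [← Qn_union_Mn n z hn, sum_union (Qn_disj_Mn n z)] at h1 h2
  have hQ0 : 0 ≤ ∑ p ∈ Qn n z, 1 / (p : ℝ) := sum_nonneg fun p _ => by positivity
  have hM0 : 0 ≤ ∑ p ∈ Mn n z, 1 / (p : ℝ) := sum_nonneg fun p _ => by positivity
  have hprod : ∏ q ∈ Qn n z, (1 + Real.exp C1 / q) ≤
      Real.exp (Real.exp C1 * ∑ p ∈ Qn n z, 1 / (p : ℝ)) := by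
    rw [mul_sum, Real.exp_sum]
    apply prod_le_prod
    · intro q _; positivity
    · intro q _
      have := Real.add_one_le_exp (Real.exp C1 * (1 / (q : ℝ)))
      refine le_trans (le_of_eq ?_) this
      ring
  have hpow : (Real.log z) ^ (C1 + Real.exp C1) =
      Real.exp ((C1 + Real.exp C1) * Real.log (Real.log z)) := by
    rw [Real.rpow_def_of_pos hl, mul_comm]
  unfold Wn
  rw [hpow, ← Real.exp_add, ← Real.exp_add, ← Real.exp_add]
  calc _ ≤ Real.exp (T - ∑ p ∈ Mn n z, Real.log p / p + C1 * ∑ p ∈ Mn n z, 1 / (p : ℝ)) *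
        Real.exp (Real.exp C1 * ∑ p ∈ Qn n z, 1 / (p : ℝ)) :=
        mul_le_mul_of_nonneg_left hprod (Real.exp_pos _).le
    _ = Real.exp (T - ∑ p ∈ Mn n z, Real.log p / p + C1 * ∑ p ∈ Mn n z, 1 / (p : ℝ) +
        Real.exp C1 * ∑ p ∈ Qn n z, 1 / (p : ℝ)) := by rw [← Real.exp_add]
    _ ≤ _ := by
      apply Real.exp_le_exp.mpr
      have h3 : ∑ p ∈ Qn n z, Real.log p / p = Ln n z := rfl
      rw [h3] at h2
      have he : 0 < Real.exp C1 := Real.exp_pos _
      have h4 : C1 * ∑ p ∈ Mn n z, 1 / (p : ℝ) ≤ C1 * (Real.log (Real.log z) + C -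
          ∑ p ∈ Qn n z, 1 / (p : ℝ)) := mul_le_mul_of_nonneg_left (by linarith only [h1]) hC1
      have h5 : Real.exp C1 * ∑ p ∈ Qn n z, 1 / (p : ℝ) ≤ Real.exp C1 *
          (Real.log (Real.log z) + C) := mul_le_mul_of_nonneg_left (by linarith only [hM0, h1]) he.le
      have h6 : 0 ≤ C1 * ∑ p ∈ Qn n z, 1 / (p : ℝ) := mul_nonneg hC1 hQ0
      linarith only [h6, h5, h4, h2]

end Vale.Agent.P013
end

section

namespace Vale.Agent.P013

open Finset Real

/-- The bound with a cut parameter. -/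
theorem cut_bound (C1 : ℝ) (hC1 : 0 ≤ C1) (f : ℝ → ℝ) (hf : ∀ t, 2 ≤ t → (t - 2) / t ≤ f t)
    (hL : ∀ n z : ℕ, n ≠ 0 → 2 ≤ z → ∀ T : ℝ, 2 * Real.log z ≤ T → ∀ (u : ℤ) (m : ℕ),
      m * Vn n z * f (T / Real.log z) - Wn C1 n z T ≤ cn n z u m 1) :
    ∃ K A c : ℝ, 0 < K ∧ 0 < A ∧ 0 < c ∧ ∀ n z : ℕ, n ≠ 0 → 2 ≤ z →
      (∑ q ∈ n.primeFactors.filter (fun q => z ≤ q), 1 / (q : ℝ)) ≤ c / (Real.log z) ^ 2 →
      (jacobsthal n : ℝ) ≤ K * (Real.log z) ^ A *
        (z * Real.exp (Ln n z) + n.primeFactors.card) := by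
  obtain ⟨c1, hc1, hV⟩ := Vn_lower
  obtain ⟨K, A, hK, hA, hW⟩ := Wn_upper C1 hC1
  have hl2 : 0 < Real.log 2 := Real.log_pos (by norm_num)
  -- c is half of the constant in the main term
  set b : ℝ := 2 + 1 / Real.log 2 with hb
  have hb0 : 0 < b := by positivity
  set c : ℝ := c1 / (2 * b) with hc
  have hc0 : 0 < c := by positivity
  set l2 : ℝ := Real.log 2 with hl2def
  -- final constants
  refine ⟨(K * Real.exp 1 / l2 ^ 0 + 1) / c * (1 + 1 / l2 ^ A) + 1 / l2 ^ (A + 2), A + 2, c,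
    by positivity, by positivity, hc0, ?_⟩
  intro n z hn hz hsum
  have hzR : (2 : ℝ) ≤ z := by exact_mod_cast hz
  set L : ℝ := Real.log z with hLdef
  have hLl2 : l2 ≤ L := Real.log_le_log (by norm_num) hzR
  have hL0 : 0 < L := lt_of_lt_of_le hl2 hLl2
  set w : ℝ := (n.primeFactors.card : ℝ) with hw
  have hw0 : 0 ≤ w := Nat.cast_nonneg _
  set X : ℝ := z * Real.exp (Ln n z) with hX
  have hLn0 : 0 ≤ Ln n z := by
    unfold Ln
    apply sum_nonneg
    intro p hp
    rw [Qn, mem_filter, Nat.mem_primeFactors] at hp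
    apply div_nonneg (Real.log_nonneg (by exact_mod_cast hp.1.1.one_le)) (Nat.cast_nonneg _)
  have hX1 : 1 ≤ X := by
    have : 1 ≤ Real.exp (Ln n z) := Real.one_le_exp hLn0
    rw [hX]; nlinarith
  set W : ℝ := Wn C1 n z (2 * L + 1) with hWdef
  have hWle : W ≤ K * Real.exp 1 * L ^ A * X := by
    refine (hW n z hn hz (2 * L + 1)).trans (le_of_eq ?_)
    have h1 : Real.exp (2 * L + 1 - L) = Real.exp 1 * z := by
      have : 2 * L + 1 - L = 1 + L := by ring
      rw [this, Real.exp_add, hLdef, Real.exp_log (by linarith)]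
    rw [← hLdef, h1, hX]
    ring
  -- the key: any m > (L^2/c)(W + w) works
  have key : ∀ m : ℕ, (L ^ 2 / c) * (W + w) < m → ∀ x : ℤ, ∃ t : ℤ, x < t ∧ t ≤ x + m ∧
      Int.gcd t n = 1 := by
    intro m hm x
    apply exists_coprime n z hn x m
    have h1 := hL n z hn hz (2 * L + 1) (by linarith) x m
    have hm0 : (0 : ℝ) ≤ m := Nat.cast_nonneg _
    have h2 : 1 / (b * L) ≤ f ((2 * L + 1) / L) := by
      refine le_trans ?_ (hf ((2 * L + 1) / L) (by
        rw [le_div_iff₀ hL0]; linarith))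
      have e : ((2 * L + 1) / L - 2) / ((2 * L + 1) / L) = 1 / (2 * L + 1) := by
        field_simp
        ring
      rw [e]
      apply one_div_le_one_div_of_le (by linarith only [hL0])
      rw [hb]
      have : 1 ≤ 1 / l2 * L := by
        rw [one_div, inv_mul_eq_div, le_div_iff₀ hl2]; linarith only [hLl2]
      linarith only [this]
    have h3 : c1 / L ≤ Vn n z := hV n z hz
    have h4 : (m : ℝ) * (2 * c / L ^ 2) ≤ m * Vn n z * f ((2 * L + 1) / L) := by
      have e : 2 * c / L ^ 2 = (c1 / L) * (1 / (b * L)) := by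
        rw [hc]; field_simp
      rw [e, mul_assoc]
      apply mul_le_mul_of_nonneg_left _ hm0
      apply mul_le_mul h3 h2 (by positivity)
      exact le_trans (by positivity) h3
    have h5 : (∑ q ∈ n.primeFactors.filter (fun q => z ≤ q), (cn n z x m q : ℝ)) ≤
        m * (c / L ^ 2) + w := by
      calc (∑ q ∈ n.primeFactors.filter (fun q => z ≤ q), (cn n z x m q : ℝ)) ≤
          ∑ q ∈ n.primeFactors.filter (fun q => z ≤ q), ((m : ℝ) * (1 / q) + 1) := by
            apply sum_le_sum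
            intro q hq
            rw [mem_filter, Nat.mem_primeFactors] at hq
            refine (cn_le n z x m q hq.1.1.pos).trans (le_of_eq ?_)
            ring
        _ = m * (∑ q ∈ n.primeFactors.filter (fun q => z ≤ q), 1 / (q : ℝ)) +
            ((n.primeFactors.filter (fun q => z ≤ q)).card : ℝ) := by
            rw [sum_add_distrib, ← mul_sum]; simp
        _ ≤ _ := by
            apply add_le_add
            · exact mul_le_mul_of_nonneg_left hsum hm0
            · rw [hw]; exact_mod_cast card_filter_le _ _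
    have h6 : W + w < m * (c / L ^ 2) := by
      have : (L ^ 2 / c) * (W + w) * (c / L ^ 2) < m * (c / L ^ 2) :=
        mul_lt_mul_of_pos_right hm (by positivity)
      have e : (L ^ 2 / c) * (W + w) * (c / L ^ 2) = W + w := by
        field_simp
      rwa [e] at this
    have h7 : (((∑ q ∈ n.primeFactors.filter (fun q => z ≤ q), cn n z x m q : ℕ)) : ℝ) <
        (cn n z x m 1 : ℝ) := by
      push_cast
      have : (m : ℝ) * (2 * c / L ^ 2) = m * (c / L ^ 2) + m * (c / L ^ 2) := by ring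
      linarith only [this, h6, h5, h4, h1]
    exact_mod_cast h7
  set m0 : ℕ := ⌊(L ^ 2 / c) * (W + w)⌋₊ + 1 with hm0
  have hj : jacobsthal n ≤ m0 := jacobsthal_le (Nat.succ_pos _) (key m0 (by
    rw [hm0]; push_cast; exact Nat.lt_floor_add_one _))
  have hWpos : 0 ≤ W := by
    rw [hWdef]; unfold Wn
    apply mul_nonneg (Real.exp_pos _).le
    apply prod_nonneg
    intro q _; positivity
  have hj2 : (jacobsthal n : ℝ) ≤ (L ^ 2 / c) * (W + w) + 1 := by
    have : (jacobsthal n : ℝ) ≤ m0 := by exact_mod_cast hj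
    refine this.trans ?_
    rw [hm0]; push_cast
    have := Nat.floor_le (show 0 ≤ (L ^ 2 / c) * (W + w) by (clear * - hL0 hc1 hWpos; positivity))
    linarith only [this]
  refine hj2.trans ?_
  have hLA : 0 < L ^ A := Real.rpow_pos_of_pos hL0 A
  have hl2A : 0 < l2 ^ A := Real.rpow_pos_of_pos hl2 A
  have hl2A2 : 0 < l2 ^ (A + 2) := Real.rpow_pos_of_pos hl2 _
  have hLA2 : L ^ (A + 2) = L ^ A * L ^ 2 := by
    rw [Real.rpow_add hL0]; norm_num
  have h1 : 1 ≤ (1 / l2 ^ A) * L ^ A := by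
    rw [one_div, inv_mul_eq_div, one_le_div hl2A]
    exact Real.rpow_le_rpow hl2.le hLl2 hA.le
  have h2 : 1 ≤ (1 / l2 ^ (A + 2)) * L ^ (A + 2) := by
    rw [one_div, inv_mul_eq_div, one_le_div hl2A2]
    exact Real.rpow_le_rpow hl2.le hLl2 (by linarith only [hA])
  have h3 : W + w ≤ ((K * Real.exp 1 + 1) * (1 + 1 / l2 ^ A)) * (L ^ A * (X + w)) := by
    have hwA : w ≤ (1 / l2 ^ A) * L ^ A * w := by
      have := mul_le_mul_of_nonneg_right h1 hw0
      linarith only [this]
    have hKe : 0 < K * Real.exp 1 := by positivity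
    have e : ((K * Real.exp 1 + 1) * (1 + 1 / l2 ^ A)) * (L ^ A * (X + w)) =
      K * Real.exp 1 * L ^ A * X + (1 / l2 ^ A) * L ^ A * w +
      (L ^ A * X + K * Real.exp 1 * L ^ A * w + L ^ A * w +
        K * Real.exp 1 * (1 / l2 ^ A) * L ^ A * (X + w) + (1 / l2 ^ A) * L ^ A * X) := by ring
    rw [e]
    have : 0 ≤ (L ^ A * X + K * Real.exp 1 * L ^ A * w + L ^ A * w +
        K * Real.exp 1 * (1 / l2 ^ A) * L ^ A * (X + w) + (1 / l2 ^ A) * L ^ A * X) := by
      (clear * - hL0 hz hK; positivity)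
    linarith only [this, hwA, hWle]
  have h4 : (L ^ 2 / c) * (W + w) ≤ (L ^ 2 / c) *
      (((K * Real.exp 1 + 1) * (1 + 1 / l2 ^ A)) * (L ^ A * (X + w))) :=
    mul_le_mul_of_nonneg_left h3 (by positivity)
  have h5 : 1 ≤ (1 / l2 ^ (A + 2)) * L ^ (A + 2) * (X + w) := by
    have : (1 : ℝ) * 1 ≤ (1 / l2 ^ (A + 2)) * L ^ (A + 2) * (X + w) :=
      mul_le_mul h2 (by linarith only [hX1, hw0]) zero_le_one (by positivity)
    linarith only [this]
  calc (L ^ 2 / c) * (W + w) + 1 ≤ (L ^ 2 / c) *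
      (((K * Real.exp 1 + 1) * (1 + 1 / l2 ^ A)) * (L ^ A * (X + w))) +
      (1 / l2 ^ (A + 2)) * L ^ (A + 2) * (X + w) := by linarith only [h5, h4]
    _ = _ := by
      rw [hLA2]
      have : l2 ^ (0 : ℕ) = 1 := pow_zero _
      rw [this]
      field_simp

end Vale.Agent.P013
end

section

namespace Vale.Agent.P013

open Finset Real

lemma exists_consts (c : ℝ) (hc : 0 < c) : ∃ M B : ℝ, 1 ≤ M ∧ 1 ≤ B ∧
    3 + Real.log (M + 1) / Real.log 2 = B ∧ B ^ 2 / c ≤ M := by
  set y : ℝ := 54 / c + 2 with hy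
  have hy2 : 2 ≤ y := by have : 0 < 54 / c := by positivity
                         linarith
  have hl2 := Real.log_two_gt_d9
  have hl2' : 0 < Real.log 2 := by linarith
  refine ⟨Real.exp y - 1, 3 + y / Real.log 2, ?_, ?_, ?_, ?_⟩
  · have := Real.add_one_le_exp y
    linarith
  · have : 0 < y / Real.log 2 := by positivity
    linarith
  · have : Real.exp y - 1 + 1 = Real.exp y := by ring
    rw [this, Real.log_exp]
  · have h1 : y ^ 3 / 6 ≤ Real.exp y := by
      have := Real.pow_div_factorial_le_exp y (by linarith) 3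
      have e : ((3 : ℕ).factorial : ℝ) = 6 := by norm_num [Nat.factorial]
      rwa [e] at this
    have h2 : y / Real.log 2 ≤ 3 / 2 * y := by
      rw [div_le_iff₀ hl2']
      nlinarith
    have h3 : 3 + y / Real.log 2 ≤ 3 * y := by linarith only [h2, hy2]
    have h4 : (3 + y / Real.log 2) ^ 2 ≤ (3 * y) ^ 2 := by
      apply pow_le_pow_left₀ _ h3
      positivity
    rw [div_le_iff₀ hc]
    have h5 : c * y = 54 + 2 * c := by rw [hy]; field_simp
    have h6 : 9 * y ^ 2 ≤ (y ^ 3 / 6 - 1) * c := by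
      have e : (y ^ 3 / 6 - 1) * c = y ^ 2 * (c * y) / 6 - c := by ring
      rw [e, h5]
      have : c ≤ y ^ 2 * c / 3 := by
        nlinarith [mul_pos hc (show (0:ℝ) < 1 by norm_num), mul_le_mul hy2 hy2 (by norm_num) (by linarith only [hy2])]
      linarith only [this]
    calc (3 + y / Real.log 2) ^ 2 ≤ 9 * y ^ 2 := by nlinarith
      _ ≤ (y ^ 3 / 6 - 1) * c := h6
      _ ≤ (Real.exp y - 1) * c := by
        apply mul_le_mul_of_nonneg_right _ hc.le
        linarith

lemma aux_c (c M B ℓ z k : ℝ) (hc : 0 < c) (hM1 : 1 ≤ M) (hB1 : 1 ≤ B) (hBc : B ^ 2 / c ≤ M)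
    (hℓ0 : 0 < ℓ) (hz0 : 0 < z) (hzlow : M * k * ℓ ^ 2 ≤ z) :
    k * (1 / z) ≤ c / (B * ℓ) ^ 2 := by
  have hM0 : 0 < M := by linarith
  have hB0 : 0 < B := by linarith
  have h3 : k * (1 / z) ≤ 1 / (M * ℓ ^ 2) := by
    rw [mul_one_div, div_le_div_iff₀ hz0 (by positivity)]
    linarith
  have h4 : 1 / (M * ℓ ^ 2) ≤ c / (B * ℓ) ^ 2 := by
    rw [div_le_div_iff₀ (by positivity) (by positivity)]
    have h5 : B ^ 2 ≤ M * c := by
      rwa [div_le_iff₀ hc] at hBc
    have h6 := mul_le_mul_of_nonneg_right h5 (sq_nonneg ℓ)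
    calc 1 * (B * ℓ) ^ 2 = B ^ 2 * ℓ ^ 2 := by ring
      _ ≤ M * c * ℓ ^ 2 := h6
      _ = c * (M * ℓ ^ 2) := by ring
  exact h3.trans h4

lemma aux_z (M k ℓ : ℝ) (hM1 : 1 ≤ M) (hk : 2 ≤ k) (hℓ0 : 0 < ℓ) (hℓk : ℓ ≤ k) :
    M * k * ℓ ^ 2 + k + 3 ≤ (M + 1) * k ^ 3 := by
  have h1 : ℓ ^ 2 ≤ k ^ 2 := pow_le_pow_left₀ hℓ0.le hℓk 2
  have h2 : M * k * ℓ ^ 2 ≤ M * k * k ^ 2 := by
    apply mul_le_mul_of_nonneg_left h1 (by positivity)
  have h3 : k + 3 ≤ k ^ 3 := by nlinarith [sq_nonneg (k - 2), mul_nonneg (sq_nonneg (k-2)) (by linarith : 0 ≤ k)]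
  linarith only [h3, h2]

/-- Mertens between `k` and `z`. -/
lemma Ln_le (D : ℝ) (hD : ∀ x : ℕ, 1 ≤ x →
    |(∑ p ∈ (range x).filter Nat.Prime, Real.log p / p) - Real.log x| ≤ D)
    (n k z : ℕ) (hk : 1 ≤ k) (hkz : k < z) :
    Ln n z ≤ ∑ p ∈ n.primeFactors.filter (fun p => p ≤ k), Real.log p / p +
      (Real.log z - Real.log k + 2 * D) := by
  have hsub : Qn n z ⊆ n.primeFactors.filter (fun p => p ≤ k) ∪
      ((range z).filter Nat.Prime \ (range (k + 1)).filter Nat.Prime) := by
    intro p hp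
    rw [Qn, mem_filter] at hp
    rw [mem_union, mem_filter, mem_sdiff, mem_filter, mem_filter, mem_range, mem_range]
    by_cases h : p ≤ k
    · exact Or.inl ⟨hp.1, h⟩
    · right
      exact ⟨⟨hp.2, (Nat.mem_primeFactors.mp hp.1).1⟩, fun h' => h (by omega)⟩
  have hnn : ∀ p : ℕ, 0 ≤ Real.log p / p := by
    intro p
    rcases Nat.eq_zero_or_pos p with rfl | hp
    · simp
    · exact div_nonneg (Real.log_nonneg (by exact_mod_cast hp)) (Nat.cast_nonneg _)
  have h1 : Ln n z ≤ ∑ p ∈ n.primeFactors.filter (fun p => p ≤ k), Real.log p / p +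
      ∑ p ∈ ((range z).filter Nat.Prime \ (range (k + 1)).filter Nat.Prime), Real.log p / p := by
    unfold Ln
    refine (sum_le_sum_of_subset_of_nonneg hsub (fun p _ _ => hnn p)).trans ?_
    have h := sum_union_inter (s₁ := n.primeFactors.filter (fun p => p ≤ k))
      (s₂ := (range z).filter Nat.Prime \ (range (k + 1)).filter Nat.Prime)
      (f := fun p : ℕ => Real.log p / p)
    have h' : 0 ≤ ∑ p ∈ n.primeFactors.filter (fun p => p ≤ k) ∩
      ((range z).filter Nat.Prime \ (range (k + 1)).filter Nat.Prime), Real.log p / p :=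
      sum_nonneg fun p _ => hnn p
    linarith only [h', h]
  have hsub2 : (range (k + 1)).filter Nat.Prime ⊆ (range z).filter Nat.Prime := by
    intro p hp
    rw [mem_filter, mem_range] at hp ⊢
    exact ⟨by omega, hp.2⟩
  have h2 := sum_sdiff (f := fun p : ℕ => Real.log p / p) hsub2
  have h3 := (abs_le.mp (hD z (by omega))).2
  have h4 := (abs_le.mp (hD (k + 1) (by omega))).1
  have h5 : Real.log k ≤ Real.log ((k + 1 : ℕ) : ℝ) := by
    apply Real.log_le_log (by exact_mod_cast hk)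
    push_cast; linarith only []
  linarith

lemma final_algebra (K A B M' D ℓ l2 k z S E X : ℝ) (hK : 0 < K) (hA : 0 < A) (hB : 1 ≤ B)
    (hM' : 0 < M') (hl2 : 0 < l2) (hl2ℓ : l2 ≤ ℓ) (hk : 2 ≤ k) (hS : 0 ≤ S)
    (hz0 : 0 < z) (hlogz0 : 0 < X) (hlogz : X ≤ B * ℓ) (hz : z ≤ M' * k * ℓ ^ 2)
    (hE : E ≤ S + (Real.log z - Real.log k + 2 * D)) :
    K * X ^ A * (z * Real.exp E + k) ≤
      K * B ^ A * (M' * M' * Real.exp (2 * D) + 1 / l2 ^ (4 : ℝ)) * k * ℓ ^ (A + 4) *
        Real.exp S := by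
  have hℓ0 : 0 < ℓ := lt_of_lt_of_le hl2 hl2ℓ
  have hk0 : 0 < k := by linarith
  have hB0 : 0 < B := by linarith
  have hXA : X ^ A ≤ B ^ A * ℓ ^ A := by
    rw [← Real.mul_rpow hB0.le hℓ0.le]
    exact Real.rpow_le_rpow hlogz0.le hlogz hA.le
  have hexp : Real.exp E ≤ Real.exp S * (z / k * Real.exp (2 * D)) := by
    have e : Real.exp S * (z / k * Real.exp (2 * D)) =
        Real.exp (S + (Real.log z - Real.log k + 2 * D)) := by
      rw [Real.exp_add, Real.exp_add, Real.exp_sub, Real.exp_log hz0, Real.exp_log hk0]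
    rw [e]
    exact Real.exp_le_exp.mpr hE
  have hS1 : 1 ≤ Real.exp S := Real.one_le_exp hS
  have h1 : z * Real.exp E ≤ M' * M' * Real.exp (2 * D) * k * ℓ ^ (4 : ℝ) * Real.exp S := by
    have e4 : ℓ ^ (4 : ℝ) = ℓ ^ 2 * ℓ ^ 2 := by
      have : (4 : ℝ) = ((4 : ℕ) : ℝ) := by norm_num
      rw [this, Real.rpow_natCast]; ring
    have hD0 : 0 < Real.exp (2 * D) := Real.exp_pos _
    have hzz : z * z ≤ (M' * k * ℓ ^ 2) * (M' * k * ℓ ^ 2) :=
      mul_le_mul hz hz hz0.le (by positivity)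
    calc z * Real.exp E ≤ z * (Real.exp S * (z / k * Real.exp (2 * D))) :=
          mul_le_mul_of_nonneg_left hexp hz0.le
      _ = (z * z) * (Real.exp S / k * Real.exp (2 * D)) := by ring
      _ ≤ ((M' * k * ℓ ^ 2) * (M' * k * ℓ ^ 2)) * (Real.exp S / k * Real.exp (2 * D)) :=
          mul_le_mul_of_nonneg_right hzz (by positivity)
      _ = _ := by
          rw [e4]; field_simp
  have h2 : k ≤ 1 / l2 ^ (4 : ℝ) * k * ℓ ^ (4 : ℝ) * Real.exp S := by
    have h3 : 1 ≤ 1 / l2 ^ (4 : ℝ) * ℓ ^ (4 : ℝ) := by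
      rw [one_div, inv_mul_eq_div, one_le_div (Real.rpow_pos_of_pos hl2 _)]
      exact Real.rpow_le_rpow hl2.le hl2ℓ (by norm_num)
    have h4 : 1 ≤ (1 / l2 ^ (4 : ℝ) * ℓ ^ (4 : ℝ)) * Real.exp S := by
      have := mul_le_mul h3 hS1 zero_le_one (by linarith)
      linarith
    have h5 := mul_le_mul_of_nonneg_left h4 hk0.le
    calc k = k * 1 := by ring
      _ ≤ _ := h5
      _ = _ := by ring
  have h6 : z * Real.exp E + k ≤ (M' * M' * Real.exp (2 * D) + 1 / l2 ^ (4 : ℝ)) * k *
      ℓ ^ (4 : ℝ) * Real.exp S := by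
    calc z * Real.exp E + k ≤ M' * M' * Real.exp (2 * D) * k * ℓ ^ (4 : ℝ) * Real.exp S +
        1 / l2 ^ (4 : ℝ) * k * ℓ ^ (4 : ℝ) * Real.exp S := add_le_add h1 h2
      _ = _ := by ring
  have hnn : 0 ≤ z * Real.exp E + k := by positivity
  have hℓA : 0 < ℓ ^ A := Real.rpow_pos_of_pos hℓ0 A
  have hBA : 0 < B ^ A := Real.rpow_pos_of_pos hB0 A
  calc K * X ^ A * (z * Real.exp E + k) ≤ K * (B ^ A * ℓ ^ A) * (z * Real.exp E + k) := by
        apply mul_le_mul_of_nonneg_right _ hnn
        exact mul_le_mul_of_nonneg_left hXA hK.le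
    _ ≤ K * (B ^ A * ℓ ^ A) * ((M' * M' * Real.exp (2 * D) + 1 / l2 ^ (4 : ℝ)) * k *
      ℓ ^ (4 : ℝ) * Real.exp S) := by
        apply mul_le_mul_of_nonneg_left h6 (by positivity)
    _ = _ := by
        rw [Real.rpow_add hℓ0]; ring

/-- The general bound, from the bound with a cut parameter. -/
theorem general_of_cut
    (hcut : ∃ K A c : ℝ, 0 < K ∧ 0 < A ∧ 0 < c ∧ ∀ n z : ℕ, n ≠ 0 → 2 ≤ z →
      (∑ q ∈ n.primeFactors.filter (fun q => z ≤ q), 1 / (q : ℝ)) ≤ c / (Real.log z) ^ 2 →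
      (jacobsthal n : ℝ) ≤ K * (Real.log z) ^ A *
        (z * Real.exp (Ln n z) + n.primeFactors.card)) :
    ∃ K A : ℝ, 0 < K ∧ 0 < A ∧ ∀ n : ℕ, 2 ≤ n.primeFactors.card →
      (jacobsthal n : ℝ) ≤ K * n.primeFactors.card * (Real.log n.primeFactors.card) ^ A *
        Real.exp (∑ p ∈ n.primeFactors.filter (fun p => p ≤ n.primeFactors.card),
          Real.log p / p) := by
  obtain ⟨K, A, c, hK, hA, hc, hcut⟩ := hcut
  obtain ⟨D, hD0, hD⟩ := mertens_one
  obtain ⟨M, B, hM1, hB1, hMB, hBc⟩ := exists_consts c hc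
  have hl2 : 0 < Real.log 2 := Real.log_pos (by norm_num)
  obtain ⟨M', hM'⟩ : ∃ M' : ℝ, M' = M + 5 / (2 * Real.log 2 ^ 2) := ⟨_, rfl⟩
  have hM'0 : 0 < M' := by rw [hM']; positivity
  refine ⟨K * B ^ A * (M' * M' * Real.exp (2 * D) + 1 / Real.log 2 ^ (4 : ℝ)), A + 4,
    by positivity, by positivity, ?_⟩
  intro n hk
  have hn : n ≠ 0 := by rintro rfl; simp at hk
  generalize hkdef : n.primeFactors.card = k at hk ⊢
  have hkR : (2 : ℝ) ≤ k := by exact_mod_cast hk
  have hk0 : (0 : ℝ) < k := by linarith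
  have hl2ℓ : Real.log 2 ≤ Real.log k := Real.log_le_log (by norm_num) hkR
  have hℓ0 : 0 < Real.log k := lt_of_lt_of_le hl2 hl2ℓ
  have hℓk : Real.log k ≤ k := by
    have := Real.log_le_sub_one_of_pos hk0
    linarith
  obtain ⟨z, hz⟩ : ∃ z : ℕ, z = ⌈M * k * Real.log k ^ 2⌉₊ + k + 2 := ⟨_, rfl⟩
  have hz2 : 2 ≤ z := by omega
  have hkz : k < z := by omega
  have hzlow : M * k * Real.log k ^ 2 ≤ z := by
    have := Nat.le_ceil (M * k * Real.log k ^ 2)
    rw [hz]; push_cast; linarith only [this, hkR]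
  have hzup : (z : ℝ) ≤ M * k * Real.log k ^ 2 + k + 3 := by
    have := Nat.ceil_lt_add_one (show 0 ≤ M * k * Real.log k ^ 2 by positivity)
    rw [hz]; push_cast; linarith only [this]
  have hzR : (2 : ℝ) ≤ z := by exact_mod_cast hz2
  have hz0 : (0 : ℝ) < z := by linarith only [hzR]
  have hL0 : 0 < Real.log z := Real.log_pos (by linarith)
  have hzk3 : (z : ℝ) ≤ (M + 1) * (k : ℝ) ^ 3 :=
    hzup.trans (aux_z M k (Real.log k) hM1 hkR hℓ0 hℓk)
  have hlogz : Real.log z ≤ B * Real.log k := by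
    have h1 : Real.log z ≤ Real.log ((M + 1) * (k : ℝ) ^ 3) := Real.log_le_log hz0 hzk3
    rw [Real.log_mul (by linarith only [hM1]) (by positivity), Real.log_pow] at h1
    have h2 : Real.log (M + 1) ≤ Real.log (M + 1) / Real.log 2 * Real.log k := by
      have h3 : 0 ≤ Real.log (M + 1) := Real.log_nonneg (by linarith only [hM1])
      calc Real.log (M + 1) = Real.log (M + 1) / Real.log 2 * Real.log 2 := by field_simp
        _ ≤ Real.log (M + 1) / Real.log 2 * Real.log k :=
          mul_le_mul_of_nonneg_left hl2ℓ (by positivity)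
    rw [← hMB, add_mul]
    push_cast at h1
    linarith only [h2, h1]
  have hsum : (∑ q ∈ n.primeFactors.filter (fun q => z ≤ q), 1 / (q : ℝ)) ≤
      c / (Real.log z) ^ 2 := by
    have h1 : (∑ q ∈ n.primeFactors.filter (fun q => z ≤ q), 1 / (q : ℝ)) ≤
        ∑ q ∈ n.primeFactors.filter (fun q => z ≤ q), 1 / (z : ℝ) := by
      apply sum_le_sum
      intro q hq
      rw [mem_filter] at hq
      apply one_div_le_one_div_of_le hz0
      exact_mod_cast hq.2
    have h2 : ∑ q ∈ n.primeFactors.filter (fun q => z ≤ q), 1 / (z : ℝ) ≤ k * (1 / z) := by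
      rw [sum_const, nsmul_eq_mul]
      apply mul_le_mul_of_nonneg_right _ (by positivity)
      rw [← hkdef]
      exact_mod_cast card_filter_le _ _
    have h4 := aux_c c M B (Real.log k) z k hc hM1 hB1 hBc hℓ0 hz0 hzlow
    have h5 : c / (B * Real.log k) ^ 2 ≤ c / (Real.log z) ^ 2 := by
      apply div_le_div_of_nonneg_left hc.le (by positivity)
      exact pow_le_pow_left₀ hL0.le hlogz 2
    linarith only [h5, h4, h2, h1]
  have hmain := hcut n z hn hz2 hsum
  rw [hkdef] at hmain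
  have hS0 : 0 ≤ ∑ p ∈ n.primeFactors.filter (fun p => p ≤ k), Real.log p / p := by
    apply sum_nonneg
    intro p hp
    rw [mem_filter, Nat.mem_primeFactors] at hp
    apply div_nonneg (Real.log_nonneg (by exact_mod_cast hp.1.1.one_le)) (Nat.cast_nonneg _)
  have hz' : (z : ℝ) ≤ M' * k * Real.log k ^ 2 := by
    refine hzup.trans ?_
    have h2 : 2 * Real.log 2 ^ 2 ≤ k * Real.log k ^ 2 := by
      apply mul_le_mul hkR _ (by positivity) (by positivity)
      exact pow_le_pow_left₀ hl2.le hl2ℓ 2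
    have h1 : (k : ℝ) + 3 ≤ 5 / (2 * Real.log 2 ^ 2) * (k * Real.log k ^ 2) := by
      have h3 : Real.log 2 ^ 2 ≤ Real.log k ^ 2 := pow_le_pow_left₀ hl2.le hl2ℓ 2
      have h4 : 5 / (2 * Real.log 2 ^ 2) * (k * Real.log 2 ^ 2) ≤
          5 / (2 * Real.log 2 ^ 2) * (k * Real.log k ^ 2) := by
        apply mul_le_mul_of_nonneg_left _ (by positivity)
        exact mul_le_mul_of_nonneg_left h3 hk0.le
      have h5 : 5 / (2 * Real.log 2 ^ 2) * (k * Real.log 2 ^ 2) = 5 / 2 * k := by
        field_simp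
      linarith only [h5, h4, hkR]
    calc M * k * Real.log k ^ 2 + k + 3 ≤ M * k * Real.log k ^ 2 +
        5 / (2 * Real.log 2 ^ 2) * (k * Real.log k ^ 2) := by linarith only [h1]
      _ = M' * k * Real.log k ^ 2 := by rw [hM']; ring
  have hLn := Ln_le D hD n k z (by omega) hkz
  exact hmain.trans (final_algebra K A B M' D (Real.log k) (Real.log 2) k z _ (Ln n z)
    (Real.log z) hK hA hB1 hM'0 hl2 hl2ℓ hkR hS0 hz0 hL0 hlogz hz' hLn)

end Vale.Agent.P013
end

section

namespace Vale.Agent.P013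

open Finset Real

lemma cn_eq_cnt (n z : ℕ) (u : ℤ) (m d : ℕ) : cn n z u m d = cnt n.primeFactors u m d z := by
  unfold cn cnt Qn
  congr 1
  apply filter_congr
  intro t _
  apply and_congr_right
  intro _
  constructor
  · intro h q hq hqz; exact h q (mem_filter.mpr ⟨hq, hqz⟩)
  · intro h q hq; exact h q (mem_filter.mp hq).1 (mem_filter.mp hq).2

lemma Vn_eq_vv (n z : ℕ) : Vn n z = vv n.primeFactors z := rfl

lemma Wn_eq_rem (C : ℝ) (n z : ℕ) (hn : n ≠ 0) (T : ℝ) :
    Wn C n z T = rem n.primeFactors C z T z := by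
  have hM : Mn n z = (range z).filter (fun p => p.Prime ∧ p ∉ n.primeFactors) := by
    unfold Mn
    apply filter_congr
    intro p _
    apply and_congr_right
    intro hp
    rw [Nat.mem_primeFactors]
    constructor
    · intro h h'; exact h h'.2.1
    · intro h h'; exact h ⟨hp, h', hn⟩
  have hee : ee n.primeFactors z z = 1 := by simp [ee]
  unfold Wn rem mmc pp Qn
  rw [hee, hM, one_mul]
  congr 2
  rw [sub_add, mul_sum, ← sum_sub_distrib]
  congr 1
  apply sum_congr rfl
  intro p _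
  ring

lemma tau_self (n z : ℕ) : tau n.primeFactors z z = Real.log z := by
  have hvz := vv_pos (Q := n.primeFactors) (fun q hq => Nat.prime_of_mem_primeFactors hq) z
  unfold tau
  field_simp

/-- The two sieve bounds. -/
theorem sieve_both : ∃ C : ℝ, 0 ≤ C ∧ ∀ n z : ℕ, n ≠ 0 → 2 ≤ z → ∀ T : ℝ, ∀ (u : ℤ) (m : ℕ),
    (∀ d : ℕ, 0 < d → (∀ q ∈ Qn n z, Nat.Coprime d q) → Real.log z ≤ T →
      (cn n z u m d : ℝ) ≤ m / d * (Vn n z * sF (T / Real.log z)) + Wn C n z T) ∧
    (2 * Real.log z ≤ T →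
      m * Vn n z * sf (T / Real.log z) - Wn C n z T ≤ cn n z u m 1) := by
  obtain ⟨C, hC0, hC⟩ := mertens_prod
  refine ⟨C, hC0.le, ?_⟩
  intro n z hn hz T u m
  have key := sieve_induction (Q := n.primeFactors)
    (fun q hq => Nat.prime_of_mem_primeFactors hq) hz (C := C)
    (fun x hx hxz => hC x z hx hxz) u m z le_rfl
  rw [tau_self n z] at key
  constructor
  · intro d hd hcop hT
    have h := (key d hd (fun q hq hqz => hcop q (mem_filter.mpr ⟨hq, hqz⟩)) T).1 hT
    rw [cn_eq_cnt, Vn_eq_vv, Wn_eq_rem C n z hn]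
    exact h
  · intro hT
    have h := (key 1 one_pos (fun _ _ _ => Nat.coprime_one_left _) T).2 hT
    rw [cn_eq_cnt, Vn_eq_vv, Wn_eq_rem C n z hn]
    refine le_trans (le_of_eq ?_) h
    push_cast
    ring

theorem cut : ∃ K A c : ℝ, 0 < K ∧ 0 < A ∧ 0 < c ∧ ∀ n z : ℕ, n ≠ 0 → 2 ≤ z →
      (∑ q ∈ n.primeFactors.filter (fun q => z ≤ q), 1 / (q : ℝ)) ≤ c / (Real.log z) ^ 2 →
      (jacobsthal n : ℝ) ≤ K * (Real.log z) ^ A *
        (z * Real.exp (Ln n z) + n.primeFactors.card) := by
  obtain ⟨C, hC0, hC⟩ := sieve_both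
  exact cut_bound C hC0 sf (fun t ht => sf_lower ht)
    (fun n z hn hz T hT u m => (hC n z hn hz T u m).2 hT)

/-- T5 -/
theorem general_bound : ∃ K A : ℝ, 0 < K ∧ 0 < A ∧ ∀ n : ℕ, 2 ≤ n.primeFactors.card →
      (jacobsthal n : ℝ) ≤ K * n.primeFactors.card * (Real.log n.primeFactors.card) ^ A *
        Real.exp (∑ p ∈ n.primeFactors.filter (fun p => p ≤ n.primeFactors.card),
          Real.log p / p) := general_of_cut cut

/-- Jacobsthal's bound away from the primorials. -/
theorem jacobsthal_sq : ∃ A : ℝ, ∃ k₀ : ℕ, ∀ n : ℕ, k₀ ≤ n.primeFactors.card →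
    A * Real.log (Real.log n.primeFactors.card) ≤
      ∑ p ∈ (range (n.primeFactors.card + 1)).filter (fun p => p.Prime ∧ ¬ p ∣ n),
        Real.log p / p →
    jacobsthal n ≤ n.primeFactors.card ^ 2 := by
  obtain ⟨K, A, hK, hA, h⟩ := general_bound
  obtain ⟨D, hD0, hD⟩ := mertens_one
  refine ⟨A + 1, max 3 (⌈Real.exp (K * Real.exp (D + 1))⌉₊), ?_⟩
  intro n hk hΔ
  have hk3 : 3 ≤ n.primeFactors.card := (le_max_left _ _).trans hk
  have hkc : ⌈Real.exp (K * Real.exp (D + 1))⌉₊ ≤ n.primeFactors.card :=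
    (le_max_right _ _).trans hk
  have hn : n ≠ 0 := by rintro rfl; simp at hk3
  have h1 := h n (by omega)
  generalize hkdef : n.primeFactors.card = k at *
  have hkR : (3 : ℝ) ≤ k := by exact_mod_cast hk3
  have hk0 : (0 : ℝ) < k := by linarith only [hkR]
  have hℓ : K * Real.exp (D + 1) ≤ Real.log k := by
    rw [Real.le_log_iff_exp_le hk0]
    exact (Nat.le_ceil _).trans (by exact_mod_cast hkc)
  have hℓ0 : 0 < Real.log k := Real.log_pos (by linarith only [hkR])
  have hsplit : ∑ p ∈ n.primeFactors.filter (fun p => p ≤ k), Real.log p / p +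
      ∑ p ∈ (range (k + 1)).filter (fun p => p.Prime ∧ ¬ p ∣ n), Real.log p / p =
      ∑ p ∈ (range (k + 1)).filter Nat.Prime, Real.log p / p := by
    rw [← Qn_union_Mn n (k + 1) hn, sum_union (Qn_disj_Mn n (k + 1))]
    have : Qn n (k + 1) = n.primeFactors.filter (fun p => p ≤ k) := by
      unfold Qn
      apply filter_congr
      intro p _
      exact Nat.lt_succ_iff
    rw [this]
    rfl
  have h2 := (abs_le.mp (hD (k + 1) (by omega))).2
  have h3 : Real.log ((k + 1 : ℕ) : ℝ) ≤ Real.log k + 1 := by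
    have h4 : Real.log ((k + 1 : ℕ) : ℝ) ≤ Real.log (k * Real.exp 1) := by
      apply Real.log_le_log (by positivity)
      have : (2 : ℝ) ≤ Real.exp 1 := by
        have := Real.add_one_le_exp (1 : ℝ)
        linarith only [this]
      push_cast
      (by_contra nlg; linarith only [nlg, mul_nonneg (le_of_lt (sub_pos.2 hk0)) (sub_nonneg.2 this), mul_nonneg (mul_self_nonneg (1 : ℝ)) (sub_nonneg.2 hkR), mul_nonneg (mul_self_nonneg (1 : ℝ)) (le_of_lt (sub_pos.2 (not_le.1 nlg)))])
    rw [Real.log_mul hk0.ne' (Real.exp_pos 1).ne', Real.log_exp] at h4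
    exact h4
  have h5 : ∑ p ∈ n.primeFactors.filter (fun p => p ≤ k), Real.log p / p ≤
      Real.log k + (D + 1) - (A + 1) * Real.log (Real.log k) := by linarith only [h3, h2, hsplit, hΔ]
  have h6 : Real.exp (∑ p ∈ n.primeFactors.filter (fun p => p ≤ k), Real.log p / p) ≤
      k * Real.exp (D + 1) / (Real.log k) ^ (A + 1) := by
    refine (Real.exp_le_exp.mpr h5).trans (le_of_eq ?_)
    rw [Real.exp_sub, Real.exp_add, Real.exp_log hk0, Real.rpow_def_of_pos hℓ0, mul_comm (A + 1)]
  have h7 : (jacobsthal n : ℝ) ≤ (k : ℝ) ^ 2 := by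
    have hpA : 0 < (Real.log k) ^ A := Real.rpow_pos_of_pos hℓ0 A
    calc (jacobsthal n : ℝ) ≤ K * k * (Real.log k) ^ A *
        Real.exp (∑ p ∈ n.primeFactors.filter (fun p => p ≤ k), Real.log p / p) := h1
      _ ≤ K * k * (Real.log k) ^ A * (k * Real.exp (D + 1) / (Real.log k) ^ (A + 1)) := by
          apply mul_le_mul_of_nonneg_left h6 (by positivity)
      _ = (k : ℝ) ^ 2 * ((K * Real.exp (D + 1)) / Real.log k) := by
          rw [Real.rpow_add hℓ0, Real.rpow_one]
          field_simp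
      _ ≤ (k : ℝ) ^ 2 * 1 := by
          apply mul_le_mul_of_nonneg_left _ (by positivity)
          rw [div_le_one hℓ0]
          exact hℓ
      _ = _ := mul_one _
  exact_mod_cast h7

end Vale.Agent.P013
end
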