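import Vale.Agent.P013.Bdl.B1
import Vale.Agent.P013.Bdl.B2
attribute [-instance] Pi.preorder instCoeTOfCoeDep Pi.addMonoidWithOne SemiRingCat.instSemiringObjForgetRingHomCarrier NumberField.to_charZero Pi.commMonoidWithZero Pi.instFintype BoxIntegral.Box.instMembershipForallReal Vector.instHMul IdemCommSemiring.toIdemSemiring KleeneAlgebra.toIdemSemiring Invertible.toNeZero NeZero.of_gt' Nat.AtLeastTwo.toNeZero Pi.mulZeroClass RCLike.toDenselyNormedField Fintype.decidableForallFintype Part.ofOptionDecidable Pi.partialOrder Array.instDecidableForallForallMemOfDecidablePred Multiset.decidableDforallMultiset Option.decidableForallMem Vector.instDecidableForallForallMemOfDecidablePred DenselyNormedField.toNormedField NontriviallyNormedField.toNormedField Pi.addGroupWithOne AddGrpCat.str CompleteAtomicBooleanAlgebra.toCompleteBooleanAlgebra IdemSemiring.toCanonicallyOrderedAdd CommMonCat.str SemimoduleCat.isAddCommMonoid CompleteAtomicBooleanAlgebra.toCompletelyDistribLattice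 CompleteBooleanAlgebra.toCompleteDistribLattice CompleteLinearOrder.toCompletelyDistribLattice CompletelyDistribLattice.toCompleteDistribLattice LinearOrderedCommGroupWithZero.toLinearOrderedCommMonoidWithZero Nat.Prime.one_lt' CompleteDistribLattice.toCoframe CompleteDistribLattice.toFrame LinOrd.str NormedDivisionRing.toNormedRing CompleteBooleanAlgebra.toCompleteLattice CompleteLinearOrder.toCompleteLattice CompletelyDistribLattice.toCompleteLattice Order.Coframe.toCompleteLattice Order.Frame.toCompleteLattice CategoryTheory.Limits.Concrete.instUniqueToTypeTerminal Fin.completeLinearOrder CompleteLattice.toCompletePartialOrder CompleteBooleanAlgebra.toBooleanAlgebra instPosMulMonoWithZeroOfMulLeftMono Pi.instZero Int.decidableLELE Int.decidableLELT Int.decidableLTLE Int.decidableLTLT List.instDecidableMemOfLawfulBEq LinearOrderedCommGroupWithZero.toCommGroupWithZero NormedRing.toSeminormedRing IdemSemiring.toSemiring MeasureTheory.MeasureSpace.pi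 Field.toEuclideanDomain EuclideanDomain.toCommRing NormedCommRing.toCommRing SeminormedCommRing.toCommRing Std.Time.WallTime.instHAddOffset_1 ChainCompletePartialOrder.instOfCompleteLattice ChainCompletePartialOrder.instOmegaCompletePartialOrder ChainCompletePartialOrder.toPartialOrder CompletePartialOrder.toOmegaCompletePartialOrder CompletePartialOrder.toPartialOrder OmegaCompletePartialOrder.toPartialOrder NormedRing.toRing SeminormedRing.toRing BooleanAlgebra.toBiheytingAlgebra CompleteDistribLattice.toBiheytingAlgebra CompleteLinearOrder.toBiheytingAlgebra CompletelyDistribLattice.toBiheytingAlgebra Fin.instBiheytingAlgebra instCoeTC instCoeTCOfCoe instCoeTCOfCoe_1 CategoryTheory.instFinCategoryOfFintypeOfIsThin SetLike.instFintype Unique.fintype CategoryTheory.FinCategory.fintypeObj NonUnitalCommCStarAlgebra.toNonUnitalNormedCommRing NormedCommRing.toNonUnitalNormedCommRing CStarAlgebra.toNonUnitalCStarAlgebra NonUnitalCStarAlgebra.toNonUnitalNormedRing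 NonUnitalNormedCommRing.toNonUnitalNormedRing NormedRing.toNonUnitalNormedRing NonUnitalNormedRing.toNormedAddCommGroup Pi.isOrderedRing Std.DTreeMap.Raw.instInsertSigma NormedCommGroup.toSeminormedCommGroup instBEqOfDecidableEq Int.instLawfulBEq Std.LinearOrderPackage.toLinearPreorderPackage Std.LinearOrderPackage.toPartialOrderPackage Std.LinearPreorderPackage.toPreorderPackage Std.PartialOrderPackage.toPreorderPackage Std.PreorderPackage.toBEq Pi.instZeroLEOneClass BiheytingAlgebra.toCoheytingAlgebra BiheytingAlgebra.toHeytingAlgebra BooleanAlgebra.toGeneralizedBooleanAlgebra Order.Coframe.toCoheytingAlgebra Order.Frame.toHeytingAlgebra IdemCommSemiring.toCommSemiring Semifield.toCommSemiring NormedCommGroup.toCommGroup SeminormedCommGroup.toCommGroup WithTop.instLocallyFiniteOrder CanonicallyOrderedAdd.toMulLeftMono CanonicallyOrderedMul.toMulLeftMono IdemSemiring.toMulLeftMono IsOrderedCancelMonoid.toIsOrderedMonoid IsOrderedMonoid.toIsOrderedCancelMonoid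 IsOrderedMonoid.toMulLeftMono LinearOrderedCommMonoidWithZero.toIsOrderedMonoid Fin.instCoheytingAlgebra Fin.instHeytingAlgebra instIsLeftCancelAddOfAddLeftReflectLE EReal.instPosMulReflectLT LinearOrderedAddCommGroupWithTop.toSubNegMonoid AlgebraicClosure.instGroupWithZero Pi.mulOneClass instFloorSemiringNat LinearOrderedAddCommGroupWithTop.instLinearOrderedAddCommMonoidWithTop CommRing.toAddCommGroupWithOne Pi.normedAddCommGroup NonUnitalNormedCommRing.toNonUnitalSeminormedCommRing Set.instEmptyCollection Set.instAddRightMono RingCat.instRingObjForgetRingHomCarrier NormedCommGroup.toNormedGroup NonUnitalNormedRing.toNonUnitalSeminormedRing SeminormedRing.toNonUnitalSeminormedRing EReal.instMulPosReflectLT CoheytingAlgebra.toGeneralizedCoheytingAlgebra CompleteLinearOrder.toConditionallyCompleteLinearOrderBot GeneralizedBooleanAlgebra.toGeneralizedCoheytingAlgebra HeytingAlgebra.toGeneralizedHeytingAlgebra instCoeHTC instCoeHTCT instMulPosMonoWithZeroOfMulRightMono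 ENormedAddCommMonoid.toESeminormedAddCommMonoid ENormedCommMonoid.toESeminormedCommMonoid NormedAddCommGroup.toENormedAddCommMonoid NormedCommGroup.toENormedCommMonoid Pi.seminormedAddCommGroup OrderDual.addRightStrictMono Pi.instLattice ModuleCat.instAddCommGroupCarrierMkOfSMul' Pi.isOrderedAddMonoid Set.instAddLeftMono Std.DTreeMap.Raw.instSingletonSigma coePNatNat Nat.Primes.coeNat Nat.Primes.coePNat Pi.nonAssocSemiring NonAssocCommRing.toNonUnitalNonAssocCommRing NonUnitalNormedCommRing.toNonUnitalCommRing NonUnitalSeminormedCommRing.toNonUnitalCommRing OrderDual.instDivisionRing Pi.semigroup instSubsingleton Pi.nonUnitalNonAssocSemiring LinearOrderedAddCommGroupWithTop.toAddCommMonoid LinearOrderedAddCommMonoidWithTop.toAddCommMonoid NormedGroup.toSeminormedGroup SeminormedCommGroup.toSeminormedGroup OrderDual.instSemifield NonUnitalNormedRing.toNonUnitalRing NonUnitalSeminormedRing.toNonUnitalRing Ring.toNonUnitalRing bot_nonempty infSet_to_nonempty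 instInhabitedOfMonad supSet_to_nonempty top_nonempty AddTorsor.nonempty ConnectedSpace.toNonempty IrreducibleSpace.toNonempty Nontrivial.to_nonempty One.instNonempty Torsor.nonempty Unique.instInhabited Zero.instNonempty CategoryTheory.IsConnected.is_nonempty CommSemiring.toNonAssocCommSemiring NonAssocCommRing.toNonAssocCommSemiring NonAssocCommSemiring.toNonAssocSemiring NonAssocCommSemiring.toNonUnitalNonAssocCommSemiring NonAssocRing.toNonAssocSemiring NonUnitalNonAssocCommSemiring.toNonUnitalNonAssocSemiring NonUnitalSemiring.toNonUnitalNonAssocSemiring Semiring.toNonUnitalSemiring IsEmpty.instSubsingleton CommGroup.toGroup NormedGroup.toGroup SeminormedGroup.toGroup MonCat.monoidObj instConditionallyCompletePartialOrderSup CompleteLattice.toCompleteSemilatticeInf CompleteLattice.toCompleteSemilatticeSup CompleteLattice.toConditionallyCompleteLattice ConditionallyCompleteLinearOrderBot.toConditionallyCompleteLinearOrder ConditionallyCompletePartialOrder.toConditionallyCompletePartialOrderInf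 instNontrivialCarrierObjModuleCatOfFullOfFaithful LinearOrderedCommMonoidWithZero.toCommMonoidWithZero NormedAddCommGroup.toAddCommGroup NormedAddGroup.toSeminormedAddGroup TopologicalSpace.UpgradedIsCompletelyMetrizableSpace.toMetricSpace Std.Time.Duration.instHMulInt_1 instInfiniteOfUncountable instIsDedekindDomainOfIsDomainOfIsDedekindRing instNontrivialOfCharZero instTopologicalSpaceFin AddCancelCommMonoid.toAddCancelMonoid AddCancelCommMonoid.toAddCommMonoid AddCancelMonoid.toAddLeftCancelMonoid AddCommGroup.toGrindIntModule AddCommMonoid.toGrindNatModule AddGroup.instAddTorsor AddLeftCancelMonoid.toAddMonoid AddRightCancelMonoid.toAddMonoid BooleanAlgebra.toBot BooleanAlgebra.toBoundedOrder BooleanAlgebra.toTop BoundedOrder.toOrderBot BoundedOrder.toOrderTop CancelCommMonoid.toCancelMonoid CancelCommMonoid.toCommMonoid CancelCommMonoid.toLeftCancelMonoid CancelMonoid.toLeftCancelMonoid CancelMonoid.toRightCancelMonoid CategoryTheory.isConnected_of_nonempty_and_subsingleton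 CharZero.infinite CoheytingAlgebra.toBoundedOrder CoheytingAlgebra.toOrderTop CommGroup.toCancelCommMonoid CommGroup.toCommMonoid CommGroup.toDivisionCommMonoid CommRing.toGrindCommRing CommSemiring.toCommMonoidWithZero CommSemiring.toGrindCommSemiring CompleteLattice.toBoundedOrder CompletePartialOrder.toOrderBot CompletePartialOrder.toSupSet CompleteSemilatticeInf.toInfSet CompleteSemilatticeSup.toSupSet ConditionallyCompleteLattice.toInfSet ConditionallyCompleteLattice.toSupSet ConditionallyCompleteLinearOrderBot.toOrderBot ConditionallyCompletePartialOrderInf.toInfSet ConditionallyCompletePartialOrderSup.toSupSet ContractibleSpace.instOfNonemptyOfIndiscreteTopology ContractibleSpace.instOfNonemptyOfSubsingleton ContractibleSpace.instPathConnectedSpace Convex.instPathConnectedSpace Denumerable.instInfinite DivInvOneMonoid.toDivInvMonoid DivisionRing.isDomain DivisionRing.toNontrivial ENormedAddCommMonoid.toENormedAddMonoid ENormedAddMonoid.toESeminormedAddMonoid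 ENormedCommMonoid.toENormedMonoid ENormedMonoid.toESeminormedMonoid ESeminormedAddCommMonoid.toAddCommMonoid ESeminormedAddCommMonoid.toESeminormedAddMonoid ESeminormedAddMonoid.toAddMonoid ESeminormedCommMonoid.toCommMonoid ESeminormedCommMonoid.toESeminormedMonoid ESeminormedMonoid.toMonoid EuclideanDomain.instIsDomain EuclideanDomain.toNontrivial Field.instIsLocalRing Field.isDomain Field.toGrindField Fin.addCommGroup Fin.addCommMonoid Fin.instBoundedOrder Fin.instCommMonoid Fin.instInhabited Fin.instNonUnitalCommRing Fin.instNontrivial GeneralizedBooleanAlgebra.toBot GeneralizedBooleanAlgebra.toOrderBot GeneralizedCoheytingAlgebra.toOrderBot GeneralizedHeytingAlgebra.toOrderTop Group.instTorsor Group.toCancelMonoid Group.toDivInvMonoid Group.toDivisionMonoid HeytingAlgebra.toBoundedOrder HeytingAlgebra.toOrderBot IdemSemiring.toOrderBot Infinite.instNontrivial IrreducibleSpace.connectedSpace IsAlgClosed.instInfinite IsDedekindDomain.toIsDomain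 IsDedekindDomainDvr.isDedekindDomain IsDiscreteValuationRing.toIsLocalRing IsDomain.of_isSimpleRing IsDomain.toNontrivial IsLocalRing.toNontrivial IsOrderedRing.toIsStrictOrderedRing IsPrincipalIdealRing.isDedekindDomain IsSimpleAddGroup.toNontrivial IsSimpleGroup.toNontrivial IsSimpleOrder.toNontrivial IsSimpleRing.instNontrivial IsStrictOrderedRing.isDomain IsStrictOrderedRing.toNontrivial LeftCancelMonoid.toMonoid LinearOrderedAddCommGroupWithTop.toNontrivial LinearOrderedAddCommGroupWithTop.toOrderTop LinearOrderedAddCommGroupWithTop.toSubtractionMonoid LinearOrderedAddCommMonoidWithTop.toOrderTop LinearOrderedCommMonoidWithZero.toOrderBot MulZeroClass.negZeroClass NoMaxOrder.infinite NoMinOrder.infinite NonAssocSemiring.toMulZeroOneClass NonUnitalNonAssocSemiring.toMulZeroClass NonUnitalNormedRing.toMetricSpace NontriviallyNormedField.infinite NormedAddCommGroup.toMetricSpace NormedAddGroup.toENormedAddMonoid NormedAddGroup.toMetricSpace NormedAddTorsor.toAddTorsor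 NormedAddTorsor.toAddTorsor' NormedCommGroup.toMetricSpace NormedDivisionRing.toMetricSpace NormedGroup.toENormedMonoid NormedGroup.toMetricSpace NormedRing.toMetricSpace NormedSpace.instPathConnectedSpace One.ofOfNat1 OrderBot.toBot OrderTop.toTop PathConnectedSpace.connectedSpace Preorder.smallCategory RealTopologicalVectorSpace.contractibleSpace RightCancelMonoid.toMonoid Ring.toGrindRing SemigroupWithZero.toMulZeroClass SeminormedAddCommGroup.toNormedAddTorsor Semiring.toGrindSemiring ValuationRing.isLocalRing Zero.ofOfNat0 CategoryTheory.Groupoid.toCategory CategoryTheory.StrictBicategory.category Pi.divisionCommMonoid Nat.decidableBallLE Nat.decidableBallLT Nat.decidableLoHi Nat.decidableLoHiLe Pi.instInv Ordinal.instPosMulStrictMono Pi.commMagma Pi.divInvMonoid instOfScientificFloat32 UniformSpace.Completion.instNorm Padic.instNontriviallyNormedField Pi.subNegZeroMonoid Pi.instSubtractionCommMonoid Pi.nonUnitalNonAssocRing exists_prop_decidable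 Array.instDecidableExistsAndMemOfDecidablePred Finset.decidableDExistsFinset Finset.decidableExistsAndFinset Fintype.decidableExistsFintype List.decidableBEx Multiset.decidableDexistsMultiset Option.decidableExistsMem Vector.instDecidableExistsAndMemOfDecidablePred CommSemiRingCat.instCommSemiringObjForgetRingHomCarrier WithTop.addCommMonoidWithOne Pi.instMaxForall_mathlib UniformSpace.Completion.instNormedFieldOfCompletableTopField Pi.addZeroClass Set.instNoZeroDivisors Pi.addSemigroup OrderDual.instAddCommGroupWithOne OrderDual.instDivisionSemiring CanonicallyOrderedAdd.toMulRightMono IdemSemiring.toMulRightMono IsOrderedAddMonoid.toAddRightMono IsOrderedMonoid.toMulRightMono Int.instNormMulClass Pi.instSDiff ContinuousAddMonoidHom.instCoeOutOfAddMonoidHomClassOfContinuousMapClass ContinuousMonoidHom.instCoeOutOfMonoidHomClassOfContinuousMapClass HomeomorphClass.instCoeOutHomeomorph IsometryClass.instCoeOutIsometryEquiv Pi.topologicalSpace Pi.instOrderBot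 FractionalIdeal.instMulPosReflectLENonZeroDivisors instCoeHTCOfCoeHeadOfCoeOTC instCoeHTCTOfCoeTailOfCoeHTC instCoeOutOfCoeFun instCoeTailIntOfIntCast instCoeTailNatOfNatCast instCoeTailRatOfRatCast instNatCastNat DivisionRing.toNNRatCast DivisionSemiring.toNNRatCast LinearMapClass.instCoeToLinearMap NNRatCast.toCoeTail NonUnitalStarRingHomClass.instCoeHeadNonUnitalStarRingHom Pi.monoidWithZero SemilinearMapClass.instCoeToSemilinearMap SetLike.instCoeSortType StarAlgEquivClass.instCoeHead StarRingEquivClass.instCoeHead RCLike.algebraMapCoe Pi.instIsRightCancelAdd instClosedIicTopologyOrderDual Pi.opensMeasurableSpace_of_subsingleton Pi.instOne Set.instUnion instDecidableForall OrderDual.isDirected_le ShareCommon.instNonemptyStateFactory -- iprune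

set_option linter.all false

section

/-!
# The linear sieve for a generic count system, with explicit remainder
-/

open Finset Real

namespace Vale.Agent.P013.J

/-! ### The supports -/

/-- the condition defining the supports -/
def SCond (τ : ℕ → ℝ) (b : ℕ) (T : ℝ) (F : Finset ℕ) : Prop :=
  ∀ s ∈ F, Even ((F.filter (fun s' => s ≤ s')).card + b) →
    3 * τ s < T - ∑ s' ∈ F.filter (fun s' => s < s'), τ s'

theorem mem_supp {Q : Finset ℕ} {τ : ℕ → ℝ} {b x : ℕ} {T : ℝ} {F : Finset ℕ} :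
    F ∈ supp Q τ b x T ↔ (∀ s ∈ F, s ∈ Q ∧ s < x) ∧ SCond τ b T F := by
  unfold supp SCond
  rw [mem_filter, mem_powerset]
  constructor
  · rintro ⟨h1, h2⟩
    refine ⟨fun s hs => ?_, h2⟩
    have := h1 hs
    rwa [mem_filter] at this
  · rintro ⟨h1, h2⟩
    refine ⟨fun s hs => ?_, h2⟩
    rw [mem_filter]
    exact h1 s hs

theorem SCond_add_two {τ : ℕ → ℝ} {b : ℕ} {T : ℝ} {F : Finset ℕ} :
    SCond τ (b + 2) T F ↔ SCond τ b T F := by
  unfold SCond
  have h : ∀ n : ℕ, Even (n + (b + 2)) ↔ Even (n + b) := fun n => by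
    rw [← add_assoc, Nat.even_add_one, Nat.even_add_one, not_not]
  simp only [h]

theorem supp_add_two (Q : Finset ℕ) (τ : ℕ → ℝ) (b x : ℕ) (T : ℝ) :
    supp Q τ (b + 2) x T = supp Q τ b x T := by
  ext F
  rw [mem_supp, mem_supp, SCond_add_two]

theorem empty_mem_supp (Q : Finset ℕ) (τ : ℕ → ℝ) (b x : ℕ) (T : ℝ) : ∅ ∈ supp Q τ b x T := by
  rw [mem_supp]
  constructor
  · intro s hs
    simp at hs
  · intro s hs
    simp at hs

theorem supp_zero (Q : Finset ℕ) (τ : ℕ → ℝ) (b : ℕ) (T : ℝ) : supp Q τ b 0 T = {∅} := by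
  ext F
  rw [mem_singleton]
  constructor
  · intro h
    rw [mem_supp] at h
    rw [Finset.eq_empty_iff_forall_notMem]
    intro s hs
    exact absurd (h.1 s hs).2 (Nat.not_lt_zero s)
  · rintro rfl
    exact empty_mem_supp Q τ b 0 T

theorem SCond_insert {τ : ℕ → ℝ} {b x : ℕ} {T : ℝ} {F : Finset ℕ} (hF : ∀ s ∈ F, s < x) :
    SCond τ b T (insert x F) ↔ (Even (1 + b) → 3 * τ x < T) ∧ SCond τ (b + 1) (T - τ x) F := by
  have hxF : x ∉ F := fun h => lt_irrefl x (hF x h)
  have e1 : (insert x F).filter (fun s' => x ≤ s') = {x} := by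
    ext s
    rw [mem_filter, mem_insert, mem_singleton]
    constructor
    · rintro ⟨h1 | h1, h2⟩
      · exact h1
      · exact absurd (hF s h1) (not_lt.mpr h2)
    · rintro rfl
      exact ⟨Or.inl rfl, le_rfl⟩
  have e2 : (insert x F).filter (fun s' => x < s') = ∅ := by
    rw [Finset.filter_eq_empty_iff]
    intro s hs
    rw [mem_insert] at hs
    rcases hs with rfl | hs
    · exact lt_irrefl _
    · exact not_lt.mpr (hF s hs).le
  have e3 : ∀ s ∈ F, (insert x F).filter (fun s' => s ≤ s') =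
      insert x (F.filter (fun s' => s ≤ s')) := fun s hs => by
    rw [Finset.filter_insert, if_pos (hF s hs).le]
  have e4 : ∀ s ∈ F, (insert x F).filter (fun s' => s < s') =
      insert x (F.filter (fun s' => s < s')) := fun s hs => by
    rw [Finset.filter_insert, if_pos (hF s hs)]
  have e5 : ∀ s ∈ F, ((insert x F).filter (fun s' => s ≤ s')).card =
      (F.filter (fun s' => s ≤ s')).card + 1 := fun s hs => by
    rw [e3 s hs, Finset.card_insert_of_notMem]
    intro h
    exact hxF (mem_filter.mp h).1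
  have e6 : ∀ s ∈ F, ∑ s' ∈ (insert x F).filter (fun s' => s < s'), τ s' =
      τ x + ∑ s' ∈ F.filter (fun s' => s < s'), τ s' := fun s hs => by
    rw [e4 s hs, Finset.sum_insert]
    intro h
    exact hxF (mem_filter.mp h).1
  constructor
  · intro h
    refine ⟨fun hb => ?_, fun s hs hb => ?_⟩
    · have := h x (mem_insert_self x F) (by rw [e1, card_singleton]; exact hb)
      rwa [e2, sum_empty, sub_zero] at this
    · have := h s (mem_insert_of_mem hs) (by
        rw [e5 s hs]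
        have : (F.filter (fun s' => s ≤ s')).card + 1 + b =
          (F.filter (fun s' => s ≤ s')).card + (b + 1) := by ring
        rw [this]
        exact hb)
      rw [e6 s hs] at this
      linarith only [this]
  · rintro ⟨h1, h2⟩ s hs hb
    rw [mem_insert] at hs
    rcases hs with rfl | hs
    · rw [e1, card_singleton] at hb
      rw [e2, sum_empty, sub_zero]
      exact h1 hb
    · rw [e5 s hs] at hb
      have := h2 s hs (by
        have e : (F.filter (fun s' => s ≤ s')).card + 1 + b =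
          (F.filter (fun s' => s ≤ s')).card + (b + 1) := by ring
        rw [← e]
        exact hb)
      rw [e6 s hs]
      linarith only [this]

theorem supp_succ_notMem {Q : Finset ℕ} (τ : ℕ → ℝ) (b : ℕ) {x : ℕ} (T : ℝ) (hx : x ∉ Q) :
    supp Q τ b (x + 1) T = supp Q τ b x T := by
  ext F
  rw [mem_supp, mem_supp]
  refine and_congr_left fun _ => forall₂_congr fun s _ => ?_
  constructor
  · rintro ⟨h1, h2⟩
    refine ⟨h1, lt_of_le_of_ne (Nat.lt_succ_iff.mp h2) ?_⟩
    rintro rfl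
    exact hx h1
  · rintro ⟨h1, h2⟩
    exact ⟨h1, Nat.lt_succ_of_lt h2⟩

theorem notMem_of_mem_supp {Q : Finset ℕ} {τ : ℕ → ℝ} {b x : ℕ} {T : ℝ} {F : Finset ℕ}
    (h : F ∈ supp Q τ b x T) : x ∉ F := fun hx =>
  lt_irrefl x ((mem_supp.mp h).1 x hx).2

theorem mem_supp_succ {Q : Finset ℕ} {τ : ℕ → ℝ} {b x : ℕ} {T : ℝ} (hx : x ∈ Q) {F : Finset ℕ} :
    F ∈ supp Q τ b (x + 1) T ↔ F ∈ supp Q τ b x T ∨
      ((Even (1 + b) → 3 * τ x < T) ∧ ∃ F' ∈ supp Q τ (b + 1) x (T - τ x), insert x F' = F) := by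
  constructor
  · intro h
    have h' := mem_supp.mp h
    by_cases hxF : x ∈ F
    · right
      have e : insert x (F.erase x) = F := Finset.insert_erase hxF
      have h1 : ∀ s ∈ F.erase x, s ∈ Q ∧ s < x := by
        intro s hs
        rw [mem_erase] at hs
        have := h'.1 s hs.2
        exact ⟨this.1, lt_of_le_of_ne (Nat.lt_succ_iff.mp this.2) hs.1⟩
      have h2 := h'.2
      rw [← e, SCond_insert fun s hs => (h1 s hs).2] at h2
      exact ⟨h2.1, F.erase x, mem_supp.mpr ⟨h1, h2.2⟩, e⟩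
    · left
      rw [mem_supp]
      refine ⟨fun s hs => ?_, h'.2⟩
      have := h'.1 s hs
      refine ⟨this.1, lt_of_le_of_ne (Nat.lt_succ_iff.mp this.2) ?_⟩
      rintro rfl
      exact hxF hs
  · rintro (h | ⟨h1, F', h2, rfl⟩)
    · rw [mem_supp] at h ⊢
      exact ⟨fun s hs => ⟨(h.1 s hs).1, Nat.lt_succ_of_lt (h.1 s hs).2⟩, h.2⟩
    · rw [mem_supp] at h2 ⊢
      refine ⟨fun s hs => ?_, (SCond_insert fun s hs => (h2.1 s hs).2).mpr ⟨h1, h2.2⟩⟩
      rw [mem_insert] at hs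
      rcases hs with rfl | hs
      · exact ⟨hx, Nat.lt_succ_self _⟩
      · exact ⟨(h2.1 s hs).1, Nat.lt_succ_of_lt (h2.1 s hs).2⟩

theorem supp_succ_of_not {Q : Finset ℕ} {τ : ℕ → ℝ} {b x : ℕ} {T : ℝ} (hx : x ∈ Q)
    (h : ¬ (Even (1 + b) → 3 * τ x < T)) : supp Q τ b (x + 1) T = supp Q τ b x T := by
  ext F
  rw [mem_supp_succ hx]
  constructor
  · rintro (h1 | h1)
    · exact h1
    · exact absurd h1.1 h
  · exact Or.inl

theorem supp_succ_of {Q : Finset ℕ} {τ : ℕ → ℝ} {b x : ℕ} {T : ℝ} (hx : x ∈ Q)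
    (h : Even (1 + b) → 3 * τ x < T) : supp Q τ b (x + 1) T =
      supp Q τ b x T ∪ (supp Q τ (b + 1) x (T - τ x)).image (insert x) := by
  ext F
  rw [mem_supp_succ hx, mem_union, mem_image]
  constructor
  · rintro (h1 | ⟨_, h1⟩)
    · exact Or.inl h1
    · exact Or.inr h1
  · rintro (h1 | h1)
    · exact Or.inl h1
    · exact Or.inr ⟨h, h1⟩

theorem supp_disj {Q : Finset ℕ} {τ : ℕ → ℝ} {b x : ℕ} {T : ℝ} :
    Disjoint (supp Q τ b x T) ((supp Q τ (b + 1) x (T - τ x)).image (insert x)) := by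
  rw [Finset.disjoint_left]
  intro F h1 h2
  rw [mem_image] at h2
  obtain ⟨F', _, rfl⟩ := h2
  exact notMem_of_mem_supp h1 (mem_insert_self x F')

theorem supp_inj {Q : Finset ℕ} {τ : ℕ → ℝ} {b x : ℕ} {T : ℝ} {F F' : Finset ℕ}
    (h : F ∈ supp Q τ b x T) (h' : F' ∈ supp Q τ b x T) (e : insert x F = insert x F') :
    F = F' := by
  have h1 := notMem_of_mem_supp h
  have h2 := notMem_of_mem_supp h'
  rw [← Finset.erase_insert h1, e, Finset.erase_insert h2]

/-- the recursion of the supports, for sums -/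
theorem sum_supp_succ {Q : Finset ℕ} {τ : ℕ → ℝ} {b x : ℕ} {T : ℝ} (hx : x ∈ Q)
    (h : Even (1 + b) → 3 * τ x < T) {R : Type*} [AddCommMonoid R] (φ : Finset ℕ → R) :
    ∑ F ∈ supp Q τ b (x + 1) T, φ F =
      ∑ F ∈ supp Q τ b x T, φ F + ∑ F ∈ supp Q τ (b + 1) x (T - τ x), φ (insert x F) := by
  rw [supp_succ_of hx h, Finset.sum_union supp_disj, Finset.sum_image]
  intro F hF F' hF' e
  exact supp_inj hF hF' e

theorem card_supp_succ {Q : Finset ℕ} {τ : ℕ → ℝ} {b x : ℕ} {T : ℝ} (hx : x ∈ Q)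
    (h : Even (1 + b) → 3 * τ x < T) :
    (supp Q τ b (x + 1) T).card = (supp Q τ b x T).card + (supp Q τ (b + 1) x (T - τ x)).card := by
  rw [Finset.card_eq_sum_ones, sum_supp_succ hx h, ← Finset.card_eq_sum_ones,
    ← Finset.card_eq_sum_ones]

/-! ### The sieve product -/

section gv

variable {Q : Finset ℕ} {g : ℕ → ℝ}

theorem gv_zero (Q : Finset ℕ) (g : ℕ → ℝ) : gv Q g 0 = 1 := by
  unfold gv
  rw [Finset.filter_false_of_mem, Finset.prod_empty]
  intro s _
  exact Nat.not_lt_zero s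

theorem gv_pos (hg1 : ∀ q ∈ Q, g q < 1) (x : ℕ) : 0 < gv Q g x :=
  Finset.prod_pos fun q hq => sub_pos.mpr (hg1 q (mem_filter.mp hq).1)

theorem gv_succ_notMem {x : ℕ} (hx : x ∉ Q) : gv Q g (x + 1) = gv Q g x := by
  unfold gv
  congr 1
  ext q
  rw [mem_filter, mem_filter]
  constructor
  · rintro ⟨h1, h2⟩
    refine ⟨h1, lt_of_le_of_ne (Nat.lt_succ_iff.mp h2) ?_⟩
    rintro rfl
    exact hx h1
  · rintro ⟨h1, h2⟩
    exact ⟨h1, Nat.lt_succ_of_lt h2⟩

theorem gv_succ_mem {x : ℕ} (hx : x ∈ Q) : gv Q g (x + 1) = gv Q g x * (1 - g x) := by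
  unfold gv
  have h : Q.filter (fun q => q < x + 1) = insert x (Q.filter (fun q => q < x)) := by
    ext q
    rw [mem_filter, mem_insert, mem_filter]
    constructor
    · rintro ⟨h1, h2⟩
      rcases eq_or_lt_of_le (Nat.lt_succ_iff.mp h2) with h3 | h3
      · exact Or.inl h3
      · exact Or.inr ⟨h1, h3⟩
    · rintro (rfl | ⟨h1, h2⟩)
      · exact ⟨hx, Nat.lt_succ_self _⟩
      · exact ⟨h1, Nat.lt_succ_of_lt h2⟩
  rw [h, Finset.prod_insert, mul_comm]
  intro h
  exact lt_irrefl _ (mem_filter.mp h).2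

theorem gv_succ_le (hg0 : ∀ q ∈ Q, 0 ≤ g q) (hg1 : ∀ q ∈ Q, g q < 1) (x : ℕ) :
    gv Q g (x + 1) ≤ gv Q g x := by
  by_cases hx : x ∈ Q
  · rw [gv_succ_mem hx]
    have := gv_pos hg1 x
    have := hg0 x hx
    nlinarith
  · rw [gv_succ_notMem hx]

theorem gv_anti (hg0 : ∀ q ∈ Q, 0 ≤ g q) (hg1 : ∀ q ∈ Q, g q < 1) : Antitone (gv Q g) :=
  antitone_nat_of_succ_le (gv_succ_le hg0 hg1)

theorem gtau_pos {K : ℝ} (hK : 0 < K) (hg1 : ∀ q ∈ Q, g q < 1) (x : ℕ) : 0 < K / gv Q g x :=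
  div_pos hK (gv_pos hg1 x)

theorem gtau_mono {K : ℝ} (hK : 0 < K) (hg0 : ∀ q ∈ Q, 0 ≤ g q) (hg1 : ∀ q ∈ Q, g q < 1) :
    Monotone fun x => K / gv Q g x := fun _ _ hxy =>
  div_le_div_of_nonneg_left hK.le (gv_pos hg1 _) (gv_anti hg0 hg1 hxy)

end gv

/-! ### The linear sieve -/

theorem gen_sieve (Q : Finset ℕ) (hQ : ∀ q ∈ Q, q.Prime) (g : ℕ → ℝ) (hg0 : ∀ q ∈ Q, 0 ≤ g q)
    (hg1 : ∀ q ∈ Q, g q < 1) (K : ℝ) (hK : 0 < K) (X : ℝ) (hX : 0 ≤ X) (G r : ℕ → ℝ)
    (c : ℕ → ℕ → ℝ) (hG0 : ∀ d, 0 ≤ G d)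
    (hG : ∀ d, ∀ q ∈ Q, Nat.Coprime d q → G (d * q) = G d * g q)
    (hc0 : ∀ d, 0 < d → c d 0 = X * G d + r d) (hnn : ∀ d x, 0 ≤ c d x)
    (hc1 : ∀ d x, x ∉ Q → c d (x + 1) = c d x)
    (hc2 : ∀ d x, x ∈ Q → Nat.Coprime d x → c d (x + 1) = c d x - c (d * x) x) :
    ∀ (x d : ℕ) (T : ℝ), 0 < d → (∀ q ∈ Q, q < x → Nat.Coprime d q) →
      (K / gv Q g x ≤ T → c d x ≤ X * G d * (gv Q g x * sF (T / (K / gv Q g x))) +
        ∑ F ∈ supp Q (fun x => K / gv Q g x) 1 x T, (-1) ^ F.card * r (d * ∏ p ∈ F, p)) ∧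
      (2 * (K / gv Q g x) ≤ T → X * G d * (gv Q g x * sf (T / (K / gv Q g x))) +
        ∑ F ∈ supp Q (fun x => K / gv Q g x) 0 x T, (-1) ^ F.card * r (d * ∏ p ∈ F, p) ≤
          c d x) := by
  intro x
  induction x with
  | zero =>
    intro d T hd _
    have hXG : 0 ≤ X * G d := mul_nonneg hX (hG0 d)
    have hs : ∀ b : ℕ, ∑ F ∈ supp Q (fun x => K / gv Q g x) b 0 T,
        (-1) ^ F.card * r (d * ∏ p ∈ F, p) = r d := by
      intro b
      rw [supp_zero, Finset.sum_singleton]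
      simp
    rw [hs, hs, hc0 d hd, gv_zero, one_mul]
    constructor
    · intro _
      have h1 := one_le_sF (T / (K / 1))
      linarith only [mul_nonneg (sub_nonneg.2 hXG) (sub_nonneg.2 h1)]
    · intro _
      rw [one_mul]
      have h1 := sf_le_one (T / (K / 1))
      linarith only [mul_nonneg (sub_nonneg.2 hXG) (sub_nonneg.2 h1)]
  | succ x ih =>
    intro d T hd hcop
    have htx := gtau_pos hK hg1 (g := g) x
    have htx1 := gtau_pos hK hg1 (g := g) (x + 1)
    have hmono : K / gv Q g x ≤ K / gv Q g (x + 1) := gtau_mono hK hg0 hg1 (Nat.le_succ x)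
    have hcop' : ∀ q ∈ Q, q < x → Nat.Coprime d q := fun q hq hqx => hcop q hq (by omega)
    by_cases hx : x ∈ Q
    · -- sieving prime
      have hp := hQ x hx
      have hcopx : Nat.Coprime d x := hcop x hx (Nat.lt_succ_self x)
      have hcnt := hc2 d x hx hcopx
      have hcop'' : ∀ q ∈ Q, q < x → Nat.Coprime (d * x) q := by
        intro q hq hqx
        apply Nat.Coprime.mul_left (hcop' q hq hqx)
        rw [Nat.coprime_primes hp (hQ q hq)]
        omega
      have hdx : 0 < d * x := Nat.mul_pos hd hp.pos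
      have hGx := hG d x hx hcopx
      have hXG : 0 ≤ X * G d := mul_nonneg hX (hG0 d)
      -- the sums with `x`
      have hsum : ∀ (b : ℕ) (T' : ℝ), ∑ F ∈ supp Q (fun x => K / gv Q g x) b x T',
          (-1) ^ (insert x F).card * r (d * ∏ p ∈ insert x F, p) =
          - ∑ F ∈ supp Q (fun x => K / gv Q g x) b x T',
            (-1) ^ F.card * r (d * x * ∏ p ∈ F, p) := by
        intro b T'
        rw [← Finset.sum_neg_distrib]
        refine Finset.sum_congr rfl fun F hF => ?_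
        have h1 := notMem_of_mem_supp hF
        rw [Finset.card_insert_of_notMem h1, Finset.prod_insert h1, mul_assoc d x, pow_succ]
        ring
      have hgx0 := hg0 x hx
      set v := gv Q g x with hv
      set v' := gv Q g (x + 1) with hv'
      have hvpos : 0 < v := gv_pos hg1 x
      have hv'pos : 0 < v' := gv_pos hg1 (x + 1)
      have hvx : v * g x = v - v' := by
        rw [hv', gv_succ_mem hx, ← hv]
        ring
      constructor
      · intro hT
        have hTpos : 0 < T := lt_of_lt_of_le htx1 hT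
        set t := T / (K / v) with ht
        set s := T / (K / v') with hs
        have ht_eq : t = T * v / K := by rw [ht]; field_simp
        have hs_eq : s = T * v' / K := by rw [hs]; field_simp
        have hv_eq : v = K / T * t := by rw [ht_eq]; field_simp
        have hv'_eq : v' = K / T * s := by rw [hs_eq]; field_simp
        have hspos : 0 < s := by positivity
        have hst : s ≤ t := by
          rw [ht, hs]
          exact div_le_div_of_nonneg_left hTpos.le htx hmono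
        have hKT : 0 < K / T := by positivity
        have ihU := (ih d T hd hcop').1 (hmono.trans hT)
        rw [← ht] at ihU
        rcases le_or_gt t 3 with h3 | h3
        · -- drop
          have hdrop : supp Q (fun x => K / gv Q g x) 1 (x + 1) T =
              supp Q (fun x => K / gv Q g x) 1 x T := by
            refine supp_succ_of_not hx ?_
            intro h
            have h1 : 3 * (K / gv Q g x) < T := h ⟨1, rfl⟩
            rw [ht, div_le_iff₀ htx] at h3
            exact absurd h1 (not_lt.mpr h3)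
          have h1 : c d (x + 1) ≤ c d x := by
            have := hnn (d * x) x
            linarith only [hcnt, this]
          have h2 : v * sF t = v' * sF s := by
            rw [hv_eq, hv'_eq, mul_assoc, mul_assoc, sF_F1 (by positivity) h3,
              sF_F1 hspos (hst.trans h3)]
          rw [← h2, hdrop]
          linarith only [ihU, h1]
        · have h3t : 3 * (K / v) < T := by
            rw [ht, lt_div_iff₀ htx] at h3
            exact h3
          have h2t : 2 * (K / v) ≤ T - K / v := by linarith only [h3t]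
          have ihL := (ih (d * x) (T - K / v) hdx hcop'').2 h2t
          have ht1 : (T - K / v) / (K / v) = t - 1 := by
            rw [ht, sub_div, div_self htx.ne']
          rw [ht1, hGx] at ihL
          rw [sum_supp_succ hx (b := 1) (T := T) (fun _ => h3t)]
          have hsz := hsum 2 (T - K / v)
          rw [supp_add_two Q _ 0] at hsz
          have hsz' : ∑ F ∈ supp Q (fun x => K / gv Q g x) (1 + 1) x (T - K / gv Q g x),
              (-1) ^ (insert x F).card * r (d * ∏ p ∈ insert x F, p) =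
              - ∑ F ∈ supp Q (fun x => K / gv Q g x) 0 x (T - K / v),
                (-1) ^ F.card * r (d * x * ∏ p ∈ F, p) := by
            rw [← hsz, ← supp_add_two Q _ 0]
          rw [hsz']
          have h4 := sF_F2 hspos hst h3.le
          have h5 : v * sF t - v * g x * sf (t - 1) ≤ v' * sF s := by
            rw [hvx]
            have e1 : v * sF t - (v - v') * sf (t - 1) =
                K / T * (t * sF t - (t - s) * sf (t - 1)) := by
              rw [hv_eq, hv'_eq]; ring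
            have e2 : v' * sF s = K / T * (s * sF s) := by rw [hv'_eq]; ring
            rw [e1, e2]
            apply mul_le_mul_of_nonneg_left _ hKT.le
            linarith only [h4]
          have h6 := mul_le_mul_of_nonneg_left h5 hXG
          have h7 : X * (G d * g x) * (v * sf (t - 1)) = X * G d * (v * g x * sf (t - 1)) := by
            ring
          rw [h7] at ihL
          have h8 : X * G d * (v * sF t - v * g x * sf (t - 1))
              = X * G d * (v * sF t) - X * G d * (v * g x * sf (t - 1)) := by ring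
          rw [h8] at h6
          linarith only [hcnt, ihU, ihL, h6]
      · intro hT
        have hTpos : 0 < T := lt_of_lt_of_le (by linarith only [htx1]) hT
        set t := T / (K / v) with ht
        set s := T / (K / v') with hs
        have ht_eq : t = T * v / K := by rw [ht]; field_simp
        have hs_eq : s = T * v' / K := by rw [hs]; field_simp
        have hv_eq : v = K / T * t := by rw [ht_eq]; field_simp
        have hv'_eq : v' = K / T * s := by rw [hs_eq]; field_simp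
        have hspos : 0 < s := by positivity
        have hst : s ≤ t := by
          rw [ht, hs]
          exact div_le_div_of_nonneg_left hTpos.le htx hmono
        have hs2 : 2 ≤ s := by
          rw [hs, le_div_iff₀ htx1]
          exact hT
        have hKT : 0 < K / T := by positivity
        have ihL := (ih d T hd hcop').2 (by linarith only [hmono, hT])
        rw [← ht] at ihL
        have ihU := (ih (d * x) (T - K / v) hdx hcop'').1 (by linarith only [hmono, hT])
        have ht1 : (T - K / v) / (K / v) = t - 1 := by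
          rw [ht, sub_div, div_self htx.ne']
        rw [ht1, hGx] at ihU
        rw [sum_supp_succ hx (b := 0) (T := T) (fun h => absurd h (by decide))]
        have hsz' : ∑ F ∈ supp Q (fun x => K / gv Q g x) (0 + 1) x (T - K / gv Q g x),
            (-1) ^ (insert x F).card * r (d * ∏ p ∈ insert x F, p) =
            - ∑ F ∈ supp Q (fun x => K / gv Q g x) 1 x (T - K / v),
              (-1) ^ F.card * r (d * x * ∏ p ∈ F, p) := hsum 1 (T - K / v)
        rw [hsz']
        have h4 := sf_F3 hs2 hst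
        have h5 : v' * sf s ≤ v * sf t - v * g x * sF (t - 1) := by
          rw [hvx]
          have e1 : v * sf t - (v - v') * sF (t - 1) =
              K / T * (t * sf t - (t - s) * sF (t - 1)) := by
            rw [hv_eq, hv'_eq]; ring
          have e2 : v' * sf s = K / T * (s * sf s) := by rw [hv'_eq]; ring
          rw [e1, e2]
          apply mul_le_mul_of_nonneg_left _ hKT.le
          linarith only [h4]
        have h6 := mul_le_mul_of_nonneg_left h5 hXG
        have h7 : X * (G d * g x) * (v * sF (t - 1)) = X * G d * (v * g x * sF (t - 1)) := by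
          ring
        rw [h7] at ihU
        have h8 : X * G d * (v * sf t - v * g x * sF (t - 1))
            = X * G d * (v * sf t) - X * G d * (v * g x * sF (t - 1)) := by ring
        rw [h8] at h6
        linarith only [hcnt, ihL, ihU, h6]
    · -- not a sieving prime
      rw [hc1 d x hx, gv_succ_notMem hx, supp_succ_notMem _ _ _ hx, supp_succ_notMem _ _ _ hx]
      exact ih d T hd hcop'

/-! ### The steps of the sieve as separate lemmas -/

section steps

variable {Q : Finset ℕ} {g : ℕ → ℝ} {K : ℝ}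

end steps

/-! ### The size of the supports -/

/-- (J1b) The number of elements of the supports; note that `0 ≤ T` is needed, and for the lower
bound support also `τ q ≤ T` for the primes `q < x`. -/
theorem supp_card_le {Q : Finset ℕ} (hQ : ∀ q ∈ Q, 0 < q) {τ : ℕ → ℝ} {C : ℝ}
    (hτ : ∀ q ∈ Q, log q - C ≤ τ q) (hτ0 : ∀ q ∈ Q, 0 ≤ τ q)
    (hmono : ∀ q ∈ Q, ∀ q' ∈ Q, q ≤ q' → τ q ≤ τ q') :
    ∀ (x : ℕ) (T : ℝ), 0 ≤ T →
      (((supp Q τ 1 x T).card : ℝ) ≤
        exp T * ∏ q ∈ Q.filter (fun q => q < x), (1 + exp C / q)) ∧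
      ((∀ q ∈ Q, q < x → τ q ≤ T) → ((supp Q τ 0 x T).card : ℝ) ≤
        exp T * ∏ q ∈ Q.filter (fun q => q < x), (1 + exp C / q)) := by
  intro x
  induction x with
  | zero =>
    intro T hT
    have h1 : (1 : ℝ) ≤ exp T := Real.one_le_exp hT
    rw [supp_zero, supp_zero, Finset.filter_false_of_mem fun s _ => Nat.not_lt_zero s]
    simp only [card_singleton, Nat.cast_one, prod_empty, mul_one]
    exact ⟨h1, fun _ => h1⟩
  | succ x ih =>
    intro T hT
    by_cases hx : x ∈ Q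
    · have hf : Q.filter (fun q => q < x + 1) = insert x (Q.filter (fun q => q < x)) := by
        ext q
        rw [mem_filter, mem_insert, mem_filter]
        constructor
        · rintro ⟨h1, h2⟩
          rcases eq_or_lt_of_le (Nat.lt_succ_iff.mp h2) with h3 | h3
          · exact Or.inl h3
          · exact Or.inr ⟨h1, h3⟩
        · rintro (rfl | ⟨h1, h2⟩)
          · exact ⟨hx, Nat.lt_succ_self _⟩
          · exact ⟨h1, Nat.lt_succ_of_lt h2⟩
      have hp : ∏ q ∈ Q.filter (fun q => q < x + 1), (1 + exp C / (q : ℝ)) =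
          (1 + exp C / (x : ℝ)) * ∏ q ∈ Q.filter (fun q => q < x), (1 + exp C / (q : ℝ)) := by
        rw [hf, Finset.prod_insert]
        intro h
        exact lt_irrefl _ (mem_filter.mp h).2
      have hpos : 0 ≤ ∏ q ∈ Q.filter (fun q => q < x), (1 + exp C / (q : ℝ)) :=
        Finset.prod_nonneg fun q _ => by positivity
      have hx0 : (0 : ℝ) < x := by exact_mod_cast hQ x hx
      have hexp : exp (T - τ x) ≤ exp T * (exp C / x) := by
        have h1 : exp (-τ x) ≤ exp C / x := by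
          rw [le_div_iff₀ hx0]
          calc exp (-τ x) * x = exp (-τ x) * exp (log x) := by rw [Real.exp_log hx0]
            _ = exp (log x - τ x) := by rw [← Real.exp_add]; ring_nf
            _ ≤ exp C := Real.exp_le_exp.mpr (by have := hτ x hx; linarith only [this])
        rw [sub_eq_add_neg, Real.exp_add]
        exact mul_le_mul_of_nonneg_left h1 (Real.exp_pos T).le
      have hadd : ∀ a b : ℝ, a ≤ exp T * ∏ q ∈ Q.filter (fun q => q < x), (1 + exp C / (q : ℝ)) →
          b ≤ exp (T - τ x) * ∏ q ∈ Q.filter (fun q => q < x), (1 + exp C / (q : ℝ)) →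
          a + b ≤ exp T * ∏ q ∈ Q.filter (fun q => q < x + 1), (1 + exp C / (q : ℝ)) := by
        intro a b ha hb
        rw [hp]
        have h1 := mul_le_mul_of_nonneg_right hexp hpos
        calc a + b ≤ exp T * ∏ q ∈ Q.filter (fun q => q < x), (1 + exp C / (q : ℝ)) +
              exp T * (exp C / x) * ∏ q ∈ Q.filter (fun q => q < x), (1 + exp C / (q : ℝ)) :=
              add_le_add ha (hb.trans h1)
          _ = _ := by ring
      constructor
      · by_cases hc : Even (1 + 1) → 3 * τ x < T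
        · have h3 : 3 * τ x < T := hc (by decide)
          have hτx := hτ0 x hx
          rw [card_supp_succ hx hc, show (1 + 1 : ℕ) = 0 + 2 from rfl, supp_add_two]
          push_cast
          refine hadd _ _ (ih T hT).1 ((ih (T - τ x) (by linarith only [h3, hτx])).2 ?_)
          intro q hq hqx
          have := hmono q hq x hx hqx.le
          linarith only [h3, hτx, this]
        · rw [supp_succ_of_not hx hc]
          refine (ih T hT).1.trans ?_
          have := hadd _ 0 (le_refl _) (mul_nonneg (Real.exp_pos _).le hpos)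
          rwa [add_zero] at this
      · intro hle
        rw [card_supp_succ hx (b := 0) (fun h => absurd h (by decide))]
        push_cast
        refine hadd _ _ ((ih T hT).2 fun q hq hqx => hle q hq (by omega)) ?_
        have := hle x hx (Nat.lt_succ_self x)
        exact (ih (T - τ x) (by linarith only [this])).1
    · have hf : Q.filter (fun q => q < x + 1) = Q.filter (fun q => q < x) := by
        ext q
        rw [mem_filter, mem_filter]
        constructor
        · rintro ⟨h1, h2⟩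
          refine ⟨h1, lt_of_le_of_ne (Nat.lt_succ_iff.mp h2) ?_⟩
          rintro rfl
          exact hx h1
        · rintro ⟨h1, h2⟩
          exact ⟨h1, Nat.lt_succ_of_lt h2⟩
      rw [supp_succ_notMem _ _ _ hx, supp_succ_notMem _ _ _ hx, hf]
      exact ⟨(ih T hT).1, fun h => (ih T hT).2 fun q hq hqx => h q hq (by omega)⟩

/-! ### The chain property -/

theorem filter_le_eq_insert {F : Finset ℕ} {s : ℕ} (hs : s ∈ F) :
    F.filter (fun s' => s ≤ s') = insert s (F.filter (fun s' => s < s')) := by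
  ext q
  rw [mem_filter, mem_insert, mem_filter]
  constructor
  · rintro ⟨h1, h2⟩
    rcases eq_or_lt_of_le h2 with h3 | h3
    · exact Or.inl h3.symm
    · exact Or.inr ⟨h1, h3⟩
  · rintro (rfl | ⟨h1, h2⟩)
    · exact ⟨hs, le_rfl⟩
    · exact ⟨h1, h2.le⟩

theorem sum_filter_le_eq {F : Finset ℕ} {s : ℕ} (hs : s ∈ F) (τ : ℕ → ℝ) :
    ∑ s' ∈ F.filter (fun s' => s ≤ s'), τ s' =
      τ s + ∑ s' ∈ F.filter (fun s' => s < s'), τ s' := by
  rw [filter_le_eq_insert hs, Finset.sum_insert]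
  intro h
  exact lt_irrefl _ (mem_filter.mp h).2

theorem card_filter_le_eq {F : Finset ℕ} {s : ℕ} (hs : s ∈ F) :
    (F.filter (fun s' => s ≤ s')).card = (F.filter (fun s' => s < s')).card + 1 := by
  rw [filter_le_eq_insert hs, Finset.card_insert_of_notMem]
  intro h
  exact lt_irrefl _ (mem_filter.mp h).2

/-- the element of `F` following `s` -/
theorem exists_next {F : Finset ℕ} {s : ℕ} (h : ∃ m ∈ F, s < m) :
    ∃ s₁ ∈ F, s < s₁ ∧ F.filter (fun s' => s < s') = F.filter (fun s' => s₁ ≤ s') := by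
  obtain ⟨m, hm, hsm⟩ := h
  have hne : (F.filter (fun s' => s < s')).Nonempty := ⟨m, mem_filter.mpr ⟨hm, hsm⟩⟩
  have h1 := Finset.min'_mem _ hne
  rw [mem_filter] at h1
  refine ⟨_, h1.1, h1.2, ?_⟩
  ext q
  rw [mem_filter, mem_filter]
  constructor
  · rintro ⟨h2, h3⟩
    exact ⟨h2, Finset.min'_le _ _ (mem_filter.mpr ⟨h2, h3⟩)⟩
  · rintro ⟨h2, h3⟩
    exact ⟨h2, lt_of_lt_of_le h1.2 h3⟩

/-- the chain property for both supports -/
theorem chain_gen {Q : Finset ℕ} {τ : ℕ → ℝ} {b x : ℕ} {T : ℝ} {F : Finset ℕ}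
    (hτ0 : ∀ q ∈ Q, 0 ≤ τ q) (hmono : ∀ q ∈ Q, ∀ q' ∈ Q, q ≤ q' → τ q ≤ τ q')
    (hF : F ∈ supp Q τ b x T) {s : ℕ} (hs : s ∈ F)
    (h : Even ((F.filter (fun s' => s ≤ s')).card + b) ∨ ∃ m ∈ F, s < m) :
    ∑ s' ∈ F.filter (fun s' => s ≤ s'), τ s' + τ s < T := by
  rw [mem_supp] at hF
  have hsQ := (hF.1 s hs).1
  have h0 := hτ0 s hsQ
  by_cases he : Even ((F.filter (fun s' => s ≤ s')).card + b)
  · have h1 := hF.2 s hs he
    rw [sum_filter_le_eq hs]
    linarith
  · obtain ⟨s₁, hs₁, hlt, heq⟩ := exists_next (h.resolve_left he)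
    have he' : Even ((F.filter (fun s' => s₁ ≤ s')).card + b) := by
      rw [card_filter_le_eq hs, heq, add_right_comm, Nat.even_add_one, not_not] at he
      exact he
    have h1 := hF.2 s₁ hs₁ he'
    have h2 := hmono s hsQ s₁ (hF.1 s₁ hs₁).1 hlt.le
    rw [sum_filter_le_eq hs, heq, sum_filter_le_eq hs₁]
    linarith only [h1, h2]

/-- (J1c) chain property of the lower bound support -/
theorem chain_zero {Q : Finset ℕ} {τ : ℕ → ℝ} {x : ℕ} {T : ℝ} {F : Finset ℕ}
    (hτ0 : ∀ q ∈ Q, 0 ≤ τ q) (hmono : ∀ q ∈ Q, ∀ q' ∈ Q, q ≤ q' → τ q ≤ τ q')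
    (hF : F ∈ supp Q τ 0 x T) {s : ℕ} (hs : s ∈ F) (h : ∃ m ∈ F, s < m) :
    ∑ s' ∈ F.filter (fun s' => s ≤ s'), τ s' + τ s < T :=
  chain_gen hτ0 hmono hF hs (Or.inr h)

/-- chain property of the lower bound support, for all the elements, when `2 τ q ≤ T` -/
theorem chain_zero' {Q : Finset ℕ} {τ : ℕ → ℝ} {x : ℕ} {T : ℝ} {F : Finset ℕ}
    (hτ0 : ∀ q ∈ Q, 0 ≤ τ q) (hmono : ∀ q ∈ Q, ∀ q' ∈ Q, q ≤ q' → τ q ≤ τ q')
    (hT : ∀ q ∈ Q, q < x → 2 * τ q ≤ T)
    (hF : F ∈ supp Q τ 0 x T) {s : ℕ} (hs : s ∈ F) :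
    ∑ s' ∈ F.filter (fun s' => s ≤ s'), τ s' + τ s ≤ T := by
  by_cases h : ∃ m ∈ F, s < m
  · exact (chain_zero hτ0 hmono hF hs h).le
  · have h1 : F.filter (fun s' => s < s') = ∅ := by
      rw [Finset.filter_eq_empty_iff]
      intro m hm hsm
      exact h ⟨m, hm, hsm⟩
    have h2 := (mem_supp.mp hF).1 s hs
    have := hT s h2.1 h2.2
    rw [sum_filter_le_eq hs, h1, sum_empty]
    linarith only [this]

end Vale.Agent.P013.J
end

section

/-!
# Inverse theorem: the core, with finite parameters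
-/

open Finset Real

namespace Vale.Agent.P013.J

/-- pigeonhole with a real bound -/
theorem pigeon {α β : Type} [DecidableEq α] [DecidableEq β] (C : Finset α) (hC : C.Nonempty)
    (f : α → β) (Y : Finset β) (hf : ∀ x ∈ C, f x ∈ Y) (K : ℝ) (hK : (Y.card : ℝ) ≤ K) :
    ∃ b ∈ Y, (C.card : ℝ) ≤ K * ((C.filter (fun x => f x = b)).card : ℝ) := by
  obtain ⟨x0, hx0⟩ := hC
  have hY : Y.Nonempty := ⟨f x0, hf x0 hx0⟩
  obtain ⟨b, hb, hmax⟩ := Finset.exists_max_image Y
    (fun b => (C.filter (fun x => f x = b)).card) hY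
  refine ⟨b, hb, ?_⟩
  have h1 : C.card = ∑ b ∈ Y, (C.filter (fun x => f x = b)).card :=
    Finset.card_eq_sum_card_fiberwise hf
  have h2 : C.card ≤ Y.card * (C.filter (fun x => f x = b)).card := by
    rw [h1, ← smul_eq_mul, ← Finset.sum_const]
    exact Finset.sum_le_sum fun b' hb' => hmax b' hb'
  calc (C.card : ℝ) ≤ (Y.card : ℝ) * ((C.filter (fun x => f x = b)).card : ℝ) := by
        exact_mod_cast h2
    _ ≤ _ := mul_le_mul_of_nonneg_right hK (Nat.cast_nonneg _)

/-- the product of distinct primes congruences -/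
theorem prod_dvd_of_mod_eq (QQ : Finset ℕ) (hQ : ∀ q ∈ QQ, q.Prime) {a b : ℤ}
    (h : ∀ q ∈ QQ, a % q = b % q) : ((∏ q ∈ QQ, q : ℕ) : ℤ) ∣ a - b := by
  have : (∏ q ∈ QQ, q : ℕ) ∣ (a - b).natAbs := by
    apply Finset.prod_primes_dvd
    · intro q hq; exact (hQ q hq).prime
    · intro q hq
      rw [← Int.natCast_dvd]
      exact Int.ModEq.dvd (h q hq).symm
  exact Int.natCast_dvd.2 this

/-- the divisor of the residues of the seeds -/
theorem prod_seed_dvd {r : ℕ} {B : Fin r → Finset ℕ} {s : Fin r → ℕ}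
    (hs : s ∈ Fintype.piFinset B) : (∏ j, s j) ∣ ∏ j, ∏ p ∈ B j, p := by
  apply Finset.prod_dvd_prod_of_dvd
  intro j _
  exact Finset.dvd_prod_of_mem _ (Fintype.mem_piFinset.1 hs j)

/-- THE CORE -/
theorem inv_core (hR : RelCountStmt) (hM : MomentStmt) (hB : BlockStmt) (hL : LineStmt)
    (hG : GreedyStmt) (r k n0 J : ℕ) (P0 S0 δ w ex T X : ℝ) (P S : Fin r → ℝ) (I0 : Finset ℕ)
    (I : Fin r → Finset ℕ) (t : ℤ) (hk : 1 ≤ k) (hn0 : 1 ≤ n0) (hδ : 0 < δ) (hP0 : 1 < P0)
    (hP : ∀ j, 1 ≤ P j) (hS0 : 0 < S0) (hI0 : ∀ q ∈ I0, q.Prime ∧ P0 ≤ (q : ℝ) ∧ (q : ℝ) ≤ 2 * P0)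
    (hI0c : (I0.card : ℝ) ≤ S0)
    (hI : ∀ j, ∀ p ∈ I j, p.Prime ∧ P j ≤ (p : ℝ) ∧ (p : ℝ) ≤ 2 * P j)
    (hIc : ∀ j, 0 < S j ∧ ((I j).card : ℝ) ≤ S j) (hcross : ∀ j, 2 * P0 < P j)
    (hleft : ∑ j, (n0 : ℝ) / S j ≤ δ / 2)
    (hsep : ∀ j : Fin r, (2 * k : ℝ) *
      (∏ i ∈ univ.filter (fun i => i < j), (2 * P i)) ^ (2 * k) < P j)
    (hw : 0 < w) (hwb : log k + 2 * k * ∑ j, log (2 * P j) ≤ w * log P0) (hex : 1 ≤ ex)
    (hmom : 2 * P0 * (k.factorial * ((n0 : ℝ) ^ r) ^ k +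
      8 * ((n0 : ℝ) ^ r) ^ (2 * k) * w / (δ * S0)) ≤ ex * (δ / 4 * (n0 : ℝ) ^ r) ^ (2 * k))
    (hJ : (J : ℝ) ≤ δ * S0 / 16) (hT : 1 ≤ T) (hΛ : 4 * T ^ 2 < P0 ^ J) (hX : 1 ≤ X)
    (E : Finset ℕ)
    (hE1 : ∀ M ∈ E, T ≤ (M : ℝ) ∧ (M : ℝ) ≤ 2 * T ∧ δ * (S0 * ∏ j, S j) ≤
      ‖∑ q ∈ I0, ∑ s ∈ Fintype.piFinset I, e (((t / (M : ℤ) : ℤ) : ℝ) /
        ((q : ℝ) * ((∏ j, s j : ℕ) : ℝ)))‖)
    (hE2 : ∀ C ⊆ E, X + 1 ≤ (C.card : ℝ) → ¬ ∃ u c : ℤ, 1 ≤ u ∧ (u : ℝ) * ((C.card : ℝ) - 1) ≤ T ∧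
      |(c : ℝ)| * ((C.card : ℝ) - 1) ≤ 6 * T ^ 2 ∧ ∀ M ∈ C, (M : ℤ) ∣ u * t - c) :
    (E.card : ℝ) ≤ (∏ j, (2 * P j)) ^ (n0 + 1) * (16 * ex / δ) ^ J * (X + 1) := by
  classical
  -- the trivial case
  rcases E.eq_empty_or_nonempty with rfl | hEne
  · have h1 : 0 ≤ ∏ j, (2 * P j) := Finset.prod_nonneg fun j _ => by linarith only [hP j, hP]
    have h2 : 0 ≤ 16 * ex / δ := by positivity
    simp only [Finset.card_empty, Nat.cast_zero]
    (clear * - h1 hex hδ hX; positivity)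
  -- blocks
  obtain ⟨BB, hBB1, hBB2, hBB3⟩ := hB r I0 S0 I S n0 δ hn0 hδ hS0 hI0c hIc hleft
  set F : ℕ → ℕ → (Fin r → ℕ) → ℂ := fun M q s => e (((t / (M : ℤ) : ℤ) : ℝ) /
        ((q : ℝ) * ((∏ j, s j : ℕ) : ℝ))) with hF
  have hblk : ∀ M ∈ E, ∃ B ∈ Fintype.piFinset BB, δ / 4 * S0 ≤ ((I0.filter (fun q =>
        δ / 4 * (n0 : ℝ) ^ r ≤ ‖∑ s ∈ Fintype.piFinset B, F M q s‖)).card : ℝ) := by
    intro M hM
    exact hBB3 (F M) (fun q s => (norm_e _).le) (hE1 M hM).2.2
  choose! BM hBM1 hBM2 using hblk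
  -- cardinality of the set of block tuples
  have hcardI : ∀ j, ((I j).card : ℝ) ≤ 2 * P j := by
    intro j
    have hsub : I j ⊆ Icc 1 ⌊2 * P j⌋₊ := by
      intro p hp
      rw [Finset.mem_Icc]
      exact ⟨(hI j p hp).1.one_lt.le, Nat.le_floor (hI j p hp).2.2⟩
    have h1 := Finset.card_le_card hsub
    rw [Nat.card_Icc] at h1
    have h2 : ((⌊2 * P j⌋₊ : ℕ) : ℝ) ≤ 2 * P j := Nat.floor_le (by linarith only [hP j, hP])
    have h3 : ((I j).card : ℝ) ≤ ((⌊2 * P j⌋₊ : ℕ) : ℝ) := by exact_mod_cast (by omega)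
    linarith only [h2, h3]
  have hK1 : ((Fintype.piFinset BB).card : ℝ) ≤ ∏ j, (2 * P j) := by
    rw [Fintype.card_piFinset]
    push_cast
    apply Finset.prod_le_prod (fun j _ => Nat.cast_nonneg _)
    intro j _
    have : ((BB j).card : ℝ) ≤ ((I j).card : ℝ) := by exact_mod_cast hBB2 j
    exact this.trans (hcardI j)
  obtain ⟨B, hBmem, hC1⟩ := pigeon E hEne BM (Fintype.piFinset BB) hBM1 _ hK1
  set C1 := E.filter (fun M => BM M = B) with hC1def
  have hC1ne : C1.Nonempty := by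
    rw [Finset.nonempty_iff_ne_empty]
    intro h
    rw [h] at hC1
    simp only [Finset.card_empty, Nat.cast_zero, mul_zero] at hC1
    have : 0 < (E.card : ℝ) := by exact_mod_cast hEne.card_pos
    linarith only [hC1, this]
  have hBsub : ∀ j, B j ⊆ I j ∧ (B j).card = n0 := fun j =>
    hBB1 j (B j) (Fintype.mem_piFinset.1 hBmem j)
  have hBp : ∀ j, ∀ p ∈ B j, p.Prime ∧ P j ≤ (p : ℝ) ∧ (p : ℝ) ≤ 2 * P j := fun j p hp =>
    hI j p ((hBsub j).1 hp)
  -- residues modulo the product of the seeds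
  set W : ℕ := ∏ j, ∏ p ∈ B j, p with hW
  have hWpos : 0 < W := Finset.prod_pos fun j _ => Finset.prod_pos fun p hp =>
    (hBp j p hp).1.pos
  have hWle : (W : ℝ) ≤ (∏ j, (2 * P j)) ^ n0 := by
    rw [hW, ← Finset.prod_pow]
    push_cast
    apply Finset.prod_le_prod (fun j _ => Finset.prod_nonneg fun p _ => Nat.cast_nonneg _)
    intro j _
    rw [← (hBsub j).2, ← Finset.prod_const]
    exact Finset.prod_le_prod (fun p _ => Nat.cast_nonneg _) fun p hp => (hBp j p hp).2.2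
  have hK2 : (((range W).image (fun n : ℕ => (n : ℤ))).card : ℝ) ≤ (∏ j, (2 * P j)) ^ n0 := by
    refine le_trans ?_ hWle
    have := Finset.card_image_le (s := range W) (f := fun n : ℕ => (n : ℤ))
    rw [Finset.card_range] at this
    exact_mod_cast this
  have hmapW : ∀ M ∈ C1, (t / (M : ℤ)) % (W : ℤ) ∈ (range W).image (fun n : ℕ => (n : ℤ)) := by
    intro M _
    rw [Finset.mem_image]
    have h1 := Int.emod_nonneg (t / (M : ℤ)) (show (W : ℤ) ≠ 0 by exact_mod_cast hWpos.ne')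
    have h2 := Int.emod_lt_of_pos (t / (M : ℤ)) (show (0 : ℤ) < W by exact_mod_cast hWpos)
    refine ⟨((t / (M : ℤ)) % (W : ℤ)).toNat, ?_, Int.toNat_of_nonneg h1⟩
    rw [Finset.mem_range]
    omega
  obtain ⟨ρ, _, hC2⟩ := pigeon C1 hC1ne (fun M : ℕ => (t / (M : ℤ)) % (W : ℤ)) _ hmapW _ hK2
  set C2 := C1.filter (fun M : ℕ => (t / (M : ℤ)) % (W : ℤ) = ρ) with hC2def
  have hC2ne : C2.Nonempty := by
    rw [Finset.nonempty_iff_ne_empty]
    intro h
    rw [h] at hC2
    simp only [Finset.card_empty, Nat.cast_zero, mul_zero] at hC2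
    have : 0 < (C1.card : ℝ) := by exact_mod_cast hC1ne.card_pos
    linarith only [hC2, this]
  obtain ⟨Ms, hMs⟩ := id hC2ne
  have hC2E : C2 ⊆ E := (Finset.filter_subset _ _).trans (Finset.filter_subset _ _)
  -- relations
  set N : ℝ := (n0 : ℝ) ^ r with hN
  have hNpos : 0 < N := by positivity
  have hprodB : ∏ j, ((B j).card : ℝ) = N := by
    simp only [(hBsub _).2, Finset.prod_const, Finset.card_univ, Fintype.card_fin, hN]
  set θ : ℝ := 8 * N ^ (2 * k) * w / (δ * S0) with hθ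
  have hθpos : 0 < θ := by positivity
  obtain ⟨Bad, hBadsub, hBadcard, hBadrel⟩ := hR r k P P0 w θ B I0 hk hP0 hθpos hP hcross hBp hI0
    hsep hwb
  rw [hprodB] at hBadcard hBadrel
  have hBadle : (Bad.card : ℝ) ≤ δ * S0 / 8 := by
    have h1 : (Bad.card : ℝ) * θ ≤ δ * S0 / 8 * θ := by
      refine hBadcard.trans (le_of_eq ?_)
      rw [hθ]
      field_simp
    exact le_of_mul_le_mul_right h1 hθpos
  -- exceptional residues
  set c : ℕ → (Fin r → ℕ) → ℂ := fun q s =>
    e ((((t / (Ms : ℤ)) * Nat.gcdA q (∏ j, s j) : ℤ) : ℝ) / ((∏ j, s j : ℕ) : ℝ)) with hc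
  set b : (q : ℕ) → (Fin r → ℕ) → ZMod q := fun q s => ((∏ j, s j : ℕ) : ZMod q)⁻¹ with hb
  set Exc : ℕ → Finset ℤ := fun q => if q ∈ Bad then ∅ else
    ((range q).filter (fun β : ℕ => δ / 4 * N ≤ ‖∑ s ∈ Fintype.piFinset B,
      c q s * e (((((β : ℕ) : ZMod q) * b q s).val : ℝ) / q)‖)).image (fun n : ℕ => (n : ℤ)) with hExc
  have hExccard : ∀ q ∈ I0, ((Exc q).card : ℝ) ≤ ex := by
    intro q hq
    simp only [hExc]
    split_ifs with hqb
    · simp only [Finset.card_empty, Nat.cast_zero]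
      linarith only [hex]
    · have hqp := (hI0 q hq).1
      have : NeZero q := ⟨hqp.pos.ne'⟩
      have h1 := hM (Fin r → ℕ) q (Fintype.piFinset B) (b q) (c q)
        (fun s _ => (norm_e _).le) k (δ / 4 * N) (by positivity)
      have h2 := hBadrel q hq hqb
      have h3 : (((range q).filter (fun β : ℕ => δ / 4 * N ≤ ‖∑ s ∈ Fintype.piFinset B,
          c q s * e (((((β : ℕ) : ZMod q) * b q s).val : ℝ) / q)‖)).image
          (fun n : ℕ => (n : ℤ))).card ≤
          (univ.filter (fun β : ZMod q => δ / 4 * N ≤ ‖∑ s ∈ Fintype.piFinset B,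
            c q s * e (((β * b q s).val : ℝ) / q)‖)).card := by
        refine Finset.card_image_le.trans ?_
        apply Finset.card_le_card_of_injOn (fun β : ℕ => (β : ZMod q))
        · intro β hβ
          simp only [Finset.coe_filter, Finset.mem_range, Set.mem_ofPred_eq, Finset.mem_univ,
            true_and] at hβ ⊢
          exact hβ.2
        · intro β hβ β' hβ' heq
          simp only [Finset.coe_filter, Finset.mem_range, Set.mem_ofPred_eq] at hβ hβ'
          have h4 := (ZMod.natCast_eq_natCast_iff' β β' q).1 heq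
          rwa [Nat.mod_eq_of_lt hβ.1, Nat.mod_eq_of_lt hβ'.1] at h4
      have h5 : ((univ.filter (fun β : ZMod q => δ / 4 * N ≤ ‖∑ s ∈ Fintype.piFinset B,
            c q s * e (((β * b q s).val : ℝ) / q)‖)).card : ℝ) * (δ / 4 * N) ^ (2 * k) ≤
          ex * (δ / 4 * N) ^ (2 * k) := by
        refine h1.trans (le_trans ?_ hmom)
        apply mul_le_mul (hI0 q hq).2.2 h2 (Nat.cast_nonneg _) (by linarith only [hP0])
      have h6 : (0 : ℝ) < (δ / 4 * N) ^ (2 * k) := by positivity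
      have h7 := le_of_mul_le_mul_right h5 h6
      have h8 : ((((range q).filter (fun β : ℕ => δ / 4 * N ≤ ‖∑ s ∈ Fintype.piFinset B,
          c q s * e (((((β : ℕ) : ZMod q) * b q s).val : ℝ) / q)‖)).image
          (fun n : ℕ => (n : ℤ))).card : ℝ) ≤
          ((univ.filter (fun β : ZMod q => δ / 4 * N ≤ ‖∑ s ∈ Fintype.piFinset B,
            c q s * e (((β * b q s).val : ℝ) / q)‖)).card : ℝ) := by exact_mod_cast h3
      exact h8.trans h7
  -- the block sums in terms of the residues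
  have hsum : ∀ M ∈ C2, ∀ q ∈ I0, ∑ s ∈ Fintype.piFinset B, F M q s =
      ∑ s ∈ Fintype.piFinset B, c q s * e (((((((t / (M : ℤ)) % (q : ℤ)).toNat : ℕ) : ZMod q) *
        b q s).val : ℝ) / q) := by
    intro M hM q hq
    apply Finset.sum_congr rfl
    intro s hs
    have hqp := (hI0 q hq).1
    have hspos : ∀ j, 0 < s j := fun j => (hBp j (s j) (Fintype.mem_piFinset.1 hs j)).1.pos
    have hmpos : 0 < ∏ j, s j := Finset.prod_pos fun j _ => hspos j
    have hcop : Nat.Coprime q (∏ j, s j) := by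
      apply Nat.Coprime.prod_right
      intro j _
      have hsj := hBp j (s j) (Fintype.mem_piFinset.1 hs j)
      rw [Nat.coprime_primes hqp hsj.1]
      intro h
      have h1 := (hI0 q hq).2.2
      have h2 := hcross j
      have h3 := hsj.2.1
      rw [← h] at h3
      linarith only [h1, h2, h3]
    have h1 := e_recip hqp.pos hmpos hcop (t / (M : ℤ))
    have hFe : F M q s = e (((t / (M : ℤ) : ℤ) : ℝ) / ((q : ℝ) * ((∏ j, s j : ℕ) : ℝ))) := rfl
    rw [hFe, h1]
    congr 1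
    · -- the first factor
      apply e_div_congr hmpos
      rw [← sub_mul]
      apply Dvd.dvd.mul_right
      have hWd : (W : ℤ) ∣ t / (M : ℤ) - t / (Ms : ℤ) := by
        have h2 : (t / (M : ℤ)) % (W : ℤ) = ρ := (Finset.mem_filter.1 hM).2
        have h3 : (t / (Ms : ℤ)) % (W : ℤ) = ρ := (Finset.mem_filter.1 hMs).2
        exact Int.ModEq.dvd (show (t / (Ms : ℤ)) % (W : ℤ) = (t / (M : ℤ)) % (W : ℤ) by
          rw [h2, h3])
      exact (Int.natCast_dvd_natCast.2 (prod_seed_dvd hs)).trans hWd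
    · -- the second factor
      apply e_val hqp.pos
      have hz : (((((t / (M : ℤ)) % (q : ℤ)).toNat : ℕ)) : ZMod q) = ((t / (M : ℤ) : ℤ) : ZMod q) := by
        have h2 := Int.emod_nonneg (t / (M : ℤ)) (show (q : ℤ) ≠ 0 by exact_mod_cast hqp.pos.ne')
        have h3 : ((((t / (M : ℤ)) % (q : ℤ)).toNat : ℕ) : ℤ) = (t / (M : ℤ)) % (q : ℤ) :=
          Int.toNat_of_nonneg h2
        have h4 : (((((t / (M : ℤ)) % (q : ℤ)).toNat : ℕ) : ℤ) : ZMod q) =
            (((t / (M : ℤ)) % (q : ℤ) : ℤ) : ZMod q) := by rw [h3]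
        rw [ZMod.intCast_mod] at h4
        exact_mod_cast h4
      rw [hz]
      simp only [hb]
      rw [← gcdB_eq_inv hcop]
      push_cast
      ring
  -- good primes
  set G : ℕ → Finset ℕ := fun M => (I0.filter (fun q =>
        δ / 4 * N ≤ ‖∑ s ∈ Fintype.piFinset B, F M q s‖)) \ Bad with hGdef
  have hGprop : ∀ M ∈ C2, G M ⊆ I0 ∧ δ * S0 / 8 ≤ ((G M).card : ℝ) ∧
      ∀ q ∈ G M, (t / (M : ℤ)) % (q : ℤ) ∈ Exc q := by
    intro M hM
    have hME : M ∈ E := hC2E hM
    have hBMM : BM M = B := (Finset.mem_filter.1 ((Finset.filter_subset _ _) hM)).2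
    refine ⟨?_, ?_, ?_⟩
    · exact Finset.sdiff_subset.trans (Finset.filter_subset _ _)
    · have h1 := hBM2 M hME
      rw [hBMM] at h1
      have h2 : ((I0.filter (fun q => δ / 4 * N ≤ ‖∑ s ∈ Fintype.piFinset B, F M q s‖)).card : ℝ) ≤
          ((G M).card : ℝ) + (Bad.card : ℝ) := by
        have := Finset.card_le_card_sdiff_add_card (t := Bad)
          (s := I0.filter (fun q => δ / 4 * N ≤ ‖∑ s ∈ Fintype.piFinset B, F M q s‖))
        exact_mod_cast this
      linarith only [hBadle, h1, h2]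
    · intro q hq
      have hq1 := Finset.mem_sdiff.1 hq
      have hq2 := Finset.mem_filter.1 hq1.1
      have hqp := (hI0 q hq2.1).1
      simp only [hExc]
      rw [if_neg hq1.2, Finset.mem_image]
      have h2 := Int.emod_nonneg (t / (M : ℤ)) (show (q : ℤ) ≠ 0 by exact_mod_cast hqp.pos.ne')
      have h3 := Int.emod_lt_of_pos (t / (M : ℤ)) (show (0 : ℤ) < q by exact_mod_cast hqp.pos)
      refine ⟨((t / (M : ℤ)) % (q : ℤ)).toNat, ?_, Int.toNat_of_nonneg h2⟩
      rw [Finset.mem_filter, Finset.mem_range]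
      refine ⟨by omega, ?_⟩
      rw [← hsum M hM q hq2.1]
      exact hq2.2
  -- greedy choice
  obtain ⟨QQ, hQQsub, hQQcard, C', hC'sub, hC'card, hC'res⟩ := hG I0 (fun M => t / (M : ℤ)) G Exc
    (δ * S0 / 8) S0 ex (by positivity) hI0c hex hExccard C2 hGprop hC2ne J (by linarith only [hJ])
  have hratio : δ * S0 / 8 / (2 * S0 * ex) = (16 * ex / δ)⁻¹ := by
    field_simp
    ring
  rw [hratio] at hC'card
  -- the class is small
  have hsmall : (C'.card : ℝ) ≤ X + 1 := by
    by_contra hlt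
    push Not at hlt
    have hC'E : C' ⊆ E := hC'sub.trans hC2E
    apply hE2 C' hC'E hlt.le
    have hΛ' : 4 * T ^ 2 < ((∏ q ∈ QQ, q : ℕ) : ℝ) := by
      refine lt_of_lt_of_le hΛ ?_
      rw [← hQQcard, ← Finset.prod_const]
      push_cast
      exact Finset.prod_le_prod (fun q _ => by linarith only [hP0]) fun q hq => (hI0 q (hQQsub hq)).2.1
    have hcard2 : 2 ≤ C'.card := by
      have : (2 : ℝ) ≤ (C'.card : ℝ) := by linarith only [hX, hlt]
      exact_mod_cast this
    exact hL T t C' (∏ q ∈ QQ, q) hT (fun M hM => ⟨(hE1 M (hC'E hM)).1, (hE1 M (hC'E hM)).2.1⟩) hΛ'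
      (fun M hM M' hM' => prod_dvd_of_mod_eq QQ (fun q hq => (hI0 q (hQQsub hq)).1)
        (fun q hq => hC'res M hM M' hM' q hq)) hcard2
  -- conclusion
  have hprodpos : 0 < ∏ j, (2 * P j) := Finset.prod_pos fun j _ => by linarith only [hP j, hP]
  have hexpos : 0 < 16 * ex / δ := by positivity
  have hC2le : (C2.card : ℝ) ≤ (16 * ex / δ) ^ J * (X + 1) := by
    rw [inv_pow] at hC'card
    have h1 : (C2.card : ℝ) ≤ (16 * ex / δ) ^ J * (C'.card : ℝ) := by
      have h2 : (0 : ℝ) < (16 * ex / δ) ^ J := by positivity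
      calc (C2.card : ℝ) = (16 * ex / δ) ^ J * ((C2.card : ℝ) * ((16 * ex / δ) ^ J)⁻¹) := by
            field_simp
        _ ≤ _ := mul_le_mul_of_nonneg_left hC'card h2.le
    exact h1.trans (mul_le_mul_of_nonneg_left hsmall (by positivity))
  calc (E.card : ℝ) ≤ (∏ j, (2 * P j)) * (C1.card : ℝ) := hC1
    _ ≤ (∏ j, (2 * P j)) * ((∏ j, (2 * P j)) ^ n0 * (C2.card : ℝ)) :=
        mul_le_mul_of_nonneg_left hC2 hprodpos.le
    _ ≤ (∏ j, (2 * P j)) * ((∏ j, (2 * P j)) ^ n0 * ((16 * ex / δ) ^ J * (X + 1))) := by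
        gcongr
    _ = _ := by rw [pow_succ]; ring

end Vale.Agent.P013.J
end

section

/-!
# Inverse theorem: assembly
-/

open Finset Real

namespace Vale.Agent.P013.J

/-- splitting off the smallest scale -/
theorem boxSum_succ (r : ℕ) (I : ℕ → Finset ℕ) (f : ℕ → ℂ) :
    boxSum r I f = ∑ q ∈ I 0, ∑ s ∈ Fintype.piFinset (fun j : Fin r => I (j + 1)),
      f (q * ∏ j, s j) := by
  unfold boxSum
  rw [← Finset.sum_product']
  refine Finset.sum_nbij' (fun s => (s 0, fun j : Fin r => s j.succ))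
    (fun qs => Fin.cons qs.1 qs.2) ?_ ?_ ?_ ?_ ?_
  · intro s hs
    rw [Fintype.mem_piFinset] at hs
    rw [Finset.mem_product, Fintype.mem_piFinset]
    exact ⟨by simpa using hs 0, fun j => by simpa using hs j.succ⟩
  · intro qs hqs
    rw [Finset.mem_product, Fintype.mem_piFinset] at hqs
    rw [Fintype.mem_piFinset]
    intro j
    refine Fin.cases ?_ (fun j => ?_) j
    · simpa using hqs.1
    · simpa using hqs.2 j
  · intro s _
    funext j
    refine Fin.cases ?_ (fun j => ?_) j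
    · simp
    · simp
  · intro qs _
    simp
  · intro s _
    rw [Fin.prod_univ_succ]

/-- the inverse theorem from its lemmas -/
theorem inverse_of (hR : RelCountStmt) (hM : MomentStmt) (hB : BlockStmt) (hL : LineStmt)
    (hG : GreedyStmt) (hPar : ParamStmt) : InverseStmt := by
  classical
  intro A hA
  obtain ⟨r, y₀, hy₀⟩ := hPar A hA
  refine ⟨r, y₀, ?_⟩
  intro y hy P S I hP hS hI T hT1 hT2 t
  obtain ⟨k, n0, J, w, ex, hk, hn0, hδ, hP0, hP1, hcross, hS0, hS1, hleft, hsep, hw, hwb, hex, hmom,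
    hJ, hT, hΛ, hfin⟩ := hy₀ y hy P S hP (fun j hj => (hS j hj).1) T hT1 hT2
  set X : ℝ := T ^ (0.8 : ℝ) with hX
  have hX1 : 1 ≤ X := Real.one_le_rpow hT (by norm_num)
  have hTpos : 0 < T := by linarith only [hT]
  -- the exceptional set
  set E : Finset ℕ := (Icc 1 ⌊2 * T⌋₊).filter (fun M : ℕ => T ≤ (M : ℝ) ∧
      (log y) ^ (-A) * ∏ j ∈ range (r + 1), S j ≤
        ‖boxSum r I (fun s => e (((t / (M : ℤ) : ℤ) : ℝ) / (s : ℝ)))‖ ∧
      ¬ ∃ u c : ℤ, 1 ≤ u ∧ (u : ℝ) ≤ T ^ (0.2 : ℝ) ∧ |(c : ℝ)| ≤ 6 * T ^ (1.2 : ℝ) ∧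
        (M : ℤ) ∣ u * t - c ∧
        T ^ (0.8 : ℝ) ≤ (((Icc 1 ⌊2 * T⌋₊).filter
          (fun M' : ℕ => T ≤ (M' : ℝ) ∧ (M' : ℤ) ∣ u * t - c)).card : ℝ)) with hE
  refine ⟨E, ?_, ?_⟩
  · refine le_trans ?_ hfin
    refine inv_core hR hM hB hL hG r k n0 J (P 0) (S 0) ((log y) ^ (-A)) w ex T X
      (fun j => P (j + 1)) (fun j => S (j + 1)) (I 0) (fun j => I (j + 1)) t hk hn0 hδ hP0 hP1 hS0
      (hI 0 (Nat.zero_le _)) (hS 0 (Nat.zero_le _)).2 (fun j => hI (j + 1) j.2)
      (fun j => ⟨hS1 j, (hS (j + 1) j.2).2⟩) hcross hleft hsep hw hwb hex hmom hJ hT hΛ hX1 E ?_ ?_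
    · intro M hM
      have hM' := Finset.mem_filter.1 hM
      have hMI := Finset.mem_Icc.1 hM'.1
      refine ⟨hM'.2.1, ?_, ?_⟩
      · have := Nat.floor_le (show 0 ≤ 2 * T by linarith only [hT])
        have h2 : (M : ℝ) ≤ (⌊2 * T⌋₊ : ℝ) := by exact_mod_cast hMI.2
        linarith only [this, h2]
      · have h1 := hM'.2.2.1
        rw [boxSum_succ, Finset.prod_range_succ'] at h1
        have h2 : S 0 * ∏ j : Fin r, S (j + 1) = (∏ i ∈ range r, S (i + 1)) * S 0 := by
          rw [← Fin.prod_univ_eq_prod_range (fun i => S (i + 1)), mul_comm]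
        rw [h2]
        refine h1.trans (le_of_eq ?_)
        congr 1
        apply Finset.sum_congr rfl
        intro q _
        apply Finset.sum_congr rfl
        intro s _
        congr 2
        push_cast
        rfl
    · intro C hCE hCcard ⟨u, c, hu1, hu2, hc, hdiv⟩
      have hc1 : X ≤ (C.card : ℝ) - 1 := by linarith only [hCcard]
      have hne : C.Nonempty := by
        rw [← Finset.card_pos]
        have : (0 : ℝ) < (C.card : ℝ) := by linarith only [hX1, hCcard]
        exact_mod_cast this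
      obtain ⟨M, hM⟩ := hne
      have hME := (Finset.mem_filter.1 (hCE hM)).2.2.2
      apply hME
      have hu0 : (1 : ℝ) ≤ (u : ℝ) := by exact_mod_cast hu1
      refine ⟨u, c, hu1, ?_, ?_, hdiv M hM, ?_⟩
      · have h1 : (u : ℝ) * X ≤ T := le_trans (mul_le_mul_of_nonneg_left hc1 (by linarith only [hu0])) hu2
        have h2 : T = T ^ (0.2 : ℝ) * X := by
          rw [hX, ← Real.rpow_add hTpos]
          norm_num
        rw [h2] at h1
        exact le_of_mul_le_mul_right (by rwa [← h2] at h1 ⊢) (by linarith only [hX1])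
      · have h1 : |(c : ℝ)| * X ≤ 6 * T ^ 2 :=
          le_trans (mul_le_mul_of_nonneg_left hc1 (abs_nonneg _)) hc
        have h2 : 6 * T ^ 2 = 6 * T ^ (1.2 : ℝ) * X := by
          rw [hX, mul_assoc, ← Real.rpow_add hTpos]
          norm_num
        rw [h2] at h1
        exact le_of_mul_le_mul_right h1 (by linarith only [hX1])
      · refine le_trans (show T ^ (0.8 : ℝ) ≤ (C.card : ℝ) by linarith only [hX, hCcard]) ?_
        have : C ⊆ (Icc 1 ⌊2 * T⌋₊).filter
            (fun M' : ℕ => T ≤ (M' : ℝ) ∧ (M' : ℤ) ∣ u * t - c) := by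
          intro M' hM'
          have h3 := Finset.mem_filter.1 (hCE hM')
          rw [Finset.mem_filter]
          exact ⟨h3.1, h3.2.1, hdiv M' hM'⟩
        exact_mod_cast Finset.card_le_card this
  · intro M hM1 hM2 hME hbig
    by_contra hno
    apply hME
    rw [hE, Finset.mem_filter, Finset.mem_Icc]
    refine ⟨⟨?_, Nat.le_floor hM2⟩, hM1, hbig, hno⟩
    have : (0 : ℝ) < (M : ℝ) := by linarith only [hT, hM1]
    have h4 : 0 < M := by exact_mod_cast this
    omega

end Vale.Agent.P013.J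
end

section

/-!
# Inverse theorem: exact relations (statement I1a)
-/

open Finset Real

namespace Vale.Agent.P013.J

/-- One step: the terms whose largest prime is `p0` cancel among themselves. -/
theorem exactRel_key {ι : Type} [DecidableEq ι] (U : Finset ι) (a : ι → ℤ) (m p : ι → ℕ)
    (p0 : ℕ) (hp0 : p0.Prime) (B : ℝ) (hB : 1 ≤ B)
    (hp : ∀ i ∈ U, (p i).Prime) (hm : ∀ i ∈ U, 1 ≤ m i ∧ (m i : ℝ) ≤ B)
    (hlt : (∑ i ∈ U, |(a i : ℝ)|) * B ^ U.card < (p0 : ℝ))
    (h0 : ∑ i ∈ U, (a i : ℚ) / ((m i * p i : ℕ) : ℚ) = 0) :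
    ∑ i ∈ U.filter (fun i => p i = p0), (a i : ℚ) / (m i : ℚ) = 0 := by
  classical
  have hD : ∀ i ∈ U, (∏ k ∈ U.erase i, m k) * m i = ∏ k ∈ U, m k := fun i hi =>
    Finset.prod_erase_mul _ _ hi
  have hDq : ∀ i ∈ U, ((∏ k ∈ U.erase i, m k : ℕ) : ℚ) * (m i : ℚ) = ((∏ k ∈ U, m k : ℕ) : ℚ) :=
    fun i hi => by exact_mod_cast hD i hi
  have hm0 : ∀ i ∈ U, (m i : ℚ) ≠ 0 := fun i hi => by
    have := (hm i hi).1
    exact_mod_cast (show m i ≠ 0 by omega)
  have hp00 : (p0 : ℚ) ≠ 0 := by exact_mod_cast hp0.ne_zero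
  have hpi0 : ∀ i ∈ U, (p i : ℚ) ≠ 0 := fun i hi => by exact_mod_cast (hp i hi).ne_zero
  have hDen0 : ((∏ k ∈ U, m k : ℕ) : ℚ) ≠ 0 := by
    have : (∏ k ∈ U, m k) ≠ 0 := Finset.prod_ne_zero_iff.2 (fun i hi => by
      have := (hm i hi).1
      omega)
    exact_mod_cast this
  set U1 := U.filter (fun i => p i = p0) with hU1
  set U2 := U.filter (fun i => ¬ p i = p0) with hU2
  have hU1U : ∀ i ∈ U1, i ∈ U ∧ p i = p0 := fun i hi => Finset.mem_filter.1 hi
  have hU2U : ∀ i ∈ U2, i ∈ U ∧ ¬ p i = p0 := fun i hi => Finset.mem_filter.1 hi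
  set Den : ℕ := ∏ k ∈ U, m k with hDen
  set X : ℤ := ∑ i ∈ U1, a i * ((∏ k ∈ U.erase i, m k : ℕ) : ℤ) with hX
  have hXq : (X : ℚ) = Den * ∑ i ∈ U1, (a i : ℚ) / (m i : ℚ) := by
    rw [hX, Int.cast_sum, Finset.mul_sum]
    apply Finset.sum_congr rfl
    intro i hi
    have h1 := hDq i (hU1U i hi).1
    have h2 := hm0 i (hU1U i hi).1
    rw [← h1]
    push_cast
    field_simp
  set Pi : ℕ := ∏ i ∈ U2, p i with hPi
  have hPq : ∀ i ∈ U2, ((∏ k ∈ U2.erase i, p k : ℕ) : ℚ) * (p i : ℚ) = (Pi : ℚ) :=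
    fun i hi => by
      rw [hPi]
      exact_mod_cast Finset.prod_erase_mul _ _ hi
  have hcop : Nat.Coprime p0 Pi := Nat.Coprime.prod_right (fun i hi =>
    (Nat.coprime_primes hp0 (hp i (hU2U i hi).1)).2 (fun h => (hU2U i hi).2 h.symm))
  set Y : ℤ := ∑ i ∈ U2, a i * ((∏ k ∈ U.erase i, m k : ℕ) : ℤ) *
    ((∏ k ∈ U2.erase i, p k : ℕ) : ℤ) with hY
  have hYq : (Y : ℚ) = Den * Pi * ∑ i ∈ U2, (a i : ℚ) / ((m i * p i : ℕ) : ℚ) := by
    rw [hY, Int.cast_sum, Finset.mul_sum]
    apply Finset.sum_congr rfl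
    intro i hi
    have h1 := hDq i (hU2U i hi).1
    have h2 := hm0 i (hU2U i hi).1
    have h3 := hPq i hi
    have h4 := hpi0 i (hU2U i hi).1
    rw [← h1, ← h3]
    push_cast
    field_simp
  have hsplit : ∑ i ∈ U1, (a i : ℚ) / ((m i * p i : ℕ) : ℚ) +
      ∑ i ∈ U2, (a i : ℚ) / ((m i * p i : ℕ) : ℚ) = 0 := by
    rw [← h0]
    exact Finset.sum_filter_add_sum_filter_not _ _ _
  have hU1s : ∑ i ∈ U1, (a i : ℚ) / ((m i * p i : ℕ) : ℚ) =
      (∑ i ∈ U1, (a i : ℚ) / (m i : ℚ)) / p0 := by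
    rw [Finset.sum_div]
    apply Finset.sum_congr rfl
    intro i hi
    rw [(hU1U i hi).2]
    push_cast
    rw [div_div]
  have hrelq : (Pi : ℚ) * X = - (p0 : ℚ) * Y := by
    rw [hXq, hYq]
    have h5 : ∑ i ∈ U2, (a i : ℚ) / ((m i * p i : ℕ) : ℚ) =
        - ((∑ i ∈ U1, (a i : ℚ) / (m i : ℚ)) / p0) := by
      rw [← hU1s]; linarith only [hsplit]
    rw [h5]
    field_simp
  have hrel : (Pi : ℤ) * X = - (p0 : ℤ) * Y := by exact_mod_cast hrelq
  have hdvd : (p0 : ℤ) ∣ X := by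
    have h1 : (p0 : ℤ) ∣ (Pi : ℤ) * X := ⟨-Y, by rw [hrel]; ring⟩
    have h2 : IsCoprime (p0 : ℤ) (Pi : ℤ) := Nat.isCoprime_iff_coprime.2 hcop
    exact h2.dvd_of_dvd_mul_left h1
  have hDle : ∀ i ∈ U, ((∏ k ∈ U.erase i, m k : ℕ) : ℝ) ≤ B ^ U.card := by
    intro i hi
    push_cast
    calc ∏ k ∈ U.erase i, (m k : ℝ) ≤ ∏ _k ∈ U.erase i, B :=
          Finset.prod_le_prod (fun k _ => Nat.cast_nonneg _)
            (fun k hk => (hm k (Finset.mem_of_mem_erase hk)).2)
      _ = B ^ (U.erase i).card := by rw [Finset.prod_const]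
      _ ≤ B ^ U.card := pow_le_pow_right₀ hB (Finset.card_le_card (Finset.erase_subset _ _))
  have habs : |(X : ℝ)| < (p0 : ℝ) := by
    refine lt_of_le_of_lt ?_ hlt
    rw [hX, Int.cast_sum, Finset.sum_mul]
    calc |∑ i ∈ U1, ((a i * ((∏ k ∈ U.erase i, m k : ℕ) : ℤ) : ℤ) : ℝ)|
        ≤ ∑ i ∈ U1, |((a i * ((∏ k ∈ U.erase i, m k : ℕ) : ℤ) : ℤ) : ℝ)| :=
          Finset.abs_sum_le_sum_abs _ _
      _ ≤ ∑ i ∈ U1, |(a i : ℝ)| * B ^ U.card := by
          apply Finset.sum_le_sum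
          intro i hi
          rw [Int.cast_mul, abs_mul, Int.cast_natCast, Nat.abs_cast]
          exact mul_le_mul_of_nonneg_left (hDle i (hU1U i hi).1) (abs_nonneg _)
      _ ≤ ∑ i ∈ U, |(a i : ℝ)| * B ^ U.card :=
          Finset.sum_le_sum_of_subset_of_nonneg (Finset.filter_subset _ _)
            (fun i _ _ => by positivity)
  have hX0 : X = 0 := Int.eq_zero_of_abs_lt_dvd hdvd (by exact_mod_cast habs)
  rw [hX0] at hXq
  have := hXq.symm
  rw [Int.cast_zero] at this
  exact (mul_eq_zero.1 this).resolve_left hDen0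

/-- Statement I1a. -/
theorem exactRel : ExactRelStmt := by
  intro ι _ r
  induction r with
  | zero =>
    intro P U a s _ _ _ h0 s0
    have hfil : U.filter (fun i => s i = s0) = U :=
      Finset.filter_true_of_mem (fun i _ => Subsingleton.elim _ _)
    rw [hfil]
    have : ((∑ i ∈ U, a i : ℤ) : ℚ) = 0 := by
      rw [Int.cast_sum, ← h0]
      apply Finset.sum_congr rfl
      intro i _
      simp
    exact_mod_cast this
  | succ r ih =>
    intro P U a s hs hlt hP h0 s0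
    -- the product over small indices
    have hprodlast : ∏ i ∈ univ.filter (fun i : Fin (r + 1) => i < Fin.last r), (2 * P i) =
        ∏ j : Fin r, (2 * P j.castSucc) := by
      rw [Finset.prod_filter, Fin.prod_univ_castSucc]
      simp [Fin.castSucc_lt_last]
    have hprodcast : ∀ j : Fin r,
        ∏ i ∈ univ.filter (fun i : Fin (r + 1) => i < j.castSucc), (2 * P i) =
        ∏ i ∈ univ.filter (fun i : Fin r => i < j), (2 * P i.castSucc) := by
      intro j
      rw [Finset.prod_filter, Fin.prod_univ_castSucc, Finset.prod_filter]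
      have : ¬ Fin.last r < j.castSucc := not_lt.2 (Fin.le_last _)
      simp [this]
    by_cases hne : (U.filter (fun i => s i (Fin.last r) = s0 (Fin.last r))).Nonempty
    swap
    · rw [Finset.not_nonempty_iff_eq_empty] at hne
      apply Finset.sum_eq_zero
      intro i hi
      exfalso
      rw [Finset.mem_filter] at hi
      have : i ∈ U.filter (fun i => s i (Fin.last r) = s0 (Fin.last r)) :=
        Finset.mem_filter.2 ⟨hi.1, by rw [hi.2]⟩
      rw [hne] at this
      exact absurd this (Finset.notMem_empty _)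
    obtain ⟨i0, hi0⟩ := hne
    rw [Finset.mem_filter] at hi0
    have hp0 : (s0 (Fin.last r)).Prime := hi0.2 ▸ (hs i0 hi0.1 (Fin.last r)).1
    have hPp0 : P (Fin.last r) ≤ (s0 (Fin.last r) : ℝ) := hi0.2 ▸ (hs i0 hi0.1 (Fin.last r)).2.1
    have hB : 1 ≤ ∏ j : Fin r, (2 * P j.castSucc) := by
      have : ∀ j ∈ (univ : Finset (Fin r)), (1 : ℝ) ≤ 2 * P j.castSucc := fun j _ => by
        have := hP j.castSucc
        linarith only [this]
      calc (1 : ℝ) = ∏ _j : Fin r, (1 : ℝ) := by simp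
        _ ≤ _ := Finset.prod_le_prod (fun _ _ => zero_le_one) this
    have hkey := exactRel_key U a (fun i => ∏ j : Fin r, s i j.castSucc)
      (fun i => s i (Fin.last r)) (s0 (Fin.last r)) hp0 (∏ j : Fin r, (2 * P j.castSucc)) hB
      (fun i hi => (hs i hi _).1)
      (fun i hi => by
        constructor
        · exact Nat.one_le_iff_ne_zero.2 (Finset.prod_ne_zero_iff.2
            (fun j _ => (hs i hi j.castSucc).1.ne_zero))
        · push_cast
          exact Finset.prod_le_prod (fun j _ => Nat.cast_nonneg _)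
            (fun j _ => (hs i hi j.castSucc).2.2))
      (by
        have := hlt (Fin.last r)
        rw [hprodlast] at this
        exact lt_of_lt_of_le this hPp0)
      (by
        rw [← h0]
        apply Finset.sum_congr rfl
        intro i _
        rw [Fin.prod_univ_castSucc])
    have hfilt : U.filter (fun i => s i = s0) =
        (U.filter (fun i => s i (Fin.last r) = s0 (Fin.last r))).filter
          (fun i => (fun j : Fin r => s i j.castSucc) = fun j : Fin r => s0 j.castSucc) := by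
      ext i
      simp only [Finset.mem_filter, and_assoc]
      constructor
      · rintro ⟨h1, h2⟩
        exact ⟨h1, by rw [h2], by rw [h2]⟩
      · rintro ⟨h1, h2, h3⟩
        refine ⟨h1, ?_⟩
        funext j
        refine Fin.lastCases h2 (fun j => ?_) j
        exact congrFun h3 j
    rw [hfilt]
    refine ih (fun j => P j.castSucc) _ a (fun i j => s i j.castSucc) ?_ ?_ ?_ hkey _
    · intro i hi j
      exact hs i (Finset.mem_filter.1 hi).1 j.castSucc
    · intro j
      refine lt_of_le_of_lt ?_ (hlt j.castSucc)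
      rw [hprodcast]
      have h1 : (1 : ℝ) ≤ ∏ i ∈ univ.filter (fun i : Fin r => i < j), (2 * P i.castSucc) := by
        have : ∀ j' ∈ univ.filter (fun i : Fin r => i < j), (1 : ℝ) ≤ 2 * P j'.castSucc :=
          fun j' _ => by
            have := hP j'.castSucc
            linarith only [this]
        calc (1 : ℝ) = ∏ _j ∈ univ.filter (fun i : Fin r => i < j), (1 : ℝ) := by simp
          _ ≤ _ := Finset.prod_le_prod (fun _ _ => zero_le_one) this
      refine mul_le_mul ?_ ?_ (by positivity) (Finset.sum_nonneg (fun _ _ => abs_nonneg _))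
      · exact Finset.sum_le_sum_of_subset_of_nonneg (Finset.filter_subset _ _)
          (fun _ _ _ => abs_nonneg _)
      · exact pow_le_pow_right₀ h1 (Finset.card_le_card (Finset.filter_subset _ _))
    · intro j
      exact hP j.castSucc

end Vale.Agent.P013.J
end

section

/-!
# Inverse theorem: counting of permutation pairs, and nonexact relations
-/

open Finset Real

namespace Vale.Agent.P013.J

lemma exists_perm_of_fibres {α : Type} [DecidableEq α] {k : ℕ} (f g : Fin k → α)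
    (h : ∀ x, (univ.filter (fun i => f i = x)).card = (univ.filter (fun i => g i = x)).card) :
    ∃ σ : Equiv.Perm (Fin k), g = f ∘ σ := by
  classical
  have hx : ∀ x, Nonempty ({i // g i = x} ≃ {i // f i = x}) := by
    intro x
    rw [← Fintype.card_eq, Fintype.card_subtype, Fintype.card_subtype, h x]
  let e1 : (x : α) → ({i // g i = x} ≃ {i // f i = x}) := fun x => (hx x).some
  refine ⟨(Equiv.sigmaFiberEquiv g).symm.trans
    ((Equiv.sigmaCongrRight e1).trans (Equiv.sigmaFiberEquiv f)), ?_⟩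
  funext i
  have h1 := (e1 (g i) ⟨i, rfl⟩).2
  simp only [Function.comp_apply, Equiv.trans_apply]
  exact h1.symm

theorem countPerm : CountPermStmt := by
  intro α _ TT k E hE
  classical
  have hs : ∀ fg ∈ E, ∃ σ : Equiv.Perm (Fin k), fg.2 = fg.1 ∘ σ := fun fg hfg =>
    exists_perm_of_fibres _ _ (hE fg hfg).2
  choose! σ hσ using hs
  have hcard : E.card ≤ (Fintype.piFinset (fun _ : Fin k => TT) ×ˢ
      (univ : Finset (Equiv.Perm (Fin k)))).card := by
    refine Finset.card_le_card_of_injOn (fun fg => (fg.1, σ fg)) ?_ ?_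
    · intro fg hfg
      simp only [coe_product, coe_univ, Set.mem_prod, Set.mem_univ, and_true, mem_coe,
        Fintype.mem_piFinset]
      exact (hE fg hfg).1
    · intro a ha b hb hab
      simp only [Prod.mk.injEq] at hab
      refine Prod.ext hab.1 ?_
      rw [hσ a ha, hσ b hb, hab.1, hab.2]
  refine hcard.trans (le_of_eq ?_)
  rw [card_product, Fintype.card_piFinset_const, card_univ, Fintype.card_perm, Fintype.card_fin,
    mul_comm]

lemma nonexact_aux {k : ℕ} (m n : Fin k → ℕ) (B : ℝ) (P0 : ℝ) (hP0 : 1 < P0) (hk : 1 ≤ k)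
    (hm : ∀ i, 1 ≤ m i) (hn : ∀ i, 1 ≤ n i)
    (hB : ((∏ i, m i : ℕ) : ℝ) * ((∏ i, n i : ℕ) : ℝ) ≤ B)
    (hne : ∑ i, 1 / ((m i : ℕ) : ℚ) ≠ ∑ i, 1 / ((n i : ℕ) : ℚ)) (Q : Finset ℕ)
    (hQ : ∀ q ∈ Q, q.Prime ∧ P0 ≤ (q : ℝ) ∧ (∀ i, ¬ q ∣ m i) ∧ (∀ i, ¬ q ∣ n i) ∧
      ∑ i, ((m i : ℕ) : ZMod q)⁻¹ = ∑ i, ((n i : ℕ) : ZMod q)⁻¹) :
    (Q.card : ℝ) * log P0 ≤ log k + log B := by
  classical
  set D : ℕ := (∏ i, m i) * ∏ i, n i with hD
  have hDpos : 0 < D := by
    rw [hD]
    exact Nat.mul_pos (Finset.prod_pos fun i _ => hm i) (Finset.prod_pos fun i _ => hn i)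
  have hmd : ∀ i, m i ∣ D := fun i =>
    (Finset.dvd_prod_of_mem m (mem_univ i)).mul_right _
  have hnd : ∀ i, n i ∣ D := fun i =>
    (Finset.dvd_prod_of_mem n (mem_univ i)).mul_left _
  set SA : ℕ := ∑ i, D / m i with hSA
  set SB : ℕ := ∑ i, D / n i with hSB
  set X : ℤ := (SA : ℤ) - (SB : ℤ) with hX
  have hcast : ∀ (F : Type) [Field F] (u : ℕ), u ∣ D → (u : F) ≠ 0 →
      ((D / u : ℕ) : F) = (D : F) * (u : F)⁻¹ := by
    intro F _ u hu hu0
    rw [Nat.cast_div hu hu0, div_eq_mul_inv]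
  have hSAF : ∀ (F : Type) [Field F], (∀ i, ((m i : ℕ) : F) ≠ 0) →
      (SA : F) = (D : F) * ∑ i, ((m i : ℕ) : F)⁻¹ := by
    intro F _ h
    rw [hSA, Nat.cast_sum, Finset.mul_sum]
    exact Finset.sum_congr rfl fun i _ => hcast F _ (hmd i) (h i)
  have hSBF : ∀ (F : Type) [Field F], (∀ i, ((n i : ℕ) : F) ≠ 0) →
      (SB : F) = (D : F) * ∑ i, ((n i : ℕ) : F)⁻¹ := by
    intro F _ h
    rw [hSB, Nat.cast_sum, Finset.mul_sum]
    exact Finset.sum_congr rfl fun i _ => hcast F _ (hnd i) (h i)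
  -- nonzero
  have hX0 : X ≠ 0 := by
    intro h0
    apply hne
    have hAB : SA = SB := by
      have := sub_eq_zero.1 (hX ▸ h0)
      exact_mod_cast this
    have hA := hSAF ℚ (fun i => by
      have := hm i
      positivity)
    have hB2 := hSBF ℚ (fun i => by
      have := hn i
      positivity)
    rw [hAB, hB2] at hA
    have h2 : (D : ℚ) ≠ 0 := by positivity
    have h3 := mul_left_cancel₀ h2 hA
    simp only [one_div]
    exact h3.symm
  -- bound
  have hXb : |(X : ℝ)| ≤ k * B := by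
    have hB' : (D : ℝ) ≤ B := by
      rw [hD]; push_cast at hB ⊢; exact hB
    have hs1 : (SA : ℝ) ≤ k * B := by
      rw [hSA, Nat.cast_sum]
      calc ∑ i : Fin k, ((D / m i : ℕ) : ℝ) ≤ ∑ i : Fin k, B := by
            refine Finset.sum_le_sum fun i _ => ?_
            exact le_trans (by exact_mod_cast Nat.div_le_self _ _) hB'
        _ = k * B := by simp
    have hs2 : (SB : ℝ) ≤ k * B := by
      rw [hSB, Nat.cast_sum]
      calc ∑ i : Fin k, ((D / n i : ℕ) : ℝ) ≤ ∑ i : Fin k, B := by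
            refine Finset.sum_le_sum fun i _ => ?_
            exact le_trans (by exact_mod_cast Nat.div_le_self _ _) hB'
        _ = k * B := by simp
    have hp1 : (0 : ℝ) ≤ (SA : ℝ) := Nat.cast_nonneg _
    have hp2 : (0 : ℝ) ≤ (SB : ℝ) := Nat.cast_nonneg _
    rw [hX, Int.cast_sub, Int.cast_natCast, Int.cast_natCast, abs_le]
    constructor <;> linarith only [hs2, hs1]
  -- divisibility
  have hdiv : ∀ q ∈ Q, (q : ℤ) ∣ X := by
    intro q hq
    obtain ⟨hqp, _, hqm, hqn, hsum⟩ := hQ q hq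
    have : Fact q.Prime := ⟨hqp⟩
    rw [← ZMod.intCast_zmod_eq_zero_iff_dvd, hX, Int.cast_sub, Int.cast_natCast, Int.cast_natCast,
      hSAF (ZMod q) (fun i => by rw [Ne, ZMod.natCast_eq_zero_iff]; exact hqm i),
      hSBF (ZMod q) (fun i => by rw [Ne, ZMod.natCast_eq_zero_iff]; exact hqn i), hsum, sub_self]
  have hprod : (∏ q ∈ Q, q) ∣ X.natAbs := by
    refine Finset.prod_primes_dvd _ (fun q hq => (hQ q hq).1.prime) (fun q hq => ?_)
    exact Int.natCast_dvd.1 (hdiv q hq)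
  have hle : ((∏ q ∈ Q, q : ℕ) : ℝ) ≤ |(X : ℝ)| := by
    have h1 : (∏ q ∈ Q, q) ≤ X.natAbs :=
      Nat.le_of_dvd (Int.natAbs_pos.2 hX0) hprod
    have h2 : ((X.natAbs : ℕ) : ℝ) = |(X : ℝ)| := by
      rw [Nat.cast_natAbs, Int.cast_abs]
    rw [← h2]
    exact_mod_cast h1
  have hpow : P0 ^ Q.card ≤ ((∏ q ∈ Q, q : ℕ) : ℝ) := by
    push_cast
    rw [← Finset.prod_const]
    exact Finset.prod_le_prod (fun q _ => by linarith only [hP0]) (fun q hq => (hQ q hq).2.1)
  have hfin : P0 ^ Q.card ≤ k * B := hpow.trans (hle.trans hXb)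
  have hDone : (1 : ℝ) ≤ D := by exact_mod_cast hDpos
  have hBpos : 0 < B := by
    have : (D : ℝ) ≤ B := by
      rw [hD]; push_cast at hB ⊢; exact hB
    linarith only [hDone, this]
  have hkpos : (0 : ℝ) < k := by exact_mod_cast hk
  have hlog := Real.log_le_log (by positivity) hfin
  rw [Real.log_pow, Real.log_mul hkpos.ne' hBpos.ne'] at hlog
  exact hlog

theorem nonexact : NonexactStmt := by
  intro r k P P0 f g hP0 hk hP hf hg hne Q hQ
  classical
  have hfp : ∀ i, ((∏ j, f i j : ℕ) : ℝ) ≤ ∏ j, (2 * P j) := by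
    intro i
    push_cast
    exact Finset.prod_le_prod (fun j _ => by positivity) (fun j _ => (hf i j).2)
  have hgp : ∀ i, ((∏ j, g i j : ℕ) : ℝ) ≤ ∏ j, (2 * P j) := by
    intro i
    push_cast
    exact Finset.prod_le_prod (fun j _ => by positivity) (fun j _ => (hg i j).2)
  have hWpos : 0 < ∏ j, (2 * P j) := Finset.prod_pos fun j _ => by
    have := hP j
    linarith only [this]
  have h1 : ((∏ i, (∏ j, f i j) : ℕ) : ℝ) ≤ (∏ j, (2 * P j)) ^ k := by
    push_cast
    calc (∏ i : Fin k, ∏ j, (f i j : ℝ)) ≤ ∏ i : Fin k, ∏ j, (2 * P j) := by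
          refine Finset.prod_le_prod (fun i _ => by positivity) (fun i _ => ?_)
          have := hfp i
          push_cast at this
          exact this
      _ = (∏ j, (2 * P j)) ^ k := by simp
  have h2 : ((∏ i, (∏ j, g i j) : ℕ) : ℝ) ≤ (∏ j, (2 * P j)) ^ k := by
    push_cast
    calc (∏ i : Fin k, ∏ j, (g i j : ℝ)) ≤ ∏ i : Fin k, ∏ j, (2 * P j) := by
          refine Finset.prod_le_prod (fun i _ => by positivity) (fun i _ => ?_)
          have := hgp i
          push_cast at this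
          exact this
      _ = (∏ j, (2 * P j)) ^ k := by simp
  have hq1 : ∀ q : ℕ, q.Prime → ∀ v : Fin r → ℕ, (∀ j, ¬ q ∣ v j) → ¬ q ∣ ∏ j, v j := by
    intro q hq v hv hd
    obtain ⟨j, _, hj⟩ := (Prime.dvd_finsetProd_iff hq.prime _).1 hd
    exact hv j hj
  have key := nonexact_aux (fun i => ∏ j, f i j) (fun i => ∏ j, g i j)
    ((∏ j, (2 * P j)) ^ k * (∏ j, (2 * P j)) ^ k) P0 hP0 hk
    (fun i => Nat.succ_le_of_lt (Finset.prod_pos fun j _ => (hf i j).1))
    (fun i => Nat.succ_le_of_lt (Finset.prod_pos fun j _ => (hg i j).1))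
    (mul_le_mul h1 h2 (by positivity) (by positivity)) hne Q
    (fun q hq => ⟨(hQ q hq).1, (hQ q hq).2.1,
      fun i => hq1 q (hQ q hq).1 _ ((hQ q hq).2.2.1 i),
      fun i => hq1 q (hQ q hq).1 _ ((hQ q hq).2.2.2.1 i), (hQ q hq).2.2.2.2⟩)
  refine key.trans (le_of_eq ?_)
  rw [← pow_add, Real.log_pow, Real.log_prod (fun j _ => by
    have := hP j
    positivity)]
  push_cast
  ring

end Vale.Agent.P013.J
end

section

/-!
# Inverse theorem: number of relations modulo `q` (`RelCountStmt`)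
-/

open Finset Real

namespace Vale.Agent.P013.J

/-- exact relations between reciprocals force equality of the multiplicities -/
lemma exact_fibres {r k : ℕ} {P : Fin r → ℝ} {B : Fin r → Finset ℕ} (hP1 : ∀ j, 1 ≤ P j)
    (hB : ∀ j, ∀ p ∈ B j, p.Prime ∧ P j ≤ (p : ℝ) ∧ (p : ℝ) ≤ 2 * P j)
    (hsep : ∀ j : Fin r,
      (2 * k : ℝ) * (∏ i ∈ univ.filter (fun i => i < j), (2 * P i)) ^ (2 * k) < P j)
    (f g : Fin k → Fin r → ℕ) (hf : ∀ i, f i ∈ Fintype.piFinset B)
    (hg : ∀ i, g i ∈ Fintype.piFinset B)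
    (h : ∑ i, 1 / ((∏ j, f i j : ℕ) : ℚ) = ∑ i, 1 / ((∏ j, g i j : ℕ) : ℚ)) (x : Fin r → ℕ) :
    (univ.filter (fun i => f i = x)).card = (univ.filter (fun i => g i = x)).card := by
  classical
  set U : Finset (Fin r → ℕ) := univ.image f ∪ univ.image g with hU
  set a : (Fin r → ℕ) → ℤ := fun x =>
    ((univ.filter (fun i => f i = x)).card : ℤ) - ((univ.filter (fun i => g i = x)).card : ℤ)
    with ha
  have hUcard : U.card ≤ 2 * k := by
    calc U.card ≤ (univ.image f).card + (univ.image g).card := card_union_le _ _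
      _ ≤ (univ : Finset (Fin k)).card + (univ : Finset (Fin k)).card :=
          Nat.add_le_add card_image_le card_image_le
      _ = 2 * k := by simp [two_mul]
  have hfU : ∀ i ∈ (univ : Finset (Fin k)), f i ∈ U := fun i _ =>
    mem_union_left _ (mem_image_of_mem _ (mem_univ i))
  have hgU : ∀ i ∈ (univ : Finset (Fin k)), g i ∈ U := fun i _ =>
    mem_union_right _ (mem_image_of_mem _ (mem_univ i))
  have hUB : ∀ x ∈ U, x ∈ Fintype.piFinset B := by
    intro x hx
    rw [hU, mem_union, mem_image, mem_image] at hx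
    rcases hx with ⟨i, _, rfl⟩ | ⟨i, _, rfl⟩
    · exact hf i
    · exact hg i
  have hcf : ∑ x ∈ U, ((univ.filter (fun i => f i = x)).card : ℝ) = k := by
    have := card_eq_sum_card_fiberwise (s := (univ : Finset (Fin k))) (t := U) (f := f) hfU
    rw [card_univ, Fintype.card_fin] at this
    exact_mod_cast this.symm
  have hcg : ∑ x ∈ U, ((univ.filter (fun i => g i = x)).card : ℝ) = k := by
    have := card_eq_sum_card_fiberwise (s := (univ : Finset (Fin k))) (t := U) (f := g) hgU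
    rw [card_univ, Fintype.card_fin] at this
    exact_mod_cast this.symm
  have hasum : ∑ x ∈ U, |(a x : ℝ)| ≤ 2 * k := by
    calc ∑ x ∈ U, |(a x : ℝ)|
        ≤ ∑ x ∈ U, (((univ.filter (fun i => f i = x)).card : ℝ) +
          ((univ.filter (fun i => g i = x)).card : ℝ)) := by
          apply sum_le_sum
          intro x _
          rw [ha]
          push_cast
          refine le_trans (abs_sub _ _) ?_
          simp
      _ = 2 * k := by rw [sum_add_distrib, hcf, hcg]; ring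
  have hfs : ∀ (φ : (Fin r → ℕ) → ℚ), ∑ i, φ (f i) =
      ∑ x ∈ U, ((univ.filter (fun i => f i = x)).card : ℚ) * φ x := by
    intro φ
    rw [← sum_fiberwise_of_maps_to (s := univ) (t := U) (g := f) hfU]
    apply sum_congr rfl
    intro x _
    rw [sum_congr rfl (g := fun _ => φ x)]
    · simp
    · intro j hj
      rw [mem_filter] at hj
      rw [hj.2]
  have hgs : ∀ (φ : (Fin r → ℕ) → ℚ), ∑ i, φ (g i) =
      ∑ x ∈ U, ((univ.filter (fun i => g i = x)).card : ℚ) * φ x := by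
    intro φ
    rw [← sum_fiberwise_of_maps_to (s := univ) (t := U) (g := g) hgU]
    apply sum_congr rfl
    intro x _
    rw [sum_congr rfl (g := fun _ => φ x)]
    · simp
    · intro j hj
      rw [mem_filter] at hj
      rw [hj.2]
  have hzero : ∑ x ∈ U, (a x : ℚ) / ((∏ j, x j : ℕ) : ℚ) = 0 := by
    have h1 := hfs (fun x => 1 / ((∏ j, x j : ℕ) : ℚ))
    have h2 := hgs (fun x => 1 / ((∏ j, x j : ℕ) : ℚ))
    rw [h1, h2] at h
    rw [← sub_eq_zero, ← sum_sub_distrib] at h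
    rw [← h]
    apply sum_congr rfl
    intro x _
    rw [ha]
    push_cast
    ring
  have hprod1 : ∀ j : Fin r, 1 ≤ ∏ i ∈ univ.filter (fun i => i < j), (2 * P i) := by
    intro j
    rw [← Finset.prod_const_one (s := univ.filter (fun i => i < j))]
    apply Finset.prod_le_prod
    · intro i _
      exact zero_le_one
    · intro i _
      have := hP1 i
      linarith only [this]
  have key := exactRel (Fin r → ℕ) r P U a (fun x => x)
    (fun x hx j => hB j _ (Fintype.mem_piFinset.mp (hUB x hx) j))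
    (by
      intro j
      refine lt_of_le_of_lt ?_ (hsep j)
      apply mul_le_mul hasum (pow_le_pow_right₀ (hprod1 j) hUcard)
      · exact pow_nonneg (by linarith [hprod1 j]) _
      · positivity)
    hP1 hzero x
  by_cases hx : x ∈ U
  · have h1 : U.filter (fun i => (fun x => x) i = x) = {x} := by
      ext y
      rw [mem_filter, mem_singleton]
      constructor
      · rintro ⟨_, h⟩
        exact h
      · rintro rfl
        exact ⟨hx, rfl⟩
    rw [h1, sum_singleton, ha] at key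
    simp only at key
    omega
  · have h1 : univ.filter (fun i => f i = x) = ∅ := by
      apply filter_eq_empty_iff.mpr
      intro i _ hi
      exact hx (hi ▸ hfU i (mem_univ i))
    have h2 : univ.filter (fun i => g i = x) = ∅ := by
      apply filter_eq_empty_iff.mpr
      intro i _ hi
      exact hx (hi ▸ hgU i (mem_univ i))
    rw [h1, h2]

/-- (I1 + I3) Number of relations modulo `q`, outside a small set of bad `q`. -/
theorem relCount : RelCountStmt := by
  classical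
  intro r k P P0 w θ B Q0 hk hP0 hθ hP1 hPP0 hB hQ0 hsep hw
  have hlogP0 : 0 < log P0 := log_pos hP0
  have hwk : 0 ≤ w := by
    have h1 : 0 ≤ log k := log_nonneg (by exact_mod_cast hk)
    have h2 : 0 ≤ 2 * k * ∑ j, log (2 * P j) := by
      apply mul_nonneg (by positivity)
      apply sum_nonneg
      intro j _
      apply log_nonneg
      have := hP1 j
      linarith
    have h3 : 0 ≤ w * log P0 := by linarith
    by_contra hneg
    push Not at hneg
    have := mul_neg_of_neg_of_pos hneg hlogP0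
    linarith
  set TT := Fintype.piFinset B with hTT
  have hTTcard : (TT.card : ℝ) = ∏ j, ((B j).card : ℝ) := by
    rw [hTT, Fintype.card_piFinset]
    push_cast
    rfl
  set PP := Fintype.piFinset (fun _ : Fin k => TT) ×ˢ Fintype.piFinset (fun _ : Fin k => TT)
    with hPP
  set E := PP.filter (fun fg => ∑ i, 1 / ((∏ j, fg.1 i j : ℕ) : ℚ) =
    ∑ i, 1 / ((∏ j, fg.2 i j : ℕ) : ℚ)) with hE
  set NE := PP.filter (fun fg => ¬ (∑ i, 1 / ((∏ j, fg.1 i j : ℕ) : ℚ) =
    ∑ i, 1 / ((∏ j, fg.2 i j : ℕ) : ℚ))) with hNE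
  have hmemPP : ∀ fg ∈ PP, (∀ i, fg.1 i ∈ TT) ∧ (∀ i, fg.2 i ∈ TT) := by
    intro fg hfg
    rw [hPP, mem_product] at hfg
    exact ⟨Fintype.mem_piFinset.mp hfg.1, Fintype.mem_piFinset.mp hfg.2⟩
  have hEcard : E.card ≤ k.factorial * TT.card ^ k := by
    apply countPerm (Fin r → ℕ) TT k E
    intro fg hfg
    rw [hE, mem_filter] at hfg
    obtain ⟨h1, h2⟩ := hmemPP fg hfg.1
    exact ⟨h1, fun x => exact_fibres hP1 hB hsep fg.1 fg.2 h1 h2 hfg.2 x⟩
  -- mod `q` equality
  set md : ℕ → (Fin k → Fin r → ℕ) × (Fin k → Fin r → ℕ) → Prop := fun q fg =>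
    ∑ i, ((∏ j, fg.1 i j : ℕ) : ZMod q)⁻¹ = ∑ i, ((∏ j, fg.2 i j : ℕ) : ZMod q)⁻¹ with hmd
  set nb : ℕ → ℕ := fun q => (NE.filter (fun fg => md q fg)).card with hnb
  have hdiv : ∀ q ∈ Q0, ∀ j, ∀ p ∈ B j, ¬ q ∣ p := by
    intro q hq j p hp hdvd
    obtain ⟨hq1, _, hq3⟩ := hQ0 q hq
    obtain ⟨hp1, hp2, _⟩ := hB j p hp
    have h1 := (Nat.prime_dvd_prime_iff_eq hq1 hp1).mp hdvd
    have h2 := hPP0 j
    rw [h1] at hq3
    linarith only [h2, hp2, hq3]
  have hone : ∀ fg ∈ NE, ((Q0.filter (fun q => md q fg)).card : ℝ) ≤ w := by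
    intro fg hfg
    rw [hNE, mem_filter] at hfg
    obtain ⟨h1, h2⟩ := hmemPP fg hfg.1
    have hb1 : ∀ i j, fg.1 i j ∈ B j := fun i j => Fintype.mem_piFinset.mp (h1 i) j
    have hb2 : ∀ i j, fg.2 i j ∈ B j := fun i j => Fintype.mem_piFinset.mp (h2 i) j
    have h3 := nonexact r k P P0 fg.1 fg.2 hP0 hk hP1
      (fun i j => ⟨(hB j _ (hb1 i j)).1.one_le, (hB j _ (hb1 i j)).2.2⟩)
      (fun i j => ⟨(hB j _ (hb2 i j)).1.one_le, (hB j _ (hb2 i j)).2.2⟩) hfg.2
      (Q0.filter (fun q => md q fg)) (by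
        intro q hq
        rw [mem_filter] at hq
        exact ⟨(hQ0 q hq.1).1, (hQ0 q hq.1).2.1, fun i j => hdiv q hq.1 j _ (hb1 i j),
          fun i j => hdiv q hq.1 j _ (hb2 i j), hq.2⟩)
    have h4 := le_trans h3 hw
    exact le_of_mul_le_mul_right h4 hlogP0
  have hdc : ∑ q ∈ Q0, (nb q : ℝ) ≤ NE.card * w := by
    calc ∑ q ∈ Q0, (nb q : ℝ)
        = ∑ q ∈ Q0, ∑ fg ∈ NE, (if md q fg then (1 : ℝ) else 0) := by
          apply sum_congr rfl
          intro q _
          simp only [hnb]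
          rw [card_filter]
          push_cast
          rfl
      _ = ∑ fg ∈ NE, ∑ q ∈ Q0, (if md q fg then (1 : ℝ) else 0) := sum_comm
      _ = ∑ fg ∈ NE, ((Q0.filter (fun q => md q fg)).card : ℝ) := by
          apply sum_congr rfl
          intro fg _
          rw [card_filter]
          push_cast
          rfl
      _ ≤ ∑ fg ∈ NE, w := sum_le_sum hone
      _ = NE.card * w := by rw [sum_const, nsmul_eq_mul]
  have hNEcard : (NE.card : ℝ) ≤ (∏ j, ((B j).card : ℝ)) ^ (2 * k) := by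
    have h1 : NE.card ≤ TT.card ^ (2 * k) := by
      calc NE.card ≤ PP.card := card_filter_le _ _
        _ = TT.card ^ (2 * k) := by
            rw [hPP, card_product, Fintype.card_piFinset]
            simp only [prod_const, card_univ, Fintype.card_fin]
            ring
    rw [← hTTcard]
    exact_mod_cast h1
  refine ⟨Q0.filter (fun q => θ < nb q), filter_subset _ _, ?_, ?_⟩
  · calc ((Q0.filter (fun q => θ < nb q)).card : ℝ) * θ
        = ∑ _q ∈ Q0.filter (fun q => θ < nb q), θ := by rw [sum_const, nsmul_eq_mul]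
      _ ≤ ∑ q ∈ Q0.filter (fun q => θ < nb q), (nb q : ℝ) := by
          apply sum_le_sum
          intro q hq
          rw [mem_filter] at hq
          exact hq.2.le
      _ ≤ ∑ q ∈ Q0, (nb q : ℝ) := by
          apply sum_le_sum_of_subset_of_nonneg (filter_subset _ _)
          intro q _ _
          (clear * -; positivity)
      _ ≤ NE.card * w := hdc
      _ ≤ (∏ j, ((B j).card : ℝ)) ^ (2 * k) * w := mul_le_mul_of_nonneg_right hNEcard hwk
  · intro q hqQ hq2
    have hnbq : (nb q : ℝ) ≤ θ := by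
      by_contra h
      push Not at h
      exact hq2 (mem_filter.mpr ⟨hqQ, h⟩)
    have hsub : PP.filter (fun fg => md q fg) ⊆ E ∪ NE.filter (fun fg => md q fg) := by
      intro fg hfg
      rw [mem_filter] at hfg
      rw [mem_union]
      by_cases hex : ∑ i, 1 / ((∏ j, fg.1 i j : ℕ) : ℚ) = ∑ i, 1 / ((∏ j, fg.2 i j : ℕ) : ℚ)
      · left
        rw [hE, mem_filter]
        exact ⟨hfg.1, hex⟩
      · right
        rw [mem_filter, hNE, mem_filter]
        exact ⟨⟨hfg.1, hex⟩, hfg.2⟩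
    have h1 := le_trans (card_le_card hsub) (card_union_le _ _)
    have h2 : ((PP.filter (fun fg => md q fg)).card : ℝ) ≤
        ((k.factorial * TT.card ^ k + nb q : ℕ) : ℝ) := by
      exact_mod_cast le_trans h1 (Nat.add_le_add_right hEcard _)
    push_cast at h2
    rw [hTTcard] at h2
    have h3 : ((PP.filter (fun fg => md q fg)).card : ℝ) ≤
      k.factorial * (∏ j, ((B j).card : ℝ)) ^ k + θ := by linarith only [h2, hnbq]
    exact h3

end Vale.Agent.P013.J
end

section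

/-!
# Inverse theorem: collinearity and the greedy choice of primes
-/

open Finset Real

namespace Vale.Agent.P013.J

/-- (I6) Collinearity. -/
theorem line : LineStmt := by
  intro T t C Λ hT hC hΛ hdiv hcard
  have hT0 : 0 < T := by linarith
  have hCne : C.Nonempty := by
    rw [← Finset.card_pos]; omega
  -- residues
  set R : ℕ → ℤ := fun M => t % (M : ℤ) with hR
  have hpos : ∀ M ∈ C, (0 : ℤ) < (M : ℤ) := by
    intro M hM
    have h1 := (hC M hM).1
    have h2 : (0 : ℝ) < (M : ℝ) := by linarith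
    exact_mod_cast h2
  have hR0 : ∀ M ∈ C, 0 ≤ R M := fun M hM => Int.emod_nonneg _ (hpos M hM).ne'
  have hR1 : ∀ M ∈ C, R M < M := fun M hM => Int.emod_lt_of_pos _ (hpos M hM)
  have hRt : ∀ M, t = R M + M * (t / (M : ℤ)) := fun M => (Int.emod_add_mul_ediv t M).symm
  have hRr : ∀ M ∈ C, (0 : ℝ) ≤ (R M : ℝ) ∧ (R M : ℝ) ≤ 2 * T := by
    intro M hM
    refine ⟨by exact_mod_cast hR0 M hM, ?_⟩
    have h1 : (R M : ℝ) < (M : ℝ) := by exact_mod_cast hR1 M hM
    linarith [(hC M hM).2]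
  -- collinearity
  have hcol : ∀ M ∈ C, ∀ M' ∈ C, ∀ M'' ∈ C,
      (R M - R M') * ((M : ℤ) - M'') - (R M - R M'') * ((M : ℤ) - M') = 0 := by
    intro M hM M' hM' M'' hM''
    refine Int.eq_zero_of_abs_lt_dvd (m := (Λ : ℤ)) ?_ ?_
    · obtain ⟨x, hx⟩ := hdiv M hM M' hM'
      obtain ⟨y, hy⟩ := hdiv M hM M'' hM''
      have e1 := hRt M
      have e2 := hRt M'
      have e3 := hRt M''
      have f1 : R M - R M' = -(((M : ℤ) - M') * (t / (M : ℤ))) - M' * (Λ * x) := by
        rw [← hx]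
        linear_combination e2 - e1
      have f2 : R M - R M'' = -(((M : ℤ) - M'') * (t / (M : ℤ))) - M'' * (Λ * y) := by
        rw [← hy]
        linear_combination e3 - e1
      rw [f1, f2]
      exact ⟨-(M' * x * ((M : ℤ) - M'')) + M'' * y * ((M : ℤ) - M'), by ring⟩
    · have h1 := hRr M hM
      have h2 := hRr M' hM'
      have h3 := hRr M'' hM''
      have m1 := hC M hM
      have m2 := hC M' hM'
      have m3 := hC M'' hM''
      have a1 : |(R M : ℝ) - R M'| ≤ 2 * T := abs_le.2 ⟨by linarith, by linarith⟩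
      have a2 : |(R M : ℝ) - R M''| ≤ 2 * T := abs_le.2 ⟨by linarith, by linarith⟩
      have a3 : |(M : ℝ) - M''| ≤ T := abs_le.2 ⟨by linarith, by linarith⟩
      have a4 : |(M : ℝ) - M'| ≤ T := abs_le.2 ⟨by linarith, by linarith⟩
      have h4 : |((R M : ℝ) - R M') * ((M : ℝ) - M'') - ((R M : ℝ) - R M'') * ((M : ℝ) - M')|
          < (Λ : ℝ) := by
        calc |((R M : ℝ) - R M') * ((M : ℝ) - M'') - ((R M : ℝ) - R M'') * ((M : ℝ) - M')|
            ≤ |((R M : ℝ) - R M') * ((M : ℝ) - M'')| + |((R M : ℝ) - R M'') * ((M : ℝ) - M')| :=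
              abs_sub _ _
          _ = |(R M : ℝ) - R M'| * |(M : ℝ) - M''| + |(R M : ℝ) - R M''| * |(M : ℝ) - M'| := by
              rw [abs_mul, abs_mul]
          _ ≤ 2 * T * T + 2 * T * T := by gcongr
          _ = 4 * T ^ 2 := by ring
          _ < Λ := hΛ
      have h5 : ((|(R M - R M') * ((M : ℤ) - M'') - (R M - R M'') * ((M : ℤ) - M')| : ℤ) : ℝ)
          < ((Λ : ℤ) : ℝ) := by
        push_cast
        exact h4
      exact_mod_cast h5
  -- the extreme elements
  obtain ⟨M0, hM0, hmin⟩ := C.exists_min_image (fun M => M) hCne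
  obtain ⟨M1, hM1, hne⟩ : ∃ M1 ∈ C, M1 ≠ M0 := by
    by_contra hcon
    push Not at hcon
    have : C ⊆ {M0} := fun x hx => Finset.mem_singleton.2 (hcon x hx)
    have := Finset.card_le_card this
    rw [Finset.card_singleton] at this
    omega
  have hlt : M0 < M1 := lt_of_le_of_ne (hmin M1 hM1) (Ne.symm hne)
  set a : ℤ := (M1 : ℤ) - M0 with ha
  set b : ℤ := R M1 - R M0 with hb
  have ha0 : 0 < a := by
    rw [ha]
    have : (M0 : ℤ) < M1 := by exact_mod_cast hlt
    linarith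
  have hg0 : 0 < (Int.gcd a b : ℤ) := by
    have : Int.gcd a b ≠ 0 := by
      intro h0
      rw [Int.gcd_eq_zero_iff] at h0
      omega
    omega
  obtain ⟨u, hu⟩ := Int.gcd_dvd_left (a := a) (b := b)
  obtain ⟨v, hv⟩ := Int.gcd_dvd_right (a := a) (b := b)
  have hu0 : 0 < u := by
    by_contra hcon
    push Not at hcon
    have : a ≤ 0 := by
      rw [hu]
      exact mul_nonpos_of_nonneg_of_nonpos hg0.le hcon
    linarith only [this, ha0]
  have hcop : IsCoprime u v := by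
    rw [Int.isCoprime_iff_gcd_eq_one]
    have h1 : Int.gcd a b = Int.gcd ((Int.gcd a b : ℤ) * u) ((Int.gcd a b : ℤ) * v) := by
      rw [← hu, ← hv]
    rw [Int.gcd_mul_left, Int.natAbs_natCast] at h1
    have h2 : 0 < Int.gcd a b := by exact_mod_cast hg0
    have h3 : Int.gcd a b * 1 = Int.gcd a b * Int.gcd u v := by rw [mul_one]; exact h1
    exact (Nat.eq_of_mul_eq_mul_left h2 h3).symm
  -- coordinates on the line
  have hs : ∀ M : ℕ, ∃ s : ℕ, M ∈ C → (M : ℤ) - M0 = s * u ∧ R M - R M0 = s * v := by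
    intro M
    by_cases hM : M ∈ C
    · have h1 := hcol M0 hM0 M1 hM1 M hM
      have h2 : b * ((M : ℤ) - M0) = (R M - R M0) * a := by
        rw [hb, ha]
        linear_combination h1
      have h3 : v * ((M : ℤ) - M0) = (R M - R M0) * u := by
        have h4 : (Int.gcd a b : ℤ) * (v * ((M : ℤ) - M0))
            = (Int.gcd a b : ℤ) * ((R M - R M0) * u) := by
          calc (Int.gcd a b : ℤ) * (v * ((M : ℤ) - M0))
              = ((Int.gcd a b : ℤ) * v) * ((M : ℤ) - M0) := by ring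
            _ = b * ((M : ℤ) - M0) := by rw [← hv]
            _ = (R M - R M0) * a := h2
            _ = (R M - R M0) * ((Int.gcd a b : ℤ) * u) := by rw [← hu]
            _ = _ := by ring
        exact mul_left_cancel₀ hg0.ne' h4
      have h5 : u ∣ v * ((M : ℤ) - M0) := ⟨R M - R M0, by rw [h3]; ring⟩
      obtain ⟨s, hs⟩ := hcop.dvd_of_dvd_mul_left h5
      have hs0 : 0 ≤ s := by
        by_contra hcon
        push Not at hcon
        have h6 : (0 : ℤ) ≤ (M : ℤ) - M0 := by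
          have : (M0 : ℤ) ≤ M := by exact_mod_cast hmin M hM
          linarith
        rw [hs] at h6
        linarith only [mul_pos (sub_pos.2 hu0) (sub_pos.2 hcon), h6, hcon, hu0]
      refine ⟨s.toNat, fun _ => ?_⟩
      rw [Int.toNat_of_nonneg hs0]
      refine ⟨by rw [hs]; ring, ?_⟩
      rw [hs] at h3
      have h7 : u * (R M - R M0) = u * (s * v) := by linear_combination -h3
      exact mul_left_cancel₀ hu0.ne' h7
    · exact ⟨0, fun h => absurd h hM⟩
  choose s hs using hs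
  have hinj : Set.InjOn s C := by
    intro M hM M' hM' h
    have h1 := (hs M hM).1
    have h2 := (hs M' hM').1
    rw [h] at h1
    have h3 : (M : ℤ) = M' := by linarith
    exact_mod_cast h3
  obtain ⟨M2, hM2, hs2⟩ : ∃ M ∈ C, C.card - 1 ≤ s M := by
    by_contra hcon
    push Not at hcon
    have hmaps : Set.MapsTo s C (Finset.range (C.card - 1) : Set ℕ) := by
      intro M hM
      simp only [Finset.coe_range, Set.mem_Iio]
      exact hcon M hM
    have := Finset.card_le_card_of_injOn s (by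
      intro M hM
      exact hmaps hM) hinj
    rw [Finset.card_range] at this
    omega
  have hs2' : (C.card : ℝ) - 1 ≤ (s M2 : ℝ) := by
    have : C.card ≤ s M2 + 1 := by omega
    have h1 : (C.card : ℝ) ≤ (s M2 : ℝ) + 1 := by exact_mod_cast this
    linarith only [h1]
  have hc0 : (0 : ℝ) ≤ (C.card : ℝ) - 1 := by
    have : (2 : ℝ) ≤ (C.card : ℝ) := by exact_mod_cast hcard
    linarith only [this]
  have hur : (0 : ℝ) < (u : ℝ) := by exact_mod_cast hu0
  have hub : (u : ℝ) * ((C.card : ℝ) - 1) ≤ T := by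
    have h1 : ((M2 : ℝ) - M0) = (s M2 : ℝ) * u := by exact_mod_cast (hs M2 hM2).1
    have h2 := (hC M2 hM2).2
    have h3 := (hC M0 hM0).1
    calc (u : ℝ) * ((C.card : ℝ) - 1) ≤ u * s M2 := by gcongr
      _ = (M2 : ℝ) - M0 := by rw [h1]; ring
      _ ≤ T := by linarith only [h3, h2]
  have hvb : |(v : ℝ)| * ((C.card : ℝ) - 1) ≤ 2 * T := by
    have h1 : ((R M2 : ℝ) - R M0) = (s M2 : ℝ) * v := by exact_mod_cast (hs M2 hM2).2
    have h2 := hRr M2 hM2
    have h3 := hRr M0 hM0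
    calc |(v : ℝ)| * ((C.card : ℝ) - 1) ≤ |(v : ℝ)| * s M2 := by gcongr
      _ = |(s M2 : ℝ) * v| := by
          rw [abs_mul, abs_of_nonneg (Nat.cast_nonneg (s M2) : (0 : ℝ) ≤ (s M2 : ℝ))]; ring
      _ = |(R M2 : ℝ) - R M0| := by rw [h1]
      _ ≤ 2 * T := abs_le.2 ⟨by linarith, by linarith⟩
  refine ⟨u, u * R M0 - v * M0, hu0, hub, ?_, ?_⟩
  · have h3 := hRr M0 hM0
    have h4 := (hC M0 hM0).2
    have h5 : (0 : ℝ) ≤ (M0 : ℝ) := Nat.cast_nonneg _
    push_cast
    have h6 : |(u : ℝ) * (R M0 : ℝ) - v * M0| ≤ u * R M0 + |(v : ℝ)| * M0 := by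
      refine (abs_sub _ _).trans ?_
      rw [abs_mul, abs_mul, abs_of_pos hur, abs_of_nonneg h3.1, abs_of_nonneg h5]
    calc |(u : ℝ) * (R M0 : ℝ) - v * M0| * ((C.card : ℝ) - 1)
        ≤ (u * R M0 + |(v : ℝ)| * M0) * ((C.card : ℝ) - 1) := by gcongr
      _ = (u * ((C.card : ℝ) - 1)) * R M0 + (|(v : ℝ)| * ((C.card : ℝ) - 1)) * M0 := by ring
      _ ≤ T * (2 * T) + 2 * T * (2 * T) := by
          gcongr
          · exact h3.1
          · exact h3.2
      _ = 6 * T ^ 2 := by ring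
  · intro M hM
    obtain ⟨h1, h2⟩ := hs M hM
    refine ⟨v + u * (t / (M : ℤ)), ?_⟩
    have e1 := hRt M
    have h3 : u * (R M - R M0) = v * ((M : ℤ) - M0) := by rw [h1, h2]; ring
    linear_combination u * e1 + h3

/-- (I5e) Greedy choice of primes `q` with common residues. -/
theorem greedy : GreedyStmt := by
  intro Q τ G Exc g S e hg hS he hExc C hC hCne J
  classical
  have hS0 : 0 < S := by
    obtain ⟨M, hM⟩ := hCne
    obtain ⟨h1, h2, -⟩ := hC M hM
    have h3 : ((G M).card : ℝ) ≤ (Q.card : ℝ) := by exact_mod_cast Finset.card_le_card h1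
    linarith
  have he0 : 0 < e := by linarith
  set ρ : ℝ := g / (2 * S * e) with hρ
  have hρ0 : 0 < ρ := by positivity
  induction J with
  | zero =>
    intro _
    refine ⟨∅, Finset.empty_subset _, rfl, C, Finset.Subset.refl _, ?_, ?_⟩
    · simp
    · intro M _ M' _ q hq
      exact absurd hq (Finset.notMem_empty q)
  | succ J ih =>
    intro hJ
    push_cast at hJ
    obtain ⟨QQ, hQQ, hQQc, C', hC', hcard, hres⟩ := ih (by linarith)
    have hC0 : (0 : ℝ) < (C.card : ℝ) := by exact_mod_cast hCne.card_pos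
    have hC'0 : (0 : ℝ) < (C'.card : ℝ) := lt_of_lt_of_le (by positivity) hcard
    -- double counting
    have hdc : ∑ q ∈ Q \ QQ, ((C'.filter (fun M => q ∈ G M)).card : ℝ)
        = ∑ M ∈ C', (((Q \ QQ).filter (fun q => q ∈ G M)).card : ℝ) := by
      simp only [Finset.card_filter, Nat.cast_sum]
      exact Finset.sum_comm
    have hlow : ∀ M ∈ C', g / 2 ≤ (((Q \ QQ).filter (fun q => q ∈ G M)).card : ℝ) := by
      intro M hM
      obtain ⟨h1, h2, -⟩ := hC M (hC' hM)
      have h3 : G M \ QQ ⊆ (Q \ QQ).filter (fun q => q ∈ G M) := by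
        intro q hq
        rw [Finset.mem_sdiff] at hq
        rw [Finset.mem_filter, Finset.mem_sdiff]
        exact ⟨⟨h1 hq.1, hq.2⟩, hq.1⟩
      have h4 := Finset.card_le_card h3
      have h5 := Finset.le_card_sdiff QQ (G M)
      have h6 : (G M).card ≤ ((Q \ QQ).filter (fun q => q ∈ G M)).card + J := by omega
      have h7 : ((G M).card : ℝ) ≤ (((Q \ QQ).filter (fun q => q ∈ G M)).card : ℝ) + J := by
        exact_mod_cast h6
      linarith only [h7, h2, hJ]
    have htot : (C'.card : ℝ) * (g / 2) ≤ ∑ q ∈ Q \ QQ,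
        ((C'.filter (fun M => q ∈ G M)).card : ℝ) := by
      rw [hdc]
      calc (C'.card : ℝ) * (g / 2) = ∑ _M ∈ C', g / 2 := by
            rw [Finset.sum_const, nsmul_eq_mul]
        _ ≤ _ := Finset.sum_le_sum hlow
    have hne : (Q \ QQ).Nonempty := by
      by_contra hcon
      rw [Finset.not_nonempty_iff_eq_empty] at hcon
      rw [hcon, Finset.sum_empty] at htot
      have : 0 < (C'.card : ℝ) * (g / 2) := by (clear * - hC'0 hg; positivity)
      linarith only [this, htot]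
    obtain ⟨q, hq, hqc⟩ := Finset.exists_le_of_sum_le
      (f := fun _ => (C'.card : ℝ) * g / (2 * S)) hne (by
        refine le_trans ?_ htot
        rw [Finset.sum_const, nsmul_eq_mul]
        have h1 : ((Q \ QQ).card : ℝ) ≤ S := by
          have : ((Q \ QQ).card : ℝ) ≤ (Q.card : ℝ) := by
            exact_mod_cast Finset.card_le_card Finset.sdiff_subset
          linarith
        calc ((Q \ QQ).card : ℝ) * ((C'.card : ℝ) * g / (2 * S))
            ≤ S * ((C'.card : ℝ) * g / (2 * S)) := by gcongr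
          _ = (C'.card : ℝ) * (g / 2) := by field_simp)
    set A := C'.filter (fun M => q ∈ G M) with hA
    have hA0 : (0 : ℝ) < (A.card : ℝ) := lt_of_lt_of_le (by (clear * - hC'0 hg hS0; positivity)) hqc
    have hqQ : q ∈ Q := (Finset.mem_sdiff.1 hq).1
    have hqQQ : q ∉ QQ := (Finset.mem_sdiff.1 hq).2
    have hmaps : ∀ M ∈ A, τ M % q ∈ Exc q := by
      intro M hM
      rw [hA, Finset.mem_filter] at hM
      exact (hC M (hC' hM.1)).2.2 q hM.2
    have hfib := Finset.card_eq_sum_card_fiberwise (f := fun M => τ M % (q : ℤ)) (s := A)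
      (t := Exc q) hmaps
    have hEne : (Exc q).Nonempty := by
      have : A.Nonempty := by
        rw [← Finset.card_pos]; exact_mod_cast hA0
      obtain ⟨M, hM⟩ := this
      exact ⟨_, hmaps M hM⟩
    obtain ⟨y, hy, hyc⟩ := Finset.exists_le_of_sum_le
      (f := fun _ => (A.card : ℝ) / e)
      (g := fun y => ((A.filter (fun M => τ M % (q : ℤ) = y)).card : ℝ)) hEne (by
        have h1 : (∑ y ∈ Exc q, ((A.filter (fun M => τ M % (q : ℤ) = y)).card : ℝ))
            = (A.card : ℝ) := by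
          rw [← Nat.cast_sum, ← hfib]
        rw [h1, Finset.sum_const, nsmul_eq_mul]
        calc ((Exc q).card : ℝ) * ((A.card : ℝ) / e) ≤ e * ((A.card : ℝ) / e) := by
              gcongr
              exact hExc q hqQ
          _ = (A.card : ℝ) := by field_simp)
    refine ⟨insert q QQ, Finset.insert_subset hqQ hQQ, ?_,
      A.filter (fun M => τ M % (q : ℤ) = y), ?_, ?_, ?_⟩
    · rw [Finset.card_insert_of_notMem hqQQ, hQQc]
    · exact (Finset.filter_subset _ _).trans ((Finset.filter_subset _ _).trans hC')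
    · calc (C.card : ℝ) * ρ ^ (J + 1) = ((C.card : ℝ) * ρ ^ J) * ρ := by ring
        _ ≤ (C'.card : ℝ) * ρ := by gcongr
        _ = ((C'.card : ℝ) * g / (2 * S)) / e := by rw [hρ]; field_simp
        _ ≤ (A.card : ℝ) / e := by gcongr
        _ ≤ _ := hyc
    · intro M hM M' hM' q' hq'
      rw [Finset.mem_filter] at hM hM'
      rw [Finset.mem_insert] at hq'
      rcases hq' with rfl | hq'
      · rw [hM.2, hM'.2]
      · exact hres M (Finset.mem_filter.1 hM.1).1 M' (Finset.mem_filter.1 hM'.1).1 q' hq'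

end Vale.Agent.P013.J
end

section

/-!
# Inverse theorem, up to the choice of parameters
-/

namespace Vale.Agent.P013.J

/-- the inverse theorem from the choice of parameters -/
theorem inverse_of_param (hPar : ParamStmt) : InverseStmt :=
  inverse_of relCount moment block line greedy hPar

end Vale.Agent.P013.J
end

section

/-!
# Two-sided Mertens bounds for the level function `tau`
-/

open Finset Real

namespace Vale.Agent.P013.J

open Vale.Agent.P013

/-- lower step of the summation by parts in Mertens' second theorem -/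
lemma mertens_two_aux_low (C : ℝ) (hC : ∀ x : ℕ, 1 ≤ x → |mA x - Real.log x| ≤ C) (x : ℕ)
    (hx : 2 ≤ x) (z : ℕ) (hz : x ≤ z) :
      Real.log (Real.log z) - Real.log (Real.log x) +
      (mA z - Real.log z) / Real.log z - (mA x - Real.log x) / Real.log x -
      C * (1 / Real.log x - 1 / Real.log z) ≤
    ∑ p ∈ (Ico x z).filter Nat.Prime, 1 / (p : ℝ) := by
  induction z, hz using Nat.le_induction with
  | base => simp
  | succ z hz ih =>
    have hz2 : 2 ≤ z := hx.trans hz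
    have hzR : (2 : ℝ) ≤ z := by exact_mod_cast hz2
    have hlz : 0 < Real.log z := Real.log_pos (by linarith only [hzR])
    have hlz1 : Real.log z < Real.log ((z + 1 : ℕ) : ℝ) := by
      apply Real.log_lt_log (by linarith only [hzR])
      push_cast; linarith only []
    have hlz1' : 0 < Real.log ((z + 1 : ℕ) : ℝ) := hlz.trans hlz1
    set u := Real.log z with hu
    set v := Real.log ((z + 1 : ℕ) : ℝ) with hv
    have hIco : Ico x (z + 1) = insert z (Ico x z) := by
      rw [← Nat.Ico_succ_right_eq_insert_Ico hz]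
    have hterm : ∑ p ∈ (Ico x (z + 1)).filter Nat.Prime, 1 / (p : ℝ) =
        ∑ p ∈ (Ico x z).filter Nat.Prime, 1 / (p : ℝ) + (mA (z + 1) - mA z) / u := by
      have hA : mA (z + 1) = mA z + (if z.Prime then u / z else 0) := by
        unfold mA
        rw [range_add_one, filter_insert]
        split_ifs with hp
        · rw [sum_insert (by simp)]
          rw [hu]; ring
        · simp
      rw [hA, hIco, filter_insert]
      split_ifs with hp
      · rw [sum_insert (by simp)]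
        have : (z : ℝ) ≠ 0 := by linarith only [hzR]
        field_simp
        ring
      · simp
    rw [hterm]
    have h2 : Real.log v - Real.log u ≤ (v - u) / u := by
      have := Real.log_le_sub_one_of_pos (show 0 < v / u by positivity)
      rw [Real.log_div hlz1'.ne' hlz.ne'] at this
      refine this.trans (le_of_eq ?_)
      field_simp
    have hE := hC (z + 1) (by omega)
    rw [abs_le] at hE
    set e := mA z - u with he
    set e' := mA (z + 1) - v with he'
    have hmA : mA (z + 1) - mA z = (v - u) + (e' - e) := by rw [he, he']; ring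
    rw [hmA]
    have h3 : ((v - u) + (e' - e)) / u = (v - u) / u +
        e' / v - e / u + e' * (1 / u - 1 / v) := by
      field_simp
      ring
    have h4 : 0 ≤ 1 / u - 1 / v := by
      rw [sub_nonneg]
      exact one_div_le_one_div_of_le hlz hlz1.le
    have h6 : -C * (1 / u - 1 / v) ≤ e' * (1 / u - 1 / v) :=
      mul_le_mul_of_nonneg_right hE.1 h4
    have h7 : C * (1 / Real.log x - 1 / v) = C * (1 / Real.log x - 1 / u) +
      C * (1 / u - 1 / v) := by ring
    rw [h3, h7]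
    linarith only [h2, ih, h6]

/-- Mertens' second theorem, lower bound. -/
theorem mertens_two_low : ∃ C : ℝ, 0 < C ∧ ∀ x z : ℕ, 2 ≤ x → x ≤ z →
      Real.log (Real.log z) - Real.log (Real.log x) - C / Real.log x ≤
    ∑ p ∈ (Ico x z).filter Nat.Prime, 1 / (p : ℝ) := by
  obtain ⟨C, hC0, hC⟩ := mertens_one
  refine ⟨3 * C, by linarith, ?_⟩
  intro x z hx hz
  have h := mertens_two_aux_low C (fun x hx => hC x hx) x hx z hz
  have hxR : (2 : ℝ) ≤ x := by exact_mod_cast hx
  have hzR : (x : ℝ) ≤ z := by exact_mod_cast hz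
  have hlx : 0 < Real.log x := Real.log_pos (by linarith only [hxR])
  have hlz : Real.log x ≤ Real.log z := Real.log_le_log (by linarith only [hxR]) hzR
  have hlz0 : 0 < Real.log z := lt_of_lt_of_le hlx hlz
  have hEz := hC z (by omega)
  have hEx := hC x (by omega)
  rw [abs_le] at hEz hEx
  have h1 : -(C / Real.log x) ≤ (mA z - Real.log z) / Real.log z := by
    calc -(C / Real.log x) ≤ -(C / Real.log z) := by
          apply neg_le_neg
          exact div_le_div_of_nonneg_left hC0.le hlx hlz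
      _ = (-C) / Real.log z := by ring
      _ ≤ _ := div_le_div_of_nonneg_right hEz.1 hlz0.le
  have h2 : (mA x - Real.log x) / Real.log x ≤ C / Real.log x :=
    div_le_div_of_nonneg_right hEx.2 hlx.le
  have h3 : C * (1 / Real.log x - 1 / Real.log z) ≤ C / Real.log x := by
    have : 0 ≤ 1 / Real.log z := by positivity
    calc C * (1 / Real.log x - 1 / Real.log z) ≤ C * (1 / Real.log x) := by
          apply mul_le_mul_of_nonneg_left _ (by linarith only [hC0])
          linarith only [this]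
      _ = C / Real.log x := by ring
  have h4 : (3 * C) / Real.log x = C / Real.log x + C / Real.log x + C / Real.log x := by
    ring
  rw [h4]
  linarith only [h, h1, h2, h3]

/-- Product form of Mertens, upper bound. -/
theorem mertens_prod_upper : ∃ C : ℝ, 0 < C ∧ ∀ x z : ℕ, 2 ≤ x → x ≤ z →
    Real.log z * ∏ p ∈ (Ico x z).filter Nat.Prime, (1 - 1 / (p : ℝ)) ≤ Real.log x + C := by
  obtain ⟨C, hC0, hC⟩ := mertens_two_low
  have hl2 : 0 < Real.log 2 := Real.log_pos (by norm_num)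
  refine ⟨C * Real.exp (C / Real.log 2), by positivity, ?_⟩
  intro x z hx hz
  have hxR : (2 : ℝ) ≤ x := by exact_mod_cast hx
  have hzR : (x : ℝ) ≤ z := by exact_mod_cast hz
  have hl2x : Real.log 2 ≤ Real.log x := Real.log_le_log (by norm_num) hxR
  have hlx : 0 < Real.log x := Real.log_pos (by linarith only [hxR])
  have hlz : Real.log x ≤ Real.log z := Real.log_le_log (by linarith only [hxR]) hzR
  have hlz0 : 0 < Real.log z := lt_of_lt_of_le hlx hlz
  have h1 := hC x z hx hz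
  have h2 : ∏ p ∈ (Ico x z).filter Nat.Prime, (1 - 1 / (p : ℝ)) ≤
      Real.exp (-(∑ p ∈ (Ico x z).filter Nat.Prime, 1 / (p : ℝ))) := by
    rw [← sum_neg_distrib, Real.exp_sum]
    apply prod_le_prod
    · intro p hp
      rw [mem_filter, mem_Ico] at hp
      have : (2 : ℝ) ≤ p := by exact_mod_cast hp.2.two_le
      have : 1 / (p : ℝ) ≤ 1 := by
        rw [div_le_one (by linarith only [this])]; linarith only [this]
      linarith only [this]
    · intro p _
      have := Real.add_one_le_exp (-(1 / (p : ℝ)))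
      linarith only [this]
  have h3 : Real.exp (-(∑ p ∈ (Ico x z).filter Nat.Prime, 1 / (p : ℝ))) ≤
      Real.log x / Real.log z * Real.exp (C / Real.log x) := by
    have : Real.log x / Real.log z * Real.exp (C / Real.log x) =
        Real.exp (-(Real.log (Real.log z) - Real.log (Real.log x) - C / Real.log x)) := by
      have : -(Real.log (Real.log z) - Real.log (Real.log x) - C / Real.log x) =
        Real.log (Real.log x) - Real.log (Real.log z) + C / Real.log x := by ring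
      rw [this, Real.exp_add, Real.exp_sub, Real.exp_log hlx, Real.exp_log hlz0]
    rw [this]
    apply Real.exp_le_exp.mpr
    linarith only [h1]
  have h4 : Real.log z * ∏ p ∈ (Ico x z).filter Nat.Prime, (1 - 1 / (p : ℝ)) ≤
      Real.log x * Real.exp (C / Real.log x) := by
    calc _ ≤ Real.log z * (Real.log x / Real.log z * Real.exp (C / Real.log x)) :=
          mul_le_mul_of_nonneg_left (h2.trans h3) hlz0.le
      _ = _ := by field_simp
  have h5 : Real.exp (C / Real.log x) ≤ 1 + C / Real.log x * Real.exp (C / Real.log x) := by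
    have h6 := Real.add_one_le_exp (-(C / Real.log x))
    have h7 : Real.exp (C / Real.log x) * Real.exp (-(C / Real.log x)) = 1 := by
      rw [← Real.exp_add]; simp
    linarith only [mul_nonneg (le_of_lt (sub_pos.2 (Real.exp_pos (C / Real.log x)))) (sub_nonneg.2 h6), mul_eq_zero_of_left (sub_eq_zero.2 h7) (0 - (0 - 1 * 1))]
  have h8 : Real.exp (C / Real.log x) ≤ Real.exp (C / Real.log 2) :=
    Real.exp_le_exp.mpr (div_le_div_of_nonneg_left hC0.le hl2 hl2x)
  calc _ ≤ Real.log x * Real.exp (C / Real.log x) := h4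
    _ ≤ Real.log x * (1 + C / Real.log x * Real.exp (C / Real.log x)) :=
        mul_le_mul_of_nonneg_left h5 hlx.le
    _ = Real.log x + C * Real.exp (C / Real.log x) := by field_simp
    _ ≤ _ := by
        have := mul_le_mul_of_nonneg_left h8 hC0.le
        linarith only [this]

/-! ### the sieve product over all primes -/

/-- the sieve product `∏_{p < x} (1 - 1/p)` taken over the primes below `z` -/
theorem gvP_pos (z x : ℕ) : 0 < gv (PP z) (fun q => 1 / (q : ℝ)) x := by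
  unfold gv
  apply Finset.prod_pos
  intro p hp
  have hp' := (Finset.mem_filter.mp (Finset.mem_filter.mp hp).1).2
  have : (2 : ℝ) ≤ p := by exact_mod_cast hp'.two_le
  have : 1 / (p : ℝ) < 1 := by
    rw [div_lt_one (by linarith only [this])]; linarith
  show 0 < 1 - 1 / (p : ℝ)
  linarith only [this]

theorem gv_split (z x x' : ℕ) (h : x ≤ x') (h' : x' ≤ z) :
    gv (PP z) (fun q => 1 / (q : ℝ)) x' =
      gv (PP z) (fun q => 1 / (q : ℝ)) x * ∏ p ∈ (Ico x x').filter Nat.Prime, (1 - 1 / (p : ℝ)) := by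
  unfold gv
  have : (PP z).filter (fun q => q < x') =
      (PP z).filter (fun q => q < x) ∪ (Ico x x').filter Nat.Prime := by
    ext p
    simp only [PP, Finset.mem_filter, Finset.mem_range, Finset.mem_union, Finset.mem_Ico]
    constructor
    · rintro ⟨⟨h1, h2⟩, h3⟩
      rcases lt_or_ge p x with h4 | h4
      · exact Or.inl ⟨⟨h1, h2⟩, h4⟩
      · exact Or.inr ⟨⟨h4, h3⟩, h2⟩
    · rintro (⟨⟨h1, h2⟩, h3⟩ | ⟨⟨h1, h2⟩, h3⟩)
      · exact ⟨⟨h1, h2⟩, by omega⟩
      · exact ⟨⟨by omega, h3⟩, h2⟩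
  rw [this, Finset.prod_union]
  rw [Finset.disjoint_left]
  intro p hp hp'
  have h1 := (Finset.mem_filter.mp hp).2
  have h2 := (Finset.mem_Ico.mp (Finset.mem_filter.mp hp').1).1
  omega

theorem tau_eq (z x : ℕ) (h : x ≤ z) :
    tau z x = log z * ∏ p ∈ (Ico x z).filter Nat.Prime, (1 - 1 / (p : ℝ)) := by
  unfold tau
  have h1 := gv_split z x z h le_rfl
  have h2 := gvP_pos z x
  rw [h1]
  field_simp

theorem tau_bounds : ∃ Ct : ℝ, 0 < Ct ∧ ∀ z x : ℕ, 2 ≤ x → x ≤ z → |tau z x - log x| ≤ Ct := by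
  obtain ⟨C1, hC1, h1⟩ := mertens_prod
  obtain ⟨C2, hC2, h2⟩ := mertens_prod_upper
  refine ⟨C1 + C2, by linarith, ?_⟩
  intro z x hx hz
  rw [tau_eq z x hz, abs_le]
  have h3 := h1 x z hx hz
  have h4 := h2 x z hx hz
  constructor <;> linarith only [hC2, h3, hC1, h4]

theorem tau_pos (z x : ℕ) (hz : 2 ≤ z) : 0 < tau z x := by
  unfold tau
  have h1 := gvP_pos z x
  have h2 := gvP_pos z z
  have h3 : (2 : ℝ) ≤ z := by exact_mod_cast hz
  have h4 : 0 < log z := Real.log_pos (by linarith only [h3])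
  positivity

theorem tau_self (z : ℕ) : tau z z = log z := by
  rw [tau_eq z z le_rfl]
  simp

theorem tm_one_sub_inv_mem (p : ℕ) (hp : p.Prime) : 0 < 1 - 1 / (p : ℝ) ∧ 1 - 1 / (p : ℝ) ≤ 1 := by
  have h1 : (2 : ℝ) ≤ p := by exact_mod_cast hp.two_le
  have h2 : 1 / (p : ℝ) < 1 := by
    rw [div_lt_one (by linarith)]; linarith
  have h3 : 0 ≤ 1 / (p : ℝ) := by positivity
  constructor <;> linarith only [h2, h3]

theorem gvP_anti (z x x' : ℕ) (h : x ≤ x') :
    gv (PP z) (fun q => 1 / (q : ℝ)) x' ≤ gv (PP z) (fun q => 1 / (q : ℝ)) x := by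
  unfold gv
  have hsub : (PP z).filter (fun q => q < x) ⊆ (PP z).filter (fun q => q < x') := by
    intro p hp
    rw [Finset.mem_filter] at hp ⊢
    exact ⟨hp.1, by omega⟩
  rw [← Finset.prod_sdiff hsub]
  have h1 : ∏ p ∈ (PP z).filter (fun q => q < x') \ (PP z).filter (fun q => q < x),
      (1 - 1 / (p : ℝ)) ≤ 1 := by
    apply Finset.prod_le_one
    · intro p hp
      have := (Finset.mem_filter.mp (Finset.mem_filter.mp (Finset.mem_sdiff.mp hp).1).1).2
      exact (tm_one_sub_inv_mem p this).1.le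
    · intro p hp
      have := (Finset.mem_filter.mp (Finset.mem_filter.mp (Finset.mem_sdiff.mp hp).1).1).2
      exact (tm_one_sub_inv_mem p this).2
  have h2 : 0 ≤ ∏ p ∈ (PP z).filter (fun q => q < x), (1 - 1 / (p : ℝ)) := by
    apply Finset.prod_nonneg
    intro p hp
    have := (Finset.mem_filter.mp (Finset.mem_filter.mp hp).1).2
    exact (tm_one_sub_inv_mem p this).1.le
  calc _ ≤ 1 * ∏ p ∈ (PP z).filter (fun q => q < x), (1 - 1 / (p : ℝ)) :=
        mul_le_mul_of_nonneg_right h1 h2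
    _ = _ := one_mul _

theorem tau_mono (z x x' : ℕ) (hz : 1 ≤ z) (h : x ≤ x') : tau z x ≤ tau z x' := by
  unfold tau
  have h0 : (1 : ℝ) ≤ z := by exact_mod_cast hz
  apply div_le_div_of_nonneg_left _ (gvP_pos z x') (gvP_anti z x x' h)
  exact mul_nonneg (Real.log_nonneg h0) (gvP_pos z z).le

/-- both sides of Mertens' third theorem with unspecified constants -/
theorem gv_bounds : ∃ C : ℝ, 0 < C ∧ ∀ z x : ℕ, 2 ≤ x → x ≤ z →
    1 / (C * log x) ≤ gv (PP z) (fun q => 1 / (q : ℝ)) x ∧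
      gv (PP z) (fun q => 1 / (q : ℝ)) x ≤ C / log x := by
  obtain ⟨C1, hC1, h1⟩ := mertens_prod
  obtain ⟨C2, hC2, h2⟩ := mertens_prod_upper
  have hl2 : 0 < Real.log 2 := Real.log_pos (by norm_num)
  -- lower bound for the product over the primes below `x₀`
  obtain ⟨x0, hx0⟩ := exists_nat_gt (Real.exp (C1 + 1))
  have hx02 : 2 ≤ x0 := by
    have h3 : (2 : ℝ) ≤ Real.exp (C1 + 1) := by
      have := Real.add_one_le_exp (C1 + 1)
      linarith
    have : (2 : ℝ) < x0 := lt_of_le_of_lt h3 hx0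
    exact_mod_cast this.le
  have hlx0 : C1 + 1 < Real.log x0 := by
    have := Real.log_lt_log (Real.exp_pos _) hx0
    rwa [Real.log_exp] at this
  set c0 : ℝ := ∏ p ∈ (Ico 2 x0).filter Nat.Prime, (1 - 1 / (p : ℝ)) with hc0
  have hc0pos : 0 < c0 := by
    apply Finset.prod_pos
    intro p hp
    exact (tm_one_sub_inv_mem p (Finset.mem_filter.mp hp).2).1
  have hgv2 : ∀ z : ℕ, gv (PP z) (fun q => 1 / (q : ℝ)) 2 = 1 := by
    intro z
    unfold gv
    apply Finset.prod_eq_one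
    intro p hp
    have h3 := (Finset.mem_filter.mp hp).2
    have h4 := (Finset.mem_filter.mp (Finset.mem_filter.mp hp).1).2.two_le
    omega
  have hgv : ∀ z x : ℕ, 2 ≤ x → x ≤ z → gv (PP z) (fun q => 1 / (q : ℝ)) x =
      ∏ p ∈ (Ico 2 x).filter Nat.Prime, (1 - 1 / (p : ℝ)) := by
    intro z x hx hz
    rw [gv_split z 2 x hx hz, hgv2, one_mul]
  refine ⟨max (1 / (c0 * Real.log 2)) (max (1 / c0) (Real.log 2 + C2)), by (clear * - hc0pos; positivity), ?_⟩
  intro z x hx hz
  set C := max (1 / (c0 * Real.log 2)) (max (1 / c0) (Real.log 2 + C2)) with hC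
  have hCpos : 0 < C := by (clear * - hc0pos; positivity)
  have hxR : (2 : ℝ) ≤ x := by exact_mod_cast hx
  have hl2x : Real.log 2 ≤ Real.log x := Real.log_le_log (by norm_num) hxR
  have hlx : 0 < Real.log x := by linarith only [hl2, hl2x]
  rw [hgv z x hx hz]
  constructor
  · rcases le_or_gt x0 x with h3 | h3
    · have h4 := h1 x0 x hx02 h3
      have h5 : ∏ p ∈ (Ico 2 x).filter Nat.Prime, (1 - 1 / (p : ℝ)) =
          c0 * ∏ p ∈ (Ico x0 x).filter Nat.Prime, (1 - 1 / (p : ℝ)) := by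
        rw [hc0, ← hgv x x0 hx02 h3, ← hgv x x hx le_rfl, gv_split x x0 x h3 le_rfl]
      rw [h5]
      have h6 : 1 / Real.log x ≤ ∏ p ∈ (Ico x0 x).filter Nat.Prime, (1 - 1 / (p : ℝ)) := by
        rw [div_le_iff₀ hlx]
        linarith only [hlx0, h4]
      have h7 : 1 / C ≤ c0 := by
        rw [div_le_iff₀ hCpos]
        have : 1 / c0 ≤ C := (le_max_left _ _).trans (le_max_right _ _)
        rw [div_le_iff₀ hc0pos] at this
        linarith only [this]
      calc 1 / (C * Real.log x) = 1 / C * (1 / Real.log x) := by ring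
        _ ≤ c0 * ∏ p ∈ (Ico x0 x).filter Nat.Prime, (1 - 1 / (p : ℝ)) :=
          mul_le_mul h7 h6 (by positivity) hc0pos.le
    · have h4 : c0 ≤ ∏ p ∈ (Ico 2 x).filter Nat.Prime, (1 - 1 / (p : ℝ)) := by
        rw [hc0, ← hgv x0 x0 hx02 le_rfl, ← hgv x0 x hx h3.le]
        exact gvP_anti x0 x x0 h3.le
      refine le_trans ?_ h4
      rw [div_le_iff₀ (by (clear * - hc0pos hlx; positivity))]
      have h5 : 1 / (c0 * Real.log 2) ≤ C := le_max_left _ _
      rw [div_le_iff₀ (by (clear * - hc0pos; positivity))] at h5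
      have h6 : C * (c0 * Real.log 2) ≤ C * (c0 * Real.log x) := by
        apply mul_le_mul_of_nonneg_left _ hCpos.le
        exact mul_le_mul_of_nonneg_left hl2x hc0pos.le
      linarith only [h5, h6]
  · rw [le_div_iff₀ hlx]
    have h4 := h2 2 x le_rfl hx
    have h5 : Real.log 2 + C2 ≤ C := (le_max_right _ _).trans (le_max_right _ _)
    push_cast at h4
    linarith only [h4, h5]

end Vale.Agent.P013.J
end

section

/-! Stability of the linear sieve: facts on the sieve functions. -/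

open MeasureTheory Set Filter Real
open scoped ENNReal Topology

namespace Vale.Agent.P013.J

open Vale.Agent.P013

theorem sb_tA_pos_of {x y : ℝ} (hxy : x < y) (hy : 0 < y) (h : 0 < phiP y) : 0 < tA x := by
  unfold tA
  have h2 : ∫⁻ t in Ioc (max x 0) y, phiP y ≤ ∫⁻ t in Ioi x, phiP t := by
    refine le_trans ?_ (lintegral_mono_set (s := Ioc (max x 0) y) (t := Ioi x) ?_)
    · apply setLIntegral_mono' measurableSet_Ioc
      intro t ht
      exact phiP_anti (lt_of_le_of_lt (le_max_right _ _) ht.1) ht.2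
    · intro t ht
      exact lt_of_le_of_lt (le_max_left _ _) ht.1
  rw [setLIntegral_const, Real.volume_Ioc] at h2
  refine lt_of_lt_of_le ?_ h2
  apply ENNReal.mul_pos h.ne'
  rw [ne_eq, ENNReal.ofReal_eq_zero, not_le, sub_pos]
  exact max_lt hxy hy

theorem sb_tB_pos_of {x y : ℝ} (hxy : x < y) (hy : 0 < y) (h : 0 < phiM y) : 0 < tB x := by
  unfold tB
  have h2 : ∫⁻ t in Ioc (max x 0) y, phiM y ≤ ∫⁻ t in Ioi x, phiM t := by
    refine le_trans ?_ (lintegral_mono_set (s := Ioc (max x 0) y) (t := Ioi x) ?_)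
    · apply setLIntegral_mono' measurableSet_Ioc
      intro t ht
      exact phiM_anti (lt_of_le_of_lt (le_max_right _ _) ht.1) ht.2
    · intro t ht
      exact lt_of_le_of_lt (le_max_left _ _) ht.1
  rw [setLIntegral_const, Real.volume_Ioc] at h2
  refine lt_of_lt_of_le ?_ h2
  apply ENNReal.mul_pos h.ne'
  rw [ne_eq, ENNReal.ofReal_eq_zero, not_le, sub_pos]
  exact max_lt hxy hy

theorem sb_phiP_pos_of {x : ℝ} (hx : 0 < x) (h : 0 < tB (max x 3 - 1)) : 0 < phiP x := by
  rw [phiP_apply]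
  apply ENNReal.mul_pos
  · rw [ne_eq, ENNReal.ofReal_eq_zero, not_le]
    positivity
  · exact (lt_of_lt_of_le h le_add_self).ne'

theorem sb_phiP_pos_of_lt {x : ℝ} (hx : 0 < x) (h : x < 3) : 0 < phiP x := by
  rw [phiP_apply]
  apply ENNReal.mul_pos
  · rw [ne_eq, ENNReal.ofReal_eq_zero, not_le]
    positivity
  · have h1 : 0 < ENNReal.ofReal (3 - x) := by
      rw [ENNReal.ofReal_pos]
      linarith
    exact (lt_of_lt_of_le h1 le_self_add).ne'

theorem sb_phiM_pos_of {x : ℝ} (hx : 0 < x) (h : 0 < tA (x - 1)) : 0 < phiM x := by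
  rw [phiM_apply]
  apply ENNReal.mul_pos _ h.ne'
  rw [ne_eq, ENNReal.ofReal_eq_zero, not_le]
  positivity

theorem sb_tA_pos_aux (n : ℕ) : ∀ x : ℝ, x < 3 + n → 0 < tA x := by
  induction n with
  | zero =>
    intro x hx
    have hx' : x < 3 := by simpa using hx
    have h1 : (max x 0 + 3) / 2 < 3 := by
      have : max x 0 < 3 := max_lt hx' (by norm_num)
      linarith only [this]
    have h2 : 0 < (max x 0 + 3) / 2 := by
      have := le_max_right x 0
      linarith only [this]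
    apply sb_tA_pos_of (y := (max x 0 + 3) / 2) _ h2 (sb_phiP_pos_of_lt h2 h1)
    have h3 : x ≤ max x 0 := le_max_left _ _
    have : max x 0 < 3 := max_lt hx' (by norm_num)
    linarith only [hx', h3]
  | succ n ih =>
    intro x hx
    push_cast at hx
    rcases lt_or_ge x 2 with h | h
    · exact ih x (by
        have : (0:ℝ) ≤ n := Nat.cast_nonneg n
        linarith)
    · -- x in [2, 4 + n)
      have hM : 0 < phiM (x + (4 + n - x) / 2) := by
        apply sb_phiM_pos_of (by linarith)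
        exact ih _ (by linarith)
      have hB : 0 < tB x := sb_tB_pos_of (by linarith) (by linarith) hM
      have hP : 0 < phiP (x + 1 / 4) := by
        apply sb_phiP_pos_of (by linarith only [h])
        refine lt_of_lt_of_le hB (tB_antitone ?_)
        rcases le_total (x + 1 / 4) 3 with h3 | h3
        · rw [max_eq_right h3]
          linarith
        · rw [max_eq_left h3]
          linarith only []
      exact sb_tA_pos_of (by linarith only []) (by linarith only [h]) hP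

theorem sb_tA_pos (x : ℝ) : 0 < tA x := by
  obtain ⟨n, hn⟩ := exists_nat_gt x
  exact sb_tA_pos_aux n x (by linarith)

theorem sb_phiM_pos {x : ℝ} (hx : 0 < x) : 0 < phiM x := sb_phiM_pos_of hx (sb_tA_pos _)

/-- strict positivity of the gap `1 - f`. -/
theorem sb_phiM_toReal_pos {x : ℝ} (hx : 2 ≤ x) : 0 < (phiM x).toReal :=
  ENNReal.toReal_pos (sb_phiM_pos (by linarith)).ne' (phiM_ne_top hx)

theorem sb_phiM_toReal_anti {s t : ℝ} (hs : 2 ≤ s) (hst : s ≤ t) :
    (phiM t).toReal ≤ (phiM s).toReal :=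
  ENNReal.toReal_mono (phiM_ne_top hs) (phiM_anti (by linarith) hst)

/-- gain from a larger level -/
theorem sb_sf_gain {s t : ℝ} (hs : 2 ≤ s) (hst : s ≤ t) :
    (t - s) / t * (phiM s).toReal ≤ sf t - sf s := by
  have h := sf_F3 hs hst
  have h1 := one_le_sF (t - 1)
  have ht : 0 < t := by linarith only [hs, hst]
  rw [div_mul_eq_mul_div, div_le_iff₀ ht]
  have h2 : (phiM s).toReal = 1 - sf s := by
    unfold sf
    ring
  rw [h2]
  linarith only [mul_nonneg (sub_nonneg.2 hst) (sub_nonneg.2 h1), h]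

/-- analytic step of the lower bound sieve -/
theorem sb_step_low {v v' K T g : ℝ} (hv : 0 < v) (hK : 0 < K) (hv' : v' = (1 - g) * v)
    (hg0 : 0 ≤ g) (hg1 : g < 1) (hT : 2 * (K / v') ≤ T) :
    v' * sf (T / (K / v')) ≤ v * sf (T / (K / v)) - v * g * sF ((T - K / v) / (K / v)) := by
  have hv'pos : 0 < v' := by rw [hv']; apply mul_pos _ hv; linarith only [hg1]
  have hv'v : v' ≤ v := by rw [hv']; linarith [mul_nonneg (le_of_lt (sub_pos.2 hv)) (sub_nonneg.2 hg0)]
  have hKv : 0 < K / v := by positivity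
  have hKv' : 0 < K / v' := by positivity
  have hTpos : 0 < T := by linarith only [hT, hKv']
  have h1 : (T - K / v) / (K / v) = T / (K / v) - 1 := by
    rw [sub_div, div_self hKv.ne']
  rw [h1]
  set t := T / (K / v) with ht
  set s := T / (K / v') with hs
  have ht_eq : t = T * v / K := by rw [ht]; field_simp
  have hs_eq : s = T * v' / K := by rw [hs]; field_simp
  have hv_eq : v = K / T * t := by rw [ht_eq]; field_simp
  have hv'_eq : v' = K / T * s := by rw [hs_eq]; field_simp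
  have hs2 : 2 ≤ s := by
    rw [hs, le_div_iff₀ hKv']
    exact hT
  have hst : s ≤ t := by
    rw [ht_eq, hs_eq]
    gcongr
  have hKT : 0 < K / T := by positivity
  have h4 := sf_F3 hs2 hst
  have h5 : v * g = v - v' := by rw [hv']; ring
  rw [h5]
  have e1 : v * sf t - (v - v') * sF (t - 1) = K / T * (t * sf t - (t - s) * sF (t - 1)) := by
    have : v * sf t - (v - v') * sF (t - 1)
        = (K / T * t) * sf t - ((K / T * t) - (K / T * s)) * sF (t - 1) := by
      rw [← hv_eq, ← hv'_eq]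
    rw [this]
    ring
  have e2 : v' * sf s = K / T * (s * sf s) := by
    have : v' * sf s = (K / T * s) * sf s := by rw [← hv'_eq]
    rw [this]
    ring
  rw [e1, e2]
  apply mul_le_mul_of_nonneg_left _ hKT.le
  linarith only [h4]

/-- analytic step of the upper bound sieve -/
theorem sb_step_up {v v' K T g : ℝ} (hv : 0 < v) (hK : 0 < K) (hv' : v' = (1 - g) * v)
    (hg0 : 0 ≤ g) (hg1 : g < 1) (hT : 3 * (K / v) ≤ T) :
    v * sF (T / (K / v)) - v * g * sf ((T - K / v) / (K / v)) ≤ v' * sF (T / (K / v')) := by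
  have hv'pos : 0 < v' := by rw [hv']; apply mul_pos _ hv; linarith only [hg1]
  have hv'v : v' ≤ v := by rw [hv']; linarith only [mul_nonneg (le_of_lt (sub_pos.2 hv)) (sub_nonneg.2 hg0)]
  have hKv : 0 < K / v := by positivity
  have hKv' : 0 < K / v' := by positivity
  have hTpos : 0 < T := by linarith only [hT, hKv]
  have h1 : (T - K / v) / (K / v) = T / (K / v) - 1 := by
    rw [sub_div, div_self hKv.ne']
  rw [h1]
  set t := T / (K / v) with ht
  set s := T / (K / v') with hs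
  have ht_eq : t = T * v / K := by rw [ht]; field_simp
  have hs_eq : s = T * v' / K := by rw [hs]; field_simp
  have hv_eq : v = K / T * t := by rw [ht_eq]; field_simp
  have hv'_eq : v' = K / T * s := by rw [hs_eq]; field_simp
  have ht3 : 3 ≤ t := by
    rw [ht, le_div_iff₀ hKv]
    exact hT
  have hspos : 0 < s := by rw [hs]; positivity
  have hst : s ≤ t := by
    rw [ht_eq, hs_eq]
    gcongr
  have hKT : 0 < K / T := by positivity
  have h4 := sF_F2 hspos hst ht3
  have h5 : v * g = v - v' := by rw [hv']; ring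
  rw [h5]
  have e1 : v * sF t - (v - v') * sf (t - 1) = K / T * (t * sF t - (t - s) * sf (t - 1)) := by
    have : v * sF t - (v - v') * sf (t - 1)
        = (K / T * t) * sF t - ((K / T * t) - (K / T * s)) * sf (t - 1) := by
      rw [← hv_eq, ← hv'_eq]
    rw [this]
    ring
  have e2 : v' * sF s = K / T * (s * sF s) := by
    have : v' * sF s = (K / T * s) * sF s := by rw [← hv'_eq]
    rw [this]
    ring
  rw [e1, e2]
  apply mul_le_mul_of_nonneg_left _ hKT.le
  linarith only [h4]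

/-- dropping step of the upper bound sieve -/
theorem sb_step_drop {v v' K T g : ℝ} (hv : 0 < v) (hK : 0 < K) (hv' : v' = (1 - g) * v)
    (hg0 : 0 ≤ g) (hg1 : g < 1) (hT0 : 0 < T) (hT : T ≤ 3 * (K / v)) :
    v * sF (T / (K / v)) = v' * sF (T / (K / v')) := by
  have hv'pos : 0 < v' := by rw [hv']; apply mul_pos _ hv; linarith only [hg1]
  have hv'v : v' ≤ v := by rw [hv']; linarith only [mul_nonneg (le_of_lt (sub_pos.2 hv)) (sub_nonneg.2 hg0)]
  have hKv : 0 < K / v := by positivity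
  have hKv' : 0 < K / v' := by positivity
  set t := T / (K / v) with ht
  set s := T / (K / v') with hs
  have ht_eq : t = T * v / K := by rw [ht]; field_simp
  have hs_eq : s = T * v' / K := by rw [hs]; field_simp
  have hv_eq : v = K / T * t := by rw [ht_eq]; field_simp
  have hv'_eq : v' = K / T * s := by rw [hs_eq]; field_simp
  have ht3 : t ≤ 3 := by
    rw [ht, div_le_iff₀ hKv]
    exact hT
  have hspos : 0 < s := by rw [hs]; positivity
  have htpos : 0 < t := by rw [ht]; positivity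
  have hst : s ≤ t := by
    rw [ht_eq, hs_eq]
    gcongr
  have e1 : v * sF t = K / T * (t * sF t) := by
    have : v * sF t = (K / T * t) * sF t := by rw [← hv_eq]
    rw [this]
    ring
  have e2 : v' * sF s = K / T * (s * sF s) := by
    have : v' * sF s = (K / T * s) * sF s := by rw [← hv'_eq]
    rw [this]
    ring
  rw [e1, e2, sF_F1 htpos ht3, sF_F1 hspos (hst.trans ht3)]

end Vale.Agent.P013.J
end

section

/-! Stability of the linear sieve: supports and the two-step unrolling. -/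

open Finset Real

namespace Vale.Agent.P013.J

open Vale.Agent.P013

section Supp

variable {Q : Finset ℕ} {τ : ℕ → ℝ}

theorem sb_mem_supp {b x : ℕ} {T : ℝ} {F : Finset ℕ} :
    F ∈ supp Q τ b x T ↔ (∀ s ∈ F, s ∈ Q ∧ s < x) ∧ ∀ s ∈ F,
      Even ((F.filter (fun s' => s ≤ s')).card + b) →
        3 * τ s < T - ∑ s' ∈ F.filter (fun s' => s < s'), τ s' := by
  classical
  unfold supp
  rw [mem_filter, mem_powerset]
  constructor
  · rintro ⟨h1, h2⟩
    exact ⟨fun s hs => mem_filter.1 (h1 hs), h2⟩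
  · rintro ⟨h1, h2⟩
    exact ⟨fun s hs => mem_filter.2 (h1 s hs), h2⟩

theorem sb_supp_two (b x : ℕ) (T : ℝ) : supp Q τ (b + 2) x T = supp Q τ b x T := by
  ext F
  rw [sb_mem_supp, sb_mem_supp]
  have : ∀ n : ℕ, Even (n + (b + 2)) ↔ Even (n + b) := by
    intro n
    rw [← add_assoc, Nat.even_add]
    simp
  simp only [this]

theorem sb_supp_notMem {x : ℕ} (hx : x ∉ Q) (b : ℕ) (T : ℝ) :
    supp Q τ b (x + 1) T = supp Q τ b x T := by
  ext F
  rw [sb_mem_supp, sb_mem_supp]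
  constructor
  · rintro ⟨h1, h2⟩
    refine ⟨fun s hs => ⟨(h1 s hs).1, ?_⟩, h2⟩
    rcases Nat.lt_succ_iff_lt_or_eq.1 (h1 s hs).2 with h | h
    · exact h
    · exact absurd (h ▸ (h1 s hs).1) hx
  · rintro ⟨h1, h2⟩
    exact ⟨fun s hs => ⟨(h1 s hs).1, by have := (h1 s hs).2; omega⟩, h2⟩

theorem sb_mem_insert {x z : ℕ} (hx : x ∈ Q) (hxz : x < z) {F : Finset ℕ} (hF : ∀ s ∈ F, s < x)
    (b : ℕ) (T : ℝ) :
    insert x F ∈ supp Q τ b z T ↔
      F ∈ supp Q τ (b + 1) x (T - τ x) ∧ (Even (b + 1) → 3 * τ x < T) := by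
  have hxF : x ∉ F := fun h => lt_irrefl _ (hF x h)
  rw [sb_mem_supp, sb_mem_supp]
  have e1 : (insert x F).filter (fun s' => x ≤ s') = {x} := by
    ext s
    simp only [mem_filter, mem_insert, mem_singleton]
    constructor
    · rintro ⟨h | h, h2⟩
      · exact h
      · exact absurd (hF s h) (not_lt.2 h2)
    · rintro rfl
      exact ⟨Or.inl rfl, le_refl _⟩
  have e2 : (insert x F).filter (fun s' => x < s') = ∅ := by
    ext s
    simp only [mem_filter, mem_insert, notMem_empty, iff_false]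
    rintro ⟨h | h, h2⟩
    · exact absurd h2 (by omega)
    · exact absurd (hF s h) (by omega)
  have e3 : ∀ s ∈ F, ((insert x F).filter (fun s' => s ≤ s')).card
      = (F.filter (fun s' => s ≤ s')).card + 1 := by
    intro s hs
    rw [filter_insert, if_pos (hF s hs).le, card_insert_of_notMem]
    intro h
    exact hxF (mem_filter.1 h).1
  have e4 : ∀ s ∈ F, ∑ s' ∈ (insert x F).filter (fun s' => s < s'), τ s'
      = τ x + ∑ s' ∈ F.filter (fun s' => s < s'), τ s' := by
    intro s hs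
    rw [filter_insert, if_pos (hF s hs), sum_insert]
    intro h
    exact hxF (mem_filter.1 h).1
  constructor
  · rintro ⟨h1, h2⟩
    refine ⟨⟨fun s hs => ⟨(h1 s (mem_insert_of_mem hs)).1, hF s hs⟩, ?_⟩, ?_⟩
    · intro s hs hev
      have h3 := h2 s (mem_insert_of_mem hs) (by
        rw [e3 s hs, add_assoc, add_comm 1 b]
        exact hev)
      rw [e4 s hs] at h3
      linarith only [h3]
    · intro hev
      have h3 := h2 x (mem_insert_self _ _) (by
        rw [e1, card_singleton, add_comm]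
        exact hev)
      rw [e2, sum_empty, sub_zero] at h3
      exact h3
  · rintro ⟨⟨h1, h2⟩, h3⟩
    refine ⟨?_, ?_⟩
    · intro s hs
      rcases mem_insert.1 hs with rfl | hs
      · exact ⟨hx, hxz⟩
      · exact ⟨(h1 s hs).1, lt_trans (hF s hs) hxz⟩
    · intro s hs hev
      rcases mem_insert.1 hs with rfl | hs
      · rw [e2, sum_empty, sub_zero]
        apply h3
        rw [e1, card_singleton, add_comm] at hev
        exact hev
      · rw [e4 s hs]
        have h4 := h2 s hs (by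
          rw [e3 s hs, add_assoc, add_comm 1 b] at hev
          exact hev)
        linarith only [h4]

/-- decomposition of a sum over the support at the top prime -/
theorem sb_sum_succ {x : ℕ} (hx : x ∈ Q) (b : ℕ) (T : ℝ) (f : Finset ℕ → ℝ) :
    ∑ F ∈ supp Q τ b (x + 1) T, f F = ∑ F ∈ supp Q τ b x T, f F +
      (if Even (b + 1) → 3 * τ x < T then
        ∑ F ∈ supp Q τ (b + 1) x (T - τ x), f (insert x F) else 0) := by
  classical
  have h1 : supp Q τ b (x + 1) T = (supp Q τ b x T) ∪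
      (supp Q τ b (x + 1) T).filter (fun F => x ∈ F) := by
    ext F
    rw [mem_union, mem_filter]
    constructor
    · intro h
      by_cases hxF : x ∈ F
      · exact Or.inr ⟨h, hxF⟩
      · left
        rw [sb_mem_supp] at h ⊢
        refine ⟨fun s hs => ⟨(h.1 s hs).1, ?_⟩, h.2⟩
        rcases Nat.lt_succ_iff_lt_or_eq.1 (h.1 s hs).2 with h' | h'
        · exact h'
        · exact absurd (h' ▸ hs) hxF
    · rintro (h | h)
      · rw [sb_mem_supp] at h ⊢
        exact ⟨fun s hs => ⟨(h.1 s hs).1, by have := (h.1 s hs).2; omega⟩, h.2⟩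
      · exact h.1
  have h2 : Disjoint (supp Q τ b x T) ((supp Q τ b (x + 1) T).filter (fun F => x ∈ F)) := by
    rw [Finset.disjoint_left]
    intro F hF hF2
    rw [sb_mem_supp] at hF
    exact lt_irrefl _ (hF.1 x (mem_filter.1 hF2).2).2
  rw [h1, sum_union h2]
  congr 1
  have hinsF : ∀ F ∈ supp Q τ b (x + 1) T, x ∈ F → (∀ s ∈ F.erase x, s < x) := by
    intro F hF hxF s hs
    rw [sb_mem_supp] at hF
    have h3 := (hF.1 s (mem_of_mem_erase hs)).2
    have h4 := ne_of_mem_erase hs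
    omega
  split_ifs with hc
  · symm
    apply sum_bij (fun F _ => insert x F)
    · intro F hF
      rw [mem_filter]
      refine ⟨?_, mem_insert_self _ _⟩
      rw [sb_mem_insert hx (Nat.lt_succ_self x)]
      · exact ⟨hF, hc⟩
      · intro s hs
        rw [sb_mem_supp] at hF
        exact (hF.1 s hs).2
    · intro F hF F' hF' hFF
      have h3 : x ∉ F := fun h => by
        rw [sb_mem_supp] at hF
        exact lt_irrefl _ (hF.1 x h).2
      have h4 : x ∉ F' := fun h => by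
        rw [sb_mem_supp] at hF'
        exact lt_irrefl _ (hF'.1 x h).2
      rw [← erase_insert h3, ← erase_insert h4]
      exact congrArg (fun G => Finset.erase G x) hFF
    · intro G hG
      rw [mem_filter] at hG
      refine ⟨G.erase x, ?_, insert_erase hG.2⟩
      have h5 := hG.1
      rw [← insert_erase hG.2, sb_mem_insert hx (Nat.lt_succ_self x) (hinsF G hG.1 hG.2)] at h5
      exact h5.1
    · intro F _
      rfl
  · apply sum_eq_zero
    intro G hG
    rw [mem_filter] at hG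
    exfalso
    have h5 := hG.1
    rw [← insert_erase hG.2, sb_mem_insert hx (Nat.lt_succ_self x) (hinsF G hG.1 hG.2)] at h5
    exact hc h5.2

/-- signed remainder sum over the support -/
noncomputable def sbRem (Q : Finset ℕ) (τ r : ℕ → ℝ) (b x : ℕ) (T : ℝ) (d : ℕ) : ℝ :=
  ∑ F ∈ supp Q τ b x T, (-1) ^ F.card * r (d * ∏ p ∈ F, p)

theorem sbRem_notMem {x : ℕ} (hx : x ∉ Q) (r : ℕ → ℝ) (b : ℕ) (T : ℝ) (d : ℕ) :
    sbRem Q τ r b (x + 1) T d = sbRem Q τ r b x T d := by
  unfold sbRem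
  rw [sb_supp_notMem hx]

theorem sbRem_insert_sum {x : ℕ} (r : ℕ → ℝ) (b : ℕ) (T : ℝ) (d : ℕ) :
    ∑ F ∈ supp Q τ b x T, (-1) ^ (insert x F).card * r (d * ∏ p ∈ insert x F, p)
      = - sbRem Q τ r b x T (d * x) := by
  unfold sbRem
  rw [← sum_neg_distrib]
  apply sum_congr rfl
  intro F hF
  have hxF : x ∉ F := fun h => by
    rw [sb_mem_supp] at hF
    exact lt_irrefl _ (hF.1 x h).2
  rw [card_insert_of_notMem hxF, prod_insert hxF, pow_succ, ← mul_assoc]
  ring

theorem sbRem_zero_succ {x : ℕ} (hx : x ∈ Q) (r : ℕ → ℝ) (T : ℝ) (d : ℕ) :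
    sbRem Q τ r 0 (x + 1) T d = sbRem Q τ r 0 x T d - sbRem Q τ r 1 x (T - τ x) (d * x) := by
  have h := sb_sum_succ (τ := τ) hx 0 T (fun F => (-1) ^ F.card * r (d * ∏ p ∈ F, p))
  rw [if_pos (fun h => absurd h (by decide)), sbRem_insert_sum] at h
  exact h

theorem sbRem_one_succ {x : ℕ} (hx : x ∈ Q) (r : ℕ → ℝ) (T : ℝ) (d : ℕ) (hT : 3 * τ x < T) :
    sbRem Q τ r 1 (x + 1) T d = sbRem Q τ r 1 x T d - sbRem Q τ r 0 x (T - τ x) (d * x) := by
  have h := sb_sum_succ (τ := τ) hx 1 T (fun F => (-1) ^ F.card * r (d * ∏ p ∈ F, p))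
  rw [if_pos (fun _ => hT), sbRem_insert_sum] at h
  have h2 : sbRem Q τ r (1 + 1) x (T - τ x) (d * x) = sbRem Q τ r 0 x (T - τ x) (d * x) := by
    unfold sbRem
    rw [show 1 + 1 = 0 + 2 from rfl, sb_supp_two]
  rw [h2] at h
  exact h

theorem sbRem_one_succ_drop {x : ℕ} (hx : x ∈ Q) (r : ℕ → ℝ) (T : ℝ) (d : ℕ)
    (hT : ¬ 3 * τ x < T) :
    sbRem Q τ r 1 (x + 1) T d = sbRem Q τ r 1 x T d := by
  have h := sb_sum_succ (τ := τ) hx 1 T (fun F => (-1) ^ F.card * r (d * ∏ p ∈ F, p))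
  rw [if_neg (fun h => hT (h (by decide))), add_zero] at h
  exact h

end Supp

section Gv

variable {Q : Finset ℕ} {g : ℕ → ℝ}

theorem sb_gv_notMem {x : ℕ} (hx : x ∉ Q) : gv Q g (x + 1) = gv Q g x := by
  unfold gv
  rw [filter_lt_succ_notMem hx]

theorem sb_gv_mem {x : ℕ} (hx : x ∈ Q) : gv Q g (x + 1) = (1 - g x) * gv Q g x := by
  unfold gv
  rw [filter_lt_succ_mem hx, prod_insert (notMem_filter_lt Q x)]

theorem sb_gv_pos (hg1 : ∀ q ∈ Q, g q < 1) (x : ℕ) : 0 < gv Q g x := by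
  unfold gv
  apply prod_pos
  intro q hq
  have := hg1 q (mem_filter.1 hq).1
  linarith

theorem sb_gv_anti_succ (hg0 : ∀ q ∈ Q, 0 ≤ g q) (hg1 : ∀ q ∈ Q, g q < 1) (x : ℕ) :
    gv Q g (x + 1) ≤ gv Q g x := by
  by_cases hx : x ∈ Q
  · rw [sb_gv_mem hx]
    have := sb_gv_pos hg1 x
    linarith [mul_nonneg (sub_nonneg.2 (hg0 x hx)) (le_of_lt (sub_pos.2 this))]
  · rw [sb_gv_notMem hx]

theorem sb_gv_anti (hg0 : ∀ q ∈ Q, 0 ≤ g q) (hg1 : ∀ q ∈ Q, g q < 1) {x y : ℕ} (hxy : x ≤ y) :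
    gv Q g y ≤ gv Q g x :=
  antitone_nat_of_succ_le (sb_gv_anti_succ hg0 hg1) hxy

end Gv

section Unroll

variable (Q : Finset ℕ) (g : ℕ → ℝ) (K X : ℝ) (G r : ℕ → ℝ)

/-- lower bound of the sieve -/
noncomputable def sbLo (x : ℕ) (T : ℝ) (d : ℕ) : ℝ :=
  X * G d * (gv Q g x * sf (T / (K / gv Q g x))) + sbRem Q (fun x => K / gv Q g x) r 0 x T d

/-- upper bound of the sieve -/
noncomputable def sbUp (x : ℕ) (T : ℝ) (d : ℕ) : ℝ :=
  X * G d * (gv Q g x * sF (T / (K / gv Q g x))) + sbRem Q (fun x => K / gv Q g x) r 1 x T d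

variable {Q g K X G r}

theorem sbLo_notMem {x : ℕ} (hx : x ∉ Q) (T : ℝ) (d : ℕ) :
    sbLo Q g K X G r (x + 1) T d = sbLo Q g K X G r x T d := by
  unfold sbLo
  rw [sb_gv_notMem hx, sbRem_notMem hx]

theorem sbUp_notMem {x : ℕ} (hx : x ∉ Q) (T : ℝ) (d : ℕ) :
    sbUp Q g K X G r (x + 1) T d = sbUp Q g K X G r x T d := by
  unfold sbUp
  rw [sb_gv_notMem hx, sbRem_notMem hx]

theorem sbLo_step (hg0 : ∀ q ∈ Q, 0 ≤ g q) (hg1 : ∀ q ∈ Q, g q < 1) (hK : 0 < K) (hX : 0 ≤ X)
    (hG0 : ∀ d, 0 ≤ G d) {x : ℕ} (hx : x ∈ Q) {T : ℝ} {d : ℕ} (hG : G (d * x) = G d * g x)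
    (hT : 2 * (K / gv Q g (x + 1)) ≤ T) :
    sbLo Q g K X G r (x + 1) T d ≤
      sbLo Q g K X G r x T d - sbUp Q g K X G r x (T - K / gv Q g x) (d * x) := by
  have h1 := sb_step_low (sb_gv_pos hg1 x) hK (sb_gv_mem hx) (hg0 x hx) (hg1 x hx) hT
  have h2 := mul_le_mul_of_nonneg_left h1 (mul_nonneg hX (hG0 d))
  unfold sbLo sbUp
  rw [sbRem_zero_succ hx, hG]
  have e : X * (G d * g x) * (gv Q g x * sF ((T - K / gv Q g x) / (K / gv Q g x)))
      = X * G d * (gv Q g x * g x * sF ((T - K / gv Q g x) / (K / gv Q g x))) := by ring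
  rw [e]
  rw [mul_sub] at h2
  linarith only [h2]

theorem sbUp_step (hg0 : ∀ q ∈ Q, 0 ≤ g q) (hg1 : ∀ q ∈ Q, g q < 1) (hK : 0 < K) (hX : 0 ≤ X)
    (hG0 : ∀ d, 0 ≤ G d) {x : ℕ} (hx : x ∈ Q) {T : ℝ} {d : ℕ} (hG : G (d * x) = G d * g x)
    (hT : 3 * (K / gv Q g x) < T) :
    sbUp Q g K X G r x T d - sbLo Q g K X G r x (T - K / gv Q g x) (d * x) ≤
      sbUp Q g K X G r (x + 1) T d := by
  have h1 := sb_step_up (sb_gv_pos hg1 x) hK (sb_gv_mem hx) (hg0 x hx) (hg1 x hx) hT.le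
  have h2 := mul_le_mul_of_nonneg_left h1 (mul_nonneg hX (hG0 d))
  unfold sbLo sbUp
  rw [sbRem_one_succ (τ := fun x => K / gv Q g x) hx r T d hT, hG]
  have e : X * (G d * g x) * (gv Q g x * sf ((T - K / gv Q g x) / (K / gv Q g x)))
      = X * G d * (gv Q g x * g x * sf ((T - K / gv Q g x) / (K / gv Q g x))) := by ring
  rw [e]
  rw [mul_sub] at h2
  linarith only [h2]

theorem sbUp_drop (hg0 : ∀ q ∈ Q, 0 ≤ g q) (hg1 : ∀ q ∈ Q, g q < 1) (hK : 0 < K)
    {x : ℕ} (hx : x ∈ Q) {T : ℝ} {d : ℕ} (hT0 : 0 < T)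
    (hT : ¬ 3 * (K / gv Q g x) < T) :
    sbUp Q g K X G r x T d = sbUp Q g K X G r (x + 1) T d := by
  have h1 := sb_step_drop (sb_gv_pos hg1 x) hK (sb_gv_mem hx) (hg0 x hx) (hg1 x hx) hT0
    (not_lt.1 hT)
  unfold sbUp
  rw [sbRem_one_succ_drop (τ := fun x => K / gv Q g x) hx r T d hT, h1]

end Unroll

/-- the generic count system -/
structure SbSys (Q : Finset ℕ) (g : ℕ → ℝ) (K X : ℝ) (G r : ℕ → ℝ) (c : ℕ → ℕ → ℝ) : Prop where
  hQ : ∀ q ∈ Q, q.Prime
  hg0 : ∀ q ∈ Q, 0 ≤ g q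
  hg1 : ∀ q ∈ Q, g q < 1
  hK : 0 < K
  hX : 0 ≤ X
  hG0 : ∀ d, 0 ≤ G d
  hG : ∀ d, ∀ q ∈ Q, Nat.Coprime d q → G (d * q) = G d * g q
  hc0 : ∀ d, 0 < d → c d 0 = X * G d + r d
  hnn : ∀ d x, 0 ≤ c d x
  hc1 : ∀ d x, x ∉ Q → c d (x + 1) = c d x
  hc2 : ∀ d x, x ∈ Q → Nat.Coprime d x → c d (x + 1) = c d x - c (d * x) x

section Main

variable {Q : Finset ℕ} {g : ℕ → ℝ} {K X : ℝ} {G r : ℕ → ℝ} {c : ℕ → ℕ → ℝ}

theorem sb_supp_zero (τ : ℕ → ℝ) (b : ℕ) (T : ℝ) : supp Q τ b 0 T = {∅} := by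
  ext F
  rw [sb_mem_supp, mem_singleton]
  constructor
  · rintro ⟨h, -⟩
    rw [eq_empty_iff_forall_notMem]
    intro s hs
    exact absurd (h s hs).2 (Nat.not_lt_zero _)
  · rintro rfl
    simp

theorem sb_sbRem_zero (τ : ℕ → ℝ) (b : ℕ) (T : ℝ) (d : ℕ) : sbRem Q τ r b 0 T d = r d := by
  unfold sbRem
  rw [sb_supp_zero]
  simp

theorem sb_gv_zero : gv Q g 0 = 1 := by
  unfold gv
  simp

theorem sb_gen_sieve (h : SbSys Q g K X G r c) : ∀ (x d : ℕ) (T : ℝ), 0 < d →
    (∀ q ∈ Q, q < x → Nat.Coprime d q) →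
    (K / gv Q g x ≤ T → c d x ≤ sbUp Q g K X G r x T d) ∧
    (2 * (K / gv Q g x) ≤ T → sbLo Q g K X G r x T d ≤ c d x) := by
  intro x
  induction x with
  | zero =>
    intro d T hd _
    have hXG : 0 ≤ X * G d := mul_nonneg h.hX (h.hG0 d)
    unfold sbUp sbLo
    rw [sb_sbRem_zero, sb_sbRem_zero, sb_gv_zero, h.hc0 d hd, one_mul, one_mul]
    constructor
    · intro _
      have := mul_le_mul_of_nonneg_left (one_le_sF (T / (K / 1))) hXG
      linarith only [this]
    · intro _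
      have := mul_le_mul_of_nonneg_left (sf_le_one (T / (K / 1))) hXG
      linarith only [this]
  | succ x ih =>
    intro d T hd hcop
    have hcop' : ∀ q ∈ Q, q < x → Nat.Coprime d q := fun q hq hqx => hcop q hq (by omega)
    by_cases hx : x ∈ Q
    · have hp := h.hQ x hx
      have hcopx : Nat.Coprime d x := hcop x hx (Nat.lt_succ_self x)
      have hcop'' : ∀ q ∈ Q, q < x → Nat.Coprime (d * x) q := by
        intro q hq hqx
        apply Nat.Coprime.mul_left (hcop' q hq hqx)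
        rw [Nat.coprime_primes hp (h.hQ q hq)]
        omega
      have hdx : 0 < d * x := Nat.mul_pos hd hp.pos
      have hv := sb_gv_pos h.hg1 x
      have hv1 := sb_gv_pos h.hg1 (x + 1)
      have hmono : K / gv Q g x ≤ K / gv Q g (x + 1) :=
        div_le_div_of_nonneg_left h.hK.le hv1 (sb_gv_anti_succ h.hg0 h.hg1 x)
      have hKv : 0 < K / gv Q g x := div_pos h.hK hv
      rw [h.hc2 d x hx hcopx]
      constructor
      · intro hT
        have hU := (ih d T hd hcop').1 (hmono.trans hT)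
        by_cases h3 : 3 * (K / gv Q g x) < T
        · have hL := (ih (d * x) (T - K / gv Q g x) hdx hcop'').2 (by linarith only [h3])
          have hs := sbUp_step (r := r) h.hg0 h.hg1 h.hK h.hX h.hG0 hx (h.hG d x hx hcopx) h3
          linarith only [hU, hL, hs]
        · have hs := sbUp_drop (X := X) (G := G) (r := r) (d := d) h.hg0 h.hg1 h.hK hx
            (by linarith only [hmono, hKv, hT] : 0 < T) h3
          have := h.hnn (d * x) x
          linarith only [hU, hs, this]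
      · intro hT
        have hL := (ih d T hd hcop').2 (by linarith only [hmono, hT])
        have hU := (ih (d * x) (T - K / gv Q g x) hdx hcop'').1 (by linarith only [hmono, hT])
        have hs := sbLo_step (r := r) h.hg0 h.hg1 h.hK h.hX h.hG0 hx (h.hG d x hx hcopx) hT
        linarith only [hL, hU, hs]
    · rw [h.hc1 d x hx, sbUp_notMem hx, sbLo_notMem hx, sb_gv_notMem hx]
      exact ih d T hd hcop'

/-- gain at a pair -/
noncomputable def sbImp (Q : Finset ℕ) (g : ℕ → ℝ) (K X : ℝ) (G r : ℕ → ℝ) (T₀ T₁ : ℝ)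
    (p q : ℕ) : ℝ :=
  sbLo Q g K X G r q (T₁ - K / gv Q g p - K / gv Q g q) (p * q) -
    sbLo Q g K X G r q (T₀ - K / gv Q g p - K / gv Q g q) (p * q)

/-- admissible pair for the unrolling -/
def sbOk (Q : Finset ℕ) (g : ℕ → ℝ) (K T₀ : ℝ) (pq : ℕ × ℕ) : Prop :=
  pq.1 ∈ Q ∧ pq.2 ∈ Q ∧ pq.2 < pq.1 ∧ 3 * (K / gv Q g pq.2) < T₀ - K / gv Q g pq.1

theorem sb_inner (h : SbSys Q g K X G r c) {T₀ T₁ : ℝ} (hT : T₀ ≤ T₁)
    {DD : Finset (ℕ × ℕ)} (hDD : ∀ pq ∈ DD, sbOk Q g K T₀ pq) {p : ℕ} (hp : p ∈ Q)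
    (hpT : 2 * (K / gv Q g p) ≤ T₀) : ∀ x ≤ p,
    c p x ≤ sbUp Q g K X G r x (T₀ - K / gv Q g p) p -
      ∑ pq ∈ DD.filter (fun pq => pq.1 = p ∧ pq.2 < x), sbImp Q g K X G r T₀ T₁ p pq.2 := by
  intro x
  have hpp := h.hQ p hp
  have hvp := sb_gv_pos h.hg1 p
  have hKp : 0 < K / gv Q g p := div_pos h.hK hvp
  induction x with
  | zero =>
    intro _
    have h1 : DD.filter (fun pq => pq.1 = p ∧ pq.2 < 0) = ∅ := by
      ext pq
      simp
    rw [h1, sum_empty, sub_zero]
    apply (sb_gen_sieve h 0 p (T₀ - K / gv Q g p) hpp.pos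
      (fun _ _ hq => absurd hq (Nat.not_lt_zero _))).1
    have : K / gv Q g 0 ≤ K / gv Q g p :=
      div_le_div_of_nonneg_left h.hK.le hvp (sb_gv_anti h.hg0 h.hg1 (Nat.zero_le _))
    linarith only [hpT, this]
  | succ x ih =>
    intro hxp
    have hxp' : x < p := hxp
    have ih' := ih hxp'.le
    by_cases hx : x ∈ Q
    · have hxpr := h.hQ x hx
      have hcopx : Nat.Coprime p x := by
        rw [Nat.coprime_primes hpp hxpr]
        omega
      have hcop'' : ∀ q ∈ Q, q < x → Nat.Coprime (p * x) q := by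
        intro q hq hqx
        apply Nat.Coprime.mul_left
        · rw [Nat.coprime_primes hpp (h.hQ q hq)]
          omega
        · rw [Nat.coprime_primes hxpr (h.hQ q hq)]
          omega
      have hdx : 0 < p * x := Nat.mul_pos hpp.pos hxpr.pos
      rw [h.hc2 p x hx hcopx]
      by_cases hmem : (p, x) ∈ DD
      · have h1 : DD.filter (fun pq => pq.1 = p ∧ pq.2 < x + 1)
            = insert (p, x) (DD.filter (fun pq => pq.1 = p ∧ pq.2 < x)) := by
          ext ⟨a, b⟩
          simp only [mem_filter, mem_insert, Prod.mk.injEq]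
          constructor
          · rintro ⟨h2, h3, h4⟩
            rcases Nat.lt_succ_iff_lt_or_eq.1 h4 with h5 | h5
            · exact Or.inr ⟨h2, h3, h5⟩
            · exact Or.inl ⟨h3, h5⟩
          · rintro (⟨h2, h3⟩ | ⟨h2, h3, h4⟩)
            · subst h2; subst h3
              exact ⟨hmem, rfl, Nat.lt_succ_self _⟩
            · exact ⟨h2, h3, by omega⟩
        have h2 : (p, x) ∉ DD.filter (fun pq => pq.1 = p ∧ pq.2 < x) := by simp
        rw [h1, sum_insert h2]
        obtain ⟨-, -, -, h3⟩ := hDD _ hmem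
        have h3' : 3 * (K / gv Q g x) < T₀ - K / gv Q g p := h3
        have hL := (sb_gen_sieve h x (p * x) (T₁ - K / gv Q g p - K / gv Q g x) hdx hcop'').2
          (by linarith only [hT, h3])
        have hs := sbUp_step (r := r) h.hg0 h.hg1 h.hK h.hX h.hG0 hx (h.hG p x hx hcopx) h3'
        have e : sbImp Q g K X G r T₀ T₁ p (p, x).2 =
            sbLo Q g K X G r x (T₁ - K / gv Q g p - K / gv Q g x) (p * x) -
              sbLo Q g K X G r x (T₀ - K / gv Q g p - K / gv Q g x) (p * x) := rfl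
        rw [e]
        linarith only [ih', hL, hs]
      · have h1 : DD.filter (fun pq => pq.1 = p ∧ pq.2 < x + 1)
            = DD.filter (fun pq => pq.1 = p ∧ pq.2 < x) := by
          ext ⟨a, b⟩
          simp only [mem_filter]
          constructor
          · rintro ⟨h2, h3, h4⟩
            refine ⟨h2, h3, ?_⟩
            rcases Nat.lt_succ_iff_lt_or_eq.1 h4 with h5 | h5
            · exact h5
            · subst h3; subst h5
              exact absurd h2 hmem
          · rintro ⟨h2, h3, h4⟩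
            exact ⟨h2, h3, by omega⟩
        rw [h1]
        by_cases h3 : 3 * (K / gv Q g x) < T₀ - K / gv Q g p
        · have hL := (sb_gen_sieve h x (p * x) (T₀ - K / gv Q g p - K / gv Q g x) hdx hcop'').2
            (by linarith only [h3])
          have hs := sbUp_step (r := r) h.hg0 h.hg1 h.hK h.hX h.hG0 hx (h.hG p x hx hcopx) h3
          linarith only [ih', hL, hs]
        · have hs := sbUp_drop (X := X) (G := G) (r := r) (d := p) h.hg0 h.hg1 h.hK hx
            (by linarith only [hpT, hKp] : 0 < T₀ - K / gv Q g p) h3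
          have := h.hnn (p * x) x
          linarith only [ih', hs, this]
    · have h1 : DD.filter (fun pq => pq.1 = p ∧ pq.2 < x + 1)
          = DD.filter (fun pq => pq.1 = p ∧ pq.2 < x) := by
        ext ⟨a, b⟩
        simp only [mem_filter]
        constructor
        · rintro ⟨h2, h3, h4⟩
          refine ⟨h2, h3, ?_⟩
          rcases Nat.lt_succ_iff_lt_or_eq.1 h4 with h5 | h5
          · exact h5
          · subst h5
            exact absurd (hDD _ h2).2.1 hx
        · rintro ⟨h2, h3, h4⟩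
          exact ⟨h2, h3, by omega⟩
      rw [h1, h.hc1 p x hx, sbUp_notMem hx]
      exact ih'

theorem sb_outer (h : SbSys Q g K X G r c) {T₀ T₁ : ℝ} (hT : T₀ ≤ T₁)
    {DD : Finset (ℕ × ℕ)} (hDD : ∀ pq ∈ DD, sbOk Q g K T₀ pq) : ∀ x,
    2 * (K / gv Q g x) ≤ T₀ →
    sbLo Q g K X G r x T₀ 1 +
      ∑ pq ∈ DD.filter (fun pq => pq.1 < x), sbImp Q g K X G r T₀ T₁ pq.1 pq.2 ≤ c 1 x := by
  intro x
  induction x with
  | zero =>
    intro hx
    have h1 : DD.filter (fun pq => pq.1 < 0) = ∅ := by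
      ext pq
      simp
    rw [h1, sum_empty, add_zero]
    exact (sb_gen_sieve h 0 1 T₀ one_pos (fun _ _ hq => absurd hq (Nat.not_lt_zero _))).2 hx
  | succ x ih =>
    intro hxT
    have hv := sb_gv_pos h.hg1 x
    have hv1 := sb_gv_pos h.hg1 (x + 1)
    have hmono : K / gv Q g x ≤ K / gv Q g (x + 1) :=
      div_le_div_of_nonneg_left h.hK.le hv1 (sb_gv_anti_succ h.hg0 h.hg1 x)
    have ih' := ih (by linarith only [hxT, hmono])
    by_cases hx : x ∈ Q
    · have hcopx : Nat.Coprime 1 x := Nat.coprime_one_left x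
      rw [h.hc2 1 x hx hcopx, one_mul]
      have h1 : DD.filter (fun pq => pq.1 < x + 1)
          = DD.filter (fun pq => pq.1 < x) ∪ DD.filter (fun pq => pq.1 = x ∧ pq.2 < x) := by
        ext ⟨a, b⟩
        simp only [mem_filter, mem_union]
        constructor
        · rintro ⟨h2, h3⟩
          rcases Nat.lt_succ_iff_lt_or_eq.1 h3 with h4 | h4
          · exact Or.inl ⟨h2, h4⟩
          · have := (hDD _ h2).2.2.1
            exact Or.inr ⟨h2, h4, by simp only at this; omega⟩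
        · rintro (⟨h2, h3⟩ | ⟨h2, h3, h4⟩)
          · exact ⟨h2, by omega⟩
          · exact ⟨h2, by omega⟩
      have h2 : Disjoint (DD.filter (fun pq => pq.1 < x))
          (DD.filter (fun pq => pq.1 = x ∧ pq.2 < x)) := by
        rw [Finset.disjoint_left]
        rintro ⟨a, b⟩ h3 h4
        simp only [mem_filter] at h3 h4
        omega
      rw [h1, sum_union h2]
      have hI := sb_inner h hT hDD hx (by linarith only [hxT, hmono]) x (le_refl x)
      have h3 : ∑ pq ∈ DD.filter (fun pq => pq.1 = x ∧ pq.2 < x), sbImp Q g K X G r T₀ T₁ pq.1 pq.2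
          = ∑ pq ∈ DD.filter (fun pq => pq.1 = x ∧ pq.2 < x), sbImp Q g K X G r T₀ T₁ x pq.2 := by
        apply sum_congr rfl
        intro pq hpq
        rw [(mem_filter.1 hpq).2.1]
      rw [h3]
      have hs := sbLo_step (r := r) h.hg0 h.hg1 h.hK h.hX h.hG0 hx (h.hG 1 x hx hcopx) hxT
      rw [one_mul] at hs
      linarith only [ih', hI, hs]
    · have h1 : DD.filter (fun pq => pq.1 < x + 1) = DD.filter (fun pq => pq.1 < x) := by
        ext ⟨a, b⟩
        simp only [mem_filter]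
        constructor
        · rintro ⟨h2, h3⟩
          refine ⟨h2, ?_⟩
          rcases Nat.lt_succ_iff_lt_or_eq.1 h3 with h5 | h5
          · exact h5
          · subst h5
            exact absurd (hDD _ h2).1 hx
        · rintro ⟨h2, h3⟩
          exact ⟨h2, by omega⟩
      rw [h1, h.hc1 1 x hx, sbLo_notMem hx]
      exact ih'

end Main

end Vale.Agent.P013.J
end

section

/-! Stability of the linear sieve: the remainder over pairs. -/

open Finset Real

namespace Vale.Agent.P013.J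

open Vale.Agent.P013

theorem sb_top2_unique {G : Finset ℕ} {p q p' q' : ℕ} (h : top2 G p q) (h' : top2 G p' q') :
    p = p' ∧ q = q' := by
  obtain ⟨h1, h2, h3, h4⟩ := h
  obtain ⟨k1, k2, k3, k4⟩ := h'
  have e : p = p' := by
    rcases h4 p' k1 with e | e
    · exact e.symm
    · rcases k4 p h1 with e' | e'
      · exact e'
      · omega
  subst e
  refine ⟨rfl, ?_⟩
  rcases h4 q' k2 with e | e
  · omega
  · rcases k4 q h2 with e' | e'
    · omega
    · omega

section

variable {Q : Finset ℕ} {τ : ℕ → ℝ}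

theorem sb_mem_pair {z p q : ℕ} (hp : p ∈ Q) (hq : q ∈ Q) (hpz : p < z) (hqp : q < p) {T : ℝ}
    (hT : 3 * τ q < T - τ p) {F : Finset ℕ} (hF : ∀ s ∈ F, s < q) :
    insert p (insert q F) ∈ supp Q τ 0 z T ↔ F ∈ supp Q τ 0 q (T - τ p - τ q) := by
  have hF' : ∀ s ∈ insert q F, s < p := by
    intro s hs
    rcases mem_insert.1 hs with rfl | hs
    · exact hqp
    · exact lt_trans (hF s hs) hqp
  rw [sb_mem_insert hp hpz hF', sb_mem_insert hq hqp hF]
  have e : supp Q τ (0 + 1 + 1) q (T - τ p - τ q) = supp Q τ 0 q (T - τ p - τ q) := by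
    rw [show 0 + 1 + 1 = 0 + 2 from rfl, sb_supp_two]
  rw [e]
  constructor
  · rintro ⟨⟨h1, -⟩, -⟩
    exact h1
  · intro h1
    exact ⟨⟨h1, fun _ => hT⟩, fun h => absurd h (by decide)⟩

theorem sb_pair_filter {z : ℕ} {T : ℝ} {DD : Finset (ℕ × ℕ)}
    (hDD : ∀ pq ∈ DD, pq.1 ∈ Q ∧ pq.2 ∈ Q ∧ pq.1 < z ∧ pq.2 < pq.1 ∧ 3 * τ pq.2 < T - τ pq.1)
    (f : Finset ℕ → ℝ) (S : Finset (Finset ℕ))
    (hS : ∀ G, G ∈ S ↔ G ∈ supp Q τ 0 z T ∧ ∃ pq ∈ DD, top2 G pq.1 pq.2) :
    ∑ G ∈ S, f G = ∑ pq ∈ DD, ∑ F ∈ supp Q τ 0 pq.2 (T - τ pq.1 - τ pq.2),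
      f (insert pq.1 (insert pq.2 F)) := by
  classical
  have hlt : ∀ (p q : ℕ) (T' : ℝ) (F : Finset ℕ), F ∈ supp Q τ 0 q T' → ∀ s ∈ F, s < q := by
    intro p q T' F hF s hs
    rw [sb_mem_supp] at hF
    exact (hF.1 s hs).2
  have htop : ∀ (p q : ℕ) (F : Finset ℕ), q < p → (∀ s ∈ F, s < q) →
      top2 (insert p (insert q F)) p q := by
    intro p q F hqp hF
    refine ⟨mem_insert_self _ _, mem_insert_of_mem (mem_insert_self _ _), hqp, ?_⟩
    intro s hs
    rcases mem_insert.1 hs with h | hs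
    · exact Or.inl h
    · rcases mem_insert.1 hs with h | hs
      · exact Or.inr h.le
      · exact Or.inr (hF s hs).le
  have hS' : S = DD.biUnion (fun pq => (supp Q τ 0 pq.2 (T - τ pq.1 - τ pq.2)).image
      (fun F => insert pq.1 (insert pq.2 F))) := by
    ext G
    rw [hS, mem_biUnion]
    constructor
    · rintro ⟨h1, pq, hpq, h2⟩
      refine ⟨pq, hpq, ?_⟩
      rw [mem_image]
      obtain ⟨hp, hq, hpz, hqp, hT⟩ := hDD pq hpq
      obtain ⟨g1, g2, g3, g4⟩ := h2
      have hF : ∀ s ∈ (G.erase pq.1).erase pq.2, s < pq.2 := by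
        intro s hs
        have a1 := ne_of_mem_erase hs
        have a2 := mem_of_mem_erase hs
        have a3 := ne_of_mem_erase a2
        have a4 := mem_of_mem_erase a2
        rcases g4 s a4 with h | h
        · exact absurd h a3
        · omega
      have hG : insert pq.1 (insert pq.2 ((G.erase pq.1).erase pq.2)) = G := by
        rw [insert_erase (mem_erase.2 ⟨by omega, g2⟩), insert_erase g1]
      refine ⟨(G.erase pq.1).erase pq.2, ?_, hG⟩
      rw [← hG] at h1
      exact (sb_mem_pair hp hq hpz hqp hT hF).1 h1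
    · rintro ⟨pq, hpq, h1⟩
      rw [mem_image] at h1
      obtain ⟨F, hF, rfl⟩ := h1
      obtain ⟨hp, hq, hpz, hqp, hT⟩ := hDD pq hpq
      have hF' := hlt pq.1 _ _ F hF
      exact ⟨(sb_mem_pair hp hq hpz hqp hT hF').2 hF, pq, hpq, htop _ _ F hqp hF'⟩
  rw [hS', sum_biUnion]
  · apply sum_congr rfl
    intro pq hpq
    obtain ⟨hp, hq, hpz, hqp, hT⟩ := hDD pq hpq
    rw [sum_image]
    intro F hF F' hF' hFF
    have a1 := hlt pq.1 _ _ F hF
    have a2 := hlt pq.1 _ _ F' hF'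
    have b1 : pq.2 ∉ F := fun h => lt_irrefl _ (a1 _ h)
    have b2 : pq.2 ∉ F' := fun h => lt_irrefl _ (a2 _ h)
    have c1 : pq.1 ∉ insert pq.2 F := by
      intro h
      rcases mem_insert.1 h with h | h
      · omega
      · have := a1 _ h
        omega
    have c2 : pq.1 ∉ insert pq.2 F' := by
      intro h
      rcases mem_insert.1 h with h | h
      · omega
      · have := a2 _ h
        omega
    have d1 : insert pq.2 F = insert pq.2 F' := by
      rw [← erase_insert c1, ← erase_insert c2]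
      exact congrArg (fun G => Finset.erase G pq.1) hFF
    rw [← erase_insert b1, ← erase_insert b2]
    exact congrArg (fun G => Finset.erase G pq.2) d1
  · intro pq hpq pq' hpq' hne
    rw [Function.onFun, Finset.disjoint_left]
    intro G hG hG'
    rw [mem_image] at hG hG'
    obtain ⟨F, hF, rfl⟩ := hG
    obtain ⟨F', hF', hFF⟩ := hG'
    obtain ⟨hp, hq, hpz, hqp, hT⟩ := hDD pq hpq
    obtain ⟨hp', hq', hpz', hqp', hT'⟩ := hDD pq' hpq'
    have t1 := htop pq.1 pq.2 F hqp (hlt pq.1 _ _ F hF)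
    have t2 := htop pq'.1 pq'.2 F' hqp' (hlt pq'.1 _ _ F' hF')
    rw [hFF] at t2
    obtain ⟨e1, e2⟩ := sb_top2_unique t1 t2
    exact hne (Prod.ext e1 e2)

theorem sb_rem_pair {p q : ℕ} (hqp : q < p) {T : ℝ} (r : ℕ → ℝ) :
    ∑ F ∈ supp Q τ 0 q T, (-1) ^ (insert p (insert q F)).card * r (∏ s ∈ insert p (insert q F), s)
      = sbRem Q τ r 0 q T (p * q) := by
  unfold sbRem
  apply sum_congr rfl
  intro F hF
  have a1 : ∀ s ∈ F, s < q := by
    intro s hs
    rw [sb_mem_supp] at hF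
    exact (hF.1 s hs).2
  have b1 : q ∉ F := fun h => lt_irrefl _ (a1 _ h)
  have c1 : p ∉ insert q F := by
    intro h
    rcases mem_insert.1 h with h | h
    · omega
    · have := a1 _ h
      omega
  rw [card_insert_of_notMem c1, card_insert_of_notMem b1, prod_insert c1, prod_insert b1,
    pow_succ, pow_succ, ← mul_assoc]
  ring

end

/-- the remainder over pairs -/
theorem sb_RD {z : ℕ} {T : ℝ} {DD : Finset (ℕ × ℕ)}
    (hDD : ∀ pq ∈ DD, pq.1 ∈ PP z ∧ pq.2 ∈ PP z ∧ pq.1 < z ∧ pq.2 < pq.1 ∧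
      3 * tau z pq.2 < T - tau z pq.1) (r : ℕ → ℝ) :
    RD z T DD r = ∑ pq ∈ DD,
      sbRem (PP z) (tau z) r 0 pq.2 (T - tau z pq.1 - tau z pq.2) (pq.1 * pq.2) := by
  classical
  unfold RD
  rw [sb_pair_filter hDD (fun G => (-1) ^ G.card * r (∏ p ∈ G, p)) _ (fun G => by
    rw [mem_filter])]
  apply sum_congr rfl
  intro pq hpq
  exact sb_rem_pair (hDD pq hpq).2.2.2.1 r

/-- trivial bound for the remainder over pairs -/
theorem sb_RD_le {z : ℕ} {T : ℝ} {DD : Finset (ℕ × ℕ)} {r : ℕ → ℝ} {C : ℝ}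
    (hr : ∀ n, 1 ≤ n → |r n| ≤ C) :
    |RD z T DD r| ≤ C * ((supp (PP z) (tau z) 0 z T).card : ℝ) := by
  classical
  have hC : 0 ≤ C := (abs_nonneg _).trans (hr 1 (le_refl 1))
  unfold RD
  refine (abs_sum_le_sum_abs _ _).trans ?_
  have h1 : ∀ G ∈ (supp (PP z) (tau z) 0 z T).filter (fun G => ∃ pq ∈ DD, top2 G pq.1 pq.2),
      |(-1) ^ G.card * r (∏ p ∈ G, p)| ≤ C := by
    intro G hG
    rw [abs_mul, abs_pow, abs_neg, abs_one, one_pow, one_mul]
    apply hr
    apply Nat.one_le_iff_ne_zero.2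
    rw [Finset.prod_ne_zero_iff]
    intro p hp
    have h2 := ((sb_mem_supp.1 (mem_filter.1 hG).1).1 p hp).1
    unfold PP at h2
    exact (mem_filter.1 h2).2.ne_zero
  refine (sum_le_sum h1).trans ?_
  rw [sum_const, nsmul_eq_mul, mul_comm]
  apply mul_le_mul_of_nonneg_left _ hC
  exact_mod_cast card_filter_le _ _

theorem sb_rem_le {z x d : ℕ} (hd : 1 ≤ d) {T : ℝ} {b : ℕ} {r : ℕ → ℝ} {C : ℝ}
    (hr : ∀ n, 1 ≤ n → |r n| ≤ C) :
    |sbRem (PP z) (tau z) r b x T d| ≤ C * ((supp (PP z) (tau z) b x T).card : ℝ) := by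
  classical
  unfold sbRem
  refine (abs_sum_le_sum_abs _ _).trans ?_
  have h1 : ∀ G ∈ supp (PP z) (tau z) b x T, |(-1) ^ G.card * r (d * ∏ p ∈ G, p)| ≤ C := by
    intro G hG
    rw [abs_mul, abs_pow, abs_neg, abs_one, one_pow, one_mul]
    apply hr
    apply Nat.one_le_iff_ne_zero.2
    apply mul_ne_zero (by omega)
    rw [Finset.prod_ne_zero_iff]
    intro p hp
    have h2 := ((sb_mem_supp.1 hG).1 p hp).1
    unfold PP at h2
    exact (mem_filter.1 h2).2.ne_zero
  refine (sum_le_sum h1).trans ?_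
  rw [sum_const, nsmul_eq_mul, mul_comm]

end Vale.Agent.P013.J
end

section

/-! Smooth count of the integers of an interval without small primes. -/

open Finset Real

namespace Vale.Agent.P013.J

/-- smooth number of `1 ≤ i ≤ y` with `d ∣ i - V` and no `q ∈ Q`, `q < x`, dividing `i - V` -/
noncomputable def cW (W : ℝ → ℝ) (y : ℕ) (V : ℤ) (Q : Finset ℕ) (d x : ℕ) : ℝ := by
  classical
  exact ∑ i ∈ (Icc 1 y).filter (fun i : ℕ => (d : ℤ) ∣ (i : ℤ) - V ∧
    ∀ q ∈ Q, q < x → ¬ (q : ℤ) ∣ (i : ℤ) - V), W ((i : ℝ) / y)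

theorem cW_nonneg {W : ℝ → ℝ} (hW : ∀ x, 0 ≤ W x) (y : ℕ) (V : ℤ) (Q : Finset ℕ) (d x : ℕ) :
    0 ≤ cW W y V Q d x := by
  classical
  exact sum_nonneg fun i _ => hW _

theorem cW_zero (W : ℝ → ℝ) (y : ℕ) (V : ℤ) (Q : Finset ℕ) (d : ℕ) :
    cW W y V Q d 0 = ((y : ℝ) * ∫ x, W x) * (1 / (d : ℝ)) + rr W y V d := by
  classical
  unfold cW rr
  have h : (Icc 1 y).filter (fun i : ℕ => (d : ℤ) ∣ (i : ℤ) - V ∧
      ∀ q ∈ Q, q < 0 → ¬ (q : ℤ) ∣ (i : ℤ) - V) =
      (Icc 1 y).filter (fun i : ℕ => (d : ℤ) ∣ (i : ℤ) - V) := by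
    apply filter_congr
    intro i _
    simp
  rw [h]
  ring

theorem cW_succ_notMem {Q : Finset ℕ} {x : ℕ} (hx : x ∉ Q) (W : ℝ → ℝ) (y : ℕ) (V : ℤ) (d : ℕ) :
    cW W y V Q d (x + 1) = cW W y V Q d x := by
  classical
  unfold cW
  congr 1
  apply filter_congr
  intro i _
  constructor
  · rintro ⟨h1, h2⟩
    exact ⟨h1, fun q hq hqx => h2 q hq (by omega)⟩
  · rintro ⟨h1, h2⟩
    refine ⟨h1, fun q hq hqx => h2 q hq ?_⟩
    rcases Nat.lt_succ_iff_lt_or_eq.1 hqx with h | h
    · exact h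
    · exact absurd (h ▸ hq) hx

theorem cW_succ_mem {Q : Finset ℕ} {x : ℕ} (hx : x ∈ Q) (W : ℝ → ℝ) (y : ℕ) (V : ℤ) {d : ℕ}
    (hd : Nat.Coprime d x) :
    cW W y V Q d (x + 1) = cW W y V Q d x - cW W y V Q (d * x) x := by
  classical
  rw [eq_sub_iff_add_eq]
  unfold cW
  rw [← sum_union]
  · congr 1
    ext i
    simp only [mem_union, mem_filter]
    constructor
    · rintro (⟨h1, h2, h3⟩ | ⟨h1, h2, h3⟩)
      · exact ⟨h1, h2, fun q hq hqx => h3 q hq (by omega)⟩
      · refine ⟨h1, ?_, h3⟩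
        push_cast at h2
        exact dvd_of_mul_right_dvd h2
    · rintro ⟨h1, h2, h3⟩
      by_cases hxt : (x:ℤ) ∣ (i : ℤ) - V
      · refine Or.inr ⟨h1, ?_, h3⟩
        push_cast
        apply IsCoprime.mul_dvd _ h2 hxt
        exact Nat.isCoprime_iff_coprime.2 hd
      · refine Or.inl ⟨h1, h2, fun q hq hqx => ?_⟩
        rcases Nat.lt_succ_iff_lt_or_eq.1 hqx with h | h
        · exact h3 q hq h
        · exact h ▸ hxt
  · rw [Finset.disjoint_left]
    intro t ht ht2
    simp only [mem_filter] at ht ht2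
    apply ht.2.2 x hx (Nat.lt_succ_self x)
    have := ht2.2.1
    push_cast at this
    exact dvd_of_mul_left_dvd this

end Vale.Agent.P013.J
end

section

/-! Stability of the linear sieve: the main inequality for fixed `y`. -/

open Finset Real Filter

namespace Vale.Agent.P013.J

open Vale.Agent.P013

theorem sb_mem_PP {z q : ℕ} : q ∈ PP z ↔ q < z ∧ q.Prime := by
  unfold PP
  rw [mem_filter, mem_range]

/-- the smooth counts form a count system -/
theorem sb_sys {W : ℝ → ℝ} (hW : GoodW W) (y : ℕ) (V : ℤ) {z : ℕ} (hz : 2 ≤ z) :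
    SbSys (PP z) (fun q => 1 / (q : ℝ)) (log z * gv (PP z) (fun q => 1 / (q : ℝ)) z)
      ((y : ℝ) * ∫ x, W x) (fun d => 1 / (d : ℝ)) (rr W y V) (cW W y V (PP z)) where
  hQ := fun q hq => (sb_mem_PP.1 hq).2
  hg0 := fun q _ => by positivity
  hg1 := fun q hq => by
    have h := (sb_mem_PP.1 hq).2.two_le
    have h2 : (2:ℝ) ≤ q := by exact_mod_cast h
    rw [div_lt_one (by linarith only [h2])]
    linarith only [h2]
  hK := by
    have h3 : 0 < log (z : ℝ) := Real.log_pos (by exact_mod_cast (by omega : 1 < z))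
    exact mul_pos h3 (gvP_pos z z)
  hX := mul_nonneg (Nat.cast_nonneg y) hW.int_pos.le
  hG0 := fun d => by positivity
  hG := fun d q _ _ => by
    push_cast
    rw [one_div_mul_one_div]
  hc0 := fun d _ => cW_zero W y V (PP z) d
  hnn := fun d x => cW_nonneg hW.nonneg y V (PP z) d x
  hc1 := fun d x hx => cW_succ_notMem hx W y V d
  hc2 := fun d x hx hd => cW_succ_mem hx W y V hd

theorem sb_tau_fun (z : ℕ) : (fun x => (log z * gv (PP z) (fun q => 1 / (q : ℝ)) z) /
    gv (PP z) (fun q => 1 / (q : ℝ)) x) = tau z := rfl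

/-- gain of one pair -/
theorem sb_gain_pair {l L c A₁ T₀ tp tq φ : ℝ} (hc : 0 < c) (hl : 1 ≤ l)
    (hA₁ : 1 ≤ A₁) (hL : 1 ≤ L) (hAL : A₁ * L ≤ l) (hT₀ : T₀ ≤ l) (htp : 0 < tp)
    (htq0 : c / 2 * l ≤ tq) (h3 : 3 * tq < T₀ - tp) (hφ : φ = (phiM (2 / c)).toReal) :
    A₁ * L / (2 * l) * φ ≤ sf ((T₀ + A₁ * L - tp - tq) / tq) - sf ((T₀ - tp - tq) / tq) := by
  have htq : 0 < tq := lt_of_lt_of_le (by positivity) htq0
  have hAL0 : 0 < A₁ * L := by positivity
  have hs2 : 2 ≤ (T₀ - tp - tq) / tq := by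
    rw [le_div_iff₀ htq]
    linarith only [h3]
  have hst : (T₀ - tp - tq) / tq ≤ (T₀ + A₁ * L - tp - tq) / tq := by
    gcongr
    linarith only [hAL0]
  have h1 := sb_sf_gain hs2 hst
  have h2 : A₁ * L / (2 * l) ≤ ((T₀ + A₁ * L - tp - tq) / tq - (T₀ - tp - tq) / tq) /
      ((T₀ + A₁ * L - tp - tq) / tq) := by
    have e : ((T₀ + A₁ * L - tp - tq) / tq - (T₀ - tp - tq) / tq) /
      ((T₀ + A₁ * L - tp - tq) / tq) = A₁ * L / (T₀ + A₁ * L - tp - tq) := by
      have : (T₀ + A₁ * L - tp - tq) ≠ 0 := by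
        have : 0 < T₀ + A₁ * L - tp - tq := by linarith only [h3, htq, hAL0]
        exact this.ne'
      field_simp
      ring
    rw [e]
    apply div_le_div_of_nonneg_left hAL0.le (by linarith only [h3, htq, hAL0]) (by linarith only [hAL, hT₀, htp, htq])
  have hs3 : (T₀ - tp - tq) / tq ≤ 2 / c := by
    rw [div_le_div_iff₀ htq hc]
    linarith only [htq0, mul_nonneg (le_of_lt (sub_pos.2 hc)) (sub_nonneg.2 hT₀), mul_pos (sub_pos.2 hc) (sub_pos.2 htp), mul_pos (sub_pos.2 hc) (sub_pos.2 htq)]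
  have h4 := sb_phiM_toReal_anti hs2 hs3
  have h5 : 0 ≤ φ := by rw [hφ]; exact ENNReal.toReal_nonneg
  have h6 : 0 ≤ A₁ * L / (2 * l) := by positivity
  refine le_trans ?_ h1
  rw [← hφ] at h4
  calc A₁ * L / (2 * l) * φ ≤ A₁ * L / (2 * l) * (phiM ((T₀ - tp - tq) / tq)).toReal := by
        gcongr
    _ ≤ _ := by
        apply mul_le_mul_of_nonneg_right h2 ENNReal.toReal_nonneg

theorem sb_core {W : ℝ → ℝ} (hW : GoodW W) {y : ℕ} {V : ℤ} {z : ℕ} {c A₁ CW Ct Cg K₁ φ : ℝ}
    {DD : Finset (ℕ × ℕ)} (hc : 0 < c) (hc1 : c < 1 / 10) (hA₁ : 1 ≤ A₁) (hCg : 0 < Cg)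
    (hφ : φ = (phiM (2 / c)).toReal)
    (hrr : ∀ n, 1 ≤ n → |rr W y V n| ≤ CW) (hz2 : 2 ≤ z)
    (hzl : 2 * log z ≤ log y) (hzl2 : 0.48 * log y + 3 * Ct < log z)
    (htau : ∀ x : ℕ, 2 ≤ x → x ≤ z → |tau z x - log x| ≤ Ct)
    (hgv : ∀ x : ℕ, 2 ≤ x → x ≤ z →
      1 / (Cg * log x) ≤ gv (PP z) (fun q => 1 / (q : ℝ)) x)
    (hcard : CW * ((supp (PP z) (tau z) 0 z (2 * log z)).card : ℝ) ≤ y / (log y) ^ 3)
    (hup : cW W y V (PP z) 1 z ≤ K₁ * y * log (log y) / (log y) ^ 2)
    (hL : 1 ≤ log (log y)) (hAL : A₁ * log (log y) ≤ log y) (hCt : Ct ≤ c / 2 * log y)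
    (hDD : AdmPairs y c z DD)
    (hRD : |RD z (2 * log z + A₁ * log (log y)) DD (rr W y V)| ≤ y / (log y) ^ 3) :
    ∑ pq ∈ DD, 1 / ((pq.1 : ℝ) * pq.2) ≤ 2 * Cg * (K₁ + 3) / ((∫ x, W x) * φ) / A₁ := by
  set l := log (y : ℝ) with hl_def
  set L := log l with hL_def
  set T₀ := 2 * log (z : ℝ) with hT₀
  set I := ∫ x, W x with hI
  have hIpos : 0 < I := hW.int_pos
  have hlpos : 1 ≤ l := by
    by_contra hcon
    push Not at hcon
    rcases le_or_gt l 0 with h | h
    · have hy0 : (y : ℝ) ≤ 1 := by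
        by_contra h'
        push Not at h'
        have := Real.log_pos h'
        linarith only [h, this]
      rcases Nat.eq_zero_or_pos y with h0 | h0
      · have : l = 0 := by rw [hl_def, h0]; simp
        rw [hL_def, this, Real.log_zero] at hL
        linarith only [hc, hc1, hL]
      · have h1 : (1 : ℝ) ≤ y := by exact_mod_cast h0
        have : l = 0 := by rw [hl_def, le_antisymm hy0 h1]; simp
        rw [hL_def, this, Real.log_zero] at hL
        linarith only [hc, hc1, hL]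
    · have := Real.log_neg h hcon
      linarith only [hc, hc1, hL, this]
  have hlp : 0 < l := by linarith only [hc, hc1, hlpos]
  have hy1 : (1 : ℝ) ≤ y := by
    by_contra h'
    push Not at h'
    have h0 : y = 0 := by
      have : y < 1 := by exact_mod_cast h'
      omega
    have : l = 0 := by rw [hl_def, h0]; simp
    linarith only [hc, hc1, hlpos, this]
  have hyp : (0 : ℝ) < y := by linarith only [hc, hc1, hy1]
  have hφpos : 0 < φ := by
    rw [hφ]
    apply sb_phiM_toReal_pos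
    rw [le_div_iff₀ hc]
    linarith only [hc, hc1]
  have hsys := sb_sys hW y V hz2
  set X := (y : ℝ) * I with hX
  have hXpos : 0 < X := by (clear * - hy1 hIpos; positivity)
  have hzz : tau z z = log z := tau_self z
  -- admissible pairs
  have hpair : ∀ pq ∈ DD, 2 ≤ pq.2 ∧ pq.2 ≤ z ∧ pq.1 ∈ PP z ∧ pq.2 ∈ PP z ∧ pq.1 < z ∧
      pq.2 < pq.1 ∧ 3 * tau z pq.2 < T₀ - tau z pq.1 ∧ c / 2 * l ≤ tau z pq.2 ∧
      log (pq.2 : ℝ) ≤ l := by
    intro pq hpq
    obtain ⟨h1, h2, h3, h4, h5, h6⟩ := hDD pq hpq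
    have hqp : pq.2 < pq.1 := by
      have : (pq.2 : ℝ) < pq.1 := lt_of_lt_of_le h4 h5
      exact_mod_cast this
    have hq2 : 2 ≤ pq.2 := h2.two_le
    have hqpos : (0 : ℝ) < pq.2 := by exact_mod_cast h2.pos
    have hqz : pq.2 ≤ z := by omega
    have hlq : log (pq.2 : ℝ) ≤ 0.16 * l := by
      have := Real.log_le_log hqpos h4.le
      rwa [Real.log_rpow hyp] at this
    have hlq2 : c * l ≤ log (pq.2 : ℝ) := by
      have := Real.log_le_log (by positivity) h3
      rwa [Real.log_rpow hyp] at this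
    have ht := abs_le.1 (htau pq.2 hq2 hqz)
    have htp : tau z pq.1 ≤ log z := by
      rw [← hzz]
      exact tau_mono z _ _ (by omega) h6.le
    refine ⟨hq2, hqz, sb_mem_PP.2 ⟨h6, h1⟩, sb_mem_PP.2 ⟨by omega, h2⟩, h6, hqp, ?_, ?_, ?_⟩
    · rw [hT₀]
      linarith only [htp, hlq, hzl2, ht.2]
    · linarith only [ht.1, hCt, hlq2, ht]
    · linarith only [hc, hc1, hlpos, hlq]
  have hT₀l : T₀ ≤ l := hzl
  have hTT : T₀ ≤ T₀ + A₁ * L := by
    have : 0 ≤ A₁ * L := by positivity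
    linarith only [this]
  -- lower bound by unrolling
  have hout := sb_outer hsys hTT (DD := DD) (fun pq hpq => by
    obtain ⟨-, -, a1, a2, -, a3, a4, -, -⟩ := hpair pq hpq
    exact ⟨a1, a2, a3, a4⟩) z (by
      have : (log z * gv (PP z) (fun q => 1 / (q : ℝ)) z) /
          gv (PP z) (fun q => 1 / (q : ℝ)) z = tau z z := rfl
      rw [this, hzz])
  have hfilt : DD.filter (fun pq => pq.1 < z) = DD := by
    apply filter_true_of_mem
    intro pq hpq
    exact (hpair pq hpq).2.2.2.2.1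
  rw [hfilt] at hout
  have hlo : sbLo (PP z) (fun q => 1 / (q : ℝ)) (log z * gv (PP z) (fun q => 1 / (q : ℝ)) z) X
      (fun d => 1 / (d : ℝ)) (rr W y V) z T₀ 1 = sbRem (PP z) (tau z) (rr W y V) 0 z T₀ 1 := by
    unfold sbLo
    have e1 : (log z * gv (PP z) (fun q => 1 / (q : ℝ)) z) /
          gv (PP z) (fun q => 1 / (q : ℝ)) z = tau z z := rfl
    have hlz : 0 < log (z : ℝ) := Real.log_pos (by exact_mod_cast (by omega : 1 < z))
    have e2 : T₀ / tau z z = 2 := by
      rw [hzz, hT₀]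
      field_simp
    rw [e1, e2, sf_two, mul_zero, mul_zero, zero_add, sb_tau_fun]
  rw [hlo] at hout
  have hrem0 := abs_le.1 (sb_rem_le (z := z) (x := z) (d := 1) (le_refl 1) (T := T₀) (b := 0) hrr)
  have hRD0 := abs_le.1 (sb_RD_le (z := z) (T := T₀) (DD := DD) hrr)
  have hRD1 := abs_le.1 hRD
  -- main gain
  have himp : ∑ pq ∈ DD, (X * (1 / ((pq.1 : ℝ) * pq.2)) * (1 / (Cg * l) * (A₁ * L / (2 * l) * φ)))
      + RD z (T₀ + A₁ * L) DD (rr W y V) - RD z T₀ DD (rr W y V) ≤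
      ∑ pq ∈ DD, sbImp (PP z) (fun q => 1 / (q : ℝ)) (log z * gv (PP z) (fun q => 1 / (q : ℝ)) z) X
        (fun d => 1 / (d : ℝ)) (rr W y V) T₀ (T₀ + A₁ * L) pq.1 pq.2 := by
    rw [sb_RD (T := T₀ + A₁ * L) (DD := DD) (fun pq hpq => by
      obtain ⟨-, -, a1, a2, a0, a3, a4, -, -⟩ := hpair pq hpq
      exact ⟨a1, a2, a0, a3, by linarith only [hTT, a4]⟩),
      sb_RD (T := T₀) (DD := DD) (fun pq hpq => by
      obtain ⟨-, -, a1, a2, a0, a3, a4, -, -⟩ := hpair pq hpq
      exact ⟨a1, a2, a0, a3, a4⟩), ← sum_add_distrib, ← sum_sub_distrib]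
    apply sum_le_sum
    intro pq hpq
    obtain ⟨b1, b2, a1, a2, a0, a3, a4, a5, a6⟩ := hpair pq hpq
    unfold sbImp sbLo
    have e1 : (log z * gv (PP z) (fun q => 1 / (q : ℝ)) z) /
          gv (PP z) (fun q => 1 / (q : ℝ)) pq.1 = tau z pq.1 := rfl
    have e2 : (log z * gv (PP z) (fun q => 1 / (q : ℝ)) z) /
          gv (PP z) (fun q => 1 / (q : ℝ)) pq.2 = tau z pq.2 := rfl
    rw [e1, e2, sb_tau_fun]
    have htp : 0 < tau z pq.1 := tau_pos z _ hz2
    have hg := sb_gain_pair hc hlpos hA₁ hL hAL hT₀l htp a5 a4 hφ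
    have hgq : 1 / (Cg * l) ≤ gv (PP z) (fun q => 1 / (q : ℝ)) pq.2 := by
      refine le_trans ?_ (hgv pq.2 b1 b2)
      have : 0 < log (pq.2 : ℝ) := Real.log_pos (by exact_mod_cast (by omega : 1 < pq.2))
      gcongr
    have hq0 : (0 : ℝ) < pq.2 := by exact_mod_cast (by omega : 0 < pq.2)
    have hp0 : (0 : ℝ) < pq.1 := by exact_mod_cast (by omega : 0 < pq.1)
    have h7 : X * (1 / ((pq.1 : ℝ) * pq.2)) * (1 / (Cg * l) * (A₁ * L / (2 * l) * φ)) ≤
        X * (1 / ((pq.1 : ℝ) * pq.2)) * (gv (PP z) (fun q => 1 / (q : ℝ)) pq.2 *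
          (sf ((T₀ + A₁ * L - tau z pq.1 - tau z pq.2) / tau z pq.2) -
            sf ((T₀ - tau z pq.1 - tau z pq.2) / tau z pq.2))) := by
      apply mul_le_mul_of_nonneg_left _ (by (clear * - hy1 hIpos hp0 b1; positivity))
      have h8 : 0 ≤ A₁ * L / (2 * l) * φ := by positivity
      calc 1 / (Cg * l) * (A₁ * L / (2 * l) * φ)
          ≤ gv (PP z) (fun q => 1 / (q : ℝ)) pq.2 * (A₁ * L / (2 * l) * φ) :=
            mul_le_mul_of_nonneg_right hgq h8
        _ ≤ _ := mul_le_mul_of_nonneg_left hg (gvP_pos z _).le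
    have e3 : (fun d : ℕ => 1 / (d : ℝ)) (pq.1 * pq.2) = 1 / ((pq.1 : ℝ) * pq.2) := by
      push_cast
      rfl
    rw [e3]
    rw [mul_sub, mul_sub] at h7
    linarith only [h7]
  -- conclusion
  have hfin : ∑ pq ∈ DD, (X * (1 / ((pq.1 : ℝ) * pq.2)) * (1 / (Cg * l) * (A₁ * L / (2 * l) * φ)))
      ≤ K₁ * y * L / l ^ 2 + 3 * (y / l ^ 3) := by
    linarith only [himp, hout, hcard, hup, hRD1.1, hRD0.2, hrem0.1]
  have hsum : ∑ pq ∈ DD, (X * (1 / ((pq.1 : ℝ) * pq.2)) * (1 / (Cg * l) * (A₁ * L / (2 * l) * φ)))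
      = (∑ pq ∈ DD, 1 / ((pq.1 : ℝ) * pq.2)) * (X * (1 / (Cg * l) * (A₁ * L / (2 * l) * φ))) := by
    rw [sum_mul]
    apply sum_congr rfl
    intro pq _
    ring
  rw [hsum] at hfin
  have h10 : K₁ * y * L / l ^ 2 + 3 * (y / l ^ 3) ≤ (K₁ + 3) * y * L / l ^ 2 := by
    have h11 : y / l ^ 3 ≤ y * L / l ^ 2 := by
      rw [div_le_div_iff₀ (by positivity) (by positivity)]
      have : (y : ℝ) * l ^ 2 ≤ y * l ^ 3 := by
        apply mul_le_mul_of_nonneg_left _ hyp.le
        exact pow_le_pow_right₀ hlpos (by norm_num)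
      have h12 : (y : ℝ) * l ^ 3 ≤ y * L * l ^ 3 := by
        have : (0:ℝ) ≤ y * l ^ 3 := by (clear * - hy1 hlpos; positivity)
        (by_contra nlg; linarith only [nlg, mul_nonneg (sub_nonneg.2 hL) (sub_nonneg.2 this), mul_pos (sub_pos.2 (not_le.1 nlg)) (sub_pos.2 hc1), mul_pos (sub_pos.2 (not_le.1 nlg)) (sub_pos.2 hc)])
      linarith only [this, h12]
    have e : (K₁ + 3) * y * L / l ^ 2 = K₁ * y * L / l ^ 2 + 3 * (y * L / l ^ 2) := by ring
    rw [e]
    linarith only [h11]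
  set S := ∑ pq ∈ DD, 1 / ((pq.1 : ℝ) * pq.2) with hS
  have h13 := hfin.trans h10
  have e14 : S * (X * (1 / (Cg * l) * (A₁ * L / (2 * l) * φ)))
      = (S * (I * φ * A₁) / (2 * Cg)) * (y * L / l ^ 2) := by
    rw [hX]
    field_simp
  have e15 : (K₁ + 3) * y * L / l ^ 2 = (K₁ + 3) * (y * L / l ^ 2) := by ring
  rw [e14, e15] at h13
  have h16 : 0 < (y : ℝ) * L / l ^ 2 := by positivity
  have h17 := le_of_mul_le_mul_right h13 h16
  rw [div_le_iff₀ (by positivity)] at h17
  rw [div_div, le_div_iff₀ (by (clear * - hIpos hφpos hA₁; positivity))]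
  linarith only [h17]

end Vale.Agent.P013.J
end

section

/-!
# Part V: statements of the pieces

`N_k = D k + R`, `1 ≤ k ≤ Y`; `P` a finite set of odd primes with one forbidden class `a p` each.
-/

open Finset Real

namespace Vale.Agent.P013.J

/-- relative density of the primes `D k + R` in a reduced class of `k` mod `q` -/
noncomputable def gD (D q : ℕ) : ℝ := if q ∣ D then 1 / (q : ℝ) else 1 / ((q : ℝ) - 1)

/-- `k` avoids the forbidden classes -/
def Avoid (P : Finset ℕ) (a : ℕ → ℤ) (k : ℕ) : Prop := ∀ p ∈ P, ¬ (p : ℤ) ∣ (k : ℤ) - a p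

/-- the `k` avoiding the classes with `D k + R` prime -/
noncomputable def gset (D R Y : ℕ) (P : Finset ℕ) (a : ℕ → ℤ) : Finset ℕ := by
  classical
  exact (Icc 1 Y).filter (fun k => Avoid P a k ∧ (D * k + R).Prime)

/-- weighted count -/
noncomputable def lsum (D R Y : ℕ) (P : Finset ℕ) (a : ℕ → ℤ) : ℝ := by
  classical
  exact ∑ k ∈ (Icc 1 Y).filter (fun k => Avoid P a k), ArithmeticFunction.vonMangoldt (D * k + R)

/-- Mertens for the function `gD`, lower bound on a range of primes -/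
def MertLowStmt : Prop := ∃ c₁ : ℝ, 0 < c₁ ∧ c₁ ≤ 1 ∧ ∀ (x z : ℕ), 2 ≤ x → x ≤ z →
  ∀ (D : ℕ) (P : Finset ℕ), (∀ p ∈ P, p.Prime ∧ 3 ≤ p ∧ x ≤ p ∧ p < z) →
    c₁ * (log x / log z) ≤ ∏ p ∈ P, (1 - gD D p)

/-- Mertens upper bound -/
def MertUpStmt : Prop := ∀ z : ℕ, 2 ≤ z →
  ∏ p ∈ (range z).filter Nat.Prime, (1 - 1 / (p : ℝ)) ≤ 1 / log z

/-- lower bound for the weighted number of primes avoiding small classes -/
def LowerStmt : Prop := ∃ c₀ : ℝ, 0 < c₀ ∧ ∀ c : ℝ, 0 < c → c ≤ c₀ →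
  ∀ C₅ : ℝ, 0 < C₅ → ∃ y₀ : ℕ, ∀ y : ℕ, y₀ ≤ y → ∀ (D R Y : ℕ) (P : Finset ℕ) (a : ℕ → ℤ),
    1 ≤ D → (D : ℝ) ≤ (log y) ^ C₅ → Nat.Coprime D R → (y : ℝ) / 10 ≤ R →
    (R : ℝ) ≤ y * (log y) ^ C₅ → (y : ℝ) / 9 ≤ Y → Y ≤ y →
    (∀ p ∈ P, p.Prime ∧ 3 ≤ p ∧ (p : ℝ) < (y : ℝ) ^ c) →
    (∀ p ∈ P, ¬ (p : ℤ) ∣ D * a p + R) →
    1 / 4 * ((D : ℝ) * Y / (Nat.totient D : ℝ)) * ∏ p ∈ P, (1 - gD D p) ≤ lsum D R Y P a

/-- upper bound for the number of primes in a class mod `q`, avoiding small classes -/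
def UpperStmt : Prop := ∃ c₀ K : ℝ, 0 < c₀ ∧ 0 < K ∧ ∀ c : ℝ, 0 < c → c ≤ c₀ →
  ∃ y₀ : ℕ, ∀ y : ℕ, y₀ ≤ y → ∀ (D R Y : ℕ) (P : Finset ℕ) (a : ℕ → ℤ),
    1 ≤ D → Nat.Coprime D R → (y : ℝ) / 10 ≤ R → Y ≤ y →
    (∀ p ∈ P, p.Prime ∧ 3 ≤ p ∧ (p : ℝ) < (y : ℝ) ^ c) →
    (∀ p ∈ P, ¬ (p : ℤ) ∣ D * a p + R) →
    ∀ (q : ℕ) (b : ℤ), q.Prime → (y : ℝ) ^ c ≤ q → (q : ℝ) ≤ (y : ℝ) ^ (0.6 : ℝ) →
    (((gset D R Y P a).filter (fun k : ℕ => (q : ℤ) ∣ (k : ℤ) - b)).card : ℝ)
      ≤ K * ((y : ℝ) / q) * ((D : ℝ) / (Nat.totient D : ℝ)) * (∏ p ∈ P, (1 - gD D p)) /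
        (c * log y)

/-- the core theorem -/
def CoreStmt : Prop := ∃ c ε c' : ℝ, 0 < c ∧ c < 1 / 10 ∧ 0 < ε ∧ 0 < c' ∧
  ∀ C₅ : ℝ, 0 < C₅ → ∃ y₀ : ℕ, ∀ y : ℕ, y₀ ≤ y → ∀ (D R Y : ℕ) (P : Finset ℕ) (a : ℕ → ℤ),
    1 ≤ D → (D : ℝ) ≤ (log y) ^ C₅ → Nat.Coprime D R → (y : ℝ) / 10 ≤ R →
    (R : ℝ) ≤ y * (log y) ^ C₅ → (y : ℝ) / 9 ≤ Y → Y ≤ y →
    (∀ p ∈ P, p.Prime ∧ 3 ≤ p ∧ (p : ℝ) ≤ (y : ℝ) ^ (0.6 : ℝ)) →
    (∀ p ∈ P, ¬ (p : ℤ) ∣ D * a p + R) →
    ∑ p ∈ P.filter (fun p : ℕ => (y : ℝ) ^ c ≤ p), 1 / (p : ℝ) ≤ ε →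
    c' * y / (log y) ^ 2 ≤ ((gset D R Y P a).card : ℝ)

end Vale.Agent.P013.J
end

section

open Finset Real

namespace Vale.Agent.P013.J

/-- the monoid homomorphism `n ↦ 1 / n` -/
noncomputable def invHom : ℕ →* ℝ where
  toFun n := ((n : ℝ))⁻¹
  map_one' := by simp
  map_mul' := by intro a b; push_cast; rw [mul_inv]

theorem mertUp : MertUpStmt := by
  intro z hz
  have hf : ∀ {p : ℕ}, p.Prime → ‖invHom p‖ < 1 := by
    intro p hp
    have h1 : (1 : ℝ) < p := by exact_mod_cast hp.one_lt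
    change ‖((p : ℝ))⁻¹‖ < 1
    rw [norm_inv, Real.norm_of_nonneg (by positivity)]
    exact inv_lt_one_of_one_lt₀ h1
  obtain ⟨hs, hsum⟩ := EulerProduct.summable_and_hasSum_smoothNumbers_prod_primesBelow_geometric hf z
  have hmem : ∀ n : ℕ, n ∈ Ico 1 z → n ∈ z.smoothNumbers := by
    intro n hn
    rw [mem_Ico] at hn
    rw [Nat.mem_smoothNumbers']
    intro p hp hpn
    exact lt_of_le_of_lt (Nat.le_of_dvd (by omega) hpn) hn.2
  have h1 : ∑ n ∈ (Ico 1 z).attach, invHom (n : ℕ) ≤ ∏ p ∈ z.primesBelow, (1 - invHom p)⁻¹ := by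
    let e : {n // n ∈ Ico 1 z} ↪ z.smoothNumbers :=
      ⟨fun n => ⟨n.1, hmem n.1 n.2⟩, by
        intro a b hab
        apply Subtype.ext
        exact congrArg (fun t : z.smoothNumbers => (t : ℕ)) hab⟩
    have h2 : ∑ n ∈ (Ico 1 z).attach, invHom (n : ℕ)
        = ∑ m ∈ (Ico 1 z).attach.map e, invHom (m : ℕ) := by
      rw [sum_map]
      rfl
    rw [h2]
    apply sum_le_hasSum _ _ hsum
    intro i _
    change 0 ≤ (((i : ℕ) : ℝ))⁻¹
    (clear * -; positivity)
  rw [sum_attach (Ico 1 z) (fun n => invHom n)] at h1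
  have h3 : Real.log z ≤ ∑ n ∈ Ico 1 z, invHom n := by
    have h4 := log_add_one_le_harmonic (z - 1)
    have h5 : ((z - 1 : ℕ) : ℝ) + 1 = z := by
      rw [Nat.cast_sub (by omega)]; push_cast; ring
    have h6 : ((harmonic (z - 1) : ℚ) : ℝ) = ∑ n ∈ Ico 1 z, invHom n := by
      rw [harmonic_eq_sum_Icc]
      push_cast
      have : Icc 1 (z - 1) = Ico 1 z := by
        ext n; simp only [mem_Icc, mem_Ico]; omega
      rw [this]
      rfl
    rw [← h6]
    calc Real.log z = Real.log (((z - 1 : ℕ) : ℝ) + 1) := by rw [h5]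
      _ ≤ _ := by exact_mod_cast h4
  have hlog : 0 < Real.log z := Real.log_pos (by exact_mod_cast hz)
  have h7 : ∏ p ∈ z.primesBelow, (1 - invHom p)⁻¹
      = (∏ p ∈ (range z).filter Nat.Prime, (1 - 1 / (p : ℝ)))⁻¹ := by
    rw [← prod_inv_distrib]
    apply prod_congr rfl
    intro p _
    change (1 - ((p : ℝ))⁻¹)⁻¹ = _
    rw [one_div]
  rw [h7] at h1
  have h8 : Real.log z ≤ (∏ p ∈ (range z).filter Nat.Prime, (1 - 1 / (p : ℝ)))⁻¹ := h3.trans h1
  rw [one_div]
  exact le_inv_of_le_inv₀ hlog h8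

lemma tele (M : ℕ) (hM : 3 ≤ M) :
    ∏ n ∈ Ico 3 M, (1 - 1 / ((n : ℝ) - 1) ^ 2) = ((M : ℝ) - 1) / (2 * ((M : ℝ) - 2)) := by
  induction M, hM using Nat.le_induction with
  | base => norm_num
  | succ n hn ih =>
    rw [prod_Ico_succ_top hn, ih]
    have h1 : (3 : ℝ) ≤ n := by exact_mod_cast hn
    have h2 : (n : ℝ) - 2 ≠ 0 := by linarith only [h1]
    have h3 : (n : ℝ) - 1 ≠ 0 := by linarith only [h1]
    push_cast
    have h4 : (n : ℝ) + 1 - 2 ≠ 0 := by linarith only [h1]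
    field_simp
    ring

lemma half_le_prod (P : Finset ℕ) (hP : ∀ p ∈ P, 3 ≤ p) :
    (1 : ℝ) / 2 ≤ ∏ p ∈ P, (1 - 1 / ((p : ℝ) - 1) ^ 2) := by
  set M := P.sup id + 4 with hM
  have hsub : P ⊆ Ico 3 M := by
    intro p hp
    rw [mem_Ico]
    refine ⟨hP p hp, ?_⟩
    have : p ≤ P.sup id := le_sup (f := id) hp
    omega
  have hM3 : 3 ≤ M := by omega
  have h1 : ∏ n ∈ Ico 3 M, (1 - 1 / ((n : ℝ) - 1) ^ 2) ≤ ∏ p ∈ P, (1 - 1 / ((p : ℝ) - 1) ^ 2) := by
    have hf : ∀ n ∈ Ico 3 M, 0 ≤ 1 - 1 / ((n : ℝ) - 1) ^ 2 ∧ 1 - 1 / ((n : ℝ) - 1) ^ 2 ≤ 1 := by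
      intro n hn
      have h2 : (3 : ℝ) ≤ n := by exact_mod_cast (mem_Ico.mp hn).1
      have h3 : 1 / ((n : ℝ) - 1) ^ 2 ≤ 1 := by
        rw [div_le_one (by nlinarith only [h2])]
        nlinarith only [h2]
      have h4 : 0 ≤ 1 / ((n : ℝ) - 1) ^ 2 := by positivity
      constructor <;> linarith only [h3, h4]
    rw [← prod_sdiff hsub]
    have h5 : ∏ p ∈ Ico 3 M \ P, (1 - 1 / ((p : ℝ) - 1) ^ 2) ≤ 1 := by
      apply prod_le_one
      · intro i hi; exact (hf i (mem_sdiff.mp hi).1).1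
      · intro i hi; exact (hf i (mem_sdiff.mp hi).1).2
    have h6 : 0 ≤ ∏ p ∈ P, (1 - 1 / ((p : ℝ) - 1) ^ 2) :=
      prod_nonneg (fun i hi => (hf i (hsub hi)).1)
    linarith only [mul_nonneg (sub_nonneg.2 h5) (sub_nonneg.2 h6)]
  rw [tele M hM3] at h1
  refine le_trans ?_ h1
  have h2 : (3 : ℝ) ≤ M := by exact_mod_cast hM3
  rw [div_le_div_iff₀ (by norm_num) (by linarith only [h2])]
  linarith only []

lemma prod_mono_sub {P Q : Finset ℕ} (h : P ⊆ Q) {f : ℕ → ℝ} (h0 : ∀ n ∈ Q, 0 ≤ f n)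
    (h1 : ∀ n ∈ Q, f n ≤ 1) : ∏ n ∈ Q, f n ≤ ∏ n ∈ P, f n := by
  rw [← prod_sdiff h]
  have h5 : ∏ p ∈ Q \ P, f p ≤ 1 := by
    apply prod_le_one
    · intro i hi; exact h0 i (mem_sdiff.mp hi).1
    · intro i hi; exact h1 i (mem_sdiff.mp hi).1
  have h6 : 0 ≤ ∏ p ∈ P, f p := prod_nonneg (fun i hi => h0 i (h hi))
  linarith only [mul_nonneg (sub_nonneg.2 h5) (sub_nonneg.2 h6)]

lemma one_sub_inv_mem {p : ℕ} (hp : p.Prime) : 0 < 1 - 1 / (p : ℝ) ∧ 1 - 1 / (p : ℝ) ≤ 1 := by
  have h1 : (1 : ℝ) < p := by exact_mod_cast hp.one_lt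
  have h2 : 1 / (p : ℝ) < 1 := by rw [div_lt_one (by linarith)]; exact h1
  have h3 : 0 < 1 / (p : ℝ) := by positivity
  constructor <;> linarith only [h2, h3]

/-- lower Mertens bound in a range, with a multiplicative constant -/
lemma mert_range : ∃ c : ℝ, 0 < c ∧ c ≤ 1 ∧ ∀ x z : ℕ, 2 ≤ x → x ≤ z →
    c * (log x / log z) ≤ ∏ p ∈ (Ico x z).filter Nat.Prime, (1 - 1 / (p : ℝ)) := by
  obtain ⟨C, hC0, hC⟩ := mertens_prod
  set n0 : ℕ := ⌈Real.exp (2 * C)⌉₊ + 2 with hn0
  have hlogn0 : 2 * C ≤ Real.log n0 := by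
    have h1 : Real.exp (2 * C) ≤ n0 := by
      have := Nat.le_ceil (Real.exp (2 * C))
      rw [hn0]; push_cast; linarith only [this]
    exact (Real.le_log_iff_exp_le (by positivity)).mpr h1
  set δ : ℝ := ∏ p ∈ (range n0).filter Nat.Prime, (1 - 1 / (p : ℝ)) with hδ
  have hδ0 : 0 < δ := prod_pos (fun p hp => (one_sub_inv_mem (mem_filter.mp hp).2).1)
  have hδ1 : δ ≤ 1 := prod_le_one (fun p hp => (one_sub_inv_mem (mem_filter.mp hp).2).1.le)
    (fun p hp => (one_sub_inv_mem (mem_filter.mp hp).2).2)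
  have hbig : ∀ x z : ℕ, n0 ≤ x → x ≤ z →
      1 / 2 * (log x / log z) ≤ ∏ p ∈ (Ico x z).filter Nat.Prime, (1 - 1 / (p : ℝ)) := by
    intro x z hx hz
    have h1 := hC x z (by omega) hz
    have hxR : (n0 : ℝ) ≤ x := by exact_mod_cast hx
    have hlx : Real.log n0 ≤ Real.log x := Real.log_le_log (by positivity) hxR
    have hlz : 0 < Real.log z := Real.log_pos (by exact_mod_cast (by omega : 1 < z))
    have h2 : 1 / 2 * Real.log x ≤ Real.log z * ∏ p ∈ (Ico x z).filter Nat.Prime, (1 - 1 / (p : ℝ)) := by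
      linarith only [hlogn0, h1, hlx]
    have h3 : 1 / 2 * (log x / log z) = (1 / 2 * log x) / log z := by ring
    rw [h3, div_le_iff₀ hlz]
    linarith only [hlx, h1, hlogn0]
  refine ⟨δ / 2, by (clear * - hδ0; positivity), by linarith only [hδ1], ?_⟩
  intro x z hx hz
  have hzl : 0 < Real.log z := Real.log_pos (by exact_mod_cast (by omega : 1 < z))
  have hxl : 0 < Real.log x := Real.log_pos (by exact_mod_cast (by omega : 1 < x))
  have hxz : Real.log x / Real.log z ≤ 1 := by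
    rw [div_le_one hzl]
    exact Real.log_le_log (by positivity) (by exact_mod_cast hz)
  have hxz0 : 0 < Real.log x / Real.log z := by positivity
  rcases le_or_gt n0 x with h | h
  · have h1 := hbig x z h hz
    have h2 : δ / 2 * (log x / log z) ≤ 1 / 2 * (log x / log z) := by
      apply mul_le_mul_of_nonneg_right _ hxz0.le
      linarith only [hδ1]
    linarith only [h1, h2]
  · rcases le_or_gt z n0 with h' | h'
    · have hsub : (Ico x z).filter Nat.Prime ⊆ (range n0).filter Nat.Prime := by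
        intro p hp
        rw [mem_filter, mem_Ico] at hp
        rw [mem_filter, mem_range]
        exact ⟨by omega, hp.2⟩
      have h1 := prod_mono_sub (f := fun p : ℕ => 1 - 1 / (p : ℝ)) hsub
        (fun n hn => (one_sub_inv_mem (mem_filter.mp hn).2).1.le)
        (fun n hn => (one_sub_inv_mem (mem_filter.mp hn).2).2)
      have h2 : δ / 2 * (log x / log z) ≤ δ := by nlinarith only [hδ0, hxz]
      exact h2.trans h1
    · have hsub : (Ico x z).filter Nat.Prime ⊆
          (range n0).filter Nat.Prime ∪ (Ico n0 z).filter Nat.Prime := by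
        intro p hp
        rw [mem_filter, mem_Ico] at hp
        rw [mem_union, mem_filter, mem_range, mem_filter, mem_Ico]
        rcases lt_or_ge p n0 with h1 | h1
        · exact Or.inl ⟨h1, hp.2⟩
        · exact Or.inr ⟨⟨h1, hp.1.2⟩, hp.2⟩
      have hdisj : Disjoint ((range n0).filter Nat.Prime) ((Ico n0 z).filter Nat.Prime) := by
        rw [Finset.disjoint_left]
        intro p hp hp'
        rw [mem_filter, mem_range] at hp
        rw [mem_filter, mem_Ico] at hp'
        omega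
      have hpr : ∀ n ∈ (range n0).filter Nat.Prime ∪ (Ico n0 z).filter Nat.Prime, n.Prime := by
        intro n hn
        rw [mem_union, mem_filter, mem_filter] at hn
        rcases hn with h1 | h1 <;> exact h1.2
      have h1 := prod_mono_sub (f := fun p : ℕ => 1 - 1 / (p : ℝ)) hsub
        (fun n hn => (one_sub_inv_mem (hpr n hn)).1.le) (fun n hn => (one_sub_inv_mem (hpr n hn)).2)
      rw [prod_union hdisj] at h1
      have h2 := hbig n0 z le_rfl h'.le
      have h3 : Real.log x ≤ Real.log n0 := Real.log_le_log (by positivity) (by exact_mod_cast h.le)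
      have h4 : Real.log x / Real.log z ≤ Real.log n0 / Real.log z :=
        div_le_div_of_nonneg_right h3 hzl.le
      calc δ / 2 * (log x / log z) ≤ δ / 2 * (log n0 / log z) := by
            apply mul_le_mul_of_nonneg_left h4 (by (clear * - hδ0; positivity))
        _ = δ * (1 / 2 * (log n0 / log z)) := by ring
        _ ≤ δ * ∏ p ∈ (Ico n0 z).filter Nat.Prime, (1 - 1 / (p : ℝ)) :=
            mul_le_mul_of_nonneg_left h2 hδ0.le
        _ ≤ _ := h1

lemma gD_le {D q : ℕ} (hq : 3 ≤ q) : gD D q ≤ 1 / ((q : ℝ) - 1) := by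
  unfold gD
  have h1 : (3 : ℝ) ≤ q := by exact_mod_cast hq
  split_ifs
  · apply div_le_div_of_nonneg_left (by norm_num) (by linarith only [h1]) (by linarith only [])
  · exact le_rfl

theorem mertLow : MertLowStmt := by
  obtain ⟨c, hc0, hc1, hc⟩ := mert_range
  refine ⟨c / 2, by positivity, by linarith only [hc1], ?_⟩
  intro x z hx hz D P hP
  have h1 := hc x z hx hz
  have hsub : P ⊆ (Ico x z).filter Nat.Prime := by
    intro p hp
    obtain ⟨h1, h2, h3, h4⟩ := hP p hp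
    rw [mem_filter, mem_Ico]
    exact ⟨⟨h3, h4⟩, h1⟩
  have h2 := prod_mono_sub (f := fun p : ℕ => 1 - 1 / (p : ℝ)) hsub
    (fun n hn => (one_sub_inv_mem (mem_filter.mp hn).2).1.le)
    (fun n hn => (one_sub_inv_mem (mem_filter.mp hn).2).2)
  have h3 := half_le_prod P (fun p hp => (hP p hp).2.1)
  have h4 : (∏ p ∈ P, (1 - 1 / (p : ℝ))) * ∏ p ∈ P, (1 - 1 / ((p : ℝ) - 1) ^ 2) ≤
      ∏ p ∈ P, (1 - gD D p) := by
    rw [← prod_mul_distrib]
    apply prod_le_prod
    · intro p hp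
      have h5 := (one_sub_inv_mem (hP p hp).1).1
      have h6 : (3 : ℝ) ≤ p := by exact_mod_cast (hP p hp).2.1
      have h7 : 1 / ((p : ℝ) - 1) ^ 2 ≤ 1 := by
        rw [div_le_one (by nlinarith only [h6])]
        nlinarith only [h6]
      apply mul_nonneg h5.le (by linarith only [h7])
    · intro p hp
      have h5 := gD_le (D := D) (hP p hp).2.1
      have h6 : (3 : ℝ) ≤ p := by exact_mod_cast (hP p hp).2.1
      have h7 : (1 - 1 / (p : ℝ)) * (1 - 1 / ((p : ℝ) - 1) ^ 2) = 1 - 1 / ((p : ℝ) - 1) := by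
        have : (p : ℝ) - 1 ≠ 0 := by linarith only [h6]
        have : (p : ℝ) ≠ 0 := by linarith only [h6]
        field_simp
        ring
      rw [h7]
      linarith only [h5]
  have h5 : 0 ≤ ∏ p ∈ P, (1 - 1 / (p : ℝ)) :=
    prod_nonneg (fun p hp => (one_sub_inv_mem (hP p hp).1).1.le)
  calc c / 2 * (log x / log z) = c * (log x / log z) * (1 / 2) := by ring
    _ ≤ (∏ p ∈ P, (1 - 1 / (p : ℝ))) * (1 / 2) :=
        mul_le_mul_of_nonneg_right (h1.trans h2) (by norm_num)
    _ ≤ (∏ p ∈ P, (1 - 1 / (p : ℝ))) * ∏ p ∈ P, (1 - 1 / ((p : ℝ) - 1) ^ 2) :=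
        mul_le_mul_of_nonneg_left h3 h5
    _ ≤ _ := h4

end Vale.Agent.P013.J
end

section

/-!
# Upper bound for the smooth number of survivors of the primes below `z`
-/

open Finset Real

namespace Vale.Agent.P013.J

lemma gu_lt {z q : ℕ} (hq : q ∈ PP z) : (1 : ℝ) / (q : ℝ) < 1 := by
  have h1 : q.Prime := (mem_filter.mp hq).2
  have h2 : (1 : ℝ) < q := by exact_mod_cast h1.one_lt
  rw [div_lt_one (by linarith only [h2])]
  exact h2

/-- union bound -/
theorem cW_le_union {W : ℝ → ℝ} (hW0 : ∀ x, 0 ≤ W x) (hW1 : ∀ x, W x ≤ 1) (y : ℕ) (V : ℤ) (z : ℕ)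
    (x : ℝ) :
    cW W y V (PP z) 1 z ≤ (surv y x V : ℝ) +
      ∑ p ∈ (Ico z ⌈x⌉₊).filter Nat.Prime, cW W y V (PP z) p z := by
  classical
  set S := (Icc 1 y).filter
    (fun i : ℕ => ∀ p : ℕ, p.Prime → (p : ℝ) < x → ¬ (p : ℤ) ∣ (i : ℤ) - V) with hS
  have hs : (surv y x V : ℝ) = ∑ i ∈ Icc 1 y, if i ∈ S then (1 : ℝ) else 0 := by
    unfold surv
    rw [← Finset.sum_filter, Finset.sum_const, nsmul_eq_mul, mul_one]
    congr 2
    ext i
    simp only [hS, mem_filter]
    tauto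
  have hc : ∀ d : ℕ, cW W y V (PP z) d z = ∑ i ∈ Icc 1 y,
      if ((d : ℤ) ∣ (i : ℤ) - V ∧ ∀ q ∈ PP z, q < z → ¬ (q : ℤ) ∣ (i : ℤ) - V) then
        W ((i : ℝ) / y) else 0 := by
    intro d
    unfold cW
    rw [Finset.sum_filter]
  rw [hs, Finset.sum_congr rfl (fun p _ => hc p), hc 1, Finset.sum_comm, ← Finset.sum_add_distrib]
  apply Finset.sum_le_sum
  intro i hi
  have hnn : ∀ p ∈ (Ico z ⌈x⌉₊).filter Nat.Prime, 0 ≤
      (if ((p : ℤ) ∣ (i : ℤ) - V ∧ ∀ q ∈ PP z, q < z → ¬ (q : ℤ) ∣ (i : ℤ) - V) then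
        W ((i : ℝ) / y) else 0) := by
    intro p _
    split_ifs
    · exact hW0 _
    · exact le_rfl
  have hS0 : (0 : ℝ) ≤ if i ∈ S then (1 : ℝ) else 0 := by split_ifs <;> norm_num
  by_cases h1 : (((1 : ℕ) : ℤ) ∣ (i : ℤ) - V ∧ ∀ q ∈ PP z, q < z → ¬ (q : ℤ) ∣ (i : ℤ) - V)
  · rw [if_pos h1]
    by_cases h2 : i ∈ S
    · rw [if_pos h2]
      have h3 := Finset.sum_nonneg hnn
      have h4 := hW1 ((i : ℝ) / y)
      linarith only [h4, h3]
    · have h3 : ∃ p : ℕ, p.Prime ∧ (p : ℝ) < x ∧ (p : ℤ) ∣ (i : ℤ) - V := by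
        by_contra hcon
        push Not at hcon
        exact h2 (mem_filter.mpr ⟨hi, hcon⟩)
      obtain ⟨p, hp, hpx, hpd⟩ := h3
      have hpz : z ≤ p := by
        by_contra hlt
        push Not at hlt
        exact h1.2 p (mem_filter.mpr ⟨mem_range.mpr hlt, hp⟩) hlt hpd
      have hpm : p ∈ (Ico z ⌈x⌉₊).filter Nat.Prime :=
        mem_filter.mpr ⟨mem_Ico.mpr ⟨hpz, Nat.lt_ceil.mpr hpx⟩, hp⟩
      have h4 := Finset.single_le_sum hnn hpm
      rw [if_pos ⟨hpd, h1.2⟩] at h4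
      linarith only [h4, hS0]
  · rw [if_neg h1]
    exact add_nonneg hS0 (Finset.sum_nonneg hnn)

lemma prod_split_Ico (x z : ℕ) (h : x ≤ z) :
    (∏ q ∈ (range z).filter Nat.Prime, (1 - 1 / (q : ℝ)))
      = (∏ q ∈ (range x).filter Nat.Prime, (1 - 1 / (q : ℝ))) *
        ∏ q ∈ (Ico x z).filter Nat.Prime, (1 - 1 / (q : ℝ)) := by
  rw [← prod_union]
  · congr 1
    ext q
    simp only [mem_filter, mem_range, mem_union, mem_Ico]
    constructor
    · rintro ⟨h1, h2⟩
      rcases Nat.lt_or_ge q x with h3 | h3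
      · left; exact ⟨h3, h2⟩
      · right; exact ⟨⟨h3, h1⟩, h2⟩
    · rintro (⟨h1, h2⟩ | ⟨⟨h1, h2⟩, h3⟩)
      · exact ⟨by omega, h2⟩
      · exact ⟨h2, h3⟩
  · rw [disjoint_left]
    intro q h1 h2
    simp only [mem_filter, mem_range, mem_Ico] at h1 h2
    omega

lemma gv_PP' (x z : ℕ) (h : x ≤ z) :
    gv (PP z) (fun q => 1 / (q : ℝ)) x = ∏ q ∈ (range x).filter Nat.Prime, (1 - 1 / (q : ℝ)) := by
  unfold gv PP
  congr 1
  ext q
  simp only [mem_filter, mem_range]
  constructor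
  · rintro ⟨⟨h1, h2⟩, h3⟩; exact ⟨h3, h2⟩
  · rintro ⟨h1, h2⟩; exact ⟨⟨by omega, h2⟩, h1⟩

/-- lower bound for the level function -/
theorem gtau_ge : ∃ C : ℝ, 0 < C ∧ ∀ z x : ℕ, 2 ≤ x → x ≤ z →
    log x - C ≤ log z * gv (PP z) (fun q => 1 / (q : ℝ)) z / gv (PP z) (fun q => 1 / (q : ℝ)) x := by
  obtain ⟨C, hC0, hC⟩ := mertens_prod
  refine ⟨C, hC0, ?_⟩
  intro z x hx hxz
  have h1 := hC x z hx hxz
  rw [gv_PP' z z le_rfl, gv_PP' x z hxz, prod_split_Ico x z hxz]
  have h2 : 0 < ∏ q ∈ (range x).filter Nat.Prime, (1 - 1 / (q : ℝ)) := by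
    apply prod_pos
    intro q hq
    have h3 : q.Prime := (mem_filter.mp hq).2
    have h4 : (1 : ℝ) < q := by exact_mod_cast h3.one_lt
    rw [sub_pos, div_lt_one (by linarith only [h4])]
    exact h4
  have h3 : log z * ((∏ q ∈ (range x).filter Nat.Prime, (1 - 1 / (q : ℝ))) *
        ∏ q ∈ (Ico x z).filter Nat.Prime, (1 - 1 / (q : ℝ))) /
        (∏ q ∈ (range x).filter Nat.Prime, (1 - 1 / (q : ℝ))) =
        log z * ∏ q ∈ (Ico x z).filter Nat.Prime, (1 - 1 / (q : ℝ)) := by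
    field_simp
  rw [h3]
  exact h1

/-- upper bound sieve for one prime `p ≥ z` -/
theorem cW_prime_le (hP1 : ∀ W, GoodW W → ∃ C, ∀ (y : ℕ) (V : ℤ) (n : ℕ), 1 ≤ n →
      |rr W y V n| ≤ C) :
    ∃ k : ℝ, 0 < k ∧ ∀ W, GoodW W → ∃ C : ℝ, 0 < C ∧ ∀ (y : ℕ) (V : ℤ) (z p : ℕ), 2 ≤ z → p.Prime →
      z ≤ p → cW W y V (PP z) p z ≤ C * (y / (p * log z)) + C * (z * (log z) ^ k) := by
  obtain ⟨C₁, hC₁, hτ⟩ := gtau_ge
  obtain ⟨C₃, hC₃, hsum⟩ := sum_inv_prime_le
  refine ⟨exp C₁, exp_pos _, ?_⟩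
  intro W hW
  obtain ⟨C₂, hC₂⟩ := hP1 W hW
  have hC₂0 : 0 ≤ C₂ := (abs_nonneg _).trans (hC₂ 0 0 1 le_rfl)
  have hI : 0 < ∫ x, W x := hW.int_pos
  have hca := ca_ge
  refine ⟨(∫ x, W x) * ca + C₂ * exp (exp C₁ * C₃), by positivity, ?_⟩
  intro y V z p hz hp hzp
  set g : ℕ → ℝ := fun q => 1 / (q : ℝ) with hg
  have hQ : ∀ q ∈ PP z, q.Prime := fun q hq => (mem_filter.mp hq).2
  have hg0 : ∀ q ∈ PP z, 0 ≤ g q := fun q _ => by positivity
  have hg1 : ∀ q ∈ PP z, g q < 1 := fun q hq => gu_lt hq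
  have hzR : (2 : ℝ) ≤ z := by exact_mod_cast hz
  have hlz : 0 < log z := log_pos (by linarith only [hzR])
  have hv : 0 < gv (PP z) g z := gv_pos hg1 z
  set K := log z * gv (PP z) g z with hK
  have hK0 : 0 < K := by positivity
  have hKz : K / gv (PP z) g z = log z := by rw [hK]; field_simp
  have hX0 : 0 ≤ (y : ℝ) * ∫ x, W x := by (clear * - hI; positivity)
  have hmain := (gen_sieve (PP z) hQ g hg0 hg1 K hK0 ((y : ℝ) * ∫ x, W x) hX0
    (fun d => 1 / (d : ℝ)) (fun n => rr W y V n) (fun d x => cW W y V (PP z) d x)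
    (fun d => by (clear * -; positivity))
    (fun d q _ _ => by
      simp only [hg]
      push_cast
      rw [one_div_mul_one_div])
    (fun d _ => cW_zero W y V (PP z) d)
    (fun d x => cW_nonneg hW.nonneg y V (PP z) d x)
    (fun d x hx => cW_succ_notMem hx W y V d)
    (fun d x hx hd => cW_succ_mem hx W y V hd) z p (log z) hp.pos
    (fun q hq hqz => by
      rw [Nat.coprime_primes hp (hQ q hq)]
      omega)).1 (by rw [hKz])
  rw [hKz, div_self hlz.ne'] at hmain
  have hsF : sF 1 = ca := by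
    have := sF_F1 (t := 1) (by norm_num) (by norm_num)
    rwa [one_mul] at this
  rw [hsF] at hmain
  -- the main term
  have hvz : gv (PP z) g z ≤ 1 / log z := by
    rw [hg, gv_PP' z z le_rfl]
    exact mertUp z hz
  have hp0 : (0 : ℝ) < p := by exact_mod_cast hp.pos
  have h1 : (y : ℝ) * (∫ x, W x) * (1 / (p : ℝ)) * (gv (PP z) g z * ca) ≤
      (∫ x, W x) * ca * (y / (p * log z)) := by
    have h2 : (y : ℝ) * (∫ x, W x) * (1 / (p : ℝ)) * (gv (PP z) g z * ca) ≤
        (y : ℝ) * (∫ x, W x) * (1 / (p : ℝ)) * (1 / log z * ca) := by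
      apply mul_le_mul_of_nonneg_left _ (by (clear * - hI hp0; positivity))
      exact mul_le_mul_of_nonneg_right hvz (by linarith only [hca])
    refine h2.trans (le_of_eq ?_)
    field_simp
  -- the remainder
  have h2 : ∑ F ∈ supp (PP z) (fun x => K / gv (PP z) g x) 1 z (log z),
      (-1) ^ F.card * rr W y V (p * ∏ q ∈ F, q) ≤
      C₂ * exp (exp C₁ * C₃) * (z * (log z) ^ (exp C₁)) := by
    have h3 : ∑ F ∈ supp (PP z) (fun x => K / gv (PP z) g x) 1 z (log z),
        (-1) ^ F.card * rr W y V (p * ∏ q ∈ F, q) ≤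
        ∑ F ∈ supp (PP z) (fun x => K / gv (PP z) g x) 1 z (log z), C₂ := by
      apply Finset.sum_le_sum
      intro F hF
      have h4 : 1 ≤ p * ∏ q ∈ F, q := by
        have h5 : 0 < ∏ q ∈ F, q := by
          apply Finset.prod_pos
          intro q hq
          have := (mem_supp.mp hF).1 q hq
          exact (hQ q this.1).pos
        exact Nat.mul_pos hp.pos h5
      have h5 := hC₂ y V _ h4
      calc (-1) ^ F.card * rr W y V (p * ∏ q ∈ F, q) ≤
          |(-1) ^ F.card * rr W y V (p * ∏ q ∈ F, q)| := le_abs_self _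
        _ = |rr W y V (p * ∏ q ∈ F, q)| := by
          rw [abs_mul, abs_pow, abs_neg, abs_one, one_pow, one_mul]
        _ ≤ C₂ := h5
    rw [Finset.sum_const, nsmul_eq_mul] at h3
    have h4 := (supp_card_le (Q := PP z) (fun q hq => (hQ q hq).pos)
      (τ := fun x => K / gv (PP z) g x) (C := C₁)
      (fun q hq => hτ z q (hQ q hq).two_le (by
        have := mem_range.mp (mem_filter.mp hq).1
        omega))
      (fun q _ => (gtau_pos hK0 hg1 q).le)
      (fun q _ q' _ hqq => gtau_mono hK0 hg0 hg1 hqq) z (log z) hlz.le).1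
    have h5 : exp (log z) * ∏ q ∈ (PP z).filter (fun q => q < z), (1 + exp C₁ / q) ≤
        exp (exp C₁ * C₃) * (z * (log z) ^ (exp C₁)) := by
      rw [exp_log (by linarith only [hzR])]
      have h6 : ∏ q ∈ (PP z).filter (fun q => q < z), (1 + exp C₁ / q) ≤
          exp (exp C₁ * C₃) * (log z) ^ (exp C₁) := by
        calc ∏ q ∈ (PP z).filter (fun q => q < z), (1 + exp C₁ / q) ≤
            ∏ q ∈ (PP z).filter (fun q => q < z), exp (exp C₁ / q) := by
              apply Finset.prod_le_prod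
              · intro q _
                (clear * -; positivity)
              · intro q _
                have := add_one_le_exp (exp C₁ / (q : ℝ))
                linarith only [this]
          _ = exp (exp C₁ * ∑ q ∈ (PP z).filter (fun q => q < z), 1 / (q : ℝ)) := by
              rw [← exp_sum, Finset.mul_sum]
              congr 1
              apply Finset.sum_congr rfl
              intro q _
              ring
          _ ≤ exp (exp C₁ * (log (log z) + C₃)) := by
              apply exp_le_exp.mpr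
              apply mul_le_mul_of_nonneg_left _ (exp_pos _).le
              refine le_trans ?_ (hsum z hz)
              apply Finset.sum_le_sum_of_subset_of_nonneg
              · exact Finset.filter_subset _ _
              · intro q _ _
                (clear * -; positivity)
          _ = exp (exp C₁ * C₃) * (log z) ^ (exp C₁) := by
              rw [Real.rpow_def_of_pos hlz, ← exp_add]
              congr 1
              ring
      calc (z : ℝ) * ∏ q ∈ (PP z).filter (fun q => q < z), (1 + exp C₁ / q) ≤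
          z * (exp (exp C₁ * C₃) * (log z) ^ (exp C₁)) :=
            mul_le_mul_of_nonneg_left h6 (by positivity)
        _ = _ := by ring
    calc _ ≤ ((supp (PP z) (fun x => K / gv (PP z) g x) 1 z (log z)).card : ℝ) * C₂ := h3
      _ ≤ (exp (exp C₁ * C₃) * (z * (log z) ^ (exp C₁))) * C₂ :=
        mul_le_mul_of_nonneg_right (h4.trans h5) hC₂0
      _ = _ := by ring
  have h3 : 0 ≤ C₂ * exp (exp C₁ * C₃) * (y / (p * log z)) := by (clear * - hC₂0 hp0 hlz; positivity)
  have h4 : 0 ≤ (∫ x, W x) * ca * (z * (log z) ^ (exp C₁)) := by positivity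
  calc cW W y V (PP z) p z ≤ (∫ x, W x) * ca * (y / (p * log z)) +
      C₂ * exp (exp C₁ * C₃) * (z * (log z) ^ (exp C₁)) := by
        refine hmain.trans ?_
        exact add_le_add h1 h2
    _ ≤ _ := by linarith only [h4, h3]

theorem stab_ev (M : ℝ) : ∃ y₀ : ℕ, ∀ y : ℕ, y₀ ≤ y → 4 ≤ log y ∧ 1 ≤ log (log y) ∧
    M * log (log y) ≤ log y / 4 := by
  have hl : Filter.Tendsto (fun y : ℕ => log (y : ℝ)) Filter.atTop Filter.atTop :=
    tendsto_log_atTop.comp tendsto_natCast_atTop_atTop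
  have hL : Filter.Tendsto (fun y : ℕ => log (log (y : ℝ))) Filter.atTop Filter.atTop :=
    tendsto_log_atTop.comp hl
  have h1 := hl.eventually_ge_atTop 4
  have h2 := hL.eventually_ge_atTop 1
  have h3 : ∀ᶠ t : ℝ in Filter.atTop, M * log t ≤ t / 4 := by
    have h4 := (isLittleO_log_id_atTop).def (c := 1 / (4 * (|M| + 1))) (by positivity)
    filter_upwards [h4, Filter.eventually_ge_atTop (1 : ℝ)] with t ht ht1
    have h5 : 0 ≤ log t := log_nonneg ht1
    rw [Real.norm_of_nonneg h5, id, Real.norm_of_nonneg (by linarith only [ht1])] at ht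
    calc M * log t ≤ (|M| + 1) * log t :=
          mul_le_mul_of_nonneg_right (by have := le_abs_self M; linarith only [this]) h5
      _ ≤ (|M| + 1) * (1 / (4 * (|M| + 1)) * t) :=
          mul_le_mul_of_nonneg_left ht (by positivity)
      _ = t / 4 := by field_simp
  have h4 := hl.eventually h3
  have h5 := (h1.and (h2.and h4))
  rw [Filter.eventually_atTop] at h5
  obtain ⟨y₀, hy₀⟩ := h5
  exact ⟨y₀, fun y hy => hy₀ y hy⟩

theorem stab_up (hP1 : ∀ W, GoodW W → ∃ C, ∀ (y : ℕ) (V : ℤ) (n : ℕ), 1 ≤ n →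
      |rr W y V n| ≤ C) :
    ∃ k₀ : ℝ, 0 < k₀ ∧ ∀ W, GoodW W → ∀ A C₇ : ℝ, 0 < A → A + k₀ ≤ C₇ → ∃ K₁ : ℝ, 0 < K₁ ∧
      ∃ y₀ : ℕ, ∀ y : ℕ, y₀ ≤ y → ∀ (V : ℤ) (z : ℕ), √y * (log y) ^ (-C₇) ≤ z →
      (z : ℝ) ≤ 2 * (√y * (log y) ^ (-C₇)) →
      (surv y (√y * (log y) ^ A) V : ℝ) ≤ y / (log y) ^ 2 →
      cW W y V (PP z) 1 z ≤ K₁ * y * log (log y) / (log y) ^ 2 := by
  obtain ⟨k, hk, hC⟩ := cW_prime_le hP1
  obtain ⟨C₂, hC₂, hmert⟩ := mertens_two
  refine ⟨k + 2, by linarith only [hk], ?_⟩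
  intro W hW A C₇ hA hAC
  obtain ⟨C, hC0, hbd⟩ := hC W hW
  have hC7 : 0 < C₇ := by linarith only [hk, hA, hAC]
  refine ⟨1 + 16 * C * (1 + A + C₇ + C₂) + 4 * C, by positivity, ?_⟩
  obtain ⟨y₀, hy₀⟩ := stab_ev C₇
  refine ⟨max y₀ 4, ?_⟩
  intro y hy V z hz1 hz2 hsurv
  obtain ⟨hl4, hL1, hCL⟩ := hy₀ y ((le_max_left _ _).trans hy)
  have hy4 : (4 : ℝ) ≤ y := by exact_mod_cast (le_max_right _ _).trans hy
  have hy0 : (0 : ℝ) < y := by linarith only [hy4]
  set l := log (y : ℝ) with hl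
  set L := log l with hL
  have hl0 : 0 < l := by linarith only [hl4]
  have hl1 : 1 ≤ l := by linarith only [hl4]
  have hs0 : 0 < √(y : ℝ) := Real.sqrt_pos.mpr hy0
  have hs2 : √(y : ℝ) * √(y : ℝ) = y := Real.mul_self_sqrt hy0.le
  have hs2' : 2 ≤ √(y : ℝ) := by
    rw [show (2 : ℝ) = √4 by rw [show (4 : ℝ) = 2 ^ 2 by norm_num, Real.sqrt_sq (by norm_num)]]
    exact Real.sqrt_le_sqrt hy4
  have hlogs : log √(y : ℝ) = l / 2 := by
    rw [Real.log_sqrt hy0.le]
  have hlC7 : l ^ (-C₇) ≤ 1 := Real.rpow_le_one_of_one_le_of_nonpos hl1 (by linarith only [hk, hA, hAC])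
  have hlC70 : 0 < l ^ (-C₇) := by positivity
  have hzlow : 0 < √(y : ℝ) * l ^ (-C₇) := by (clear * - hy4 hl4; positivity)
  have hz0 : (0 : ℝ) < z := lt_of_lt_of_le hzlow hz1
  have hlogz : l / 4 ≤ log z := by
    have h1 : log (√(y : ℝ) * l ^ (-C₇)) ≤ log z := Real.log_le_log hzlow hz1
    rw [Real.log_mul hs0.ne' hlC70.ne', hlogs, Real.log_rpow hl0] at h1
    linarith only [hCL, h1]
  have hlogz' : log z ≤ l := by
    apply Real.log_le_log hz0
    calc (z : ℝ) ≤ 2 * (√(y : ℝ) * l ^ (-C₇)) := hz2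
      _ ≤ √(y : ℝ) * (√(y : ℝ) * 1) := by
        apply mul_le_mul hs2' _ hzlow.le hs0.le
        exact mul_le_mul_of_nonneg_left hlC7 hs0.le
      _ = y := by rw [mul_one, hs2]
  have hlz1 : 1 ≤ log z := by linarith only [hl4, hlogz]
  have hz2' : 2 ≤ z := by
    have h1 : (1 : ℝ) < z := by
      by_contra h
      push Not at h
      have := Real.log_nonpos hz0.le h
      linarith only [hl4, hlogz, this]
    have h2 : 1 < z := by exact_mod_cast h1
    omega
  set x := √(y : ℝ) * l ^ A with hx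
  have hlA : 1 ≤ l ^ A := Real.one_le_rpow hl1 hA.le
  have hx1 : 2 ≤ x := by
    calc (2 : ℝ) = 2 * 1 := by norm_num
      _ ≤ √(y : ℝ) * l ^ A := mul_le_mul hs2' hlA (by norm_num) hs0.le
  have hx0 : 0 < x := by linarith only [hx1]
  have hzx : (z : ℝ) ≤ x := by
    refine hz2.trans ?_
    rw [hx]
    have h1 : 2 * l ^ (-C₇) ≤ l ^ A := by
      have h2 : (2 : ℝ) ≤ l ^ (A + C₇) := by
        calc (2 : ℝ) ≤ l := by linarith only [hl4]
          _ = l ^ (1 : ℝ) := (Real.rpow_one l).symm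
          _ ≤ l ^ (A + C₇) := Real.rpow_le_rpow_of_exponent_le hl1 (by linarith only [hk, hA, hAC])
      have h3 : l ^ (A + C₇) * l ^ (-C₇) = l ^ A := by
        rw [← Real.rpow_add hl0]; congr 1; ring
      rw [← h3]
      exact mul_le_mul_of_nonneg_right h2 hlC70.le
    calc 2 * (√(y : ℝ) * l ^ (-C₇)) = √(y : ℝ) * (2 * l ^ (-C₇)) := by ring
      _ ≤ √(y : ℝ) * l ^ A := mul_le_mul_of_nonneg_left h1 hs0.le
  have hzceil : z ≤ ⌈x⌉₊ := by
    have h1 : (z : ℝ) ≤ (⌈x⌉₊ : ℝ) := hzx.trans (Nat.le_ceil x)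
    exact_mod_cast h1
  have hceil : (⌈x⌉₊ : ℝ) ≤ 2 * x := by
    have := (Nat.ceil_lt_add_one hx0.le).le
    linarith only [hx1, this]
  -- the sum of reciprocals
  have hsum : ∑ p ∈ (Ico z ⌈x⌉₊).filter Nat.Prime, 1 / (p : ℝ) ≤
      4 * (1 + A + C₇ + C₂) * L / l := by
    have h1 := hmert z ⌈x⌉₊ hz2' hzceil
    have hc0 : (0 : ℝ) < (⌈x⌉₊ : ℝ) := lt_of_lt_of_le hx0 (Nat.le_ceil x)
    have h2 : log (⌈x⌉₊ : ℝ) ≤ 1 + l / 2 + A * L := by
      have h3 : log (⌈x⌉₊ : ℝ) ≤ log (2 * x) := Real.log_le_log hc0 hceil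
      rw [Real.log_mul (by norm_num) hx0.ne', hx, Real.log_mul hs0.ne' (by positivity), hlogs,
        Real.log_rpow hl0] at h3
      have h4 := Real.log_two_lt_d9
      linarith only [h4, h3]
    have h3 : l / 2 - C₇ * L ≤ log z := by
      have h1 : log (√(y : ℝ) * l ^ (-C₇)) ≤ log z := Real.log_le_log hzlow hz1
      rw [Real.log_mul hs0.ne' hlC70.ne', hlogs, Real.log_rpow hl0] at h1
      linarith only [h1]
    have hlz0 : 0 < log z := by linarith only [hl4, hlogz]
    have hlc0 : 0 < log (⌈x⌉₊ : ℝ) := by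
      have : log (z : ℝ) ≤ log (⌈x⌉₊ : ℝ) := Real.log_le_log hz0 (hzx.trans (Nat.le_ceil x))
      linarith only [hl4, hlogz, this]
    have h4 : log (log (⌈x⌉₊ : ℝ)) - log (log z) ≤ (1 + A * L + C₇ * L) / log z := by
      rw [← Real.log_div hlc0.ne' hlz0.ne']
      have h5 := Real.log_le_sub_one_of_pos (div_pos hlc0 hlz0)
      refine h5.trans ?_
      rw [div_sub_one hlz0.ne']
      apply div_le_div_of_nonneg_right _ hlz0.le
      linarith only [h2, h3]
    have h5 : (1 + A * L + C₇ * L) / log z + C₂ / log z ≤ 4 * (1 + A + C₇ + C₂) * L / l := by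
      rw [← add_div, div_le_div_iff₀ hlz0 hl0]
      have h6 : 1 + A * L + C₇ * L + C₂ ≤ (1 + A + C₇ + C₂) * L := by
        have h8 : C₂ ≤ C₂ * L := le_mul_of_one_le_right hC₂.le hL1
        linarith only [hL1, h8]
      have h7 : 0 ≤ (1 + A + C₇ + C₂) * L := by positivity
      calc (1 + A * L + C₇ * L + C₂) * l ≤ ((1 + A + C₇ + C₂) * L) * l :=
            mul_le_mul_of_nonneg_right h6 hl0.le
        _ ≤ ((1 + A + C₇ + C₂) * L) * (4 * log z) :=
            mul_le_mul_of_nonneg_left (by linarith only [hlogz]) h7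
        _ = 4 * (1 + A + C₇ + C₂) * L * log z := by ring
    linarith only [h1, h4, h5]
  have hlz0 : 0 < log z := by linarith only [hl4, hlogz]
  have hyl0 : 0 ≤ (y : ℝ) / l ^ 2 := by positivity
  have hunion := cW_le_union hW.nonneg hW.le_one y V z x
  have hterm : ∑ p ∈ (Ico z ⌈x⌉₊).filter Nat.Prime, cW W y V (PP z) p z ≤
      ∑ p ∈ (Ico z ⌈x⌉₊).filter Nat.Prime,
        (C * (y / log z) * (1 / (p : ℝ)) + C * (z * (log z) ^ k)) := by
    apply Finset.sum_le_sum
    intro p hp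
    have hp1 := mem_filter.mp hp
    have hp0 : (0 : ℝ) < p := by exact_mod_cast hp1.2.pos
    refine (hbd y V z p hz2' hp1.2 (mem_Ico.mp hp1.1).1).trans (le_of_eq ?_)
    congr 1
    field_simp
  rw [Finset.sum_add_distrib, ← Finset.mul_sum, Finset.sum_const, nsmul_eq_mul] at hterm
  have hcard : (((Ico z ⌈x⌉₊).filter Nat.Prime).card : ℝ) ≤ 2 * x := by
    refine le_trans ?_ hceil
    have h1 : ((Ico z ⌈x⌉₊).filter Nat.Prime).card ≤ ⌈x⌉₊ := by
      refine (Finset.card_filter_le _ _).trans ?_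
      rw [Nat.card_Ico]
      omega
    exact_mod_cast h1
  have hA2 : C * (y / log z) * ∑ p ∈ (Ico z ⌈x⌉₊).filter Nat.Prime, 1 / (p : ℝ) ≤
      16 * C * (1 + A + C₇ + C₂) * (y * L / l ^ 2) := by
    have h1 : (y : ℝ) / log z ≤ 4 * y / l := by
      rw [div_le_div_iff₀ hlz0 hl0]
      calc (y : ℝ) * l ≤ y * (4 * log z) := mul_le_mul_of_nonneg_left (by linarith only [hlogz]) hy0.le
        _ = 4 * y * log z := by ring
    have h2 : 0 ≤ 4 * (1 + A + C₇ + C₂) * L / l := by positivity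
    calc C * (y / log z) * ∑ p ∈ (Ico z ⌈x⌉₊).filter Nat.Prime, 1 / (p : ℝ) ≤
        C * (4 * y / l) * (4 * (1 + A + C₇ + C₂) * L / l) := by
          apply mul_le_mul _ hsum _ (by positivity)
          · exact mul_le_mul_of_nonneg_left h1 hC0.le
          · apply Finset.sum_nonneg
            intro p _
            positivity
      _ = 16 * C * (1 + A + C₇ + C₂) * (y * L / l ^ 2) := by
          field_simp
          ring
  have hB2 : (((Ico z ⌈x⌉₊).filter Nat.Prime).card : ℝ) * (C * (z * (log z) ^ k)) ≤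
      4 * C * (y / l ^ 2) := by
    have h1 : (log (z : ℝ)) ^ k ≤ l ^ k := Real.rpow_le_rpow hlz0.le hlogz' hk.le
    have h2 : l ^ A * l ^ (-C₇) * l ^ k ≤ 1 / l ^ 2 := by
      rw [← Real.rpow_add hl0, ← Real.rpow_add hl0]
      have h3 : (1 : ℝ) / l ^ 2 = l ^ (-2 : ℝ) := by
        rw [Real.rpow_neg hl0.le, one_div]
        congr 1
        norm_cast
      rw [h3]
      exact Real.rpow_le_rpow_of_exponent_le hl1 (by linarith only [hAC])
    calc (((Ico z ⌈x⌉₊).filter Nat.Prime).card : ℝ) * (C * (z * (log z) ^ k)) ≤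
        (2 * x) * (C * ((2 * (√(y : ℝ) * l ^ (-C₇))) * l ^ k)) := by
          apply mul_le_mul hcard _ (by positivity) (by positivity)
          apply mul_le_mul_of_nonneg_left _ hC0.le
          exact mul_le_mul hz2 h1 (by positivity) (by positivity)
      _ = 4 * C * ((√(y : ℝ) * √(y : ℝ)) * (l ^ A * l ^ (-C₇) * l ^ k)) := by
          rw [hx]; ring
      _ ≤ 4 * C * (y * (1 / l ^ 2)) := by
          rw [hs2]
          apply mul_le_mul_of_nonneg_left _ (by positivity)
          exact mul_le_mul_of_nonneg_left h2 hy0.le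
      _ = 4 * C * (y / l ^ 2) := by ring
  have hfin : (y : ℝ) / l ^ 2 ≤ y * L / l ^ 2 := by
    apply div_le_div_of_nonneg_right _ (by positivity)
    exact le_mul_of_one_le_right hy0.le hL1
  calc cW W y V (PP z) 1 z ≤ y / l ^ 2 + (16 * C * (1 + A + C₇ + C₂) * (y * L / l ^ 2) +
      4 * C * (y / l ^ 2)) := by linarith only [hsurv, hunion, hterm, hA2, hB2]
    _ ≤ y * L / l ^ 2 + (16 * C * (1 + A + C₇ + C₂) * (y * L / l ^ 2) +
      4 * C * (y * L / l ^ 2)) := by
        have := mul_le_mul_of_nonneg_left hfin (show 0 ≤ 4 * C by positivity)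
        linarith only [hfin, this]
    _ = (1 + 16 * C * (1 + A + C₇ + C₂) + 4 * C) * y * L / l ^ 2 := by ring

end Vale.Agent.P013.J
end

section

/-! Stability of the linear sieve. -/

open Finset Real Filter

namespace Vale.Agent.P013.J

open Vale.Agent.P013

/-- upper bound for the number of integers without prime factor below `z` -/
def StabUpStmt : Prop := ∃ κ₀ : ℝ, 0 < κ₀ ∧ ∀ W : ℝ → ℝ, GoodW W → ∀ A C₇ : ℝ, 0 < A →
  A + κ₀ ≤ C₇ → ∃ K₁ : ℝ, 0 < K₁ ∧ ∃ y₀ : ℕ, ∀ y : ℕ, y₀ ≤ y → ∀ (V : ℤ) (z : ℕ),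
    √y * (log y) ^ (-C₇) ≤ z → (z : ℝ) ≤ 2 * (√y * (log y) ^ (-C₇)) →
    (surv y (√y * (log y) ^ A) V : ℝ) ≤ y / (log y) ^ 2 →
    cW W y V (PP z) 1 z ≤ K₁ * y * log (log y) / (log y) ^ 2

theorem sb_prod_bound : ∃ Cm : ℝ, 0 < Cm ∧ ∀ κ : ℝ, 0 ≤ κ → ∀ z : ℕ, 2 ≤ z →
    ∏ q ∈ (PP z).filter (fun q => q < z), (1 + κ / (q : ℝ)) ≤ exp (κ * Cm) * (log z) ^ κ := by
  obtain ⟨Cm, hCm, h⟩ := sum_inv_prime_le
  refine ⟨Cm, hCm, ?_⟩
  intro κ hκ z hz
  have hlz : 0 < log (z : ℝ) := Real.log_pos (by exact_mod_cast (by omega : 1 < z))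
  have e : (PP z).filter (fun q => q < z) = (range z).filter Nat.Prime := by
    ext q
    unfold PP
    simp only [mem_filter, mem_range]
    tauto
  rw [e]
  calc ∏ q ∈ (range z).filter Nat.Prime, (1 + κ / (q : ℝ))
      ≤ ∏ q ∈ (range z).filter Nat.Prime, exp (κ / (q : ℝ)) := by
        apply Finset.prod_le_prod
        · intro q _
          positivity
        · intro q _
          have := Real.add_one_le_exp (κ / (q : ℝ))
          linarith only [this]
    _ = exp (κ * ∑ q ∈ (range z).filter Nat.Prime, 1 / (q : ℝ)) := by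
        rw [← Real.exp_sum, mul_sum]
        congr 1
        apply sum_congr rfl
        intro q _
        ring
    _ ≤ exp (κ * (log (log z) + Cm)) := by
        apply Real.exp_le_exp.2
        exact mul_le_mul_of_nonneg_left (h z hz) hκ
    _ = exp (κ * Cm) * (log z) ^ κ := by
        rw [Real.rpow_def_of_pos hlz, ← Real.exp_add]
        congr 1
        ring

theorem sb_card_bound : ∃ Ct : ℝ, 0 < Ct ∧ (∀ z x : ℕ, 2 ≤ x → x ≤ z →
    |tau z x - log x| ≤ Ct) ∧ ∃ Cm : ℝ, ∀ z : ℕ, 2 ≤ z →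
      ((supp (PP z) (tau z) 0 z (2 * log z)).card : ℝ) ≤
        (z : ℝ) ^ 2 * (exp (exp Ct * Cm) * (log z) ^ (exp Ct)) := by
  obtain ⟨Ct, hCt, htau⟩ := tau_bounds
  obtain ⟨Cm, hCm, hprod⟩ := sb_prod_bound
  refine ⟨Ct, hCt, htau, Cm, ?_⟩
  intro z hz
  have hlz : 0 < log (z : ℝ) := Real.log_pos (by exact_mod_cast (by omega : 1 < z))
  have hzp : (0 : ℝ) < z := by exact_mod_cast (by omega : 0 < z)
  have h := (supp_card_le (Q := PP z) (fun q hq => (sb_mem_PP.1 hq).2.pos) (τ := tau z) (C := Ct)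
    (fun q hq => by
      obtain ⟨h1, h2⟩ := sb_mem_PP.1 hq
      have := (abs_le.1 (htau z q h2.two_le h1.le)).1
      linarith only [this])
    (fun q _ => (tau_pos z q hz).le)
    (fun q _ q' _ hqq => tau_mono z q q' (by omega) hqq) z (2 * log z) (by positivity)).2
    (fun q hq _ => by
      obtain ⟨h1, h2⟩ := sb_mem_PP.1 hq
      have := tau_mono z q z (by omega) h1.le
      rw [tau_self] at this
      linarith only [hlz, this])
  refine h.trans ?_
  have e : exp (2 * log (z : ℝ)) = (z : ℝ) ^ 2 := by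
    rw [two_mul, Real.exp_add, Real.exp_log hzp]
    ring
  rw [e]
  apply mul_le_mul_of_nonneg_left (hprod _ (Real.exp_pos _).le z hz) (by positivity)

theorem sb_tendsto_log : Tendsto (fun y : ℕ => log (y : ℝ)) atTop atTop :=
  Real.tendsto_log_atTop.comp tendsto_natCast_atTop_atTop

theorem sb_ev_LL (a b : ℝ) (hb : 0 < b) :
    ∀ᶠ y : ℕ in atTop, a * log (log (y : ℝ)) + a ≤ b * log (y : ℝ) := by
  have h1 : ∀ᶠ x : ℝ in atTop, |log x| ≤ b / (2 * (|a| + 1)) * |x| := by
    have := Real.isLittleO_log_id_atTop.def (c := b / (2 * (|a| + 1))) (by positivity)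
    simpa using this
  have h2 := sb_tendsto_log.eventually h1
  have h3 := sb_tendsto_log.eventually (eventually_ge_atTop (2 * |a| / b))
  have h4 := sb_tendsto_log.eventually (eventually_ge_atTop 1)
  filter_upwards [h2, h3, h4] with y hy1 hy2 hy3
  have hl : (0:ℝ) < log (y : ℝ) := by linarith only [hy3]
  rw [abs_of_pos hl] at hy1
  have h5 : |a| * |log (log (y : ℝ))| ≤ b / 2 * log y := by
    calc |a| * |log (log (y : ℝ))| ≤ |a| * (b / (2 * (|a| + 1)) * log y) := by gcongr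
      _ = (|a| / (|a| + 1)) * (b / 2 * log y) := by
          have : |a| + 1 ≠ 0 := by positivity
          field_simp
      _ ≤ 1 * (b / 2 * log y) := by
          apply mul_le_mul_of_nonneg_right _ (by positivity)
          rw [div_le_one (by positivity)]
          linarith
      _ = b / 2 * log y := one_mul _
  have h6 : |a| ≤ b / 2 * log y := by
    rw [div_le_iff₀ hb] at hy2
    linarith only [hy2]
  have h7 : a * log (log (y : ℝ)) ≤ |a| * |log (log (y : ℝ))| := by
    rw [← abs_mul]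
    exact le_abs_self _
  have h8 := le_abs_self a
  linarith only [h5, h6, h7, h8]

theorem stab_of (hup : StabUpStmt) : StabStmt := by
  obtain ⟨κ₀, hκ₀, hup⟩ := hup
  obtain ⟨Ct, hCt, htau, Cm, hcard⟩ := sb_card_bound
  obtain ⟨Cg, hCg, hgv⟩ := gv_bounds
  intro W hW c A hc hc1 hA
  obtain ⟨CW, hCW, hrr⟩ := rr_bound hW
  set κ := exp Ct with hκ
  have hκpos : 0 < κ := Real.exp_pos _
  set C₇ := A + κ₀ + κ + 5 with hC₇
  have hC₇pos : 0 < C₇ := by positivity
  obtain ⟨K₁, hK₁, y₁, hy₁⟩ := hup W hW A C₇ hA (by linarith only [hc, hc1, hκpos])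
  set φ := (phiM (2 / c)).toReal with hφ
  have hφpos : 0 < φ := by
    apply sb_phiM_toReal_pos
    rw [le_div_iff₀ hc]
    linarith only [hc, hc1]
  have hI := hW.int_pos
  refine ⟨C₇, 2 * Cg * (K₁ + 3) / ((∫ x, W x) * φ), hC₇pos, by (clear * - hCg hK₁ hI hφpos; positivity), ?_⟩
  intro A₁ hA₁
  set K₂ := CW * (4 * exp (κ * Cm)) with hK₂
  have ev : ∀ᶠ y : ℕ in atTop, y₁ ≤ y ∧ max K₂ (exp 1 + 2) ≤ log (y : ℝ) ∧
      (C₇ + 3 * Ct + 3) * log (log (y : ℝ)) + (C₇ + 3 * Ct + 3) ≤ 0.02 * log y ∧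
      A₁ * log (log (y : ℝ)) + A₁ ≤ 1 * log y ∧ Ct * log (log (y : ℝ)) + Ct ≤ c / 2 * log y := by
    filter_upwards [eventually_ge_atTop y₁,
      sb_tendsto_log.eventually (eventually_ge_atTop (max K₂ (exp 1 + 2))),
      sb_ev_LL (C₇ + 3 * Ct + 3) 0.02 (by norm_num), sb_ev_LL A₁ 1 one_pos,
      sb_ev_LL Ct (c / 2) (by positivity)] with y h1 h2 h3 h4 h5
    exact ⟨h1, h2, h3, h4, h5⟩
  obtain ⟨y₀, hy₀⟩ := eventually_atTop.1 ev
  refine ⟨y₀, fun y hy V hsurv => ?_⟩
  obtain ⟨e1, e2, e3, e4, e5⟩ := hy₀ y hy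
  set l := log (y : ℝ) with hl
  set L := log l with hL
  have e2a : K₂ ≤ l := (le_max_left _ _).trans e2
  have e2b : exp 1 + 2 ≤ l := (le_max_right _ _).trans e2
  have hexp1 : 0 < exp (1:ℝ) := Real.exp_pos 1
  have hlpos : 0 < l := by linarith only [hc, hc1, e2b, hexp1]
  have hL1 : 1 ≤ L := by
    rw [hL, Real.le_log_iff_exp_le hlpos]
    linarith only [hc, hc1, e2b]
  have hl1 : 1 ≤ l := by linarith only [hc, hc1, e2b, hexp1]
  have hyp : (0 : ℝ) < y := by
    rcases Nat.eq_zero_or_pos y with h0 | h0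
    · rw [hl, h0] at hlpos
      simp at hlpos
    · exact_mod_cast h0
  set w := √(y : ℝ) * l ^ (-C₇) with hw
  have hlogw : log w = l / 2 - C₇ * L := by
    rw [hw, Real.log_mul (by positivity) (by positivity), Real.log_rpow hlpos,
      Real.log_sqrt hyp.le]
    ring
  have hsq : 0 < √(y : ℝ) := Real.sqrt_pos.2 hyp
  have hwpos : 0 < w := by (clear * - hyp hlpos; positivity)
  have hw2 : 2 ≤ w := by
    have h1 : log 2 ≤ log w := by
      rw [hlogw]
      have h2 := Real.log_two_lt_d9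
      nlinarith only [hc, hc1, hA, hκpos, e3, e2b, hexp1, hL1, h2, hκ₀, hCt]
    exact (Real.log_le_log_iff (by norm_num) hwpos).1 h1
  have hlC : 2 ≤ l ^ C₇ := by
    have h1 : l ^ (1:ℝ) ≤ l ^ C₇ := Real.rpow_le_rpow_of_exponent_le hl1 (by
      rw [hC₇]; linarith only [hκ₀, hc, hc1, hA, hκpos])
    rw [Real.rpow_one] at h1
    linarith only [e2b, hexp1, h1]
  set z := ⌈w⌉₊ with hz
  have hzw : w ≤ z := Nat.le_ceil w
  have hzw2 : (z : ℝ) ≤ 2 * w := by
    have := (Nat.ceil_lt_add_one hwpos.le).le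
    linarith only [hc, hc1, hw2, this]
  have hzs : (z : ℝ) ≤ √y := by
    refine hzw2.trans ?_
    rw [hw, Real.rpow_neg hlpos.le]
    rw [← mul_assoc, ← div_eq_mul_inv, div_le_iff₀ (by positivity), mul_comm]
    exact mul_le_mul_of_nonneg_left hlC hsq.le
  have hz2 : 2 ≤ z := by
    have : (2:ℝ) ≤ z := hw2.trans hzw
    exact_mod_cast this
  have hzp : (0 : ℝ) < z := by linarith only [hc, hc1, hw2, hzw]
  have hlz1 : log (z : ℝ) ≤ l / 2 := by
    have := Real.log_le_log hzp hzs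
    rwa [Real.log_sqrt hyp.le] at this
  have hlz2 : l / 2 - C₇ * L ≤ log (z : ℝ) := by
    rw [← hlogw]
    exact Real.log_le_log hwpos hzw
  refine ⟨z, hzw, hzs, ?_⟩
  intro DD hDD hRD
  have hlz0 : 0 < log (z : ℝ) := Real.log_pos (by exact_mod_cast (by omega : 1 < z))
  refine sb_core hW hc hc1 hA₁ hCg hφ (hrr y V) hz2 (by linarith only [hlz1]) ?_ (htau z)
    (fun x hx hxz => (hgv z x hx hxz).1) ?_ (hy₁ y e1 V z hzw hzw2 hsurv) hL1 ?_ ?_ hDD hRD
  · -- level
    have h1 : 0 ≤ Ct * (L - 1) := mul_nonneg hCt.le (by linarith only [hL1])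
    have h2 : (C₇ + 3 * Ct + 3) * L + (C₇ + 3 * Ct + 3) = C₇ * L + 3 * Ct * L + 3 * L + C₇ + 3 * Ct + 3 := by
      ring
    rw [h2] at e3
    norm_num at e3 ⊢
    linarith only [e3, h1, hlz2, hL1, hκpos, hA, hc1, hc, hCt, hκ₀]
  · -- cardinality
    have h1 := hcard z hz2
    have h2 : (z : ℝ) ^ 2 ≤ 4 * (y * l ^ (-(2 * C₇))) := by
      calc (z : ℝ) ^ 2 ≤ (2 * w) ^ 2 := by gcongr
        _ = 4 * (√(y:ℝ) ^ 2 * (l ^ (-C₇)) ^ 2) := by rw [hw]; ring
        _ = 4 * (y * l ^ (-(2 * C₇))) := by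
            rw [Real.sq_sqrt hyp.le, ← Real.rpow_natCast (l ^ (-C₇)) 2, ← Real.rpow_mul hlpos.le]
            congr 3
            push_cast
            ring
    have h3 : (log (z : ℝ)) ^ κ ≤ l ^ κ := by
      apply Real.rpow_le_rpow hlz0.le _ hκpos.le
      linarith only [hc, hc1, e2b, hexp1, hlz1]
    calc CW * ((supp (PP z) (tau z) 0 z (2 * log z)).card : ℝ)
        ≤ CW * ((4 * (y * l ^ (-(2 * C₇)))) * (exp (κ * Cm) * l ^ κ)) := by
          apply mul_le_mul_of_nonneg_left _ hCW.le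
          refine h1.trans ?_
          gcongr
      _ = K₂ * y * (l ^ (-(2 * C₇)) * l ^ κ) := by rw [hK₂]; ring
      _ ≤ l * y * (l ^ (-(4:ℝ))) := by
          have h4 : l ^ (-(2 * C₇)) * l ^ κ ≤ l ^ (-(4:ℝ)) := by
            rw [← Real.rpow_add hlpos]
            apply Real.rpow_le_rpow_of_exponent_le hl1
            rw [hC₇]
            linarith only [hκ₀, hc, hc1, hA, hκpos]
          have h5 : 0 ≤ l ^ (-(2 * C₇)) * l ^ κ := by positivity
          calc K₂ * y * (l ^ (-(2 * C₇)) * l ^ κ) ≤ l * y * (l ^ (-(2 * C₇)) * l ^ κ) := by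
                gcongr
            _ ≤ _ := by gcongr
      _ = y / l ^ 3 := by
          rw [Real.rpow_neg hlpos.le]
          have : l ^ (4:ℝ) = l ^ 4 := by
            rw [← Real.rpow_natCast l 4]
            norm_num
          rw [this]
          field_simp
  · linarith only [hc, hc1, hA₁, e4]
  · have h1 : 0 ≤ Ct * L := by positivity
    linarith only [e5, h1]

/-- stability of the linear sieve -/
theorem stab : StabStmt :=
  stab_of (stab_up (fun W hW => by
    obtain ⟨C, _, h⟩ := rr_bound hW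
    exact ⟨C, h⟩))

end Vale.Agent.P013.J
end

section

/-!
# Derivatives of a quotient
-/

open Finset Real

namespace Vale.Agent.P013.J

theorem quot_step (f g : ℂ → ℂ) (s : ℂ) (hf : AnalyticAt ℂ f s) (hg : AnalyticAt ℂ g s)
    (hg0 : g s ≠ 0) (j : ℕ) :
    iteratedDeriv j f s = ∑ i ∈ range (j + 1), (j.choose i : ℂ) *
      iteratedDeriv i (fun z => f z / g z) s * iteratedDeriv (j - i) g s := by
  have hu : AnalyticAt ℂ (fun z => f z / g z) s := hf.div hg hg0
  have h1 : ∀ᶠ z in nhds s, f z = ((fun z => f z / g z) * g) z := by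
    filter_upwards [hg.continuousAt.eventually_ne hg0] with z hz
    simp [Pi.mul_apply, div_mul_cancel₀ _ hz]
  rw [Filter.EventuallyEq.iteratedDeriv_eq j h1]
  exact iteratedDeriv_mul hu.contDiffAt hg.contDiffAt

theorem quot_all (j : ℕ) : ∃ C : ℝ, 1 ≤ C ∧ ∀ (f g : ℂ → ℂ) (s : ℂ) (R : ℝ),
    AnalyticAt ℂ f s → AnalyticAt ℂ g s → g s ≠ 0 → 1 ≤ R →
    (∀ i ≤ j, ‖iteratedDeriv i f s‖ ≤ R) → (∀ i ≤ j, ‖iteratedDeriv i g s‖ ≤ R) → ‖g s‖⁻¹ ≤ R →
    ∀ i ≤ j, ‖iteratedDeriv i (fun z => f z / g z) s‖ ≤ C * R ^ (2 * i + 2) := by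
  induction j with
  | zero =>
    refine ⟨1, le_refl _, fun f g s R hf hg hg0 hR h1 h2 h3 i hi => ?_⟩
    obtain rfl : i = 0 := Nat.le_zero.1 hi
    have h4 := h1 0 le_rfl
    simp only [iteratedDeriv_zero] at h4 ⊢
    rw [div_eq_mul_inv, norm_mul, norm_inv, one_mul]
    calc ‖f s‖ * ‖g s‖⁻¹ ≤ R * R := mul_le_mul h4 h3 (by positivity) (by linarith only [hR])
      _ = R ^ (2 * 0 + 2) := by ring
  | succ j ih =>
    obtain ⟨C, hC, hC'⟩ := ih
    refine ⟨1 + (2 : ℝ) ^ (j + 1) * C, ?_, fun f g s R hf hg hg0 hR h1 h2 h3 i hi => ?_⟩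
    · have : 0 ≤ (2 : ℝ) ^ (j + 1) * C := by positivity
      linarith
    have hR0 : 0 < R := by linarith only [hR]
    have hprev := hC' f g s R hf hg hg0 hR (fun i hi => h1 i (by omega))
      (fun i hi => h2 i (by omega)) h3
    have hCC : C ≤ 1 + (2 : ℝ) ^ (j + 1) * C := by
      have : (1 : ℝ) ≤ 2 ^ (j + 1) := one_le_pow₀ (by norm_num)
      linarith only [mul_nonneg (sub_nonneg.2 this) (sub_nonneg.2 hC), this]
    rcases Nat.lt_or_ge i (j + 1) with hij | hij
    · exact (hprev i (by omega)).trans (by gcongr)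
    obtain rfl : i = j + 1 := le_antisymm hi hij
    have h4 := quot_step f g s hf hg hg0 (j + 1)
    rw [Finset.sum_range_succ, Nat.choose_self, Nat.sub_self, iteratedDeriv_zero, Nat.cast_one,
      one_mul] at h4
    set u := iteratedDeriv (j + 1) (fun z => f z / g z) s with hu
    set S := ∑ i ∈ range (j + 1), ((j + 1).choose i : ℂ) *
      iteratedDeriv i (fun z => f z / g z) s * iteratedDeriv (j + 1 - i) g s with hS
    have h5 : u = (iteratedDeriv (j + 1) f s - S) * (g s)⁻¹ := by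
      rw [h4]
      field_simp
      ring
    have h6 : ‖S‖ ≤ (2 : ℝ) ^ (j + 1) * C * R ^ (2 * j + 3) := by
      have h7 : ∀ i ∈ range (j + 1), ‖((j + 1).choose i : ℂ) *
          iteratedDeriv i (fun z => f z / g z) s * iteratedDeriv (j + 1 - i) g s‖ ≤
          ((j + 1).choose i : ℝ) * (C * R ^ (2 * j + 3)) := by
        intro i hi
        have hi' : i ≤ j := Nat.lt_succ_iff.1 (Finset.mem_range.1 hi)
        rw [norm_mul, norm_mul, Complex.norm_natCast, mul_assoc]
        refine mul_le_mul_of_nonneg_left ?_ (Nat.cast_nonneg _)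
        calc ‖iteratedDeriv i (fun z => f z / g z) s‖ * ‖iteratedDeriv (j + 1 - i) g s‖
            ≤ (C * R ^ (2 * i + 2)) * R :=
              mul_le_mul (hprev i hi') (h2 _ (by omega)) (norm_nonneg _) (by positivity)
          _ = C * R ^ (2 * i + 3) := by ring
          _ ≤ C * R ^ (2 * j + 3) := by
              gcongr
      refine (norm_sum_le_of_le _ h7).trans ?_
      rw [← Finset.sum_mul]
      have h8 : ∑ i ∈ range (j + 1), ((j + 1).choose i : ℝ) ≤ (2 : ℝ) ^ (j + 1) := by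
        have h9 := Nat.sum_range_choose (j + 1)
        have h10 : ∑ i ∈ range (j + 1), (j + 1).choose i ≤ 2 ^ (j + 1) := by
          rw [← h9]
          exact Finset.sum_le_sum_of_subset (Finset.range_mono (by omega))
        exact_mod_cast h10
      rw [mul_assoc]
      gcongr
    rw [h5, norm_mul, norm_inv]
    have h11 : ‖iteratedDeriv (j + 1) f s - S‖ ≤ R + (2 : ℝ) ^ (j + 1) * C * R ^ (2 * j + 3) :=
      (norm_sub_le _ _).trans (add_le_add (h1 _ le_rfl) h6)
    calc ‖iteratedDeriv (j + 1) f s - S‖ * ‖g s‖⁻¹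
        ≤ (R + (2 : ℝ) ^ (j + 1) * C * R ^ (2 * j + 3)) * R :=
          mul_le_mul h11 h3 (by positivity) (by positivity)
      _ = R ^ 2 + (2 : ℝ) ^ (j + 1) * C * R ^ (2 * (j + 1) + 2) := by ring
      _ ≤ R ^ (2 * (j + 1) + 2) + (2 : ℝ) ^ (j + 1) * C * R ^ (2 * (j + 1) + 2) := by
          gcongr
          omega
      _ = (1 + (2 : ℝ) ^ (j + 1) * C) * R ^ (2 * (j + 1) + 2) := by ring

theorem quot : QuotStmt := by
  intro j
  obtain ⟨C, hC, h⟩ := quot_all j
  exact ⟨C, by linarith, fun f g s R hf hg hg0 hR h1 h2 h3 =>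
    h f g s R hf hg hg0 hR h1 h2 h3 j le_rfl⟩

end Vale.Agent.P013.J
end

section

open Finset Real Filter

namespace Vale.Agent.P013.J

lemma ev_log_le (A B δ : ℝ) (hδ : 0 < δ) : ∀ᶠ y : ℕ in atTop, B * (log y) ^ A ≤ (y : ℝ) ^ δ := by
  have h1 := (isLittleO_log_rpow_rpow_atTop A hδ).def (c := 1 / (|B| + 1)) (by positivity)
  have h2 := tendsto_natCast_atTop_atTop (R := ℝ) |>.eventually h1
  filter_upwards [h2, eventually_ge_atTop 1] with y hy hy1
  have hy1' : (1 : ℝ) ≤ y := by exact_mod_cast hy1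
  have hlog : 0 ≤ Real.log y := Real.log_nonneg hy1'
  rw [Real.norm_of_nonneg (Real.rpow_nonneg hlog A),
    Real.norm_of_nonneg (Real.rpow_nonneg (by linarith only [hy1']) δ)] at hy
  have h3 : 0 ≤ Real.log y ^ A := Real.rpow_nonneg hlog A
  have hB : B ≤ |B| + 1 := by
    have := le_abs_self B
    linarith only [this]
  calc B * Real.log y ^ A ≤ (|B| + 1) * Real.log y ^ A := mul_le_mul_of_nonneg_right hB h3
    _ ≤ (|B| + 1) * (1 / (|B| + 1) * (y : ℝ) ^ δ) :=
        mul_le_mul_of_nonneg_left hy (by positivity)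
    _ = (y : ℝ) ^ δ := by field_simp

lemma ev_const_le_rpow (B δ : ℝ) (hδ : 0 < δ) : ∀ᶠ y : ℕ in atTop, B ≤ (y : ℝ) ^ δ := by
  have := ev_log_le 0 B δ hδ
  filter_upwards [this] with y hy
  simpa using hy

lemma ev_const_le_log (B : ℝ) : ∀ᶠ y : ℕ in atTop, B ≤ Real.log y :=
  (Real.tendsto_log_atTop.comp tendsto_natCast_atTop_atTop).eventually (eventually_ge_atTop B)

/-- the non-prime part of the weighted sum is small -/
lemma lsum_le (D R Y : ℕ) (hD : 1 ≤ D) (hR : 1 ≤ R) (P : Finset ℕ) (a : ℕ → ℤ) :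
    lsum D R Y P a ≤ ((gset D R Y P a).card : ℝ) * Real.log ((D * Y + R : ℕ) : ℝ) +
      2 * √((D * Y + R : ℕ) : ℝ) * Real.log ((D * Y + R : ℕ) : ℝ) := by
  classical
  set x1 : ℕ := D * Y + R with hx1
  have hx1' : (1 : ℝ) ≤ (x1 : ℝ) := by exact_mod_cast (by omega : 1 ≤ x1)
  have h1 : lsum D R Y P a =
      ∑ k ∈ (Icc 1 Y).filter (fun k => Avoid P a k), ArithmeticFunction.vonMangoldt (D * k + R) := by
    unfold lsum
    rfl
  have h2 : gset D R Y P a = (Icc 1 Y).filter (fun k => Avoid P a k ∧ (D * k + R).Prime) := by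
    unfold gset
    congr
  rw [h1, ← sum_filter_add_sum_filter_not _ (fun k => (D * k + R).Prime), filter_filter, ← h2,
    filter_filter]
  apply add_le_add
  · rw [← nsmul_eq_mul]
    apply sum_le_card_nsmul
    intro k hk
    rw [h2, mem_filter, mem_Icc] at hk
    refine ArithmeticFunction.vonMangoldt_le_log.trans ?_
    apply Real.log_le_log
    · have : 0 < D * k + R := by omega
      exact_mod_cast this
    · rw [hx1]
      exact_mod_cast Nat.add_le_add_right (Nat.mul_le_mul_left D hk.1.2) R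
  · refine le_trans ?_ (Chebyshev.psi_sub_theta_le hx1')
    rw [Chebyshev.psi_sub_theta_eq_sum_not_prime, Nat.floor_natCast]
    have hinj : Set.InjOn (fun k : ℕ => D * k + R)
        (((Icc 1 Y).filter (fun k => Avoid P a k ∧ ¬ (D * k + R).Prime) : Finset ℕ) : Set ℕ) := by
      intro k _ k' _ hkk
      have h3 : D * k + R = D * k' + R := hkk
      exact Nat.eq_of_mul_eq_mul_left hD (by omega)
    rw [← sum_image (f := fun n => ArithmeticFunction.vonMangoldt n) hinj]
    apply sum_le_sum_of_subset_of_nonneg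
    · intro n hn
      rw [mem_image] at hn
      obtain ⟨k, hk, rfl⟩ := hn
      rw [mem_filter, mem_Icc] at hk
      rw [mem_filter, mem_Ioc]
      refine ⟨⟨by omega, ?_⟩, hk.2.2⟩
      rw [hx1]
      exact Nat.add_le_add_right (Nat.mul_le_mul_left D hk.1.2) R
    · intro n _ _
      exact ArithmeticFunction.vonMangoldt_nonneg

lemma gset_split (D R Y : ℕ) (P : Finset ℕ) (a : ℕ → ℤ) (w : ℝ) :
    ((gset D R Y (P.filter (fun p : ℕ => (p : ℝ) < w)) a).card : ℝ) ≤
      ((gset D R Y P a).card : ℝ) +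
      ∑ q ∈ P.filter (fun p : ℕ => w ≤ (p : ℝ)),
        (((gset D R Y (P.filter (fun p : ℕ => (p : ℝ) < w)) a).filter
          (fun k : ℕ => (q : ℤ) ∣ (k : ℤ) - a q)).card : ℝ) := by
  classical
  have h1 : gset D R Y (P.filter (fun p : ℕ => (p : ℝ) < w)) a ⊆ gset D R Y P a ∪
      (P.filter (fun p : ℕ => w ≤ (p : ℝ))).biUnion (fun q =>
        (gset D R Y (P.filter (fun p : ℕ => (p : ℝ) < w)) a).filter
          (fun k : ℕ => (q : ℤ) ∣ (k : ℤ) - a q)) := by
    intro k hk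
    have hk' := hk
    unfold gset at hk'
    rw [mem_filter] at hk'
    rw [mem_union, mem_biUnion]
    by_cases h : Avoid P a k
    · left
      unfold gset
      rw [mem_filter]
      exact ⟨hk'.1, h, hk'.2.2⟩
    · right
      unfold Avoid at h
      push Not at h
      obtain ⟨q, hq, hdvd⟩ := h
      refine ⟨q, ?_, ?_⟩
      · rw [mem_filter]
        refine ⟨hq, ?_⟩
        by_contra hw
        push Not at hw
        exact hk'.2.1 q (mem_filter.mpr ⟨hq, hw⟩) hdvd
      · rw [mem_filter]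
        exact ⟨hk, hdvd⟩
  have h2 := (card_le_card h1).trans ((card_union_le _ _).trans
    (Nat.add_le_add_left card_biUnion_le _))
  exact_mod_cast h2

lemma core_fin1 {y L c₁ X W : ℝ} (hy : 0 < y) (hL : 0 < L) (hc : 0 < c₁) (hX : 1 ≤ X)
    (hW : c₁ / L ≤ W) : c₁ * y / (216 * L ^ 2) ≤ y * X * W / (72 * L) / 3 := by
  have hW0 : 0 < W := lt_of_lt_of_le (by positivity) hW
  have h2 : y * (c₁ / L) ≤ y * X * W := by
    have h3 : c₁ / L ≤ X * W := by linarith only [mul_nonneg (sub_nonneg.2 hX) (le_of_lt (sub_pos.2 hW0)), hW]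
    calc y * (c₁ / L) ≤ y * (X * W) := mul_le_mul_of_nonneg_left h3 hy.le
      _ = _ := by ring
  calc c₁ * y / (216 * L ^ 2) = y * (c₁ / L) / (216 * L) := by field_simp
    _ ≤ y * X * W / (216 * L) := div_le_div_of_nonneg_right h2 (by positivity)
    _ = _ := by field_simp; norm_num

lemma core_err2 {K y X W c L : ℝ} (hK : K ≠ 0) (hc : c ≠ 0) (hL : L ≠ 0) :
    K * y * X * W / (c * L) * (c / (216 * K)) = y * X * W / (72 * L) / 3 := by
  field_simp
  ring

lemma core_err1 {y c₁ s L : ℝ} (hy : 0 < y) (hL : 0 < L) (hc : 0 < c₁)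
    (hs : s ≤ y ^ (3 / 4 : ℝ)) (hE : 432 / c₁ * L ^ (2 : ℝ) ≤ y ^ (1 / 4 : ℝ)) :
    2 * s ≤ c₁ * y / (216 * L ^ 2) := by
  rw [le_div_iff₀ (by positivity)]
  have h3 : y = y ^ (3 / 4 : ℝ) * y ^ (1 / 4 : ℝ) := by
    rw [← Real.rpow_add hy]
    norm_num
  have h4 : 432 * L ^ 2 ≤ c₁ * y ^ (1 / 4 : ℝ) := by
    have h5 : L ^ (2 : ℝ) = L ^ 2 := by norm_cast
    rw [h5] at hE
    have h6 : 432 * L ^ 2 = c₁ * (432 / c₁ * L ^ 2) := by field_simp
    rw [h6]
    exact mul_le_mul_of_nonneg_left hE hc.le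
  calc 2 * s * (216 * L ^ 2) ≤ 2 * y ^ (3 / 4 : ℝ) * (216 * L ^ 2) := by
        apply mul_le_mul_of_nonneg_right _ (by positivity)
        linarith only [hs]
    _ = y ^ (3 / 4 : ℝ) * (432 * L ^ 2) := by ring
    _ ≤ y ^ (3 / 4 : ℝ) * (c₁ * y ^ (1 / 4 : ℝ)) :=
        mul_le_mul_of_nonneg_left h4 (by positivity)
    _ = c₁ * (y ^ (3 / 4 : ℝ) * y ^ (1 / 4 : ℝ)) := by ring
    _ = c₁ * y := by rw [← h3]

lemma core_num {y L lx s Y X W G g S T c₁ K c : ℝ} (hy : 0 < y) (hL : 0 < L) (hc₁ : 0 < c₁)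
    (hK : 0 < K) (hc : 0 < c) (hX : 1 ≤ X) (hW : c₁ / L ≤ W) (hY : y / 9 ≤ Y)
    (hlow : 1 / 4 * (Y * X) * W ≤ G * lx + 2 * s * lx) (hlx : lx ≤ 2 * L) (hG : 0 ≤ G)
    (hs0 : 0 ≤ s) (hs : s ≤ y ^ (3 / 4 : ℝ)) (hE : 432 / c₁ * L ^ (2 : ℝ) ≤ y ^ (1 / 4 : ℝ))
    (hS : S ≤ K * y * X * W / (c * L) * T) (hT : T ≤ c / (216 * K)) (hgS : G ≤ g + S) :
    c₁ / 216 * y / L ^ 2 ≤ g := by
  have hW0 : 0 < W := lt_of_lt_of_le (by positivity) hW
  have hX0 : 0 < X := by linarith only [hX]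
  have h1 : y * X * W / (72 * L) ≤ G + 2 * s := by
    have h2 : y * X * W / 36 ≤ 1 / 4 * (Y * X) * W := by
      have h4 : y / 9 * X ≤ Y * X := mul_le_mul_of_nonneg_right hY hX0.le
      have h5 := mul_le_mul_of_nonneg_right h4 hW0.le
      linarith only [h5]
    have h3 : (G + 2 * s) * lx ≤ (G + 2 * s) * (2 * L) :=
      mul_le_mul_of_nonneg_left hlx (by positivity)
    rw [div_le_iff₀ (by positivity)]
    linarith only [hlow, h2, h3]
  have h2 := core_err1 hy hL hc₁ hs hE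
  have h3 := core_fin1 hy hL hc₁ hX hW
  have h4 : S ≤ y * X * W / (72 * L) / 3 := by
    rw [← core_err2 hK.ne' hc.ne' hL.ne']
    refine hS.trans (mul_le_mul_of_nonneg_left hT (by positivity))
  have h5 : c₁ / 216 * y / L ^ 2 = c₁ * y / (216 * L ^ 2) := by field_simp
  rw [h5]
  linarith only [hgS, h1, h2, h3, h4]

theorem core (hL : LowerStmt) (hU : UpperStmt) (hM : MertLowStmt) : CoreStmt := by
  obtain ⟨cl, hcl0, hL⟩ := hL
  obtain ⟨cu, K, hcu0, hK0, hU⟩ := hU
  obtain ⟨c₁, hc₁0, hc₁1, hM⟩ := hM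
  set c : ℝ := min (min cl cu) (1 / 20) with hc
  have hc0 : 0 < c := by
    rw [hc]
    exact lt_min (lt_min hcl0 hcu0) (by norm_num)
  have hccl : c ≤ cl := (min_le_left _ _).trans (min_le_left _ _)
  have hccu : c ≤ cu := (min_le_left _ _).trans (min_le_right _ _)
  have hc20 : c ≤ 1 / 20 := min_le_right _ _
  refine ⟨c, c / (216 * K), c₁ / 216, hc0, by linarith only [hc0, hc20], by positivity, by positivity, ?_⟩
  intro C₅ hC₅
  obtain ⟨y₁, hL⟩ := hL c hc0 hccl C₅ hC₅
  obtain ⟨y₂, hU⟩ := hU c hc0 hccu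
  have hev := (((ev_log_le C₅ 2 (1 / 2) (by norm_num)).and
    (ev_log_le 2 (432 / c₁) (1 / 4) (by norm_num))).and
    ((ev_const_le_rpow 3 c hc0).and (ev_const_le_log 1))).and
    ((ev_const_le_rpow 2 (1 / 20) (by norm_num)).and (eventually_ge_atTop (max y₁ y₂ + 10)))
  obtain ⟨y₀, hy₀⟩ := eventually_atTop.mp hev
  refine ⟨y₀, ?_⟩
  intro y hy D R Y P a hD1 hDle hcop hRge hRle hYge hYle hP hPa hsum
  obtain ⟨⟨⟨hE1, hE2⟩, ⟨hE3, hE4⟩⟩, ⟨hE5, hE6⟩⟩ := hy₀ y hy
  have hyy1 : y₁ ≤ y := by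
    have := le_max_left y₁ y₂
    omega
  have hyy2 : y₂ ≤ y := by
    have := le_max_right y₁ y₂
    omega
  have hy10 : (10 : ℝ) ≤ y := by exact_mod_cast (by omega : 10 ≤ y)
  have hy0 : (0 : ℝ) < y := by linarith only [hc0, hc20, hy10]
  have hlog0 : 0 < Real.log y := by linarith only [hc0, hc20, hE4]
  set Ps := P.filter (fun p : ℕ => (p : ℝ) < (y : ℝ) ^ c) with hPs
  have hPs1 : ∀ p ∈ Ps, p.Prime ∧ 3 ≤ p ∧ (p : ℝ) < (y : ℝ) ^ c := by
    intro p hp
    rw [hPs, mem_filter] at hp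
    exact ⟨(hP p hp.1).1, (hP p hp.1).2.1, hp.2⟩
  have hPs2 : ∀ p ∈ Ps, ¬ (p : ℤ) ∣ D * a p + R := fun p hp => hPa p (mem_filter.mp hp).1
  have hlow := hL y hyy1 D R Y Ps a hD1 hDle hcop hRge hRle hYge hYle hPs1 hPs2
  have hR1 : 1 ≤ R := by
    have : (1 : ℝ) ≤ R := by linarith only [hRge, hy10]
    exact_mod_cast this
  have hls := lsum_le D R Y hD1 hR1 Ps a
  set W : ℝ := ∏ p ∈ Ps, (1 - gD D p) with hW
  set x1 : ℝ := ((D * Y + R : ℕ) : ℝ) with hx1
  -- size of x1
  have hx1le : x1 ≤ (y : ℝ) ^ (3 / 2 : ℝ) := by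
    have h1 : x1 ≤ 2 * Real.log y ^ C₅ * y := by
      rw [hx1]
      push_cast
      have hYR : (Y : ℝ) ≤ y := by exact_mod_cast hYle
      have h2 : (D : ℝ) * Y ≤ Real.log y ^ C₅ * y :=
        mul_le_mul hDle hYR (by (clear * -; positivity)) (by positivity)
      linarith only [hRle, h2]
    refine h1.trans ?_
    have h3 : (y : ℝ) ^ (3 / 2 : ℝ) = (y : ℝ) ^ (1 / 2 : ℝ) * y := by
      nth_rewrite 3 [← Real.rpow_one (y : ℝ)]
      rw [← Real.rpow_add hy0]
      norm_num
    rw [h3]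
    exact mul_le_mul_of_nonneg_right hE1 hy0.le
  have hRx : (R : ℝ) ≤ x1 := by
    rw [hx1]; push_cast
    have : (0 : ℝ) ≤ (D : ℝ) * Y := by (clear * - hD1; positivity)
    linarith only [this]
  have hx1pos : 0 < x1 := lt_of_lt_of_le (by linarith only [hc0, hc20, hRge, hy10]) hRx
  have hlogx1 : Real.log x1 ≤ 2 * Real.log y := by
    have h1 := Real.log_le_log hx1pos hx1le
    rw [Real.log_rpow hy0] at h1
    linarith only [hc0, hc20, hE4, h1]
  have hlogx1' : 0 < Real.log x1 := by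
    apply Real.log_pos
    have h1 : (11 : ℝ) / 10 ≤ (10 : ℝ) / 9 := by norm_num
    have h2 : x1 = (D : ℝ) * Y + R := by rw [hx1]; push_cast; rfl
    have hD1' : (1 : ℝ) ≤ D := by exact_mod_cast hD1
    have h3 : (Y : ℝ) ≤ (D : ℝ) * Y := by
      have : (0 : ℝ) ≤ Y := by (clear * -; positivity)
      nlinarith only [hD1']
    rw [h2]
    have h4 : (10 : ℝ) / 9 ≤ (y : ℝ) / 9 := by linarith only [hy10]
    linarith only [hc0, hc20, hRge, hYge, hy10, h3]
  have hsqrt : √x1 ≤ (y : ℝ) ^ (3 / 4 : ℝ) := by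
    rw [Real.sqrt_eq_rpow]
    have h1 := Real.rpow_le_rpow hx1pos.le hx1le (by norm_num : (0 : ℝ) ≤ 1 / 2)
    rw [← Real.rpow_mul hy0.le] at h1
    refine h1.trans (le_of_eq ?_)
    norm_num
  -- W
  have hWlow : c₁ / Real.log y ≤ W := by
    set z0 : ℕ := ⌈(y : ℝ) ^ c⌉₊ with hz0
    have hz03 : 3 ≤ z0 := by
      have : (3 : ℝ) ≤ z0 := hE3.trans (Nat.le_ceil _)
      exact_mod_cast this
    have h1 := hM 3 z0 (by norm_num) hz03 D Ps (by
      intro p hp
      obtain ⟨h2, h3, h4⟩ := hPs1 p hp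
      refine ⟨h2, h3, h3, ?_⟩
      have : (p : ℝ) < z0 := lt_of_lt_of_le h4 (Nat.le_ceil _)
      exact_mod_cast this)
    refine le_trans ?_ h1
    have hz0y : (z0 : ℝ) ≤ y := by
      have h2 : (z0 : ℝ) < (y : ℝ) ^ c + 1 := Nat.ceil_lt_add_one (Real.rpow_nonneg hy0.le _)
      have h3 : (y : ℝ) ^ c ≤ (y : ℝ) ^ (1 / 2 : ℝ) :=
        Real.rpow_le_rpow_of_exponent_le (by linarith only [hc0, hc20, hy10]) (by linarith only [hc0, hc20])
      have h4 : (y : ℝ) ^ (1 / 2 : ℝ) + 1 ≤ y := by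
        rw [← Real.sqrt_eq_rpow]
        have h5 : √(y : ℝ) ^ 2 = y := Real.sq_sqrt hy0.le
        have h6 : 3 ≤ √(y : ℝ) := by
          apply Real.le_sqrt_of_sq_le
          linarith only [hc0, hc20, hy10]
        nlinarith only [hc20, hy10, h5, hc0, h6]
      linarith only [h2, h3, h4]
    have hlz0 : 0 < Real.log z0 := Real.log_pos (by exact_mod_cast (by omega : 1 < z0))
    have hlz0y : Real.log z0 ≤ Real.log y :=
      Real.log_le_log (by positivity) hz0y
    have hlog3 : 1 ≤ Real.log ((3 : ℕ) : ℝ) := by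
      rw [Real.le_log_iff_exp_le (by norm_num)]
      have := Real.exp_one_lt_d9
      norm_num
      linarith only [hc0, hc20, this]
    calc c₁ / Real.log y ≤ c₁ / Real.log z0 := div_le_div_of_nonneg_left hc₁0.le hlz0 hlz0y
      _ = c₁ * (1 / Real.log z0) := by ring
      _ ≤ c₁ * (Real.log ((3 : ℕ) : ℝ) / Real.log z0) := by
        apply mul_le_mul_of_nonneg_left _ hc₁0.le
        exact div_le_div_of_nonneg_right hlog3 hlz0.le
  have hW0 : 0 < W := lt_of_lt_of_le (by positivity) hWlow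
  set X : ℝ := (D : ℝ) / (Nat.totient D : ℝ) with hX
  have hφ : (0 : ℝ) < (Nat.totient D : ℝ) := by exact_mod_cast Nat.totient_pos.mpr hD1
  have hX1 : 1 ≤ X := by
    rw [hX, le_div_iff₀ hφ, one_mul]
    exact_mod_cast Nat.totient_le D
  set G := gset D R Y Ps a with hG
  have hlow' : 1 / 4 * ((Y : ℝ) * X) * W ≤ (G.card : ℝ) * Real.log x1 + 2 * √x1 * Real.log x1 := by
    have h3 : (D : ℝ) * Y / (Nat.totient D : ℝ) = Y * X := by rw [hX]; ring
    rw [← h3]
    exact hlow.trans hls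
  have hS : ∑ q ∈ P.filter (fun p : ℕ => (y : ℝ) ^ c ≤ (p : ℝ)),
        ((G.filter (fun k : ℕ => (q : ℤ) ∣ (k : ℤ) - a q)).card : ℝ) ≤
      K * y * X * W / (c * Real.log y) *
        ∑ q ∈ P.filter (fun p : ℕ => (y : ℝ) ^ c ≤ (p : ℝ)), 1 / (q : ℝ) := by
    rw [mul_sum]
    apply sum_le_sum
    intro q hq
    rw [mem_filter] at hq
    have h2 := hU y hyy2 D R Y Ps a hD1 hcop hRge hYle hPs1 hPs2 q (a q) (hP q hq.1).1 hq.2
      (hP q hq.1).2.2
    refine h2.trans (le_of_eq ?_)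
    rw [← hW, ← hX]
    ring
  have hsplit := gset_split D R Y P a ((y : ℝ) ^ c)
  rw [← hPs, ← hG] at hsplit
  exact core_num hy0 hlog0 hc₁0 hK0 hc0 hX1 hWlow hYge hlow' hlogx1 (Nat.cast_nonneg _)
    (Real.sqrt_nonneg _) hsqrt hE2 hS hsum hsplit

end Vale.Agent.P013.J
end

section

/-! Part V: reduction to the core theorem (`P013-J13e`). -/

open Finset Real

namespace Vale.Agent.P013.J

/-! ### Reflection -/

theorem pvr_surv (y : ℕ) (z : ℝ) (V : ℤ) : surv y z ((y : ℤ) + 1 - V) = surv y z V := by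
  classical
  unfold surv
  refine Finset.card_nbij' (fun i => y + 1 - i) (fun i => y + 1 - i) ?_ ?_ ?_ ?_
  · intro i hi
    simp only [Finset.coe_filter, Finset.mem_Icc, Set.mem_ofPred_eq] at hi ⊢
    refine ⟨by omega, fun p hp hpz h => hi.2 p hp hpz ?_⟩
    have e : ((i : ℤ) - ((y : ℤ) + 1 - V)) = -(((y + 1 - i : ℕ) : ℤ) - V) := by
      rw [Nat.cast_sub (by omega)]; push_cast; ring
    rw [e]
    exact (dvd_neg).mpr h
  · intro i hi
    simp only [Finset.coe_filter, Finset.mem_Icc, Set.mem_ofPred_eq] at hi ⊢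
    refine ⟨by omega, fun p hp hpz h => hi.2 p hp hpz ?_⟩
    have e : ((i : ℤ) - V) = -(((y + 1 - i : ℕ) : ℤ) - ((y : ℤ) + 1 - V)) := by
      rw [Nat.cast_sub (by omega)]; push_cast; ring
    rw [e]
    exact (dvd_neg).mpr h
  · intro i hi
    simp only [Finset.coe_filter, Finset.mem_Icc, Set.mem_ofPred_eq] at hi
    show y + 1 - (y + 1 - i) = i
    omega
  · intro i hi
    simp only [Finset.coe_filter, Finset.mem_Icc, Set.mem_ofPred_eq] at hi
    show y + 1 - (y + 1 - i) = i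
    omega

theorem pvr_exc (y : ℕ) (c z : ℝ) (V B : ℤ) (D : ℕ) :
    excMass y c z ((y : ℤ) + 1 - V) (D * ((y : ℤ) + 1) - B) D = excMass y c z V B D := by
  classical
  unfold excMass
  refine Finset.sum_congr (Finset.filter_congr fun p _ => ?_) fun _ _ => rfl
  have e : (D : ℤ) * ((y : ℤ) + 1 - V) - (D * ((y : ℤ) + 1) - B) = -(D * V - B) := by ring
  rw [e, dvd_neg]

/-! ### Transfer to the core -/

/-- the odd adversarial primes -/
noncomputable def pvrP (y : ℕ) (z : ℝ) (V B : ℤ) (D : ℕ) : Finset ℕ := by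
  classical
  exact (range y).filter (fun p : ℕ => p.Prime ∧ 3 ≤ p ∧ (p : ℝ) < z ∧ ¬ (p : ℤ) ∣ D * V - B)

/-- the forbidden classes -/
noncomputable def pvrA (V : ℤ) (i₀ β : ℕ) (p : ℕ) : ℤ :=
  (V - i₀) * (if β = 1 then 1 else ((p : ℤ) + 1) / 2)

theorem pvrP_mem {y : ℕ} {z : ℝ} {V B : ℤ} {D p : ℕ} :
    p ∈ pvrP y z V B D ↔ p < y ∧ p.Prime ∧ 3 ≤ p ∧ (p : ℝ) < z ∧ ¬ (p : ℤ) ∣ D * V - B := by
  unfold pvrP
  rw [Finset.mem_filter, Finset.mem_range]

theorem pvr_odd {p : ℕ} (hp : p.Prime) (h3 : 3 ≤ p) : ∃ m : ℤ, (p : ℤ) = 2 * m + 1 := by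
  have h := hp.eq_two_or_odd'
  rcases h with h | h
  · omega
  · obtain ⟨m, hm⟩ := h
    exact ⟨m, by rw [hm]; push_cast; ring⟩

theorem pvr_beta {V : ℤ} {i₀ β p : ℕ} (hβ : β = 1 ∨ β = 2) (hp : p.Prime) (h3 : 3 ≤ p) :
    (p : ℤ) ∣ β * pvrA V i₀ β p - (V - i₀) := by
  unfold pvrA
  rcases hβ with h | h
  · subst h
    simp
  · subst h
    obtain ⟨m, hm⟩ := pvr_odd hp h3
    rw [if_neg (by norm_num), hm]
    have e : (2 * m + 1 + 1 : ℤ) / 2 = m + 1 := by omega
    rw [e]
    refine ⟨V - i₀, ?_⟩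
    push_cast
    ring

theorem pvr_cop {β p : ℕ} (hβ : β = 1 ∨ β = 2) (hp : p.Prime) (h3 : 3 ≤ p) :
    IsCoprime (p : ℤ) (β : ℤ) := by
  rw [Nat.isCoprime_iff_coprime]
  rcases hβ with h | h
  · subst h; exact Nat.coprime_one_right p
  · subst h
    rw [Nat.coprime_comm, Nat.Prime.coprime_iff_not_dvd Nat.prime_two]
    intro h
    rcases (Nat.dvd_prime hp).mp h with h | h <;> omega

theorem pvr_class {V : ℤ} {i₀ β p : ℕ} (hβ : β = 1 ∨ β = 2) (hp : p.Prime) (h3 : 3 ≤ p) (k : ℕ) :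
    (p : ℤ) ∣ (k : ℤ) - pvrA V i₀ β p ↔ (p : ℤ) ∣ (((i₀ + β * k : ℕ) : ℤ)) - V := by
  have h1 := pvr_beta (V := V) (i₀ := i₀) hβ hp h3
  have h2 := pvr_cop hβ hp h3
  have e : (((i₀ + β * k : ℕ) : ℤ)) - V =
      β * ((k : ℤ) - pvrA V i₀ β p) + (β * pvrA V i₀ β p - (V - i₀)) := by
    push_cast; ring
  rw [e, dvd_add_left h1]
  exact ⟨fun h => h.mul_left _, fun h => h2.dvd_of_dvd_mul_left h⟩

/-- every good `k` gives a survivor. -/
theorem pvr_card {y : ℕ} {z : ℝ} {V B : ℤ} {D : ℕ} {β γ i₀ Y D' R : ℕ} (hβ : β = 1 ∨ β = 2)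
    (hγ : γ = 1 ∨ γ = 2) (h1 : (D : ℤ) * β = γ * D') (h2 : (D : ℤ) * i₀ - B = γ * R)
    (hY : i₀ + β * Y ≤ y) (hz : z ≤ R) (hzy : z ≤ y)
    (hpar : ((2 : ℤ) ∣ D * V - B ∧ γ = 1) ∨
      (∀ k : ℕ, ¬ (2 : ℤ) ∣ (((i₀ + β * k : ℕ) : ℤ)) - V)) :
    (gset D' R Y (pvrP y z V B D) (pvrA V i₀ β)).card ≤ surv y z V := by
  classical
  unfold gset surv
  refine Finset.card_le_card_of_injOn (fun k => i₀ + β * k) ?_ ?_
  · intro k hk
    simp only [Finset.coe_filter, Finset.mem_Icc, Set.mem_ofPred_eq] at hk ⊢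
    obtain ⟨⟨hk1, hkY⟩, hav, hprime⟩ := hk
    have hβ1 : 1 ≤ β := by omega
    refine ⟨⟨?_, ?_⟩, ?_⟩
    · nlinarith only [hβ1, hk1]
    · nlinarith only [hY, hkY]
    · intro p hp hpz hdvd
      have hkey : (D : ℤ) * (((i₀ + β * k : ℕ) : ℤ)) - B = γ * ((D' * k + R : ℕ) : ℤ) := by
        push_cast
        linear_combination (k : ℤ) * h1 + h2
      have hRk : (p : ℕ) < D' * k + R := by
        have : (p : ℝ) < R := hpz.trans_le hz
        have h' : p < R := by exact_mod_cast this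
        omega
      -- `p` natural and coprime to `γ` is impossible
      have hnat : (p : ℤ) ∣ D * V - B → IsCoprime (p : ℤ) (γ : ℤ) → False := by
        intro hn hcop
        have h3 : (p : ℤ) ∣ γ * ((D' * k + R : ℕ) : ℤ) := by
          rw [← hkey]
          have e : (D : ℤ) * (((i₀ + β * k : ℕ) : ℤ)) - B =
              D * ((((i₀ + β * k : ℕ) : ℤ)) - V) + (D * V - B) := by ring
          rw [e]
          exact dvd_add (hdvd.mul_left _) hn
        have h4 : (p : ℤ) ∣ ((D' * k + R : ℕ) : ℤ) := hcop.dvd_of_dvd_mul_left h3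
        have h5 : p ∣ D' * k + R := by exact_mod_cast h4
        rcases (Nat.dvd_prime hprime).mp h5 with h6 | h6
        · exact hp.one_lt.ne' h6
        · omega
      rcases Nat.lt_or_ge p 3 with hp3 | hp3
      · have hp2 : p = 2 := by have := hp.two_le; omega
        subst hp2
        rcases hpar with ⟨h6, h7⟩ | h6
        · refine hnat (by exact_mod_cast h6) ?_
          subst h7
          simp only [Nat.cast_one]
          exact isCoprime_one_right
        · exact h6 k (by exact_mod_cast hdvd)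
      · by_cases hn : (p : ℤ) ∣ D * V - B
        · exact hnat hn (pvr_cop hγ hp hp3)
        · have hpy : p < y := by
            have : (p : ℝ) < y := hpz.trans_le hzy
            exact_mod_cast this
          have hmem : p ∈ pvrP y z V B D := pvrP_mem.mpr ⟨hpy, hp, hp3, hpz, hn⟩
          exact hav p hmem ((pvr_class hβ hp hp3 k).mpr hdvd)
  · intro k _ k' _ h
    have hβ1 : 0 < β := by omega
    simp only at h
    have h' : β * k = β * k' := by omega
    exact Nat.eq_of_mul_eq_mul_left hβ1 h'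

theorem pvr_mass {y : ℕ} {c z : ℝ} {V B : ℤ} {D : ℕ} :
    ∑ p ∈ (pvrP y z V B D).filter (fun p : ℕ => (y : ℝ) ^ c ≤ p), 1 / (p : ℝ) ≤
      excMass y c z V B D := by
  classical
  unfold excMass
  refine Finset.sum_le_sum_of_subset_of_nonneg ?_ fun _ _ _ => by positivity
  intro p hp
  rw [Finset.mem_filter, pvrP_mem] at hp
  rw [Finset.mem_filter, Finset.mem_range]
  exact ⟨hp.1.1, hp.1.2.1, hp.2, hp.1.2.2.2.1, hp.1.2.2.2.2⟩

theorem pvr_nondvd {y : ℕ} {z : ℝ} {V B : ℤ} {D : ℕ} {β γ i₀ D' R : ℕ} (hβ : β = 1 ∨ β = 2)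
    (h1 : (D : ℤ) * β = γ * D') (h2 : (D : ℤ) * i₀ - B = γ * R) :
    ∀ p ∈ pvrP y z V B D, ¬ (p : ℤ) ∣ D' * pvrA V i₀ β p + R := by
  intro p hp hdvd
  rw [pvrP_mem] at hp
  obtain ⟨-, hpp, hp3, -, hn⟩ := hp
  apply hn
  have h3 := pvr_beta (V := V) (i₀ := i₀) hβ hpp hp3
  have e : (D : ℤ) * V - B = γ * (D' * pvrA V i₀ β p + R) -
      D * (β * pvrA V i₀ β p - (V - i₀)) := by
    linear_combination (pvrA V i₀ β p) * h1 + h2
  rw [e]
  exact dvd_sub (hdvd.mul_left _) (h3.mul_left _)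

/-- the case `2 B ≤ D (y + 1)`. -/
theorem pvr_half {y : ℕ} {c ε c' C₄ z : ℝ} (hy : 1000 ≤ y) (hl : 5 ≤ log y)
    (hz : z ≤ (y : ℝ) / 10) (hz6 : z ≤ (y : ℝ) ^ (0.6 : ℝ))
    (hcore : ∀ (D R Y : ℕ) (P : Finset ℕ) (a : ℕ → ℤ),
      1 ≤ D → (D : ℝ) ≤ (log y) ^ (C₄ + 1) → Nat.Coprime D R → (y : ℝ) / 10 ≤ R →
      (R : ℝ) ≤ y * (log y) ^ (C₄ + 1) → (y : ℝ) / 9 ≤ Y → Y ≤ y →
      (∀ p ∈ P, p.Prime ∧ 3 ≤ p ∧ (p : ℝ) ≤ (y : ℝ) ^ (0.6 : ℝ)) →
      (∀ p ∈ P, ¬ (p : ℤ) ∣ D * a p + R) →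
      ∑ p ∈ P.filter (fun p : ℕ => (y : ℝ) ^ c ≤ p), 1 / (p : ℝ) ≤ ε →
      c' * y / (log y) ^ 2 ≤ ((gset D R Y P a).card : ℝ))
    (V B : ℤ) (D : ℕ) (hcop : IsCoprime B (D : ℤ)) (hD : 1 ≤ D) (hDl : (D : ℝ) ≤ (log y) ^ C₄)
    (hB : |(B : ℝ)| ≤ 3 * (y * (log y) ^ C₄)) (hB2 : 2 * B ≤ D * ((y : ℤ) + 1))
    (hexc : excMass y c z V B D ≤ ε) :
    c' * y / (log y) ^ 2 ≤ surv y z V := by
  classical
  have hl0 : 0 < log (y : ℝ) := by linarith only [hl]
  have hy0 : (1000 : ℝ) ≤ y := by exact_mod_cast hy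
  set lam := (log (y : ℝ)) ^ C₄ with hlm
  have hlm0 : 0 < lam := Real.rpow_pos_of_pos hl0 _
  have hlm1 : (log (y : ℝ)) ^ (C₄ + 1) = lam * log y := by
    rw [Real.rpow_add hl0, Real.rpow_one]
  rw [hlm1] at hcore
  have hD' : (1 : ℝ) ≤ D := by exact_mod_cast hD
  have hmass : ∑ p ∈ (pvrP y z V B D).filter (fun p : ℕ => (y : ℝ) ^ c ≤ p), 1 / (p : ℝ) ≤ ε :=
    pvr_mass.trans hexc
  have hPmem : ∀ p ∈ pvrP y z V B D, p.Prime ∧ 3 ≤ p ∧ (p : ℝ) ≤ (y : ℝ) ^ (0.6 : ℝ) := by
    intro p hp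
    rw [pvrP_mem] at hp
    exact ⟨hp.2.1, hp.2.2.1, (hp.2.2.2.1.le).trans hz6⟩
  have hzy : z ≤ y := by linarith only [hz, hy0]
  -- bounds for `D i₀ - B`
  have hbd : ∀ i₀ : ℕ, 3 * y / 4 ≤ i₀ → i₀ ≤ 3 * y / 4 + 1 →
      (y : ℝ) / 5 ≤ ((D * i₀ - B : ℤ) : ℝ) ∧ ((D * i₀ - B : ℤ) : ℝ) ≤ y * (lam * log y) ∧
        (i₀ : ℝ) ≤ 3 / 4 * y + 1 := by
    intro i₀ h1 h2
    have h3 : (3 * y : ℕ) < 4 * (i₀ + 1) := by omega
    have h4 : 4 * i₀ ≤ 3 * y + 4 := by (clear * - h1 h2; omega)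
    have h3' : (3 * y : ℝ) < 4 * (i₀ + 1) := by exact_mod_cast h3
    have h4' : (4 * i₀ : ℝ) ≤ 3 * y + 4 := by exact_mod_cast h4
    have h5 : (2 * B : ℝ) ≤ D * (y + 1) := by exact_mod_cast hB2
    refine ⟨?_, ?_, by linarith only [h4']⟩
    · push_cast
      nlinarith only [hy0, h5, hD', h3']
    · push_cast
      have h6 : (D : ℝ) * i₀ ≤ lam * y := by
        have : (i₀ : ℝ) ≤ y := by linarith only [hy0, h4']
        exact mul_le_mul hDl this (Nat.cast_nonneg _) hlm0.le
      have h7 : -(B : ℝ) ≤ 3 * (y * lam) := (neg_le_abs _).trans hB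
      have h8 : 0 < (y : ℝ) * lam := by positivity
      nlinarith only [hy0, h7, hDl, hD', h4', hl, h8]
  have hcopI : ∀ i₀ : ℕ, IsCoprime (D : ℤ) (D * i₀ - B) := by
    intro i₀
    have := (hcop.symm.neg_right).add_mul_left_right (i₀ : ℤ)
    rwa [show -B + (D : ℤ) * i₀ = D * i₀ - B by ring] at this
  by_cases hpar : (2 : ℤ) ∣ D * V - B
  · -- `2` is natural
    obtain ⟨hb1, hb2, hb3⟩ := hbd (3 * y / 4) le_rfl (by omega)
    have hpos : 0 ≤ (D * ((3 * y / 4 : ℕ) : ℤ) - B : ℤ) := by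
      have : (0 : ℝ) ≤ ((D * ((3 * y / 4 : ℕ) : ℤ) - B : ℤ) : ℝ) := by linarith only [hy0, hb1]
      exact_mod_cast this
    obtain ⟨R, hR⟩ := Int.eq_ofNat_of_zero_le hpos
    have hRr : ((D * ((3 * y / 4 : ℕ) : ℤ) - B : ℤ) : ℝ) = R := by rw [hR]; rfl
    rw [hRr] at hb1 hb2
    have h1 : (D : ℤ) * ((1 : ℕ) : ℤ) = ((1 : ℕ) : ℤ) * D := by push_cast; ring
    have h2 : (D : ℤ) * ((3 * y / 4 : ℕ) : ℤ) - B = ((1 : ℕ) : ℤ) * R := by
      rw [hR]; push_cast; ring
    have hco : Nat.Coprime D R := by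
      have := hcopI (3 * y / 4)
      rw [hR] at this
      exact Nat.isCoprime_iff_coprime.mp this
    have key := hcore D R (y - 3 * y / 4) (pvrP y z V B D) (pvrA V (3 * y / 4) 1) hD
      (by linarith only [mul_nonneg (le_of_lt (sub_pos.2 hlm0)) (sub_nonneg.2 hl), hlm0, hDl]) hco (by linarith only [hy0, hb1]) hb2
      (by
        rw [Nat.cast_sub (by omega)]
        have : (4 * (3 * y / 4 : ℕ) : ℕ) ≤ 3 * y := by omega
        have : (4 * ((3 * y / 4 : ℕ) : ℝ)) ≤ 3 * y := by exact_mod_cast this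
        linarith only [hy0, hb3]) (by (clear * - hy; omega)) hPmem (pvr_nondvd (Or.inl rfl) h1 h2) hmass
    refine key.trans ?_
    exact_mod_cast pvr_card (Or.inl rfl) (Or.inl rfl) h1 h2 (by (clear * - hy; omega))
      (by linarith only [hz, hy0, hb1]) hzy (Or.inl ⟨hpar, rfl⟩)
  · -- `2` is adversarial
    obtain ⟨i₀, hi1, hi2, hi3⟩ : ∃ i₀ : ℕ, 3 * y / 4 ≤ i₀ ∧ i₀ ≤ 3 * y / 4 + 1 ∧
        ¬ (2 : ℤ) ∣ (i₀ : ℤ) - V := by
      by_cases h : (2 : ℤ) ∣ ((3 * y / 4 : ℕ) : ℤ) - V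
      · refine ⟨3 * y / 4 + 1, by omega, le_rfl, ?_⟩
        intro h'
        have := dvd_sub h' h
        push_cast at this
        omega
      · exact ⟨3 * y / 4, le_rfl, by omega, h⟩
    obtain ⟨hb1, hb2, hb3⟩ := hbd i₀ hi1 hi2
    have hYl : (y : ℝ) / 9 ≤ ((y - i₀) / 2 : ℕ) := by
      have h4 : 4 * i₀ ≤ 3 * y + 4 := by omega
      have h5 : y ≤ 8 * ((y - i₀) / 2) + 12 := by omega
      have h5' : (y : ℝ) ≤ 8 * ((y - i₀) / 2 : ℕ) + 12 := by exact_mod_cast h5
      linarith only [hy0, h5']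
    have hYy : (y - i₀) / 2 ≤ y := by (clear * - hy hi1 hi2; omega)
    have hiY : i₀ + 2 * ((y - i₀) / 2) ≤ y := by (clear * - hy hi1 hi2 hYy; omega)
    have hpar' : ∀ k : ℕ, ¬ (2 : ℤ) ∣ (((i₀ + 2 * k : ℕ) : ℤ)) - V := by
      intro k h
      apply hi3
      push_cast at h
      omega
    obtain ⟨m, hm⟩ : ∃ m : ℤ, (i₀ : ℤ) - V = 2 * m + 1 := ⟨((i₀ : ℤ) - V) / 2, by omega⟩
    obtain ⟨n, hn⟩ : ∃ n : ℤ, (D : ℤ) * V - B = 2 * n + 1 := ⟨((D : ℤ) * V - B) / 2, by omega⟩
    rcases Nat.even_or_odd' D with ⟨d, hd | hd⟩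
    · -- `D` even
      have hpos : 0 ≤ (D * (i₀ : ℤ) - B : ℤ) := by
        have : (0 : ℝ) ≤ ((D * (i₀ : ℤ) - B : ℤ) : ℝ) := by linarith only [hy0, hb1]
        exact_mod_cast this
      obtain ⟨R, hR⟩ := Int.eq_ofNat_of_zero_le hpos
      have hRr : ((D * (i₀ : ℤ) - B : ℤ) : ℝ) = R := by rw [hR]; rfl
      rw [hRr] at hb1 hb2
      have h1 : (D : ℤ) * ((2 : ℕ) : ℤ) = ((1 : ℕ) : ℤ) * ((2 * D : ℕ) : ℤ) := by push_cast; ring
      have h2 : (D : ℤ) * (i₀ : ℤ) - B = ((1 : ℕ) : ℤ) * R := by rw [hR]; push_cast; ring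
      have hodd : (R : ℤ) = 2 * (n + d * (2 * m + 1)) + 1 := by
        have e : (R : ℤ) = D * V - B + D * (i₀ - V) := by rw [← hR]; ring
        rw [e, hn, hm, hd]; push_cast; ring
      have hco : Nat.Coprime (2 * D) R := by
        have h3 := hcopI i₀
        rw [hR] at h3
        refine Nat.Coprime.mul_left ?_ (Nat.isCoprime_iff_coprime.mp h3)
        rw [Nat.Prime.coprime_iff_not_dvd Nat.prime_two]
        omega
      have key := hcore (2 * D) R ((y - i₀) / 2) (pvrP y z V B D) (pvrA V i₀ 2) (by omega)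
        (by push_cast; linarith only [mul_nonneg (le_of_lt (sub_pos.2 hlm0)) (sub_nonneg.2 hl), hlm0, hDl]) hco (by linarith only [hy0, hb1]) hb2 hYl hYy hPmem
        (pvr_nondvd (Or.inr rfl) h1 h2) hmass
      refine key.trans ?_
      exact_mod_cast pvr_card (Or.inr rfl) (Or.inl rfl) h1 h2 hiY (by linarith only [hz, hy0, hb1]) hzy
        (Or.inr hpar')
    · -- `D` odd
      have heven : (D * (i₀ : ℤ) - B : ℤ) = 2 * (n + (2 * d + 1) * m + d + 1) := by
        have e : (D * (i₀ : ℤ) - B : ℤ) = D * V - B + D * (i₀ - V) := by ring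
        rw [e, hn, hm, hd]; push_cast; ring
      set Rz : ℤ := n + (2 * d + 1) * m + d + 1 with hRz
      have hpos : 0 ≤ Rz := by
        have h3 : (0 : ℝ) ≤ ((D * (i₀ : ℤ) - B : ℤ) : ℝ) := by linarith only [hy0, hb1]
        have h4 : (0 : ℤ) ≤ (D * (i₀ : ℤ) - B : ℤ) := by exact_mod_cast h3
        omega
      obtain ⟨R, hR⟩ := Int.eq_ofNat_of_zero_le hpos
      have hRr : ((D * (i₀ : ℤ) - B : ℤ) : ℝ) = 2 * R := by rw [heven, hR]; push_cast; ring
      rw [hRr] at hb1 hb2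
      have h1 : (D : ℤ) * ((2 : ℕ) : ℤ) = ((2 : ℕ) : ℤ) * D := by push_cast; ring
      have h2 : (D : ℤ) * (i₀ : ℤ) - B = ((2 : ℕ) : ℤ) * R := by rw [heven, hR]; push_cast; ring
      have hco : Nat.Coprime D R := by
        have h3 := hcopI i₀
        rw [h2] at h3
        exact Nat.isCoprime_iff_coprime.mp (IsCoprime.of_mul_right_right h3)
      have hR0 : (0 : ℝ) ≤ R := Nat.cast_nonneg _
      have key := hcore D R ((y - i₀) / 2) (pvrP y z V B D) (pvrA V i₀ 2) hD
        (by linarith only [mul_nonneg (le_of_lt (sub_pos.2 hlm0)) (sub_nonneg.2 hl), hlm0, hDl]) hco (by linarith only [hb1]) (by linarith only [hy0, hb2, hb1]) hYl hYy hPmem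
        (pvr_nondvd (Or.inr rfl) h1 h2) hmass
      refine key.trans ?_
      exact_mod_cast pvr_card (Or.inr rfl) (Or.inr rfl) h1 h2 hiY (by linarith only [hz, hb1]) hzy
        (Or.inr hpar')

theorem pvr_large (A : ℝ) : ∃ y₀ : ℕ, ∀ y : ℕ, y₀ ≤ y → 1000 ≤ y ∧ 5 ≤ log (y : ℝ) ∧
    √y * (log y) ^ A ≤ (y : ℝ) / 10 ∧ √y * (log y) ^ A ≤ (y : ℝ) ^ (0.6 : ℝ) := by
  have h1 : ∀ᶠ x : ℝ in Filter.atTop, (log x) ^ A ≤ x ^ (0.1 : ℝ) := by
    have := isLittleO_log_rpow_rpow_atTop A (show (0 : ℝ) < 0.1 by norm_num)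
    filter_upwards [this.bound (show (0 : ℝ) < 1 by norm_num), Filter.eventually_ge_atTop 1]
      with x hx hx1
    rw [one_mul, Real.norm_of_nonneg (Real.rpow_nonneg (Real.log_nonneg hx1) _),
      Real.norm_of_nonneg (Real.rpow_nonneg (by linarith only [hx1]) _)] at hx
    exact hx
  have h2 : ∀ᶠ x : ℝ in Filter.atTop, 5 ≤ log x :=
    Real.tendsto_log_atTop.eventually_ge_atTop 5
  have h3 : ∀ᶠ x : ℝ in Filter.atTop, (10 : ℝ) ≤ x ^ (0.4 : ℝ) :=
    (tendsto_rpow_atTop (by norm_num)).eventually_ge_atTop 10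
  have h4 : ∀ᶠ x : ℝ in Filter.atTop, (1000 : ℝ) ≤ x := Filter.eventually_ge_atTop 1000
  have h5 := tendsto_natCast_atTop_atTop (R := ℝ) |>.eventually (h1.and (h2.and (h3.and h4)))
  obtain ⟨y₀, hy₀⟩ := Filter.eventually_atTop.mp h5
  refine ⟨y₀, fun y hy => ?_⟩
  obtain ⟨g1, g2, g3, g4⟩ := hy₀ y hy
  have hy0 : (0 : ℝ) < y := by linarith only [g4]
  have e1 : √(y : ℝ) * (y : ℝ) ^ (0.1 : ℝ) = (y : ℝ) ^ (0.6 : ℝ) := by
    rw [Real.sqrt_eq_rpow, ← Real.rpow_add hy0]; norm_num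
  have e2 : (y : ℝ) ^ (0.6 : ℝ) * (y : ℝ) ^ (0.4 : ℝ) = y := by
    rw [← Real.rpow_add hy0]; norm_num
  have e3 : √y * (log y) ^ A ≤ (y : ℝ) ^ (0.6 : ℝ) := by
    rw [← e1]
    exact mul_le_mul_of_nonneg_left g1 (Real.sqrt_nonneg _)
  refine ⟨by exact_mod_cast g4, g2, e3.trans ?_, e3⟩
  have h6 : 0 < (y : ℝ) ^ (0.6 : ℝ) := Real.rpow_pos_of_pos hy0 _
  rw [le_div_iff₀ (by norm_num)]
  linarith only [e2, mul_nonneg (sub_nonneg.2 g3) (le_of_lt (sub_pos.2 h6))]

theorem partV_of_core (h : CoreStmt) : PartVStmt := by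
  obtain ⟨c, ε, c', hc, hc1, hε, hc', H⟩ := h
  refine ⟨c, ε, c', hc, hc1, hε, hc', fun A C₄ hA hC₄ => ?_⟩
  obtain ⟨y₁, hy₁⟩ := H (C₄ + 1) (by linarith only [hc, hc1, hC₄])
  obtain ⟨y₂, hy₂⟩ := pvr_large A
  refine ⟨max y₁ y₂, fun y hy V B D hcop hD hDl hB hexc => ?_⟩
  have hcore := hy₁ y ((le_max_left _ _).trans hy)
  obtain ⟨g1, g2, g3, g4⟩ := hy₂ y ((le_max_right _ _).trans hy)
  have hl0 : 0 < log (y : ℝ) := by linarith only [hc, hc1, g2]
  have hy0 : (1000 : ℝ) ≤ y := by exact_mod_cast g1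
  have hlm0 : 0 < (log (y : ℝ)) ^ C₄ := Real.rpow_pos_of_pos hl0 _
  by_cases hB2 : 2 * B ≤ D * ((y : ℤ) + 1)
  · refine pvr_half g1 g2 g3 g4 hcore V B D hcop hD hDl ?_ hB2 hexc
    have : 0 < (y : ℝ) * (log y) ^ C₄ := by positivity
    linarith only [hB, this]
  · push Not at hB2
    rw [← pvr_surv]
    refine pvr_half g1 g2 g3 g4 hcore ((y : ℤ) + 1 - V) (D * ((y : ℤ) + 1) - B) D ?_ hD hDl ?_ ?_ ?_
    · have := (hcop.neg_left).add_mul_left_left ((y : ℤ) + 1)
      rwa [show -B + (D : ℤ) * ((y : ℤ) + 1) = D * ((y : ℤ) + 1) - B by ring] at this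
    · push_cast
      refine (abs_sub _ _).trans ?_
      have h1 : |(D : ℝ) * ((y : ℝ) + 1)| ≤ (log y) ^ C₄ * (y + 1) := by
        rw [abs_of_nonneg (by positivity)]
        exact mul_le_mul_of_nonneg_right hDl (by positivity)
      have : 0 < (y : ℝ) * (log y) ^ C₄ := by positivity
      nlinarith only [hB, h1, hDl, hy0, hc, hc1]
    · linarith only [hB2]
    · rw [pvr_exc]; exact hexc

end Vale.Agent.P013.J
end
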