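import Vale.Agent.P013.MathlibUsed
import Vale.Agent.P013.Bdl.B1
import Vale.Agent.P013.Bdl.B2

set_option linter.all false

section

/-!
# Structured bad keys are rare
-/

open Finset Real

namespace Vale.Agent.P013.J

/-! ### Growth facts -/

theorem ev_pow_le_exp (B a s C : ℝ) (ha : 0 < a) (hs : 0 < s) :
    ∀ᶠ x : ℝ in Filter.atTop, C * x ^ B ≤ exp (a * x ^ s) := by
  have h1 : (fun u : ℝ => u ^ (B / s)) =o[Filter.atTop] fun u => exp (a * u) :=
    isLittleO_rpow_exp_pos_mul_atTop (B / s) ha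
  have h2 := h1.comp_tendsto (tendsto_rpow_atTop hs)
  have hC : 0 < (|C| + 1)⁻¹ := by positivity
  have h3 := h2.bound hC
  filter_upwards [h3, Filter.eventually_gt_atTop 0] with x hx hx0
  simp only [Function.comp] at hx
  rw [← rpow_mul hx0.le, mul_div_cancel₀ _ hs.ne', norm_of_nonneg (rpow_nonneg hx0.le _),
    norm_of_nonneg (exp_pos _).le] at hx
  have h4 : C * x ^ B ≤ (|C| + 1) * x ^ B := by
    refine mul_le_mul_of_nonneg_right ?_ (rpow_nonneg hx0.le _)
    linarith only [le_abs_self C]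
  refine h4.trans ?_
  have h5 : (|C| + 1) * x ^ B ≤ (|C| + 1) * ((|C| + 1)⁻¹ * exp (a * x ^ s)) :=
    mul_le_mul_of_nonneg_left hx (by positivity)
  refine h5.trans (le_of_eq ?_)
  rw [← mul_assoc, mul_inv_cancel₀ (by positivity), one_mul]

theorem ev_rpow_lt (a c : ℝ) (s : ℝ) (hc : 0 < c) (hs : s < 1) :
    ∀ᶠ x : ℝ in Filter.atTop, a * x ^ s < c * x := by
  have h1 : Filter.Tendsto (fun x : ℝ => a * x ^ (-(1 - s))) Filter.atTop (nhds (a * 0)) :=
    (tendsto_rpow_neg_atTop (by linarith)).const_mul a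
  rw [mul_zero] at h1
  filter_upwards [h1.eventually (gt_mem_nhds hc), Filter.eventually_gt_atTop 0] with x hx hx0
  have h2 : x ^ s = x ^ (-(1 - s)) * x := by
    conv_rhs => rw [← rpow_one x, ← rpow_mul hx0.le]
    rw [one_mul, ← rpow_add hx0]
    congr 1
    ring
  rw [h2, ← mul_assoc]
  exact mul_lt_mul_of_pos_right hx hx0

theorem ev_nat {p : ℝ → Prop} (h : ∀ᶠ x : ℝ in Filter.atTop, p x) :
    ∃ y₀ : ℕ, ∀ y : ℕ, y₀ ≤ y → p (log y) := by
  have := (tendsto_log_atTop.comp tendsto_natCast_atTop_atTop).eventually h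
  exact Filter.eventually_atTop.1 this

/-! ### Products of primes -/

theorem prod_sm_mul_lg (y : ℕ) (H : Finset ℕ) :
    (∏ p ∈ smH y H, p) * ∏ p ∈ lgH y H, p = ∏ p ∈ H, p := by
  unfold smH lgH
  exact prod_filter_mul_prod_filter_not H _ _

theorem squarefree_prod {H : Finset ℕ} (hH : ∀ p ∈ H, p.Prime) : Squarefree (∏ p ∈ H, p) := by
  classical
  induction H using Finset.induction_on with
  | empty => simp
  | insert a s ha ih =>
    rw [prod_insert ha, Nat.squarefree_mul_iff]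
    have hs : ∀ p ∈ s, p.Prime := fun p hp => hH p (mem_insert_of_mem hp)
    have hpa : a.Prime := hH a (mem_insert_self a s)
    refine ⟨?_, hpa.squarefree, ih hs⟩
    refine Nat.Coprime.prod_right fun p hp => ?_
    rw [Nat.coprime_primes hpa (hs p hp)]
    rintro rfl
    exact ha hp

theorem mem_of_dvd_prod {H : Finset ℕ} (hH : ∀ p ∈ H, p.Prime) {p : ℕ} (hp : p.Prime)
    (h : p ∣ ∏ q ∈ H, q) : p ∈ H := by
  obtain ⟨q, hq, hpq⟩ := (hp.prime.dvd_finsetProd_iff _).1 h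
  have := (Nat.prime_dvd_prime_iff_eq hp (hH q hq)).1 hpq
  rw [this]
  exact hq

theorem prod_inj {H H' : Finset ℕ} (hH : ∀ p ∈ H, p.Prime) (hH' : ∀ p ∈ H', p.Prime)
    (h : ∏ p ∈ H, p = ∏ p ∈ H', p) : H = H' := by
  ext p
  constructor
  · intro hp
    refine mem_of_dvd_prod hH' (hH p hp) ?_
    rw [← h]
    exact dvd_prod_of_mem (fun p => p) hp
  · intro hp
    refine mem_of_dvd_prod hH (hH' p hp) ?_
    rw [h]
    exact dvd_prod_of_mem (fun p => p) hp

theorem prod_prime_pos {H : Finset ℕ} (hH : ∀ p ∈ H, p.Prime) : 0 < ∏ p ∈ H, p :=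
  prod_pos fun p hp => (hH p hp).pos

/-! ### Reduction of a structured key to the label `(B₀, D₀)` -/

/-- arithmetic part -/
theorem label_reduce (V B B₀ : ℤ) (D D₀ M p q : ℕ) (hD : 1 ≤ D) (hM : (M : ℤ) ∣ D * V - B)
    (hp : p.Prime) (hq : q.Prime) (hpq : q < p) (hpM : p ∣ M) (hqM : q ∣ M) (hDq : D < q)
    (hsq : Squarefree M)
    (hlab : ∀ (B' : ℤ) (D' g : ℕ), 1 ≤ g → 1 ≤ D' → IsCoprime B' (D' : ℤ) → B = g * B' →
      D = g * D' → (((p * q : ℕ)) : ℤ) ∣ D' * V - B' → (B', D') = (B₀, D₀)) :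
    ∃ e₁ M' : ℕ, 1 ≤ e₁ ∧ e₁ ≤ D ∧ M = e₁ * M' ∧ (M' : ℤ) ∣ D₀ * V - B₀ ∧
      Nat.Coprime M' e₁ := by
  have hM0 : M ≠ 0 := hsq.ne_zero
  set g : ℕ := Int.gcd B D with hg
  have hgD : (g : ℤ) ∣ (D : ℤ) := Int.gcd_dvd_right ..
  have hgB : (g : ℤ) ∣ B := Int.gcd_dvd_left ..
  have hgD' : g ∣ D := by exact_mod_cast hgD
  have hg0 : 0 < g := Nat.pos_of_dvd_of_pos hgD' hD
  obtain ⟨D', hD'⟩ := hgD'
  obtain ⟨B', hB'⟩ := hgB
  have hD'1 : 1 ≤ D' := by
    rcases Nat.eq_zero_or_pos D' with h | h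
    · subst h; omega
    · exact h
  have hcop : IsCoprime B' (D' : ℤ) := by
    rw [Int.isCoprime_iff_gcd_eq_one]
    have h1 : Int.gcd B D = g * Int.gcd B' D' := by
      rw [hB']
      have : (D : ℤ) = g * D' := by exact_mod_cast hD'
      rw [this, Int.gcd_mul_left, Int.natAbs_natCast]
    have h2 : g * Int.gcd B' D' = g * 1 := by rw [mul_one, ← h1]
    exact Nat.eq_of_mul_eq_mul_left hg0 h2
  have hgle : g ≤ D := Nat.le_of_dvd hD ⟨D', hD'⟩
  have hfac : (D : ℤ) * V - B = g * (D' * V - B') := by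
    have : (D : ℤ) = g * D' := by exact_mod_cast hD'
    rw [this, hB']
    ring
  have hpg : Nat.Coprime p g := by
    rw [Nat.Prime.coprime_iff_not_dvd hp]
    intro h
    have := Nat.le_of_dvd hg0 h
    omega
  have hqg : Nat.Coprime q g := by
    rw [Nat.Prime.coprime_iff_not_dvd hq]
    intro h
    have := Nat.le_of_dvd hg0 h
    omega
  have hpqM : p * q ∣ M := by
    refine Nat.Coprime.mul_dvd_of_dvd_of_dvd ?_ hpM hqM
    rw [Nat.coprime_primes hp hq]
    omega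
  have hpqd : (((p * q : ℕ)) : ℤ) ∣ D' * V - B' := by
    have h1 : (((p * q : ℕ)) : ℤ) ∣ g * (D' * V - B') := by
      rw [← hfac]
      exact (Int.natCast_dvd_natCast.2 hpqM).trans hM
    have h2 : IsCoprime (((p * q : ℕ)) : ℤ) (g : ℤ) := by
      rw [Nat.isCoprime_iff_coprime]
      exact Nat.Coprime.mul_left hpg hqg
    exact h2.dvd_of_dvd_mul_left h1
  have heq := hlab B' D' g hg0 hD'1 hcop hB' hD' hpqd
  have hB0 : B' = B₀ := congrArg Prod.fst heq
  have hD0 : D' = D₀ := congrArg Prod.snd heq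
  subst hB0 hD0
  -- now M ∣ g (D₀ V - B₀)
  rw [hfac] at hM
  set e₁ := Nat.gcd M g with he₁
  have he0 : 0 < e₁ := Nat.gcd_pos_of_pos_right _ hg0
  obtain ⟨M', hM'⟩ : e₁ ∣ M := Nat.gcd_dvd_left M g
  obtain ⟨g', hg'⟩ : e₁ ∣ g := Nat.gcd_dvd_right M g
  refine ⟨e₁, M', he0, (Nat.le_of_dvd hg0 ⟨g', hg'⟩).trans hgle, hM', ?_, ?_⟩
  · have h1 : (M' : ℤ) ∣ g' * (D' * V - B') := by
      have h2 : (e₁ : ℤ) * M' ∣ (e₁ : ℤ) * (g' * (D' * V - B')) := by
        have h3 : (M : ℤ) = e₁ * M' := by exact_mod_cast hM'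
        have h4 : (g : ℤ) = e₁ * g' := by exact_mod_cast hg'
        rw [← h3, ← mul_assoc, ← h4]
        exact hM
      exact (mul_dvd_mul_iff_left (by exact_mod_cast he0.ne')).1 h2
    have h2 : IsCoprime (M' : ℤ) (g' : ℤ) := by
      rw [Nat.isCoprime_iff_coprime]
      have h3 : Nat.gcd (e₁ * M') (e₁ * g') = e₁ := by rw [← hM', ← hg']
      rw [Nat.gcd_mul_left] at h3
      have h4 : e₁ * Nat.gcd M' g' = e₁ * 1 := by rw [mul_one]; exact h3
      exact Nat.eq_of_mul_eq_mul_left he0 h4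
    exact h2.dvd_of_dvd_mul_left h1
  · rw [hM', Nat.squarefree_mul_iff] at hsq
    exact hsq.1.symm

theorem BoxV.one_le {y : ℕ} {κ : ℝ} {r : ℕ} {P : ℕ → ℝ} {I : ℕ → Finset ℕ}
    (h : BoxV y κ r P I) (hl : 1 ≤ log (y : ℝ)) {j : ℕ} (hj : j ≤ r) : 1 ≤ P j := by
  obtain ⟨h1, h2, -⟩ := h.zon j hj
  have h3 : 0 ≤ log (P j) := by
    refine le_trans ?_ h2
    unfold zlo
    have := log_nonneg hl
    positivity
  by_contra h4
  push Not at h4
  have := log_neg h1 h4
  linarith only [h3, this]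

theorem BoxV.one_le_prod {y : ℕ} {κ : ℝ} {r : ℕ} {P : ℕ → ℝ} {I : ℕ → Finset ℕ}
    (h : BoxV y κ r P I) (hl : 1 ≤ log (y : ℝ)) : 1 ≤ ∏ j ∈ range (r + 1), P j := by
  have h1 : ∏ j ∈ range (r + 1), (1 : ℝ) ≤ ∏ j ∈ range (r + 1), P j :=
    prod_le_prod (fun _ _ => zero_le_one) fun j hj =>
      h.one_le hl (Nat.lt_succ_iff.1 (mem_range.1 hj))
  rwa [prod_const_one] at h1

/-- the rational attached to a structured key -/
theorem strd_data {y : ℕ} {A₂ B₂ κ : ℝ} {r : ℕ} {DD : Finset (ℕ × ℕ)} {P : ℕ → ℝ}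
    {I : ℕ → Finset ℕ} {V b : ℤ} {H : Finset ℕ} (hl : 1 ≤ log (y : ℝ))
    (hbv : BoxV y κ r P I) (hK : Key y A₂ r DD P I H)
    (hy1 : (log (y : ℝ)) ^ B₂ ≤ exp (0.1 * (log y) ^ (0.93 : ℝ)))
    (hy2 : 7 * (log (y : ℝ)) ^ A₂ ≤ exp (0.1 * (log y) ^ (0.93 : ℝ)))
    (hb0 : b ≠ 0) (hb1 : |(b : ℝ)| ≤ (log y) ^ B₂) (hS : Strd y V b H) :
    ∃ (B : ℤ) (D k : ℕ), exp ((log y) ^ (0.93 : ℝ)) ≤ (2 : ℝ) ^ k ∧
      (2 : ℝ) ^ k ≤ exp ((log y) ^ (0.95 : ℝ)) ∧ Pop y V ((2 : ℝ) ^ k) B D ∧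
      ((∏ p ∈ H, p : ℕ) : ℤ) ∣ D * V - B := by
  obtain ⟨k, u, c, hk1, hk2, hk3, hu1, hu2, hc, hdvd, hcard⟩ := hS
  set T : ℝ := (2 : ℝ) ^ k with hT
  have hT0 : 0 < T := by positivity
  set M1 := ∏ p ∈ smH y H, p with hM1
  set M2 := ∏ p ∈ lgH y H, p with hM2
  have hM12 : M1 * M2 = ∏ p ∈ H, p := prod_sm_mul_lg y H
  have hM0 : 0 < ∏ p ∈ H, p := prod_prime_pos hK.prime
  have hM1pos : 0 < M1 := by
    rcases Nat.eq_zero_or_pos M1 with h | h
    · rw [h, zero_mul] at hM12; omega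
    · exact h
  have hM2pos : 0 < M2 := by
    rcases Nat.eq_zero_or_pos M2 with h | h
    · rw [h, mul_zero] at hM12; omega
    · exact h
  set t : ℤ := b * V / (M2 : ℤ) with ht
  set R : ℤ := b * V % (M2 : ℤ) with hR
  have hR0 : 0 ≤ R := Int.emod_nonneg _ (by exact_mod_cast hM2pos.ne')
  have hR1 : R < M2 := Int.emod_lt_of_pos _ (by exact_mod_cast hM2pos)
  have htR : (M2 : ℤ) * t + R = b * V := Int.mul_ediv_add_emod (b * V) M2
  -- sign facts
  have hsb : Int.sign b * b = |b| := by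
    rcases lt_trichotomy b 0 with h | h | h
    · rw [Int.sign_eq_neg_one_of_neg h, abs_of_neg h]; ring
    · exact absurd h hb0
    · rw [Int.sign_eq_one_of_pos h, abs_of_pos h]; ring
  have hs1 : |Int.sign b| = 1 := by
    rcases lt_trichotomy b 0 with h | h | h
    · rw [Int.sign_eq_neg_one_of_neg h]; rfl
    · exact absurd h hb0
    · rw [Int.sign_eq_one_of_pos h]; rfl
  set D : ℕ := u.toNat * b.natAbs with hD
  have hDz : (D : ℤ) = u * |b| := by
    rw [hD, Nat.cast_mul, Int.toNat_of_nonneg (by omega), Int.natCast_natAbs]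
  set B : ℤ := Int.sign b * (u * R + M2 * c) with hB
  have hfac : (D : ℤ) * V - B = Int.sign b * (M2 * (u * t - c)) := by
    rw [hDz, hB, ← hsb]
    have h1 : u * (Int.sign b * b) * V = Int.sign b * (u * (b * V)) := by ring
    rw [h1, ← htR]
    ring
  have hTexp : exp (0.1 * (log (y : ℝ)) ^ (0.93 : ℝ)) ≤ T ^ (0.1 : ℝ) := by
    have h1 : exp (0.1 * (log (y : ℝ)) ^ (0.93 : ℝ)) =
        (exp ((log (y : ℝ)) ^ (0.93 : ℝ))) ^ (0.1 : ℝ) := by
      rw [← exp_mul]
      ring_nf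
    rw [h1]
    exact rpow_le_rpow (exp_pos _).le hk1 (by norm_num)
  have hT1 : 1 ≤ T := one_le_pow₀ (by norm_num)
  have hbabs : ((|b| : ℤ) : ℝ) = |(b : ℝ)| := Int.cast_abs
  have hDr : (D : ℝ) = u * |(b : ℝ)| := by
    have : ((D : ℤ) : ℝ) = ((u * |b| : ℤ) : ℝ) := by rw [hDz]
    rw [Int.cast_mul, Int.cast_abs] at this
    simpa using this
  have hu0 : (0 : ℝ) ≤ u := by
    have : (1 : ℝ) ≤ u := by exact_mod_cast hu1
    linarith only [this]
  have hD1 : 1 ≤ D := by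
    have h1 : (1 : ℤ) ≤ |b| := Int.one_le_abs hb0
    have h2 : (1 : ℤ) ≤ u * |b| := by linarith only [mul_nonneg (sub_nonneg.2 hu1) (sub_nonneg.2 h1), h1, hu1]
    rw [← hDz] at h2
    exact_mod_cast h2
  have hDT : (D : ℝ) ≤ T ^ (0.3 : ℝ) := by
    rw [hDr]
    calc (u : ℝ) * |(b : ℝ)| ≤ T ^ (0.2 : ℝ) * T ^ (0.1 : ℝ) :=
          mul_le_mul hu2 ((hb1.trans hy1).trans hTexp) (abs_nonneg _) (by positivity)
      _ = T ^ (0.3 : ℝ) := by rw [← rpow_add hT0]; norm_num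
  have hM2T : (M2 : ℝ) * T ≤ y * (log y) ^ A₂ := by
    have h1 : (M2 : ℝ) * T ≤ ((∏ p ∈ H, p : ℕ) : ℝ) := by
      rw [← hM12, Nat.cast_mul, mul_comm]
      exact mul_le_mul_of_nonneg_right hk2 (Nat.cast_nonneg _)
    have h2 := hK.upper
    have h3 := hbv.one_le_prod hl
    have h4 : ((∏ p ∈ H, p : ℕ) : ℝ) ≤ ((∏ p ∈ H, p : ℕ) : ℝ) * ∏ j ∈ range (r + 1), P j :=
      le_mul_of_one_le_right (Nat.cast_nonneg _) h3
    linarith only [h1, h2, h4]
  have hBT : |(B : ℝ)| ≤ y * T ^ (0.3 : ℝ) := by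
    have h1 : |(B : ℝ)| = |(u : ℝ) * R + M2 * c| := by
      have h2 : |B| = |u * R + M2 * c| := by
        rw [hB, abs_mul, hs1, one_mul]
      have h3 : ((|B| : ℤ) : ℝ) = ((|u * R + M2 * c| : ℤ) : ℝ) := by rw [h2]
      rw [Int.cast_abs, Int.cast_abs] at h3
      rw [h3]
      push_cast
      rfl
    rw [h1]
    have hRr : |(R : ℝ)| ≤ M2 := by
      rw [abs_of_nonneg (by exact_mod_cast hR0)]
      exact_mod_cast hR1.le
    have h5 : |(u : ℝ) * R + M2 * c| ≤ T ^ (0.2 : ℝ) * M2 + M2 * (6 * T ^ (1.2 : ℝ)) := by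
      refine (abs_add_le _ _).trans ?_
      have hM2n' : |(M2 : ℝ)| = M2 := abs_of_nonneg (Nat.cast_nonneg _)
      rw [abs_mul, abs_mul, abs_of_nonneg hu0, hM2n']
      exact add_le_add (mul_le_mul hu2 hRr (abs_nonneg _) (by positivity))
        (mul_le_mul_of_nonneg_left hc (Nat.cast_nonneg _))
    have h6 : T ^ (0.2 : ℝ) ≤ T ^ (1.2 : ℝ) := rpow_le_rpow_of_exponent_le hT1 (by norm_num)
    have h7 : T ^ (1.2 : ℝ) = T * T ^ (0.2 : ℝ) := by
      rw [show (1.2 : ℝ) = 1 + 0.2 by norm_num, rpow_add hT0, rpow_one]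
    have hM2n : (0 : ℝ) ≤ M2 := Nat.cast_nonneg _
    calc |(u : ℝ) * R + M2 * c| ≤ T ^ (0.2 : ℝ) * M2 + M2 * (6 * T ^ (1.2 : ℝ)) := h5
      _ ≤ T ^ (1.2 : ℝ) * M2 + M2 * (6 * T ^ (1.2 : ℝ)) := by
          have := mul_le_mul_of_nonneg_right h6 hM2n
          linarith only [this]
      _ = 7 * ((M2 : ℝ) * T) * T ^ (0.2 : ℝ) := by rw [h7]; ring
      _ ≤ 7 * (y * (log y) ^ A₂) * T ^ (0.2 : ℝ) := by
          have : 0 ≤ T ^ (0.2 : ℝ) := by positivity
          linarith only [mul_le_mul_of_nonneg_right hM2T this]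
      _ = y * (7 * (log y) ^ A₂ * T ^ (0.2 : ℝ)) := by ring
      _ ≤ y * (T ^ (0.1 : ℝ) * T ^ (0.2 : ℝ)) := by
          refine mul_le_mul_of_nonneg_left ?_ (Nat.cast_nonneg _)
          exact mul_le_mul_of_nonneg_right (hy2.trans hTexp) (by positivity)
      _ = y * T ^ (0.3 : ℝ) := by rw [← rpow_add hT0]; norm_num
  refine ⟨B, D, k, hk1, hk2.trans hK.smhi, ⟨hD1, hDT, hBT, ?_⟩, ?_⟩
  · refine hcard.trans ?_
    rw [Nat.cast_le]
    refine card_le_card ?_
    intro M' hM'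
    rw [mem_filter] at hM' ⊢
    refine ⟨hM'.1, hM'.2.1, ?_⟩
    rw [hfac]
    exact (hM'.2.2.mul_left _).mul_left _
  · rw [hfac, ← hM12, Nat.cast_mul, mul_comm (M1 : ℤ)]
    exact (mul_dvd_mul_left _ hdvd).mul_left _

theorem key_nat {y : ℕ} {A₂ B₂ κ c : ℝ} {r z : ℕ} {DD : Finset (ℕ × ℕ)} {P : ℕ → ℝ}
    {I : ℕ → Finset ℕ} {V b : ℤ} {H : Finset ℕ} (hl : 1 ≤ log (y : ℝ))
    (hbv : BoxV y κ r P I) (hK : Key y A₂ r DD P I H)
    (hy1 : (log (y : ℝ)) ^ B₂ ≤ exp (0.1 * (log y) ^ (0.93 : ℝ)))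
    (hy2 : 7 * (log (y : ℝ)) ^ A₂ ≤ exp (0.1 * (log y) ^ (0.93 : ℝ)))
    (hy3 : 0.3 * (log (y : ℝ)) ^ (0.95 : ℝ) < c * log y)
    (hDD : AdmPairs y c z DD)
    {B₀ : ℤ} {D₀ : ℕ}
    (hlab : ∀ pq ∈ DD, ∀ ρ : ℤ × ℕ, Lab y V ρ → Natl V ρ (pq.1 * pq.2) → ρ = (B₀, D₀))
    (hb0 : b ≠ 0) (hb1 : |(b : ℝ)| ≤ (log y) ^ B₂) (hS : Strd y V b H) :
    ∃ e₁ M' : ℕ, 1 ≤ e₁ ∧ (e₁ : ℝ) ≤ exp ((log y) ^ (0.96 : ℝ)) ∧ ∏ p ∈ H, p = e₁ * M' ∧
      (M' : ℤ) ∣ D₀ * V - B₀ ∧ Nat.Coprime M' e₁ := by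
  obtain ⟨B, D, k, hk1, hk2, hpop, hdvd⟩ := strd_data hl hbv hK hy1 hy2 hb0 hb1 hS
  obtain ⟨pq, hpq, htop⟩ := hK.top
  obtain ⟨hp, hq, hqc, -, -, -⟩ := hDD pq hpq
  have hy0 : 0 < (y : ℝ) := by
    by_contra h
    push Not at h
    have h1 : (y : ℝ) = 0 := le_antisymm h (Nat.cast_nonneg _)
    rw [h1, log_zero] at hl
    linarith only [hl]
  have hT0 : (0 : ℝ) < (2 : ℝ) ^ k := by positivity
  have hDle : (D : ℝ) ≤ exp (0.3 * (log (y : ℝ)) ^ (0.95 : ℝ)) := by
    refine hpop.2.1.trans ?_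
    have h1 : exp (0.3 * (log (y : ℝ)) ^ (0.95 : ℝ)) =
        (exp ((log (y : ℝ)) ^ (0.95 : ℝ))) ^ (0.3 : ℝ) := by
      rw [← exp_mul]
      ring_nf
    rw [h1]
    exact rpow_le_rpow hT0.le hk2 (by norm_num)
  have hDq : D < pq.2 := by
    have h1 : (D : ℝ) < (pq.2 : ℝ) := by
      refine hDle.trans_lt (lt_of_lt_of_le ?_ hqc)
      rw [rpow_def_of_pos hy0, exp_lt_exp, mul_comm (log (y : ℝ)) c]
      exact hy3
    exact_mod_cast h1
  obtain ⟨e₁, M', he1, heD, hM, hdvd', hcop⟩ := label_reduce V B B₀ D D₀ (∏ p ∈ H, p) pq.1 pq.2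
    hpop.1 hdvd hp hq htop.2.2.1
    (dvd_prod_of_mem (fun p => p) htop.1) (dvd_prod_of_mem (fun p => p) htop.2.1) hDq
    (squarefree_prod hK.prime) (by
      intro B' D' g hg hD' hc hBg hDg hn
      refine hlab pq hpq (B', D') ⟨hc, k, g, hk1, hk2, hg, ?_⟩ hn
      rw [hBg, hDg] at hpop
      exact hpop)
  refine ⟨e₁, M', he1, ?_, hM, hdvd', hcop⟩
  have h1 : (e₁ : ℝ) ≤ D := by exact_mod_cast heD
  refine (h1.trans hDle).trans ?_
  rw [exp_le_exp]
  have h2 : (log (y : ℝ)) ^ (0.95 : ℝ) ≤ (log (y : ℝ)) ^ (0.96 : ℝ) :=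
    rpow_le_rpow_of_exponent_le hl (by norm_num)
  have h3 : 0 ≤ (log (y : ℝ)) ^ (0.95 : ℝ) := by positivity
  linarith only [h2, h3]

theorem sum_inv_le {l : ℝ} (hl : 6 ≤ l) :
    ∑ e₁ ∈ Icc 1 ⌊exp (l ^ (0.96 : ℝ))⌋₊, 1 / (e₁ : ℝ) ≤ 2 * l := by
  set E := ⌊exp (l ^ (0.96 : ℝ))⌋₊ with hE
  have h1 : ∑ e₁ ∈ Icc 1 E, 1 / (e₁ : ℝ) = ((harmonic E : ℚ) : ℝ) := by
    rw [harmonic_eq_sum_Icc]
    push_cast
    simp
  rw [h1]
  have hE1 : 1 ≤ E := by
    rw [hE]
    refine Nat.le_floor ?_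
    rw [Nat.cast_one]
    exact one_le_exp (rpow_nonneg (by linarith only [hl]) _)
  have h2 := harmonic_le_one_add_log E
  have h3 : log (E : ℝ) ≤ l ^ (0.96 : ℝ) := by
    rw [log_le_iff_le_exp (by exact_mod_cast hE1)]
    exact Nat.floor_le (exp_pos _).le
  have h4 : l ^ (0.96 : ℝ) ≤ l := by
    calc l ^ (0.96 : ℝ) ≤ l ^ (1 : ℝ) := rpow_le_rpow_of_exponent_le (by linarith only [hl]) (by norm_num)
      _ = l := rpow_one l
  linarith only [h4, h3, h2, hl]

theorem natFiber (hn : NaturalStmt) : NatFiberStmt := by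
  classical
  intro A₂ A₃ A₄ A₅ B₂ c r hA₂ hA₃ hA₄ hA₅ hB₂ hc
  set A := A₂ + A₃ + A₄ + A₅ + B₂ + 20 with hA
  obtain ⟨C₄, hC₄, yn, hn⟩ := hn A r (by linarith only [hA₂, hA₃, hA₄, hA₅, hB₂])
  obtain ⟨y₁, hg⟩ := ev_nat (p := fun x => 6 ≤ x ∧ x ^ B₂ ≤ exp (0.1 * x ^ (0.93 : ℝ)) ∧
    7 * x ^ A₂ ≤ exp (0.1 * x ^ (0.93 : ℝ)) ∧ 0.3 * x ^ (0.95 : ℝ) < c * x ∧
    x ^ A₂ ≤ exp (0.3 * x)) (by
      have e1 := ev_pow_le_exp B₂ 0.1 0.93 1 (by norm_num) (by norm_num)
      have e2 := ev_pow_le_exp A₂ 0.1 0.93 7 (by norm_num) (by norm_num)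
      have e3 := ev_rpow_lt 0.3 c 0.95 hc (by norm_num)
      have e4 := ev_pow_le_exp A₂ 0.3 1 1 (by norm_num) (by norm_num)
      filter_upwards [e1, e2, e3, e4, Filter.eventually_ge_atTop 6] with x h1 h2 h3 h4 h5
      rw [one_mul] at h1 h4
      rw [rpow_one] at h4
      exact ⟨h5, h1, h2, h3, h4⟩)
  refine ⟨C₄, hC₄, max ⌈yn⌉₊ (max y₁ 1), ?_⟩
  intro y hy V z DD hDD B₀ D₀ hBD hD₀ hD₀' hB₀ hH hlab P I hbv HH hK b hb0 hb1 hbs
  have hyn : yn ≤ (y : ℝ) := by
    have h1 : ⌈yn⌉₊ ≤ y := (le_max_left _ _).trans hy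
    exact (Nat.le_ceil yn).trans (by exact_mod_cast h1)
  have hy1' : y₁ ≤ y := (le_max_left _ _).trans ((le_max_right _ _).trans hy)
  have hy1 : 1 ≤ y := (le_max_right _ _).trans ((le_max_right _ _).trans hy)
  have hy0 : (0 : ℝ) < y := by exact_mod_cast hy1
  obtain ⟨hl6, g1, g2, g3, g4⟩ := hg y hy1'
  set l := log (y : ℝ) with hl
  have hl1 : 1 ≤ l := by linarith only [hl6]
  have hl0 : 0 < l := by linarith only [hl6]
  set PP := ∏ j ∈ range (r + 1), P j with hPP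
  have hPP1 : 1 ≤ PP := hbv.one_le_prod hl1
  have hPP0 : 0 < PP := by linarith only [hPP1]
  choose! e₁ M' f1 f2 f3 f4 f5 using fun H (hH' : H ∈ HH) =>
    key_nat (H := H) hl1 hbv (hK H hH') g1 g2 g3 hDD hlab hb0 hb1 (hbs H hH').2
  have hMpos : ∀ H ∈ HH, 0 < M' H := by
    intro H hH'
    have h1 := prod_prime_pos (hK H hH').prime
    rw [f3 H hH'] at h1
    exact Nat.pos_of_mul_pos_left h1
  set E := ⌊exp (l ^ (0.96 : ℝ))⌋₊ with hE
  set n := ⌊2 * l⌋₊ + 1 with hn'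
  have hMle : ∀ H ∈ HH, ((e₁ H : ℝ) * M' H) * PP ≤ y * l ^ A₂ := by
    intro H hH'
    have h1 := (hK H hH').upper
    rw [f3 H hH', Nat.cast_mul] at h1
    exact h1
  have hMge : ∀ H ∈ HH, y / l ^ 3 ≤ ((e₁ H : ℝ) * M' H) * PP := by
    intro H hH'
    have h1 := (hK H hH').lower
    rw [f3 H hH', Nat.cast_mul] at h1
    exact h1
  have he1 : ∀ H ∈ HH, (1 : ℝ) ≤ e₁ H := fun H hH' => by exact_mod_cast f1 H hH'
  have hlog : ∀ H ∈ HH, (2 : ℝ) ^ (Nat.log 2 (M' H)) ≤ M' H ∧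
      (M' H : ℝ) < 2 * (2 : ℝ) ^ (Nat.log 2 (M' H)) := by
    intro H hH'
    constructor
    · exact_mod_cast Nat.pow_log_le_self 2 (hMpos H hH').ne'
    · have h1 := Nat.lt_pow_succ_log_self (b := 2) (by norm_num) (M' H)
      rw [pow_succ, mul_comm] at h1
      exact_mod_cast h1
  have hmaps : ∀ H ∈ HH, (e₁ H, Nat.log 2 (M' H)) ∈ Icc 1 E ×ˢ range n := by
    intro H hH'
    rw [mem_product, mem_Icc, mem_range]
    refine ⟨⟨f1 H hH', Nat.le_floor (f2 H hH')⟩, ?_⟩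
    rw [hn', Nat.lt_succ_iff]
    refine Nat.le_floor ?_
    have h1 : (2 : ℝ) ^ (Nat.log 2 (M' H)) ≤ y * l ^ A₂ := by
      refine (hlog H hH').1.trans (le_trans ?_ (hMle H hH'))
      have h2 : (M' H : ℝ) ≤ (e₁ H : ℝ) * M' H :=
        le_mul_of_one_le_left (Nat.cast_nonneg _) (he1 H hH')
      exact h2.trans (le_mul_of_one_le_right (by (clear * -; positivity)) hPP1)
    have h2 : y * l ^ A₂ ≤ exp (1.3 * l) := by
      have h3 : exp (1.3 * l) = exp l * exp (0.3 * l) := by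
        rw [← exp_add]; ring_nf
      rw [h3, hl, exp_log hy0]
      exact mul_le_mul_of_nonneg_left g4 hy0.le
    have h3 : (Nat.log 2 (M' H) : ℝ) * log 2 ≤ 1.3 * l := by
      have h4 : log ((2 : ℝ) ^ (Nat.log 2 (M' H))) ≤ 1.3 * l := by
        rw [log_le_iff_le_exp (by positivity)]
        exact h1.trans h2
      rwa [log_pow] at h4
    have h5 : 0.6931471803 < log 2 := log_two_gt_d9
    have h6 : (0 : ℝ) ≤ (Nat.log 2 (M' H) : ℝ) := Nat.cast_nonneg _
    nlinarith only [hl6, h3, h5]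
  have hfib : ∀ ei ∈ Icc 1 E ×ˢ range n,
      ((HH.filter (fun H => (e₁ H, Nat.log 2 (M' H)) = ei)).card : ℝ) * PP ≤
        y * l ^ (A₂ - A) * (1 / (ei.1 : ℝ)) := by
    intro ei hei
    rw [mem_product, mem_Icc] at hei
    have hei1 : (1 : ℝ) ≤ ei.1 := by exact_mod_cast hei.1.1
    rcases (HH.filter (fun H => (e₁ H, Nat.log 2 (M' H)) = ei)).eq_empty_or_nonempty with h | h
    · rw [h, card_empty, Nat.cast_zero, zero_mul]
      (clear * - hy1 hl6 hei1; positivity)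
    obtain ⟨H₀, hH₀⟩ := h
    rw [mem_filter] at hH₀
    obtain ⟨hH₀, heq⟩ := hH₀
    have heq1 : e₁ H₀ = ei.1 := by rw [← heq]
    have heq2 : Nat.log 2 (M' H₀) = ei.2 := by rw [← heq]
    set Y : ℝ := (2 : ℝ) ^ ei.2 with hY
    have hY0 : 0 < Y := by positivity
    have hYle : Y * ei.1 * PP ≤ y * l ^ A₂ := by
      have h1 := (hlog H₀ hH₀).1
      rw [heq2] at h1
      have h2 := hMle H₀ hH₀
      rw [heq1] at h2
      refine le_trans ?_ h2
      refine mul_le_mul_of_nonneg_right ?_ hPP0.le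
      rw [mul_comm]
      exact mul_le_mul_of_nonneg_left h1 (by linarith only [hei1])
    have hYge : y * l ^ (-A) ≤ Y * ei.1 * PP := by
      have h1 := (hlog H₀ hH₀).2
      rw [heq2] at h1
      have h2 := hMge H₀ hH₀
      rw [heq1] at h2
      have h3 : ((ei.1 : ℝ) * M' H₀) * PP ≤ 2 * (Y * ei.1 * PP) := by
        have h4 : (ei.1 : ℝ) * M' H₀ ≤ ei.1 * (2 * Y) :=
          mul_le_mul_of_nonneg_left h1.le (by linarith only [hei1])
        linarith only [mul_nonneg (sub_nonneg.2 h4) (sub_nonneg.2 hPP1), h4]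
      have h5 : y * l ^ (-A) ≤ y / l ^ 3 / 2 := by
        have h6 : l ^ (-A) ≤ l ^ (-4 : ℝ) :=
          rpow_le_rpow_of_exponent_le hl1 (by linarith only [hA₂, hA₃, hA₄, hA₅, hB₂])
        have h7 : l ^ (-4 : ℝ) = (l ^ 3)⁻¹ * l⁻¹ := by
          rw [show (-4 : ℝ) = -((4 : ℕ) : ℝ) by norm_num, rpow_neg hl0.le, rpow_natCast]
          rw [pow_succ, mul_inv]
        have h8 : l⁻¹ ≤ 2⁻¹ := inv_anti₀ (by norm_num) (by linarith only [hl6])
        calc y * l ^ (-A) ≤ y * ((l ^ 3)⁻¹ * l⁻¹) := by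
              rw [← h7]; exact mul_le_mul_of_nonneg_left h6 hy0.le
          _ ≤ y * ((l ^ 3)⁻¹ * 2⁻¹) := by
              refine mul_le_mul_of_nonneg_left ?_ hy0.le
              exact mul_le_mul_of_nonneg_left h8 (by positivity)
          _ = y / l ^ 3 / 2 := by ring
      linarith only [h5, h3, h2]
    have hκ1 : l ^ (-A) ≤ l ^ (-A₃) := rpow_le_rpow_of_exponent_le hl1 (by linarith only [hA₂, hA₄, hA₅, hB₂])
    have hκ2 : l ^ (-A₃) ≤ 1 := rpow_le_one_of_one_le_of_nonpos hl1 (by linarith only [hA₃])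
    have hB2A : |(b : ℝ)| ≤ l ^ A :=
      hb1.trans (rpow_le_rpow_of_exponent_le hl1 (by linarith only [hA₂, hA₃, hA₄, hA₅]))
    have heE : (ei.1 : ℝ) ≤ exp (l ^ (0.96 : ℝ)) := by
      have h1 := f2 H₀ hH₀
      rw [heq1] at h1
      exact h1
    have hA2A : y * l ^ A₂ ≤ y * l ^ A :=
      mul_le_mul_of_nonneg_left (rpow_le_rpow_of_exponent_le hl1 (by linarith only [hA₃, hA₄, hA₅, hB₂])) hy0.le
    have key := hn (y : ℝ) hyn (l ^ (-A₃)) hκ1 hκ2 P I hbv.zon hbv.mem V B₀ b D₀ ei.1 hBD hD₀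
      hD₀' hB₀ hH hb0 hB2A hei.1.1 heE Y hYge (hYle.trans hA2A)
    have hcard : ((HH.filter (fun H => (e₁ H, Nat.log 2 (M' H)) = ei)).card : ℝ) ≤
        Y * l ^ (-A) := by
      refine le_trans ?_ key
      rw [Nat.cast_le]
      refine card_le_card_of_injOn M' ?_ ?_
      · intro H hH'
        rw [mem_coe, mem_filter] at hH'
        obtain ⟨hH1, hH2⟩ := hH'
        have e1 : e₁ H = ei.1 := by rw [← hH2]
        have e2 : Nat.log 2 (M' H) = ei.2 := by rw [← hH2]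
        have hl' := hlog H hH1
        rw [e2] at hl'
        rw [mem_coe, mem_filter, mem_Icc]
        refine ⟨⟨hMpos H hH1, Nat.le_floor hl'.2.le⟩, hl'.1, f4 H hH1, ?_, ?_, ?_⟩
        · intro j hj p hp hdvd
          refine (hK H hH1).disj j hj p hp ?_
          refine mem_of_dvd_prod (hK H hH1).prime (hbv.mem j hj p hp).1 ?_
          rw [f3 H hH1]
          exact hdvd.mul_left _
        · rw [← e1]
          exact f5 H hH1
        · have h1 := (hbs H hH1).1
          unfold Bad at h1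
          rw [f3 H hH1, e1] at h1
          have h2 : l ^ (-A) ≤ l ^ (-A₄) := rpow_le_rpow_of_exponent_le hl1 (by linarith only [hA₂, hA₃, hA₅, hB₂])
          have h3 : 0 ≤ ∏ j ∈ range (r + 1), (l ^ (-A₃) * P j + 1) := by
            refine prod_nonneg fun j hj => ?_
            have := (hbv.zon j (Nat.lt_succ_iff.1 (mem_range.1 hj))).1
            (clear * - hl6 this; positivity)
          have h4 : ∀ s : ℕ, (b : ℝ) * V / ((M' H : ℝ) * (ei.1 : ℝ) * s) =
              (b : ℝ) * V / (((ei.1 * M' H : ℕ) : ℝ) * s) := by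
            intro s
            rw [Nat.cast_mul, mul_comm (M' H : ℝ)]
          simp only [h4]
          exact (mul_le_mul_of_nonneg_right h2 h3).trans h1.le
      · intro H hH' H' hH'' hMM
        rw [mem_coe, mem_filter] at hH' hH''
        refine prod_inj (hK H hH'.1).prime (hK H' hH''.1).prime ?_
        rw [f3 H hH'.1, f3 H' hH''.1, hMM]
        have e1 : e₁ H = ei.1 := by rw [← hH'.2]
        have e2 : e₁ H' = ei.1 := by rw [← hH''.2]
        rw [e1, e2]
    calc ((HH.filter (fun H => (e₁ H, Nat.log 2 (M' H)) = ei)).card : ℝ) * PP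
        ≤ (Y * l ^ (-A)) * PP := mul_le_mul_of_nonneg_right hcard hPP0.le
      _ = (Y * ei.1 * PP) * l ^ (-A) * (1 / (ei.1 : ℝ)) := by
          field_simp
      _ ≤ (y * l ^ A₂) * l ^ (-A) * (1 / (ei.1 : ℝ)) := by
          refine mul_le_mul_of_nonneg_right ?_ (by (clear * - hei1; positivity))
          exact mul_le_mul_of_nonneg_right hYle (by positivity)
      _ = y * l ^ (A₂ - A) * (1 / (ei.1 : ℝ)) := by
          rw [sub_eq_add_neg, rpow_add hl0]
          ring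
  have hsum : (HH.card : ℝ) * PP = ∑ ei ∈ Icc 1 E ×ˢ range n,
      ((HH.filter (fun H => (e₁ H, Nat.log 2 (M' H)) = ei)).card : ℝ) * PP := by
    rw [← sum_mul, ← Nat.cast_sum, ← card_eq_sum_card_fiberwise hmaps]
  have hn3 : (n : ℝ) ≤ 3 * l := by
    have h1 : ((⌊2 * l⌋₊ : ℕ) : ℝ) ≤ 2 * l := Nat.floor_le (by linarith only [hl6])
    rw [hn']
    push_cast
    linarith only [hl6, h1]
  have hfin : y * l ^ (A₂ - A) * ((3 * l) * (2 * l)) ≤ y * l ^ (-A₅) := by
    have h1 : l ^ (A₂ - A) * ((3 * l) * (2 * l)) ≤ l ^ (A₂ - A) * l ^ (3 : ℝ) := by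
      refine mul_le_mul_of_nonneg_left ?_ (by positivity)
      have h0 : l ^ (3 : ℝ) = l ^ 3 := by exact_mod_cast rpow_natCast l 3
      rw [h0]
      linarith only [mul_nonneg (mul_pos hl0 hl0).le (sub_nonneg.2 hl6)]
    have h2 : l ^ (A₂ - A) * l ^ (3 : ℝ) ≤ l ^ (-A₅) := by
      rw [← rpow_add hl0]
      exact rpow_le_rpow_of_exponent_le hl1 (by linarith only [hA₃, hA₄, hB₂])
    rw [mul_assoc]
    exact mul_le_mul_of_nonneg_left (h1.trans h2) hy0.le
  calc (HH.card : ℝ) * PP = ∑ ei ∈ Icc 1 E ×ˢ range n,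
      ((HH.filter (fun H => (e₁ H, Nat.log 2 (M' H)) = ei)).card : ℝ) * PP := hsum
    _ ≤ ∑ ei ∈ Icc 1 E ×ˢ range n, y * l ^ (A₂ - A) * (1 / (ei.1 : ℝ)) := sum_le_sum hfib
    _ = y * l ^ (A₂ - A) * ((n : ℝ) * ∑ e₁ ∈ Icc 1 E, 1 / (e₁ : ℝ)) := by
        rw [← mul_sum, sum_product]
        congr 1
        simp only [sum_const, card_range, nsmul_eq_mul]
        rw [mul_sum]
    _ ≤ y * l ^ (A₂ - A) * ((3 * l) * (2 * l)) := by
        refine mul_le_mul_of_nonneg_left ?_ (by positivity)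
        exact mul_le_mul hn3 (sum_inv_le hl6) (sum_nonneg fun _ _ => by (clear * -; positivity)) (by linarith only [hl6])
    _ ≤ y * l ^ (-A₅) := hfin

end Vale.Agent.P013.J
end

section

/-!
# Natural theorem, part 1: elementary exponential sums

Periodic functions, partial summation, Ramanujan sums.
-/

open Finset

namespace Vale.Agent.P013.J.Ntl

theorem e_def (x : ℝ) : e x = Complex.exp (((2 * Real.pi * x : ℝ) : ℂ) * Complex.I) := by
  unfold e; push_cast; rfl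

@[simp] theorem norm_e (x : ℝ) : ‖e x‖ = 1 := by
  rw [e_def]; exact Complex.norm_exp_ofReal_mul_I _

theorem e_add (x y : ℝ) : e (x + y) = e x * e y := by
  unfold e; rw [← Complex.exp_add]; congr 1; push_cast; ring

theorem e_zero : e 0 = 1 := by unfold e; simp

theorem e_int (n : ℤ) : e n = 1 := by
  unfold e
  rw [Complex.exp_eq_one_iff]
  exact ⟨n, by push_cast; ring⟩

theorem e_neg (x : ℝ) : e (-x) = (starRingEnd ℂ) (e x) := by
  rw [e_def, e_def, ← Complex.exp_conj]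
  congr 1
  rw [map_mul, Complex.conj_ofReal, Complex.conj_I]
  push_cast
  ring

theorem e_congr {x y : ℝ} (n : ℤ) (h : x - y = n) : e x = e y := by
  have : x = y + n := by linarith
  rw [this, e_add, e_int, mul_one]

theorem e_sub_one_le (x : ℝ) : ‖e x - 1‖ ≤ 2 * Real.pi * |x| := by
  have h := @Real.norm_exp_I_mul_ofReal_sub_one_le (2 * Real.pi * x)
  rw [e_def, mul_comm (((2 * Real.pi * x : ℝ) : ℂ)) Complex.I]
  refine h.trans (le_of_eq ?_)
  rw [Real.norm_eq_abs, abs_mul, abs_of_pos (by positivity : (0 : ℝ) < 2 * Real.pi)]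

theorem e_sub_le (x y : ℝ) : ‖e x - e y‖ ≤ 2 * Real.pi * |x - y| := by
  have h : e x - e y = e y * (e (x - y) - 1) := by
    rw [mul_sub, ← e_add]; ring_nf
  rw [h, norm_mul, norm_e, one_mul]
  exact e_sub_one_le _

/-! ### periodic functions -/

theorem sum_shift (χ : ℕ → ℂ) (Q : ℕ) (h : ∀ n, χ (n + Q) = χ n) (N : ℕ) :
    ∑ i ∈ range Q, χ (N + i) = ∑ i ∈ range Q, χ i := by
  induction N with
  | zero => simp
  | succ N ih =>
    rw [← ih]
    have h1 : ∑ i ∈ range Q, χ (N + 1 + i) + χ (N + 0) = ∑ i ∈ range (Q + 1), χ (N + i) := by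
      rw [Finset.sum_range_succ']
      congr 1
      exact Finset.sum_congr rfl fun i _ => by congr 1; ring
    rw [Finset.sum_range_succ, h N] at h1
    simpa using h1

theorem periodic_partial (χ : ℕ → ℂ) (Q : ℕ) (hQ : 0 < Q) (h : ∀ n, χ (n + Q) = χ n)
    (hb : ∀ n, ‖χ n‖ ≤ 1) (N : ℕ) :
    ‖∑ n ∈ range N, (χ n - (∑ i ∈ range Q, χ i) / Q)‖ ≤ 2 * Q := by
  set m : ℂ := (∑ i ∈ range Q, χ i) / Q with hm
  have hmn : ‖m‖ ≤ 1 := by
    rw [hm, norm_div, Complex.norm_natCast]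
    rw [div_le_one (by exact_mod_cast hQ)]
    calc ‖∑ i ∈ range Q, χ i‖ ≤ ∑ i ∈ range Q, ‖χ i‖ := norm_sum_le _ _
      _ ≤ ∑ i ∈ range Q, (1 : ℝ) := Finset.sum_le_sum fun i _ => hb i
      _ = Q := by simp
  induction N using Nat.strong_induction_on with
  | _ N ih =>
    by_cases hN : N < Q
    · calc ‖∑ n ∈ range N, (χ n - m)‖ ≤ ∑ n ∈ range N, ‖χ n - m‖ := norm_sum_le _ _
        _ ≤ ∑ n ∈ range N, (2 : ℝ) := Finset.sum_le_sum fun i _ =>
            (norm_sub_le _ _).trans (by linarith [hb i])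
        _ = 2 * N := by simp [mul_comm]
        _ ≤ 2 * Q := by
            have : (N : ℝ) ≤ Q := by exact_mod_cast hN.le
            linarith
    · obtain ⟨K, rfl⟩ : ∃ K, N = K + Q := ⟨N - Q, by omega⟩
      have h1 := ih K (by omega)
      have h2 : ∑ n ∈ range (K + Q), (χ n - m) = ∑ n ∈ range K, (χ n - m) := by
        rw [Finset.sum_range_add]
        have : ∑ i ∈ range Q, (χ (K + i) - m) = 0 := by
          rw [Finset.sum_sub_distrib, sum_shift χ Q h K]
          simp only [Finset.sum_const, Finset.card_range, nsmul_eq_mul]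
          have hQ' : (Q : ℂ) ≠ 0 := by exact_mod_cast hQ.ne'
          rw [hm, mul_div_cancel₀ _ hQ', sub_self]
        rw [this, add_zero]
      rw [h2]; exact h1

/-- partial summation -/
theorem abel_identity (g f : ℕ → ℂ) (N₁ N : ℕ) (hN : N₁ ≤ N) :
    ∑ n ∈ Ico N₁ N, g n * f n =
      (∑ n ∈ range N, g n) * f N - (∑ n ∈ range N₁, g n) * f N₁ -
        ∑ n ∈ Ico N₁ N, (∑ k ∈ range (n + 1), g k) * (f (n + 1) - f n) := by
  induction N, hN using Nat.le_induction with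
  | base => simp
  | succ N hN ih =>
    rw [Finset.sum_Ico_succ_top hN, Finset.sum_Ico_succ_top hN, ih, Finset.sum_range_succ g N]
    ring

theorem abel_bound (g f : ℕ → ℂ) (G δ : ℝ) (N₁ N : ℕ) (hN : N₁ ≤ N)
    (hg : ∀ K, ‖∑ n ∈ range K, g n‖ ≤ G) (hf : ∀ n, ‖f n‖ ≤ 1)
    (hδ : ∀ n, N₁ ≤ n → n < N → ‖f (n + 1) - f n‖ ≤ δ) :
    ‖∑ n ∈ Ico N₁ N, g n * f n‖ ≤ G * (2 + δ * (N - N₁ : ℝ)) := by
  have hG : 0 ≤ G := (norm_nonneg _).trans (hg 0)
  rw [abel_identity g f N₁ N hN]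
  refine (norm_sub_le _ _).trans ?_
  refine (add_le_add_left (norm_sub_le _ _) _).trans ?_
  have h1 : ‖(∑ n ∈ range N, g n) * f N‖ ≤ G := by
    rw [norm_mul]
    calc _ ≤ G * 1 := mul_le_mul (hg _) (hf _) (norm_nonneg _) hG
      _ = G := mul_one _
  have h2 : ‖(∑ n ∈ range N₁, g n) * f N₁‖ ≤ G := by
    rw [norm_mul]
    calc _ ≤ G * 1 := mul_le_mul (hg _) (hf _) (norm_nonneg _) hG
      _ = G := mul_one _
  have h3 : ‖∑ n ∈ Ico N₁ N, (∑ k ∈ range (n + 1), g k) * (f (n + 1) - f n)‖ ≤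
      G * (δ * (N - N₁ : ℝ)) := by
    calc _ ≤ ∑ n ∈ Ico N₁ N, ‖(∑ k ∈ range (n + 1), g k) * (f (n + 1) - f n)‖ := norm_sum_le _ _
      _ ≤ ∑ n ∈ Ico N₁ N, G * δ := by
          refine Finset.sum_le_sum fun n hn => ?_
          rw [Finset.mem_Ico] at hn
          rw [norm_mul]
          exact mul_le_mul (hg _) (hδ n hn.1 hn.2) (norm_nonneg _) hG
      _ = G * (δ * (N - N₁ : ℝ)) := by
          rw [Finset.sum_const, Nat.card_Ico, nsmul_eq_mul, Nat.cast_sub hN]; ring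
  linarith

/-- mean value of a periodic function against a slowly varying function -/
theorem periodic_sum_bound (χ f : ℕ → ℂ) (Q : ℕ) (hQ : 0 < Q) (h : ∀ n, χ (n + Q) = χ n)
    (hb : ∀ n, ‖χ n‖ ≤ 1) (δ : ℝ) (N₁ N : ℕ) (hN : N₁ ≤ N) (hf : ∀ n, ‖f n‖ ≤ 1)
    (hδ : ∀ n, N₁ ≤ n → n < N → ‖f (n + 1) - f n‖ ≤ δ) :
    ‖∑ n ∈ Ico N₁ N, χ n * f n‖ ≤
      ‖∑ i ∈ range Q, χ i‖ / Q * ‖∑ n ∈ Ico N₁ N, f n‖ + 2 * Q * (2 + δ * (N - N₁ : ℝ)) := by
  set m : ℂ := (∑ i ∈ range Q, χ i) / Q with hm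
  have h1 : ∑ n ∈ Ico N₁ N, χ n * f n =
      m * ∑ n ∈ Ico N₁ N, f n + ∑ n ∈ Ico N₁ N, (χ n - m) * f n := by
    rw [Finset.mul_sum, ← Finset.sum_add_distrib]
    exact Finset.sum_congr rfl fun n _ => by ring
  rw [h1]
  refine (norm_add_le _ _).trans (add_le_add ?_ ?_)
  · rw [norm_mul, hm, norm_div, Complex.norm_natCast]
  · exact abel_bound (fun n => χ n - m) f (2 * Q) δ N₁ N hN
      (periodic_partial χ Q hQ h hb) hf hδ

/-! ### inverses modulo `q` -/

/-- an inverse of `M` modulo `q` -/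
def inv (M q : ℕ) : ℕ := ((M : ZMod q)⁻¹).val

theorem inv_spec {M q : ℕ} (h : Nat.Coprime M q) :
    (q : ℤ) ∣ (M : ℤ) * inv M q - 1 := by
  rcases Nat.eq_zero_or_pos q with rfl | hq
  · have hM : M = 1 := by simpa using h
    subst hM
    unfold inv
    simp
  · haveI : NeZero q := ⟨hq.ne'⟩
    rw [← ZMod.intCast_zmod_eq_zero_iff_dvd] 
    unfold inv
    push_cast
    rw [ZMod.natCast_zmod_val, ZMod.coe_mul_inv_eq_one M h, sub_self]

theorem inv_congr {M M' q : ℕ} (h : (M : ZMod q) = (M' : ZMod q)) : inv M q = inv M' q := by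
  unfold inv; rw [h]

theorem inv_lt {M q : ℕ} (hq : 0 < q) : inv M q < q := by
  have : NeZero q := ⟨hq.ne'⟩
  exact ZMod.val_lt _

theorem inv_coprime {M q : ℕ} (h : Nat.Coprime M q) : Nat.Coprime (inv M q) q := by
  have h1 := inv_spec h
  have : IsCoprime (inv M q : ℤ) (q : ℤ) := by
    obtain ⟨k, hk⟩ := h1
    exact ⟨M, -k, by linarith⟩
  exact Nat.isCoprime_iff_coprime.mp this

/-- two inverses agree -/
theorem inv_unique {M q : ℕ} (h : Nat.Coprime M q) {x : ℤ} (hx : (q : ℤ) ∣ (M : ℤ) * x - 1) :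
    (q : ℤ) ∣ (inv M q : ℤ) - x := by
  have h1 := inv_spec h
  have h2 : (q : ℤ) ∣ (M : ℤ) * ((inv M q : ℤ) - x) := by
    have h4 : (M : ℤ) * ((inv M q : ℤ) - x) = ((M : ℤ) * inv M q - 1) - ((M : ℤ) * x - 1) := by
      ring
    rw [h4]; exact dvd_sub h1 hx
  have h3 : IsCoprime (q : ℤ) (M : ℤ) := (Nat.isCoprime_iff_coprime.mpr h).symm
  exact h3.dvd_of_dvd_mul_left h2

theorem inv_inv {M q : ℕ} (hq : 0 < q) (h : Nat.Coprime M q) (hM : M < q) :
    inv (inv M q) q = M := by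
  have h1 := inv_unique (inv_coprime h) (x := (M : ℤ)) (by
    have := inv_spec h
    rwa [mul_comm] at this)
  have h2 : inv (inv M q) q < q := inv_lt hq
  have h3 : ((inv (inv M q) q : ℕ) : ℤ) - M = 0 := by
    apply Int.eq_zero_of_abs_lt_dvd h1
    rw [abs_lt]
    constructor <;> omega
  omega

/-- `e (c * inv M q / q)` can be computed with a multiple of the modulus -/
theorem e_inv_lift {M q Q : ℕ} (hq : 0 < q) (hqQ : q ∣ Q) (h : Nat.Coprime M Q)
    (c : ℤ) : e ((c : ℝ) * inv M q / q) = e ((c : ℝ) * inv M Q / q) := by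
  have h1 : (q : ℤ) ∣ (inv M q : ℤ) - (inv M Q : ℤ) := by
    apply inv_unique (h.coprime_dvd_right hqQ)
    exact (Int.natCast_dvd_natCast.mpr hqQ).trans (inv_spec h)
  obtain ⟨k, hk⟩ := h1
  apply e_congr (c * k)
  have hq' : (q : ℝ) ≠ 0 := by exact_mod_cast hq.ne'
  have hk' : (inv M q : ℝ) - (inv M Q : ℝ) = q * k := by exact_mod_cast hk
  rw [← sub_div, ← mul_sub, hk']
  push_cast
  field_simp

/-! ### Ramanujan sums -/

theorem geom_e (h : ℤ) (q : ℕ) (hq : 0 < q) :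
    ∑ a ∈ range q, e ((h : ℝ) * a / q) = if (q : ℤ) ∣ h then (q : ℂ) else 0 := by
  have hq' : (q : ℝ) ≠ 0 := by exact_mod_cast hq.ne'
  have hpow : ∀ a : ℕ, e ((h : ℝ) * a / q) = (e ((h : ℝ) / q)) ^ a := by
    intro a
    induction a with
    | zero => simp [e_zero]
    | succ a ih =>
      rw [pow_succ, ← ih, ← e_add]
      congr 1; push_cast; ring
  split_ifs with hd
  · obtain ⟨k, rfl⟩ := hd
    have : ∀ a ∈ range q, e ((((q : ℤ) * k : ℤ) : ℝ) * a / q) = 1 := by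
      intro a _
      have : (((q : ℤ) * k : ℤ) : ℝ) * a / q = ((k * a : ℤ) : ℝ) := by
        push_cast; field_simp
      rw [this, e_int]
    rw [Finset.sum_congr rfl this]
    simp
  · have hz : e ((h : ℝ) / q) ≠ 1 := by
      intro h1
      unfold e at h1
      rw [Complex.exp_eq_one_iff] at h1
      obtain ⟨n, hn⟩ := h1
      apply hd
      refine ⟨n, ?_⟩
      have hI : (2 * (Real.pi : ℂ) * Complex.I) ≠ 0 := Complex.two_pi_I_ne_zero
      have h2 : (((h : ℝ) / q : ℝ) : ℂ) = n := by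
        have : (2 * (Real.pi : ℂ) * Complex.I) * (((h : ℝ) / q : ℝ) : ℂ) =
            (2 * (Real.pi : ℂ) * Complex.I) * n := by
          rw [mul_comm _ (n : ℂ), ← hn]; ring
        exact mul_left_cancel₀ hI this
      have h3 : (h : ℝ) / q = n := by exact_mod_cast h2
      have h4 : (h : ℝ) = q * n := by
        rw [div_eq_iff hq'] at h3; rw [h3]; ring
      exact_mod_cast h4
    simp_rw [hpow]
    have h5 := geom_sum_mul (e ((h : ℝ) / q)) q
    rw [← hpow q] at h5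
    have h6 : e ((h : ℝ) * q / q) = 1 := by
      rw [mul_div_assoc, div_self hq', mul_one, e_int]
    rw [h6, sub_self] at h5
    exact (mul_eq_zero.mp h5).resolve_right (sub_ne_zero.mpr hz)

theorem sum_moebius_divisors (n : ℕ) :
    ∑ d ∈ n.divisors, (ArithmeticFunction.moebius d : ℂ) = if n = 1 then 1 else 0 := by
  have h := congrArg (fun f : ArithmeticFunction ℤ => f n)
    ArithmeticFunction.moebius_mul_coe_zeta
  simp only [ArithmeticFunction.coe_mul_zeta_apply, ArithmeticFunction.one_apply] at h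
  have h2 : ((∑ d ∈ n.divisors, ArithmeticFunction.moebius d : ℤ) : ℂ) =
      ((if n = 1 then 1 else 0 : ℤ) : ℂ) := by rw [h]
  push_cast at h2
  exact h2

/-- bound for Ramanujan sums -/
theorem ramanujan_bound (h : ℤ) (Q : ℕ) (hQ : 0 < Q) :
    ‖∑ a ∈ (range Q).filter (fun a => Nat.Coprime a Q), e ((h : ℝ) * a / Q)‖ ≤
      ∑ d ∈ Q.divisors.filter (fun d : ℕ => (d : ℤ) ∣ h), (d : ℝ) := by
  classical
  have hQ' : (Q : ℝ) ≠ 0 := by exact_mod_cast hQ.ne'
  have h1 : ∑ a ∈ (range Q).filter (fun a => Nat.Coprime a Q), e ((h : ℝ) * a / Q) =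
      ∑ a ∈ range Q, ∑ d ∈ Q.divisors.filter (fun d => d ∣ a),
        (ArithmeticFunction.moebius d : ℂ) * e ((h : ℝ) * a / Q) := by
    rw [Finset.sum_filter]
    refine Finset.sum_congr rfl fun a _ => ?_
    rw [← Finset.sum_mul]
    have hset : Q.divisors.filter (fun d => d ∣ a) = (Nat.gcd a Q).divisors := by
      ext d
      simp only [Finset.mem_filter, Nat.mem_divisors]
      constructor
      · rintro ⟨⟨h1, h2⟩, h3⟩
        exact ⟨Nat.dvd_gcd h3 h1, (Nat.gcd_pos_of_pos_right a hQ).ne'⟩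
      · rintro ⟨h1, h2⟩
        exact ⟨⟨h1.trans (Nat.gcd_dvd_right _ _), hQ.ne'⟩, h1.trans (Nat.gcd_dvd_left _ _)⟩
    rw [hset, sum_moebius_divisors]
    by_cases hc : Nat.Coprime a Q
    · rw [if_pos hc, if_pos hc, one_mul]
    · rw [if_neg hc, if_neg hc, zero_mul]
  have h2 : ∑ a ∈ range Q, ∑ d ∈ Q.divisors.filter (fun d => d ∣ a),
        (ArithmeticFunction.moebius d : ℂ) * e ((h : ℝ) * a / Q) =
      ∑ d ∈ Q.divisors, (ArithmeticFunction.moebius d : ℂ) *
        ∑ a ∈ (range Q).filter (fun a => d ∣ a), e ((h : ℝ) * a / Q) := by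
    simp_rw [Finset.sum_filter, Finset.mul_sum]
    rw [Finset.sum_comm]
    refine Finset.sum_congr rfl fun d _ => Finset.sum_congr rfl fun a _ => ?_
    split_ifs <;> simp
  have h3 : ∀ d ∈ Q.divisors, ∑ a ∈ (range Q).filter (fun a => d ∣ a), e ((h : ℝ) * a / Q) =
      if ((Q / d : ℕ) : ℤ) ∣ h then ((Q / d : ℕ) : ℂ) else 0 := by
    intro d hd
    rw [Nat.mem_divisors] at hd
    obtain ⟨k, hk⟩ := hd.1
    have hd0 : 0 < d := Nat.pos_of_dvd_of_pos hd.1 hQ
    have hk0 : 0 < k := by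
      rcases Nat.eq_zero_or_pos k with rfl | h
      · omega
      · exact h
    have hQd : Q / d = k := by rw [hk]; exact Nat.mul_div_cancel_left k hd0
    rw [hQd, ← geom_e h k hk0]
    symm
    refine Finset.sum_bij (fun a _ => d * a) ?_ ?_ ?_ ?_
    · intro a ha
      rw [Finset.mem_range] at ha
      rw [Finset.mem_filter, Finset.mem_range]
      refine ⟨?_, dvd_mul_right _ _⟩
      rw [hk]; exact Nat.mul_lt_mul_of_pos_left ha hd0
    · intro a _ b _ hab
      exact Nat.eq_of_mul_eq_mul_left hd0 hab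
    · intro b hb
      rw [Finset.mem_filter, Finset.mem_range] at hb
      obtain ⟨a, rfl⟩ := hb.2
      refine ⟨a, ?_, rfl⟩
      rw [Finset.mem_range]
      have := hb.1
      rw [hk] at this
      exact lt_of_mul_lt_mul_left this (Nat.zero_le d)
    · intro a _
      congr 1
      rw [hk]
      push_cast
      have hd' : (d : ℝ) ≠ 0 := by exact_mod_cast hd0.ne'
      have hk' : (k : ℝ) ≠ 0 := by exact_mod_cast hk0.ne'
      field_simp
  rw [h1, h2, Finset.sum_congr rfl (fun d hd => by rw [h3 d hd])]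
  calc ‖∑ d ∈ Q.divisors, (ArithmeticFunction.moebius d : ℂ) *
        (if ((Q / d : ℕ) : ℤ) ∣ h then ((Q / d : ℕ) : ℂ) else 0)‖
      ≤ ∑ d ∈ Q.divisors, ‖(ArithmeticFunction.moebius d : ℂ) *
        (if ((Q / d : ℕ) : ℤ) ∣ h then ((Q / d : ℕ) : ℂ) else 0)‖ := norm_sum_le _ _
    _ ≤ ∑ d ∈ Q.divisors, (if ((Q / d : ℕ) : ℤ) ∣ h then ((Q / d : ℕ) : ℝ) else 0) := by
        refine Finset.sum_le_sum fun d _ => ?_
        rw [norm_mul]
        have hmu : ‖((ArithmeticFunction.moebius d : ℤ) : ℂ)‖ ≤ 1 := by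
          rw [Complex.norm_intCast]
          exact_mod_cast ArithmeticFunction.abs_moebius_le_one
        split_ifs
        · rw [Complex.norm_natCast]
          calc _ ≤ 1 * ((Q / d : ℕ) : ℝ) :=
                mul_le_mul_of_nonneg_right hmu (Nat.cast_nonneg _)
            _ = _ := one_mul _
        · simp
    _ = ∑ d ∈ Q.divisors, (if (d : ℤ) ∣ h then (d : ℝ) else 0) :=
        Nat.sum_div_divisors Q (fun d => if (d : ℤ) ∣ h then (d : ℝ) else 0)
    _ = _ := by rw [Finset.sum_filter]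

end Vale.Agent.P013.J.Ntl
end

section

/-!
# Natural theorem, part 2: the inner sum over `M`
-/

open Finset

namespace Vale.Agent.P013.J.Ntl

theorem divsum_le (Q : ℕ) (h : ℤ) (hQ : 0 < Q) :
    ∑ d ∈ Q.divisors.filter (fun d : ℕ => (d : ℤ) ∣ h), (d : ℝ) ≤
      (Int.gcd Q h : ℝ) * (1 + Real.log Q) := by
  set g := Int.gcd (Q : ℤ) h with hg
  have hgQ : g ∣ Q := by
    have := Int.gcd_dvd_left (a := (Q : ℤ)) (b := h)
    exact_mod_cast this
  have hg0 : 0 < g := Nat.pos_of_dvd_of_pos hgQ hQ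
  have hset : Q.divisors.filter (fun d : ℕ => (d : ℤ) ∣ h) = g.divisors := by
    ext d
    simp only [Finset.mem_filter, Nat.mem_divisors]
    constructor
    · rintro ⟨⟨h1, _⟩, h3⟩
      refine ⟨?_, hg0.ne'⟩
      have : (d : ℤ) ∣ (g : ℤ) := Int.dvd_coe_gcd (by exact_mod_cast h1) h3
      exact_mod_cast this
    · rintro ⟨h1, _⟩
      refine ⟨⟨h1.trans hgQ, hQ.ne'⟩, ?_⟩
      have h2 : (g : ℤ) ∣ h := Int.gcd_dvd_right _ _
      exact (Int.natCast_dvd_natCast.mpr h1).trans h2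
  rw [hset]
  calc ∑ d ∈ g.divisors, (d : ℝ) = ∑ d ∈ g.divisors, ((g / d : ℕ) : ℝ) :=
        (Nat.sum_div_divisors g (fun d => (d : ℝ))).symm
    _ = ∑ d ∈ g.divisors, (g : ℝ) * (d : ℝ)⁻¹ := by
        refine Finset.sum_congr rfl fun d hd => ?_
        rw [Nat.mem_divisors] at hd
        have hd0 : (d : ℝ) ≠ 0 := by
          have := Nat.pos_of_dvd_of_pos hd.1 hg0
          exact_mod_cast this.ne'
        rw [Nat.cast_div hd.1 hd0]; rfl
    _ ≤ ∑ d ∈ Icc 1 g, (g : ℝ) * (d : ℝ)⁻¹ := by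
        refine Finset.sum_le_sum_of_subset_of_nonneg ?_ (fun _ _ _ => by positivity)
        intro d hd
        rw [Nat.mem_divisors] at hd
        rw [Finset.mem_Icc]
        exact ⟨Nat.pos_of_dvd_of_pos hd.1 hg0, Nat.le_of_dvd hg0 hd.1⟩
    _ = (g : ℝ) * ((harmonic g : ℚ) : ℝ) := by
        rw [← Finset.mul_sum, harmonic_eq_sum_Icc]
        push_cast; rfl
    _ ≤ (g : ℝ) * (1 + Real.log g) :=
        mul_le_mul_of_nonneg_left (harmonic_le_one_add_log g) (Nat.cast_nonneg _)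
    _ ≤ (g : ℝ) * (1 + Real.log Q) := by
        refine mul_le_mul_of_nonneg_left ?_ (Nat.cast_nonneg _)
        have : Real.log g ≤ Real.log Q :=
          Real.log_le_log (by exact_mod_cast hg0) (by exact_mod_cast Nat.le_of_dvd hQ hgQ)
        linarith only [this]

/-- the gcd bound -/
theorem gcd_bound {D R : ℕ} {b w t : ℤ} (hD : 0 < D) (hw : IsCoprime (D : ℤ) w)
    (hb : b ≠ 0) (hR : 0 < R) :
    Int.gcd ((D * R : ℕ) : ℤ) (b * w * t) ≤ b.natAbs * Int.gcd D t * R := by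
  have hb' : 0 < b.natAbs := Int.natAbs_pos.mpr hb
  rw [Int.gcd_eq_natAbs, Int.gcd_eq_natAbs, Int.natAbs_natCast, Int.natAbs_natCast,
    Int.natAbs_mul, Int.natAbs_mul]
  set β := b.natAbs
  set ω := w.natAbs
  set τ := t.natAbs
  have hw' : Nat.Coprime D ω := by
    rw [Int.isCoprime_iff_gcd_eq_one, Int.gcd_eq_natAbs, Int.natAbs_natCast] at hw
    exact hw
  have h1 : Nat.gcd (D * R) (β * ω * τ) ∣ Nat.gcd D (β * ω * τ) * R := by
    rw [← Nat.gcd_mul_right]
    exact Nat.dvd_gcd (Nat.gcd_dvd_left _ _) ((Nat.gcd_dvd_right _ _).mul_right R)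
  have h2 : Nat.gcd D (β * ω * τ) = Nat.gcd D (β * τ) := by
    have : β * ω * τ = ω * (β * τ) := by ring
    rw [this, hw'.symm.gcd_mul_left_cancel_right]
  have h3 : Nat.gcd D (β * τ) ∣ β * Nat.gcd D τ := by
    rw [← Nat.gcd_mul_left]
    exact Nat.dvd_gcd ((Nat.gcd_dvd_left _ _).mul_left β) (Nat.gcd_dvd_right _ _)
  have h4 : Nat.gcd (D * R) (β * ω * τ) ∣ β * Nat.gcd D τ * R := by
    refine h1.trans ?_
    rw [h2]
    exact mul_dvd_mul_right h3 R
  have hpos : 0 < Nat.gcd D τ := Nat.gcd_pos_of_pos_left _ hD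
  exact Nat.le_of_dvd (by positivity) h4

/-! ### the slowly varying factor -/

theorem e_diff_le (ξ Y : ℝ) (hY : 0 < Y) (n : ℕ) (hn : Y ≤ n) :
    ‖e (ξ / ((n + 1 : ℕ) : ℝ)) - e (ξ / (n : ℝ))‖ ≤ 2 * Real.pi * |ξ| / Y ^ 2 := by
  refine (e_sub_le _ _).trans ?_
  have hn0 : (0 : ℝ) < n := hY.trans_le hn
  have h1 : ξ / ((n + 1 : ℕ) : ℝ) - ξ / (n : ℝ) = -(ξ / (n * (n + 1))) := by
    push_cast; field_simp; ring
  rw [h1, abs_neg, abs_div, mul_div_assoc]
  refine mul_le_mul_of_nonneg_left ?_ (by positivity)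
  refine div_le_div_of_nonneg_left (abs_nonneg _) (by positivity) ?_
  rw [abs_of_pos (by positivity)]
  linarith [mul_nonneg (sub_nonneg.2 hn) (sub_nonneg.2 hn), mul_nonneg (le_of_lt (sub_pos.2 hY)) (sub_nonneg.2 hn), hn, hY]

/-- first derivative test -/
theorem integral_bound (ξ a b : ℝ) (hξ : ξ ≠ 0) (ha : 0 < a) (hab : a ≤ b) :
    ‖∫ x in a..b, e (ξ / x)‖ ≤ b ^ 2 / (Real.pi * |ξ|) := by
  have hpi := Real.pi_pos
  have hξC : (ξ : ℂ) ≠ 0 := by exact_mod_cast hξ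
  have hpiC : (Real.pi : ℂ) ≠ 0 := by exact_mod_cast hpi.ne'
  have hI := Complex.I_ne_zero
  -- primitive
  have hder : ∀ x ∈ Set.uIcc a b, HasDerivAt
      (fun x : ℝ => -((x : ℂ) ^ 2) * e (ξ / x) / (2 * Real.pi * Complex.I * ξ))
      (e (ξ / x) - (x : ℂ) * e (ξ / x) / (Real.pi * Complex.I * ξ)) x := by
    intro x hx
    rw [Set.uIcc_of_le hab] at hx
    have hx0 : x ≠ 0 := (ha.trans_le hx.1).ne'
    have hxC : (x : ℂ) ≠ 0 := by exact_mod_cast hx0
    have h1 : HasDerivAt (fun x : ℝ => ξ / x) (-ξ / x ^ 2) x := by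
      have := (hasDerivAt_inv hx0).const_mul ξ
      simpa [div_eq_mul_inv, neg_mul, mul_neg] using this
    have h2 : HasDerivAt (fun x : ℝ => e (ξ / x))
        (e (ξ / x) * ((2 * Real.pi * ((-ξ / x ^ 2 : ℝ) : ℂ)) * Complex.I)) x := by
      unfold e
      have h3 : HasDerivAt (fun x : ℝ => 2 * (Real.pi : ℂ) * (((ξ / x : ℝ)) : ℂ) * Complex.I)
          ((2 * Real.pi * ((-ξ / x ^ 2 : ℝ) : ℂ)) * Complex.I) x :=
        ((h1.ofReal_comp).const_mul (2 * (Real.pi : ℂ))).mul_const Complex.I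
      exact h3.cexp
    have h4 : HasDerivAt (fun x : ℝ => -((x : ℂ) ^ 2)) (-(2 * (x : ℂ))) x := by
      have h5 : HasDerivAt (fun x : ℝ => ((x ^ 2 : ℝ) : ℂ)) ((2 * x : ℝ) : ℂ) x := by
        have := (hasDerivAt_pow 2 x).ofReal_comp
        simpa using this
      simpa using h5.fun_neg
    have h6 : HasDerivAt
        (fun x : ℝ => -((x : ℂ) ^ 2) * e (ξ / x) / (2 * Real.pi * Complex.I * ξ))
        ((-(2 * (x : ℂ)) * e (ξ / x) + -((x : ℂ) ^ 2) *
          (e (ξ / x) * ((2 * Real.pi * ((-ξ / x ^ 2 : ℝ) : ℂ)) * Complex.I))) /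
          (2 * Real.pi * Complex.I * ξ)) x :=
      (h4.mul h2).div_const (2 * Real.pi * Complex.I * ξ)
    refine h6.congr_deriv ?_
    push_cast
    field_simp
    ring
  have hcont1 : ContinuousOn (fun x : ℝ => e (ξ / x)) (Set.uIcc a b) := by
    intro x hx
    rw [Set.uIcc_of_le hab] at hx
    have hx0 : x ≠ 0 := (ha.trans_le hx.1).ne'
    unfold e
    apply ContinuousAt.continuousWithinAt
    have : ContinuousAt (fun x : ℝ => ξ / x) x := continuousAt_const.div continuousAt_id hx0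
    fun_prop (disch := assumption)
  have hcont2 : ContinuousOn (fun x : ℝ => (x : ℂ) * e (ξ / x) / (Real.pi * Complex.I * ξ))
      (Set.uIcc a b) :=
    ((Complex.continuous_ofReal.continuousOn).mul hcont1).div_const _
  have hint1 : IntervalIntegrable (fun x : ℝ => e (ξ / x)) MeasureTheory.volume a b :=
    hcont1.intervalIntegrable
  have hint2 : IntervalIntegrable (fun x : ℝ => (x : ℂ) * e (ξ / x) / (Real.pi * Complex.I * ξ))
      MeasureTheory.volume a b := hcont2.intervalIntegrable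
  have h7 := intervalIntegral.integral_eq_sub_of_hasDerivAt hder (hint1.sub hint2)
  rw [intervalIntegral.integral_sub hint1 hint2] at h7
  have h8 : ∫ x in a..b, e (ξ / x) =
      (-((b : ℂ) ^ 2) * e (ξ / b) / (2 * Real.pi * Complex.I * ξ) -
        -((a : ℂ) ^ 2) * e (ξ / a) / (2 * Real.pi * Complex.I * ξ)) +
      ∫ x in a..b, (x : ℂ) * e (ξ / x) / (Real.pi * Complex.I * ξ) := by
    rw [← h7]; ring
  have hnorm : ∀ x : ℝ, 0 ≤ x → ‖-((x : ℂ) ^ 2) * e (ξ / x) / (2 * Real.pi * Complex.I * ξ)‖ =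
      x ^ 2 / (2 * Real.pi * |ξ|) := by
    intro x hx
    rw [norm_div, norm_mul, norm_neg, norm_pow, norm_e, norm_mul, norm_mul, norm_mul,
      Complex.norm_real, Complex.norm_real, Complex.norm_real, Complex.norm_I]
    simp [abs_of_pos hpi]
  have h9 : ‖∫ x in a..b, (x : ℂ) * e (ξ / x) / (Real.pi * Complex.I * ξ)‖ ≤
      (b ^ 2 - a ^ 2) / (2 * Real.pi * |ξ|) := by
    have h10 : ‖∫ x in a..b, (x : ℂ) * e (ξ / x) / (Real.pi * Complex.I * ξ)‖ ≤
        ∫ x in a..b, x * (Real.pi * |ξ|)⁻¹ := by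
      refine intervalIntegral.norm_integral_le_of_norm_le hab ?_
        (by apply Continuous.intervalIntegrable; fun_prop)
      filter_upwards with x hx
      have hx0 : 0 < x := ha.trans hx.1
      rw [norm_div, norm_mul, norm_e, norm_mul, norm_mul, Complex.norm_real, Complex.norm_real,
        Complex.norm_real, Complex.norm_I]
      simp [abs_of_pos hpi, abs_of_pos hx0, div_eq_mul_inv]
    refine h10.trans (le_of_eq ?_)
    rw [intervalIntegral.integral_mul_const, integral_id]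
    field_simp
  rw [h8]
  refine (norm_add_le _ _).trans ?_
  have h11 := norm_sub_le (-((b : ℂ) ^ 2) * e (ξ / b) / (2 * Real.pi * Complex.I * ξ))
    (-((a : ℂ) ^ 2) * e (ξ / a) / (2 * Real.pi * Complex.I * ξ))
  rw [hnorm b (ha.le.trans hab), hnorm a ha.le] at h11
  have h12 : b ^ 2 / (2 * Real.pi * |ξ|) + a ^ 2 / (2 * Real.pi * |ξ|) +
      (b ^ 2 - a ^ 2) / (2 * Real.pi * |ξ|) = b ^ 2 / (Real.pi * |ξ|) := by
    have : |ξ| ≠ 0 := abs_ne_zero.mpr hξ
    field_simp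
    ring
  linarith only [h9, h11, h12]

/-- sum of the slowly varying factor -/
theorem slow_sum_bound (ξ Y : ℝ) (hξ : ξ ≠ 0) (hY : 0 < Y) (N₁ N₂ : ℕ) (h1 : Y ≤ N₁)
    (h12 : N₁ ≤ N₂) :
    ‖∑ n ∈ Ico N₁ N₂, e (ξ / (n : ℝ))‖ ≤
      2 * Real.pi * |ξ| / Y ^ 2 * (N₂ - N₁ : ℝ) + (N₂ : ℝ) ^ 2 / (Real.pi * |ξ|) := by
  have hN1 : (0 : ℝ) < N₁ := hY.trans_le h1
  have hcont : ∀ u v : ℝ, 0 < u → u ≤ v → IntervalIntegrable (fun x => e (ξ / x))
      MeasureTheory.volume u v := by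
    intro u v hu huv
    apply ContinuousOn.intervalIntegrable
    intro x hx
    rw [Set.uIcc_of_le huv] at hx
    have hx0 : x ≠ 0 := (hu.trans_le hx.1).ne'
    unfold e
    apply ContinuousAt.continuousWithinAt
    have : ContinuousAt (fun x : ℝ => ξ / x) x := continuousAt_const.div continuousAt_id hx0
    fun_prop (disch := assumption)
  have hsplit : ∑ n ∈ Ico N₁ N₂, ∫ x in (n : ℝ)..((n + 1 : ℕ) : ℝ), e (ξ / x) =
      ∫ x in (N₁ : ℝ)..(N₂ : ℝ), e (ξ / x) := by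
    apply intervalIntegral.sum_integral_adjacent_intervals_Ico h12
    intro k hk
    apply hcont
    · exact hN1.trans_le (by exact_mod_cast hk.1)
    · push_cast; linarith only []
  have hterm : ∀ n ∈ Ico N₁ N₂, ‖e (ξ / (n : ℝ)) -
      ∫ x in (n : ℝ)..((n + 1 : ℕ) : ℝ), e (ξ / x)‖ ≤ 2 * Real.pi * |ξ| / Y ^ 2 := by
    intro n hn
    rw [Finset.mem_Ico] at hn
    have hnY : Y ≤ n := h1.trans (by exact_mod_cast hn.1)
    have hn0 : (0 : ℝ) < n := hY.trans_le hnY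
    have hle : (n : ℝ) ≤ ((n + 1 : ℕ) : ℝ) := by push_cast; linarith only []
    have h2 : e (ξ / (n : ℝ)) - ∫ x in (n : ℝ)..((n + 1 : ℕ) : ℝ), e (ξ / x) =
        ∫ x in (n : ℝ)..((n + 1 : ℕ) : ℝ), (e (ξ / (n : ℝ)) - e (ξ / x)) := by
      rw [intervalIntegral.integral_sub (by simp) (hcont _ _ hn0 hle)]
      simp
    rw [h2]
    have h3 := intervalIntegral.norm_integral_le_of_norm_le_const
      (a := (n : ℝ)) (b := ((n + 1 : ℕ) : ℝ)) (C := 2 * Real.pi * |ξ| / Y ^ 2)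
      (f := fun x => e (ξ / (n : ℝ)) - e (ξ / x)) (by
        intro x hx
        rw [Set.uIoc_of_le hle] at hx
        have hx0 : 0 < x := hn0.trans hx.1
        have hx2 : x ≤ n + 1 := by have := hx.2; push_cast at this; exact this
        refine (e_sub_le _ _).trans ?_
        have h4 : ξ / (n : ℝ) - ξ / x = ξ * (x - n) / (n * x) := by field_simp
        rw [h4, abs_div, abs_mul, abs_of_pos (mul_pos hn0 hx0)]
        have h5 : |x - n| ≤ 1 := by rw [abs_le]; constructor <;> linarith only [hx.1, hx, hx2]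
        have h6 : |ξ| * |x - n| ≤ |ξ| := by
          calc |ξ| * |x - n| ≤ |ξ| * 1 := mul_le_mul_of_nonneg_left h5 (abs_nonneg _)
            _ = |ξ| := mul_one _
        have h7 : Y ^ 2 ≤ n * x := by nlinarith only [hx.1, hnY, hx, hY]
        have h8 := div_le_div₀ (abs_nonneg _) h6 (pow_pos hY 2) h7
        calc 2 * Real.pi * (|ξ| * |x - n| / (n * x)) ≤ 2 * Real.pi * (|ξ| / Y ^ 2) :=
              mul_le_mul_of_nonneg_left h8 (by positivity)
          _ = 2 * Real.pi * |ξ| / Y ^ 2 := by ring)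
    refine h3.trans (le_of_eq ?_)
    push_cast
    rw [add_sub_cancel_left, abs_one, mul_one]
  have hdecomp : ∑ n ∈ Ico N₁ N₂, e (ξ / (n : ℝ)) =
      ∑ n ∈ Ico N₁ N₂, (e (ξ / (n : ℝ)) - ∫ x in (n : ℝ)..((n + 1 : ℕ) : ℝ), e (ξ / x)) +
      ∫ x in (N₁ : ℝ)..(N₂ : ℝ), e (ξ / x) := by
    rw [← hsplit, ← Finset.sum_add_distrib]
    exact Finset.sum_congr rfl fun n _ => by ring
  rw [hdecomp]
  refine (norm_add_le _ _).trans (add_le_add ?_ ?_)
  · calc _ ≤ ∑ n ∈ Ico N₁ N₂, ‖e (ξ / (n : ℝ)) -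
          ∫ x in (n : ℝ)..((n + 1 : ℕ) : ℝ), e (ξ / x)‖ := norm_sum_le _ _
      _ ≤ ∑ n ∈ Ico N₁ N₂, 2 * Real.pi * |ξ| / Y ^ 2 := Finset.sum_le_sum hterm
      _ = _ := by
          rw [Finset.sum_const, Nat.card_Ico, nsmul_eq_mul, Nat.cast_sub h12]; ring
  · exact integral_bound ξ N₁ N₂ hξ hN1 (by exact_mod_cast h12)

/-- the inner sum -/
theorem inner_bound (Q : ℕ) (hQ : 0 < Q) (h : ℤ) (ξ Y : ℝ) (hY : 0 < Y) (N₁ N₂ : ℕ)
    (h1 : Y ≤ N₁) (h12 : N₁ ≤ N₂) :
    ‖∑ n ∈ (Ico N₁ N₂).filter (fun n => Nat.Coprime n Q),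
        e (ξ / (n : ℝ)) * e ((h : ℝ) * inv n Q / Q)‖ ≤
      min 1 ((Int.gcd Q h : ℝ) * (1 + Real.log Q) / Q) * ‖∑ n ∈ Ico N₁ N₂, e (ξ / (n : ℝ))‖ +
        2 * Q * (2 + 2 * Real.pi * |ξ| / Y ^ 2 * (N₂ - N₁ : ℝ)) := by
  classical
  set χ : ℕ → ℂ := fun n => if Nat.Coprime n Q then e ((h : ℝ) * inv n Q / Q) else 0 with hχ
  have hper : ∀ n, χ (n + Q) = χ n := by
    intro n
    simp only [hχ, Nat.coprime_add_self_left]
    have : inv (n + Q) Q = inv n Q := inv_congr (by simp)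
    rw [this]
  have hb : ∀ n, ‖χ n‖ ≤ 1 := by
    intro n
    simp only [hχ]
    split_ifs
    · rw [norm_e]
    · simp
  have hsum : ∑ i ∈ range Q, χ i =
      ∑ a ∈ (range Q).filter (fun a => Nat.Coprime a Q), e ((h : ℝ) * a / Q) := by
    simp only [hχ]
    rw [← Finset.sum_filter]
    refine Finset.sum_nbij' (fun a => inv a Q) (fun a => inv a Q) ?_ ?_ ?_ ?_ ?_
    · intro a ha
      rw [Finset.mem_filter, Finset.mem_range] at ha ⊢
      exact ⟨inv_lt hQ, inv_coprime ha.2⟩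
    · intro a ha
      rw [Finset.mem_filter, Finset.mem_range] at ha ⊢
      exact ⟨inv_lt hQ, inv_coprime ha.2⟩
    · intro a ha
      rw [Finset.mem_filter, Finset.mem_range] at ha
      exact inv_inv hQ ha.2 ha.1
    · intro a ha
      rw [Finset.mem_filter, Finset.mem_range] at ha
      exact inv_inv hQ ha.2 ha.1
    · intro a _
      rfl
  have hmean : ‖∑ i ∈ range Q, χ i‖ / Q ≤ min 1 ((Int.gcd Q h : ℝ) * (1 + Real.log Q) / Q) := by
    have hQ' : (0 : ℝ) < Q := by exact_mod_cast hQ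
    refine le_min ?_ ?_
    · rw [div_le_one hQ']
      calc ‖∑ i ∈ range Q, χ i‖ ≤ ∑ i ∈ range Q, ‖χ i‖ := norm_sum_le _ _
        _ ≤ ∑ i ∈ range Q, (1 : ℝ) := Finset.sum_le_sum fun i _ => hb i
        _ = Q := by simp
    · refine div_le_div_of_nonneg_right ?_ hQ'.le
      rw [hsum]
      exact (ramanujan_bound h Q hQ).trans (divsum_le Q h hQ)
  have hmain := periodic_sum_bound χ (fun n => e (ξ / (n : ℝ))) Q hQ hper hb
    (2 * Real.pi * |ξ| / Y ^ 2) N₁ N₂ h12 (fun n => by rw [norm_e])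
    (fun n hn _ => e_diff_le ξ Y hY n (h1.trans (by exact_mod_cast hn)))
  have hlhs : ∑ n ∈ (Ico N₁ N₂).filter (fun n => Nat.Coprime n Q),
        e (ξ / (n : ℝ)) * e ((h : ℝ) * inv n Q / Q) =
      ∑ n ∈ Ico N₁ N₂, χ n * e (ξ / (n : ℝ)) := by
    rw [Finset.sum_filter]
    refine Finset.sum_congr rfl fun n _ => ?_
    simp only [hχ]
    split_ifs
    · ring
    · ring
  rw [hlhs]
  refine hmain.trans (add_le_add_left ?_ _)
  exact mul_le_mul_of_nonneg_right hmean (norm_nonneg _)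

end Vale.Agent.P013.J.Ntl
end

section

/-!
# Natural theorem, part 3: the second moment
-/

open Finset

namespace Vale.Agent.P013.J.Ntl

/-- the phase attached to every `n` coprime to the modulus -/
noncomputable def th (V B b : ℤ) (D e₁ n p : ℕ) : ℂ :=
  e ((b : ℝ) * B / (D * e₁ * p) / n) *
    e (((b * (D * V - B) : ℤ) : ℝ) * inv n (D * e₁ * p) / ((D * e₁ * p : ℕ) : ℝ))

theorem coprime_of_dvd {V B : ℤ} {D M : ℕ} (hBD : IsCoprime B (D : ℤ))
    (hM : (M : ℤ) ∣ D * V - B) : Nat.Coprime M D := by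
  obtain ⟨u, v, huv⟩ := hBD
  obtain ⟨g, hg⟩ := hM
  rw [← Nat.isCoprime_iff_coprime]
  refine ⟨-(u * g), u * V + v, ?_⟩
  have : B = D * V - M * g := by linarith
  rw [this] at huv
  linear_combination huv

/-- on the divisors of `D V - B` the phase is the original one -/
theorem th_eq {V B b : ℤ} {D e₁ M p : ℕ} (hD : 0 < D) (he : 0 < e₁) (hM0 : 0 < M) (hp : 0 < p)
    (hM : (M : ℤ) ∣ D * V - B) (hc : Nat.Coprime M (D * e₁ * p)) :
    e ((b : ℝ) * V / ((M : ℝ) * e₁ * p)) = th V B b D e₁ M p := by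
  obtain ⟨g, hg⟩ := hM
  obtain ⟨k, hk⟩ := inv_spec hc
  unfold th
  rw [← e_add]
  apply e_congr (-(b * g * k))
  have hD' : (D : ℝ) ≠ 0 := by exact_mod_cast hD.ne'
  have he' : (e₁ : ℝ) ≠ 0 := by exact_mod_cast he.ne'
  have hM' : (M : ℝ) ≠ 0 := by exact_mod_cast hM0.ne'
  have hp' : (p : ℝ) ≠ 0 := by exact_mod_cast hp.ne'
  have hg' : (D : ℝ) * V - B = M * g := by exact_mod_cast hg
  have hk' : (M : ℝ) * inv M (D * e₁ * p) - 1 = (D * e₁ * p) * k := by exact_mod_cast hk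
  have h1 : (B : ℝ) = D * V - M * g := by linarith only [hg']
  have h2 : (b * (D * V - B) : ℝ) = b * (M * g) := by rw [hg']
  push_cast
  rw [h2, h1]
  have h3 : (inv M (D * e₁ * p) : ℝ) = (1 + (D * e₁ * p) * k) / M := by
    rw [eq_div_iff hM']; linarith only [hk']
  rw [h3]
  field_simp
  ring

theorem th_mul_conj {V B b : ℤ} {D e₁ n p p' : ℕ} (hD : 0 < D) (he : 0 < e₁) (hn : 0 < n)
    (hp : 0 < p) (hp' : 0 < p') (hc : Nat.Coprime n (D * e₁ * p * p')) :
    th V B b D e₁ n p * (starRingEnd ℂ) (th V B b D e₁ n p') =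
      e ((b : ℝ) * B / (D * e₁) * (1 / p - 1 / p') / n) *
        e (((b * (D * V - B) * ((p' : ℤ) - p) : ℤ) : ℝ) * inv n (D * e₁ * p * p') /
          ((D * e₁ * p * p' : ℕ) : ℝ)) := by
  unfold th
  rw [map_mul, ← e_neg, ← e_neg]
  rw [e_inv_lift (Q := D * e₁ * p * p') (by positivity) (dvd_mul_right _ _) hc]
  have h1 : e (-(((b * (D * V - B) : ℤ) : ℝ) * inv n (D * e₁ * p') /
      ((D * e₁ * p' : ℕ) : ℝ))) =
      e (-(((b * (D * V - B) : ℤ) : ℝ) * inv n (D * e₁ * p * p') /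
      ((D * e₁ * p' : ℕ) : ℝ))) := by
    rw [e_neg, e_neg]
    rw [e_inv_lift (Q := D * e₁ * p * p') (by positivity) ⟨p, by ring⟩ hc]
  rw [h1, mul_mul_mul_comm, ← e_add, ← e_add]
  have hD' : (D : ℝ) ≠ 0 := by exact_mod_cast hD.ne'
  have he' : (e₁ : ℝ) ≠ 0 := by exact_mod_cast he.ne'
  have hn' : (n : ℝ) ≠ 0 := by exact_mod_cast hn.ne'
  have hpr : (p : ℝ) ≠ 0 := by exact_mod_cast hp.ne'
  have hpr' : (p' : ℝ) ≠ 0 := by exact_mod_cast hp'.ne'
  congr 1
  · congr 1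
    field_simp
    ring
  · congr 1
    push_cast
    field_simp
    ring

theorem second_moment {ι : Type*} (S : Finset ι) (p : ι → ℕ) (hp : ∀ s ∈ S, 0 < p s)
    (V B b : ℤ) (D e₁ : ℕ) (hD : 0 < D) (he : 0 < e₁) (hBD : IsCoprime B (D : ℤ))
    (N₁ N₂ : ℕ) (hN : 0 < N₁) (𝓜 : Finset ℕ) (h𝓜 : 𝓜 ⊆ Ico N₁ N₂)
    (hdvd : ∀ M ∈ 𝓜, (M : ℤ) ∣ D * V - B) (hce : ∀ M ∈ 𝓜, Nat.Coprime M e₁)
    (hcp : ∀ M ∈ 𝓜, ∀ s ∈ S, Nat.Coprime M (p s)) (lam : ℝ) (hlam : 0 ≤ lam)
    (hbad : ∀ M ∈ 𝓜, lam ≤ ‖∑ s ∈ S, e ((b : ℝ) * V / ((M : ℝ) * e₁ * p s))‖) :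
    (𝓜.card : ℝ) * lam ^ 2 ≤ ∑ s ∈ S, ∑ s' ∈ S,
      ‖∑ n ∈ (Ico N₁ N₂).filter (fun n => Nat.Coprime n (D * e₁ * p s * p s')),
        e ((b : ℝ) * B / (D * e₁) * (1 / p s - 1 / p s') / n) *
          e (((b * (D * V - B) * ((p s' : ℤ) - p s) : ℤ) : ℝ) * inv n (D * e₁ * p s * p s') /
            ((D * e₁ * p s * p s' : ℕ) : ℝ))‖ := by
  classical
  set Θ : ℕ → ι → ℂ := fun n s => if Nat.Coprime n (D * e₁ * p s) then
    th V B b D e₁ n (p s) else 0 with hΘ
  have h1 : (𝓜.card : ℝ) * lam ^ 2 ≤ ∑ n ∈ Ico N₁ N₂, ‖∑ s ∈ S, Θ n s‖ ^ 2 := by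
    calc (𝓜.card : ℝ) * lam ^ 2 = ∑ M ∈ 𝓜, lam ^ 2 := by
          rw [Finset.sum_const, nsmul_eq_mul]
      _ ≤ ∑ M ∈ 𝓜, ‖∑ s ∈ S, Θ M s‖ ^ 2 := by
          refine Finset.sum_le_sum fun M hM => ?_
          have hM0 : 0 < M := hN.trans_le (Finset.mem_Ico.mp (h𝓜 hM)).1
          have h2 : ∑ s ∈ S, Θ M s = ∑ s ∈ S, e ((b : ℝ) * V / ((M : ℝ) * e₁ * p s)) := by
            refine Finset.sum_congr rfl fun s hs => ?_
            have hc : Nat.Coprime M (D * e₁ * p s) :=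
              ((coprime_of_dvd hBD (hdvd M hM)).mul_right (hce M hM)).mul_right (hcp M hM s hs)
            simp only [hΘ]
            rw [if_pos hc, th_eq hD he hM0 (hp s hs) (hdvd M hM) hc]
          rw [h2]
          exact pow_le_pow_left₀ hlam (hbad M hM) 2
      _ ≤ ∑ n ∈ Ico N₁ N₂, ‖∑ s ∈ S, Θ n s‖ ^ 2 :=
          Finset.sum_le_sum_of_subset_of_nonneg h𝓜 (fun _ _ _ => by positivity)
  refine h1.trans ?_
  have h2 : ((∑ n ∈ Ico N₁ N₂, ‖∑ s ∈ S, Θ n s‖ ^ 2 : ℝ) : ℂ) =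
      ∑ s ∈ S, ∑ s' ∈ S, ∑ n ∈ Ico N₁ N₂, Θ n s * (starRingEnd ℂ) (Θ n s') := by
    push_cast
    have : ∀ n ∈ Ico N₁ N₂, ((‖∑ s ∈ S, Θ n s‖ : ℂ)) ^ 2 =
        ∑ s ∈ S, ∑ s' ∈ S, Θ n s * (starRingEnd ℂ) (Θ n s') := by
      intro n _
      rw [← Complex.mul_conj', map_sum, Finset.sum_mul_sum]
    rw [Finset.sum_congr rfl this, Finset.sum_comm]
    refine Finset.sum_congr rfl fun s _ => ?_
    rw [Finset.sum_comm]
  have h3 : (∑ n ∈ Ico N₁ N₂, ‖∑ s ∈ S, Θ n s‖ ^ 2 : ℝ) =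
      ‖((∑ n ∈ Ico N₁ N₂, ‖∑ s ∈ S, Θ n s‖ ^ 2 : ℝ) : ℂ)‖ := by
    rw [Complex.norm_real, Real.norm_of_nonneg (Finset.sum_nonneg fun _ _ => by positivity)]
  rw [h3, h2]
  refine (norm_sum_le _ _).trans (Finset.sum_le_sum fun s hs => ?_)
  refine (norm_sum_le _ _).trans (Finset.sum_le_sum fun s' hs' => ?_)
  refine le_of_eq (congrArg _ ?_)
  rw [Finset.sum_filter]
  refine Finset.sum_congr rfl fun n hn => ?_
  have hn0 : 0 < n := hN.trans_le (Finset.mem_Ico.mp hn).1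
  simp only [hΘ]
  by_cases hc : Nat.Coprime n (D * e₁ * p s * p s')
  · have hc1 : Nat.Coprime n (D * e₁ * p s) := hc.coprime_dvd_right (dvd_mul_right _ _)
    have hc2 : Nat.Coprime n (D * e₁ * p s') :=
      hc.coprime_dvd_right ⟨p s, by ring⟩
    rw [if_pos hc, if_pos hc1, if_pos hc2, th_mul_conj hD he hn0 (hp s hs) (hp s' hs') hc]
  · rw [if_neg hc]
    by_cases hc1 : Nat.Coprime n (D * e₁ * p s)
    · have hc2 : ¬ Nat.Coprime n (D * e₁ * p s') := by
        intro hc2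
        apply hc
        have h4 : Nat.Coprime n (p s') := hc2.coprime_dvd_right (dvd_mul_left _ _)
        exact hc1.mul_right h4
      rw [if_neg hc2, map_zero, mul_zero]
    · rw [if_neg hc1, zero_mul]

end Vale.Agent.P013.J.Ntl
end

section

/-!
# Natural theorem, part 4: counting pairs
-/

open Finset

namespace Vale.Agent.P013.J.Ntl

/-- the box -/
noncomputable def box (r : ℕ) (I : ℕ → Finset ℕ) : Finset (Fin (r + 1) → ℕ) :=
  Fintype.piFinset (fun j : Fin (r + 1) => I j)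

/-- product of a tuple -/
def pr {r : ℕ} (s : Fin (r + 1) → ℕ) : ℕ := ∏ j, s j

theorem pr_eq {r : ℕ} (s : Fin (r + 1) → ℕ) : pr s = s 0 * ∏ j, Fin.tail s j := by
  unfold pr
  rw [Fin.prod_univ_succ]
  rfl

theorem mem_box {r : ℕ} {I : ℕ → Finset ℕ} {s : Fin (r + 1) → ℕ} (hs : s ∈ box r I) (j : Fin (r + 1)) :
    s j ∈ I j := by
  unfold box at hs
  rw [Fintype.mem_piFinset] at hs
  exact hs j

theorem card_box (r : ℕ) (I : ℕ → Finset ℕ) :
    (box r I).card = ∏ j ∈ range (r + 1), (I j).card := by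
  unfold box
  rw [Fintype.card_piFinset, Fin.prod_univ_eq_prod_range (fun j => (I j).card)]

/-- elements of a short interval in one class -/
theorem card_class_le (A : Finset ℕ) (x ℓ : ℝ) (hℓ : 0 ≤ ℓ) (d : ℕ) (hd : 0 < d)
    (h1 : ∀ k ∈ A, x ≤ (k : ℝ)) (h2 : ∀ k ∈ A, (k : ℝ) ≤ x + ℓ)
    (h3 : ∀ k ∈ A, ∀ k' ∈ A, (d : ℤ) ∣ (k : ℤ) - k') : (A.card : ℝ) ≤ ℓ / d + 1 := by
  have hd' : (0 : ℝ) < d := by exact_mod_cast hd
  rcases A.eq_empty_or_nonempty with rfl | hne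
  · simp; positivity
  set m := A.min' hne with hm
  have hmA : m ∈ A := Finset.min'_mem A hne
  have hinj : A.card ≤ (range (⌊ℓ / d⌋₊ + 1)).card := by
    apply Finset.card_le_card_of_injOn (fun k => (k - m) / d)
    · intro k hk
      have hk' : k ∈ A := hk
      have hmk : m ≤ k := Finset.min'_le A k hk'
      simp only [Finset.coe_range, Set.mem_Iio]
      apply Nat.lt_succ_of_le
      apply Nat.le_floor
      have h4 : (((k - m) / d : ℕ) : ℝ) ≤ ((k - m : ℕ) : ℝ) / d := Nat.cast_div_le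
      refine h4.trans (div_le_div_of_nonneg_right ?_ hd'.le)
      rw [Nat.cast_sub hmk]
      linarith only [h1 m hmA, h2 k hk']
    · intro k hk k' hk' hkk
      have hk1 : k ∈ A := hk
      have hk2 : k' ∈ A := hk'
      have hmk : m ≤ k := Finset.min'_le A k hk1
      have hmk' : m ≤ k' := Finset.min'_le A k' hk2
      obtain ⟨a, ha⟩ := h3 k hk1 m hmA
      obtain ⟨a', ha'⟩ := h3 k' hk2 m hmA
      have e1 : (k - m : ℕ) = d * a.toNat := by
        have ha0 : 0 ≤ a := by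
          by_contra hneg
          push Not at hneg
          have : (d : ℤ) * a < 0 := mul_neg_of_pos_of_neg (by exact_mod_cast hd) hneg
          omega
        zify [hmk]
        rw [Int.toNat_of_nonneg ha0]; exact ha
      have e2 : (k' - m : ℕ) = d * a'.toNat := by
        have ha0 : 0 ≤ a' := by
          by_contra hneg
          push Not at hneg
          have : (d : ℤ) * a' < 0 := mul_neg_of_pos_of_neg (by exact_mod_cast hd) hneg
          omega
        zify [hmk']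
        rw [Int.toNat_of_nonneg ha0]; exact ha'
      simp only [] at hkk
      rw [e1, e2, Nat.mul_div_cancel_left _ hd, Nat.mul_div_cancel_left _ hd] at hkk
      rw [hkk] at e1
      omega
  rw [Finset.card_range] at hinj
  calc (A.card : ℝ) ≤ ((⌊ℓ / d⌋₊ + 1 : ℕ) : ℝ) := by exact_mod_cast hinj
    _ = (⌊ℓ / d⌋₊ : ℝ) + 1 := by push_cast; ring
    _ ≤ ℓ / d + 1 := by
        have := Nat.floor_le (show 0 ≤ ℓ / d by positivity)
        linarith only [this]

theorem card_interval_le (A : Finset ℕ) (x ℓ : ℝ) (hℓ : 0 ≤ ℓ)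
    (h1 : ∀ k ∈ A, x ≤ (k : ℝ)) (h2 : ∀ k ∈ A, (k : ℝ) ≤ x + ℓ) : (A.card : ℝ) ≤ ℓ + 1 := by
  have := card_class_le A x ℓ hℓ 1 one_pos h1 h2 (fun k _ k' _ => by simp)
  simpa using this

/-- counting through the fibres of the tail -/
theorem card_le_of_fiber (r : ℕ) (I : ℕ → Finset ℕ) (T : Finset (Fin (r + 1) → ℕ))
    (hT : T ⊆ box r I) (x : ℝ)
    (hx : ∀ v : Fin r → ℕ, (((T.filter (fun s => Fin.tail s = v)).card : ℕ) : ℝ) ≤ x) :
    (T.card : ℝ) ≤ x * ∏ j ∈ range r, ((I (j + 1)).card : ℝ) := by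
  classical
  have hmaps : ∀ s ∈ T, Fin.tail s ∈ Fintype.piFinset (fun j : Fin r => I (j + 1)) := by
    intro s hs
    rw [Fintype.mem_piFinset]
    intro j
    have := mem_box (hT hs) j.succ
    simpa [Fin.tail] using this
  have h1 : T.card = ∑ v ∈ Fintype.piFinset (fun j : Fin r => I (j + 1)),
      (T.filter (fun s => Fin.tail s = v)).card := Finset.card_eq_sum_card_fiberwise hmaps
  rw [h1]
  push_cast
  calc ∑ v ∈ Fintype.piFinset (fun j : Fin r => I (j + 1)),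
        ((T.filter (fun s => Fin.tail s = v)).card : ℝ)
      ≤ ∑ v ∈ Fintype.piFinset (fun j : Fin r => I (j + 1)), x :=
        Finset.sum_le_sum fun v _ => hx v
    _ = x * ∏ j ∈ range r, ((I (j + 1)).card : ℝ) := by
        rw [Finset.sum_const, nsmul_eq_mul, Fintype.card_piFinset,
          Fin.prod_univ_eq_prod_range (fun j => (I (j + 1)).card)]
        push_cast; ring

/-- the fibre over a fixed tail injects into the first coordinates -/
theorem fiber_card {r : ℕ} (T : Finset (Fin (r + 1) → ℕ)) (v : Fin r → ℕ) :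
    (T.filter (fun s => Fin.tail s = v)).card =
      ((T.filter (fun s => Fin.tail s = v)).image (fun s => s 0)).card := by
  classical
  rw [Finset.card_image_of_injOn]
  intro s hs s' hs' h
  simp only [Finset.coe_filter, Set.mem_ofPred_eq] at hs hs'
  have h0 : s 0 = s' 0 := h
  rw [← Fin.cons_self_tail s, ← Fin.cons_self_tail s', hs.2, hs'.2, h0]

/-- hypotheses on the boxes -/
structure Boxes (r : ℕ) (I : ℕ → Finset ℕ) (P : ℕ → ℝ) (κ W : ℝ) : Prop where
  hP : ∀ j ≤ r, 0 < P j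
  hκ : 0 < κ
  hκ1 : κ ≤ 1
  hW : 0 < W
  hWP : ∀ j ≤ r, W ≤ κ * P j
  prime : ∀ j ≤ r, ∀ p ∈ I j, p.Prime
  lo : ∀ j ≤ r, ∀ p ∈ I j, P j ≤ (p : ℝ)
  hi : ∀ j ≤ r, ∀ p ∈ I j, (p : ℝ) ≤ (1 + κ) * P j

variable {r : ℕ} {I : ℕ → Finset ℕ} {P : ℕ → ℝ} {κ W : ℝ}

/-- full size of the box -/
noncomputable def SS (r : ℕ) (P : ℕ → ℝ) (κ : ℝ) : ℝ := ∏ j ∈ range (r + 1), (κ * P j + 1)

theorem Boxes.x_pos (h : Boxes r I P κ W) {j : ℕ} (hj : j ≤ r) : 0 < κ * P j + 1 := by
  have := mul_pos h.hκ (h.hP j hj); linarith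

theorem Boxes.SS_pos (h : Boxes r I P κ W) : 0 < SS r P κ :=
  Finset.prod_pos fun j hj => h.x_pos (Nat.lt_succ_iff.mp (Finset.mem_range.mp hj))

theorem Boxes.card_le (h : Boxes r I P κ W) {j : ℕ} (hj : j ≤ r) :
    ((I j).card : ℝ) ≤ κ * P j + 1 := by
  refine card_interval_le (I j) (P j) (κ * P j) (mul_pos h.hκ (h.hP j hj)).le
    (h.lo j hj) (fun k hk => ?_)
  have := h.hi j hj k hk; linarith

theorem Boxes.box_card_le (h : Boxes r I P κ W) : ((box r I).card : ℝ) ≤ SS r P κ := by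
  rw [card_box]
  push_cast
  exact Finset.prod_le_prod (fun _ _ => Nat.cast_nonneg _) fun j hj =>
    h.card_le (Nat.lt_succ_iff.mp (Finset.mem_range.mp hj))

/-- a fibrewise bound `a κ P₀ + 1`-type gives a relative bound -/
theorem Boxes.fiber_rel (h : Boxes r I P κ W) (T : Finset (Fin (r + 1) → ℕ))
    (hT : T ⊆ box r I) (x : ℝ) (hx0 : 0 ≤ x)
    (hx : ∀ v : Fin r → ℕ, (((T.filter (fun s => Fin.tail s = v)).card : ℕ) : ℝ) ≤
      x * (κ * P 0) + 1) : (T.card : ℝ) ≤ SS r P κ * (x + 1 / W) := by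
  have h1 := card_le_of_fiber r I T hT _ hx
  refine h1.trans ?_
  have h2 : ∏ j ∈ range r, ((I (j + 1)).card : ℝ) ≤ ∏ j ∈ range r, (κ * P (j + 1) + 1) :=
    Finset.prod_le_prod (fun _ _ => Nat.cast_nonneg _) fun j hj =>
      h.card_le (Finset.mem_range.mp hj)
  have h3 : 0 ≤ ∏ j ∈ range r, (κ * P (j + 1) + 1) :=
    Finset.prod_nonneg fun j hj => (h.x_pos (Finset.mem_range.mp hj)).le
  have hP0 := mul_pos h.hκ (h.hP 0 (Nat.zero_le _))
  have hW0 := h.hW
  have hWP := h.hWP 0 (Nat.zero_le _)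
  have hSS : SS r P κ = (∏ j ∈ range r, (κ * P (j + 1) + 1)) * (κ * P 0 + 1) := by
    unfold SS; rw [Finset.prod_range_succ']
  rw [hSS]
  have h4 : x * (κ * P 0) + 1 ≤ (κ * P 0 + 1) * (x + 1 / W) := by
    have : 1 ≤ κ * P 0 / W := by rw [le_div_iff₀ hW0]; linarith
    have h5 : (κ * P 0 + 1) * (x + 1 / W) = x * (κ * P 0) + κ * P 0 / W + x + 1 / W := by
      field_simp
      ring
    rw [h5]
    have : 0 < 1 / W := by positivity
    linarith
  calc (x * (κ * P 0) + 1) * ∏ j ∈ range r, ((I (j + 1)).card : ℝ)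
      ≤ (x * (κ * P 0) + 1) * ∏ j ∈ range r, (κ * P (j + 1) + 1) :=
        mul_le_mul_of_nonneg_left h2 (by positivity)
    _ ≤ ((κ * P 0 + 1) * (x + 1 / W)) * ∏ j ∈ range r, (κ * P (j + 1) + 1) :=
        mul_le_mul_of_nonneg_right h4 h3
    _ = _ := by ring

/-- congruence count -/
theorem Boxes.class_count (h : Boxes r I P κ W) (d : ℕ) (hd : 0 < d) (c : ℤ) :
    ((((box r I).filter (fun s => Nat.Coprime (∏ j, Fin.tail s j) d ∧
      (d : ℤ) ∣ c - (pr s : ℤ))).card : ℕ) : ℝ) ≤ SS r P κ * (1 / d + 1 / W) := by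
  classical
  have hd' : (0 : ℝ) < d := by exact_mod_cast hd
  apply h.fiber_rel _ (Finset.filter_subset _ _) (1 / d) (by positivity)
  intro v
  rw [fiber_card]
  have hP0 := mul_pos h.hκ (h.hP 0 (Nat.zero_le _))
  have := card_class_le (((((box r I).filter (fun s => Nat.Coprime (∏ j, Fin.tail s j) d ∧
      (d : ℤ) ∣ c - (pr s : ℤ))).filter (fun s => Fin.tail s = v)).image (fun s => s 0)))
      (P 0) (κ * P 0) hP0.le d hd ?_ ?_ ?_
  · refine this.trans (le_of_eq (by ring))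
  · intro k hk
    simp only [Finset.mem_image, Finset.mem_filter] at hk
    obtain ⟨s, ⟨⟨hs, _⟩, _⟩, rfl⟩ := hk
    exact h.lo 0 (Nat.zero_le _) _ (mem_box hs 0)
  · intro k hk
    simp only [Finset.mem_image, Finset.mem_filter] at hk
    obtain ⟨s, ⟨⟨hs, _⟩, _⟩, rfl⟩ := hk
    have := h.hi 0 (Nat.zero_le _) _ (mem_box hs 0)
    linarith only [this]
  · intro k hk k' hk'
    simp only [Finset.mem_image, Finset.mem_filter] at hk hk'
    obtain ⟨s, ⟨⟨_, hs1, hs2⟩, hs3⟩, rfl⟩ := hk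
    obtain ⟨s', ⟨⟨_, _, hs2'⟩, hs3'⟩, rfl⟩ := hk'
    rw [pr_eq, hs3] at hs2
    rw [pr_eq, hs3'] at hs2'
    rw [hs3] at hs1
    have h4 : (d : ℤ) ∣ ((∏ j, v j : ℕ) : ℤ) * ((s 0 : ℤ) - s' 0) := by
      have h5 := dvd_sub hs2' hs2
      have h6 : ((∏ j, v j : ℕ) : ℤ) * ((s 0 : ℤ) - s' 0) =
          c - ((s' 0 * ∏ j, v j : ℕ) : ℤ) - (c - ((s 0 * ∏ j, v j : ℕ) : ℤ)) := by
        push_cast; ring
      rw [h6]; exact h5
    have h7 : IsCoprime (d : ℤ) ((∏ j, v j : ℕ) : ℤ) :=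
      (Nat.isCoprime_iff_coprime.mpr hs1).symm
    exact h7.dvd_of_dvd_mul_left h4

/-- count of close products -/
theorem Boxes.close_count (h : Boxes r I P κ W) (η x : ℝ) (hη : 0 ≤ η) (hx0 : 0 ≤ x)
    (hx : x ≤ 2 ^ (r + 1) * ∏ j ∈ range (r + 1), P j) :
    ((((box r I).filter (fun s => |(pr s : ℝ) - x| ≤ η * x)).card : ℕ) : ℝ) ≤
      SS r P κ * (2 ^ (r + 2) * η / κ + 1 / W) := by
  classical
  have hκ := h.hκ
  apply h.fiber_rel _ (Finset.filter_subset _ _) _ (by positivity)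
  intro v
  rw [fiber_card]
  set A := (((box r I).filter (fun s => |(pr s : ℝ) - x| ≤ η * x)).filter
    (fun s => Fin.tail s = v)).image (fun s => s 0) with hA
  rcases A.eq_empty_or_nonempty with h0 | ⟨k₀, hk₀⟩
  · rw [h0]; simp
    have := mul_pos h.hκ (h.hP 0 (Nat.zero_le _))
    (clear * - hη hκ this; positivity)
  -- size of the tail product
  have hPr : 0 < ∏ j ∈ range r, P (j + 1) := Finset.prod_pos fun j hj =>
    h.hP _ (Finset.mem_range.mp hj)
  have hu : ∏ j ∈ range r, P (j + 1) ≤ ((∏ j, v j : ℕ) : ℝ) := by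
    rw [hA] at hk₀
    simp only [Finset.mem_image, Finset.mem_filter] at hk₀
    obtain ⟨s, ⟨⟨hs, _⟩, hs3⟩, _⟩ := hk₀
    push_cast
    rw [← Fin.prod_univ_eq_prod_range (fun j => P (j + 1))]
    refine Finset.prod_le_prod (fun j _ => (h.hP _ (by omega)).le) fun j _ => ?_
    rw [← hs3]
    have := h.lo (j + 1) (by omega) (s j.succ) (by simpa using mem_box hs j.succ)
    simpa [Fin.tail] using this
  set u : ℝ := ((∏ j, v j : ℕ) : ℝ) with hudef
  have hu0 : 0 < u := hPr.trans_le hu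
  have := card_interval_le A ((x - η * x) / u) (2 * η * x / u) (by (clear * - hη hx0 hu0; positivity)) ?_ ?_
  · refine this.trans ?_
    have h1 : 2 * η * x / u ≤ 2 ^ (r + 2) * η * P 0 := by
      rw [div_le_iff₀ hu0]
      have h2 : x ≤ 2 ^ (r + 1) * (u * P 0) := by
        refine hx.trans ?_
        rw [Finset.prod_range_succ']
        have := h.hP 0 (Nat.zero_le _)
        gcongr
      calc 2 * η * x ≤ 2 * η * (2 ^ (r + 1) * (u * P 0)) :=
            mul_le_mul_of_nonneg_left h2 (by positivity)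
        _ = 2 ^ (r + 2) * η * P 0 * u := by ring
    have h3 : 2 ^ (r + 2) * η / κ * (κ * P 0) = 2 ^ (r + 2) * η * P 0 := by
      field_simp
    rw [h3]; linarith only [h1]
  · intro k hk
    rw [hA] at hk
    simp only [Finset.mem_image, Finset.mem_filter] at hk
    obtain ⟨s, ⟨⟨_, hs2⟩, hs3⟩, rfl⟩ := hk
    rw [pr_eq, hs3, Nat.cast_mul] at hs2
    rw [div_le_iff₀ hu0]
    have := (abs_le.mp hs2).1
    linarith
  · intro k hk
    rw [hA] at hk
    simp only [Finset.mem_image, Finset.mem_filter] at hk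
    obtain ⟨s, ⟨⟨_, hs2⟩, hs3⟩, rfl⟩ := hk
    rw [pr_eq, hs3, Nat.cast_mul] at hs2
    rw [← add_div, le_div_iff₀ hu0]
    have := (abs_le.mp hs2).2
    linarith

end Vale.Agent.P013.J.Ntl
end

section

/-!
# Natural theorem, part 5: sums over pairs
-/

open Finset

namespace Vale.Agent.P013.J.Ntl

variable {r : ℕ} {I : ℕ → Finset ℕ} {P : ℕ → ℝ} {κ W : ℝ}

theorem SS_eq_fin (r : ℕ) (P : ℕ → ℝ) (κ : ℝ) :
    SS r P κ = ∏ i : Fin (r + 1), (κ * P i + 1) := by
  unfold SS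
  rw [Fin.prod_univ_eq_prod_range (fun j => κ * P j + 1)]

/-- tuples with a given coordinate dividing `D` -/
theorem Boxes.coord_count (h : Boxes r I P κ W) (D : ℕ) (hD : 0 < D) (j₀ : Fin (r + 1)) :
    ((((box r I).filter (fun s => s j₀ ∣ D)).card : ℕ) : ℝ) ≤
      SS r P κ * (D.primeFactors.card / W) := by
  classical
  have hW := h.hW
  have hset : (box r I).filter (fun s => s j₀ ∣ D) =
      Fintype.piFinset (fun i : Fin (r + 1) =>
        if i = j₀ then (I i).filter (fun p => p ∣ D) else I i) := by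
    ext s
    unfold box
    rw [Finset.mem_filter, Fintype.mem_piFinset, Fintype.mem_piFinset]
    constructor
    · rintro ⟨h1, h2⟩ i
      split_ifs with hi
      · subst hi; rw [Finset.mem_filter]; exact ⟨h1 i, h2⟩
      · exact h1 i
    · intro h1
      refine ⟨fun i => ?_, ?_⟩
      · have := h1 i
        split_ifs at this with hi
        · exact (Finset.mem_filter.mp this).1
        · exact this
      · have := h1 j₀
        rw [if_pos rfl] at this
        exact (Finset.mem_filter.mp this).2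
  rw [hset, Fintype.card_piFinset]
  push_cast
  rw [← Finset.mul_prod_erase Finset.univ _ (Finset.mem_univ j₀), if_pos rfl, SS_eq_fin,
    ← Finset.mul_prod_erase Finset.univ (fun i : Fin (r + 1) => κ * P i + 1)
      (Finset.mem_univ j₀)]
  have h1 : (((I j₀).filter (fun p => p ∣ D)).card : ℝ) ≤ D.primeFactors.card := by
    have : (I j₀).filter (fun p => p ∣ D) ⊆ D.primeFactors := by
      intro p hp
      rw [Finset.mem_filter] at hp
      rw [Nat.mem_primeFactors]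
      exact ⟨h.prime j₀ (by omega) p hp.1, hp.2, hD.ne'⟩
    exact_mod_cast Finset.card_le_card this
  have h2 : ∏ i ∈ Finset.univ.erase j₀, (((if i = j₀ then (I i).filter (fun p => p ∣ D)
      else I i).card : ℕ) : ℝ) ≤ ∏ i ∈ Finset.univ.erase j₀, (κ * P (i : ℕ) + 1) := by
    refine Finset.prod_le_prod (fun _ _ => Nat.cast_nonneg _) fun i hi => ?_
    rw [if_neg (Finset.ne_of_mem_erase hi)]
    exact h.card_le (by omega)
  have h3 : 0 ≤ ∏ i ∈ Finset.univ.erase j₀, (κ * P (i : ℕ) + 1) :=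
    Finset.prod_nonneg fun i _ => (h.x_pos (by omega)).le
  have h4 : W ≤ κ * P j₀ + 1 := by
    have := h.hWP j₀ (by omega); linarith only [this]
  calc (((I j₀).filter (fun p => p ∣ D)).card : ℝ) * ∏ i ∈ Finset.univ.erase j₀,
        (((if i = j₀ then (I i).filter (fun p => p ∣ D) else I i).card : ℕ) : ℝ)
      ≤ (D.primeFactors.card : ℝ) * ∏ i ∈ Finset.univ.erase j₀, (κ * P (i : ℕ) + 1) :=
        mul_le_mul h1 h2 (Finset.prod_nonneg fun _ _ => Nat.cast_nonneg _) (Nat.cast_nonneg _)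
    _ = W * (∏ i ∈ Finset.univ.erase j₀, (κ * P (i : ℕ) + 1)) *
          (D.primeFactors.card / W) := by field_simp
    _ ≤ (κ * P j₀ + 1) * (∏ i ∈ Finset.univ.erase j₀, (κ * P (i : ℕ) + 1)) *
          (D.primeFactors.card / W) := by
        refine mul_le_mul_of_nonneg_right (mul_le_mul_of_nonneg_right h4 h3) (by (clear * - hW; positivity))

/-- tuples whose tail is not coprime to `D` -/
theorem Boxes.bad_count (h : Boxes r I P κ W) (D : ℕ) (hD : 0 < D) :
    ((((box r I).filter (fun s => ¬ Nat.Coprime (∏ j, Fin.tail s j) D)).card : ℕ) : ℝ) ≤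
      SS r P κ * (r * D.primeFactors.card / W) := by
  classical
  have hsub : (box r I).filter (fun s => ¬ Nat.Coprime (∏ j, Fin.tail s j) D) ⊆
      (Finset.univ : Finset (Fin r)).biUnion
        (fun j => (box r I).filter (fun s => s j.succ ∣ D)) := by
    intro s hs
    rw [Finset.mem_filter] at hs
    rw [Finset.mem_biUnion]
    by_contra hcon
    push Not at hcon
    apply hs.2
    apply Nat.Coprime.prod_left
    intro j _
    have h1 := hcon j (Finset.mem_univ _)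
    rw [Finset.mem_filter] at h1
    have h2 : ¬ s j.succ ∣ D := fun h2 => h1 ⟨hs.1, h2⟩
    have hp : (s j.succ).Prime := h.prime (j + 1) (by omega) _ (by simpa using mem_box hs.1 j.succ)
    exact (Nat.Prime.coprime_iff_not_dvd hp).mpr h2
  calc ((((box r I).filter (fun s => ¬ Nat.Coprime (∏ j, Fin.tail s j) D)).card : ℕ) : ℝ)
      ≤ (((Finset.univ : Finset (Fin r)).biUnion
        (fun j => (box r I).filter (fun s => s j.succ ∣ D))).card : ℝ) := by
        exact_mod_cast Finset.card_le_card hsub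
    _ ≤ ∑ j : Fin r, (((box r I).filter (fun s => s j.succ ∣ D)).card : ℝ) := by
        exact_mod_cast Finset.card_biUnion_le
    _ ≤ ∑ _j : Fin r, SS r P κ * (D.primeFactors.card / W) :=
        Finset.sum_le_sum fun j _ => h.coord_count D hD j.succ
    _ = _ := by
        rw [Finset.sum_const, Finset.card_univ, Fintype.card_fin, nsmul_eq_mul]; ring

/-- sum of the gcd's over pairs -/
theorem Boxes.gcd_sum (h : Boxes r I P κ W) (D : ℕ) (hD : 0 < D) (G : ℕ) (hG : 0 < G) :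
    ∑ s ∈ box r I, ∑ s' ∈ box r I, (if pr s = pr s' then 0 else
      (Int.gcd (D : ℤ) ((pr s' : ℤ) - pr s) : ℝ) / D) ≤
      SS r P κ ^ 2 * (1 / G + G * (G / D + (1 + r * D.primeFactors.card) / W)) := by
  classical
  have hD' : (0 : ℝ) < D := by exact_mod_cast hD
  have hG' : (0 : ℝ) < G := by exact_mod_cast hG
  have hW := h.hW
  have hSS := h.SS_pos
  have hpt : ∀ s s' : Fin (r + 1) → ℕ, (if pr s = pr s' then (0 : ℝ) else
      (Int.gcd (D : ℤ) ((pr s' : ℤ) - pr s) : ℝ) / D) ≤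
      1 / G + ∑ k ∈ (Icc 1 G).filter (fun k => k ∣ D),
        (if ((D / k : ℕ) : ℤ) ∣ (pr s : ℤ) - pr s' then (1 : ℝ) else 0) := by
    intro s s'
    have hnn : (0 : ℝ) ≤ ∑ k ∈ (Icc 1 G).filter (fun k => k ∣ D),
        (if ((D / k : ℕ) : ℤ) ∣ (pr s : ℤ) - pr s' then (1 : ℝ) else 0) :=
      Finset.sum_nonneg fun k _ => by split_ifs <;> norm_num
    split_ifs with hp
    · (clear * - hG; positivity)
    set g := Int.gcd (D : ℤ) ((pr s' : ℤ) - pr s) with hg
    have hgD : g ∣ D := by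
      have : ((g : ℕ) : ℤ) ∣ (D : ℤ) := Int.gcd_dvd_left _ _
      exact_mod_cast this
    have hgs : ((g : ℕ) : ℤ) ∣ (pr s : ℤ) - pr s' := by
      have : ((g : ℕ) : ℤ) ∣ (pr s' : ℤ) - pr s := Int.gcd_dvd_right _ _
      rw [← Int.dvd_neg, neg_sub]; exact this
    have hg0 : 0 < g := Nat.pos_of_dvd_of_pos hgD hD
    by_cases hc : g * G ≤ D
    · have h1 : (g : ℝ) / D ≤ 1 / G := by
        rw [div_le_div_iff₀ hD' hG']
        have : ((g * G : ℕ) : ℝ) ≤ D := by exact_mod_cast hc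
        push_cast at this
        linarith only [this]
      linarith only [hnn, h1]
    · push Not at hc
      obtain ⟨k, hk⟩ := hgD
      have hk0 : 0 < k := by
        rcases Nat.eq_zero_or_pos k with rfl | h0
        · omega
        · exact h0
      have hkG : k ≤ G := by
        rw [hk] at hc
        exact (lt_of_mul_lt_mul_left hc (Nat.zero_le g)).le
      have hDk : D / k = g := by rw [hk]; exact Nat.mul_div_cancel g hk0
      have hkmem : k ∈ (Icc 1 G).filter (fun k => k ∣ D) := by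
        rw [Finset.mem_filter, Finset.mem_Icc]
        exact ⟨⟨hk0, hkG⟩, ⟨g, by rw [hk]; ring⟩⟩
      have h2 : (1 : ℝ) ≤ ∑ k ∈ (Icc 1 G).filter (fun k => k ∣ D),
          (if ((D / k : ℕ) : ℤ) ∣ (pr s : ℤ) - pr s' then (1 : ℝ) else 0) := by
        have := Finset.single_le_sum (f := fun k => (if ((D / k : ℕ) : ℤ) ∣ (pr s : ℤ) - pr s'
          then (1 : ℝ) else 0)) (fun k _ => by split_ifs <;> norm_num) hkmem
        simp only [hDk] at this
        rwa [if_pos hgs] at this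
      have h3 : (g : ℝ) / D ≤ 1 := by
        rw [div_le_one hD']
        exact_mod_cast Nat.le_of_dvd hD ⟨k, hk⟩
      have : 0 < 1 / (G : ℝ) := by positivity
      linarith only [h2, h3, this]
  have hcard := h.box_card_le
  -- the class sums
  have hclass : ∀ s ∈ box r I, ∀ k ∈ (Icc 1 G).filter (fun k => k ∣ D),
      ∑ s' ∈ box r I, (if ((D / k : ℕ) : ℤ) ∣ (pr s : ℤ) - pr s' then (1 : ℝ) else 0) ≤
        SS r P κ * (G / D + (1 + r * D.primeFactors.card) / W) := by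
    intro s _ k hk
    rw [Finset.mem_filter, Finset.mem_Icc] at hk
    obtain ⟨⟨hk1, hk2⟩, hkD⟩ := hk
    rw [← Finset.sum_filter, Finset.sum_const, nsmul_eq_mul, mul_one]
    have hd : 0 < D / k := Nat.div_pos (Nat.le_of_dvd hD hkD) hk1
    have hsub : (box r I).filter (fun s' => ((D / k : ℕ) : ℤ) ∣ (pr s : ℤ) - pr s') ⊆
        ((box r I).filter (fun s' => Nat.Coprime (∏ j, Fin.tail s' j) (D / k) ∧
          ((D / k : ℕ) : ℤ) ∣ (pr s : ℤ) - (pr s' : ℤ))) ∪
        ((box r I).filter (fun s' => ¬ Nat.Coprime (∏ j, Fin.tail s' j) D)) := by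
      intro s' hs'
      rw [Finset.mem_filter] at hs'
      rw [Finset.mem_union, Finset.mem_filter, Finset.mem_filter]
      by_cases hc : Nat.Coprime (∏ j, Fin.tail s' j) D
      · left
        exact ⟨hs'.1, hc.coprime_dvd_right (Nat.div_dvd_of_dvd hkD), hs'.2⟩
      · right; exact ⟨hs'.1, hc⟩
    have h1 := h.class_count (D / k) hd (pr s)
    have h2 := h.bad_count D hD
    have h3 : (((box r I).filter (fun s' => ((D / k : ℕ) : ℤ) ∣ (pr s : ℤ) - pr s')).card : ℝ) ≤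
        ((((box r I).filter (fun s' => Nat.Coprime (∏ j, Fin.tail s' j) (D / k) ∧
          ((D / k : ℕ) : ℤ) ∣ (pr s : ℤ) - (pr s' : ℤ))).card : ℕ) : ℝ) +
        ((((box r I).filter (fun s' => ¬ Nat.Coprime (∏ j, Fin.tail s' j) D)).card : ℕ) : ℝ) := by
      exact_mod_cast (Finset.card_le_card hsub).trans (Finset.card_union_le _ _)
    have h4 : (1 : ℝ) / ((D / k : ℕ) : ℝ) ≤ G / D := by
      have hk0 : (k : ℝ) ≠ 0 := by exact_mod_cast (show 0 < k from hk1).ne'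
      rw [Nat.cast_div hkD hk0, one_div_div]
      exact div_le_div_of_nonneg_right (by exact_mod_cast hk2) hD'.le
    calc _ ≤ SS r P κ * (1 / ((D / k : ℕ) : ℝ) + 1 / W) +
          SS r P κ * (r * D.primeFactors.card / W) := h3.trans (add_le_add h1 h2)
      _ ≤ SS r P κ * (G / D + 1 / W) + SS r P κ * (r * D.primeFactors.card / W) := by
          gcongr
      _ = _ := by ring
  calc ∑ s ∈ box r I, ∑ s' ∈ box r I, (if pr s = pr s' then (0 : ℝ) else
        (Int.gcd (D : ℤ) ((pr s' : ℤ) - pr s) : ℝ) / D)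
      ≤ ∑ s ∈ box r I, ∑ s' ∈ box r I, (1 / (G : ℝ) + ∑ k ∈ (Icc 1 G).filter (fun k => k ∣ D),
        (if ((D / k : ℕ) : ℤ) ∣ (pr s : ℤ) - pr s' then (1 : ℝ) else 0)) :=
        Finset.sum_le_sum fun s _ => Finset.sum_le_sum fun s' _ => hpt s s'
    _ = ∑ s ∈ box r I, ((box r I).card * (1 / (G : ℝ)) +
          ∑ k ∈ (Icc 1 G).filter (fun k => k ∣ D), ∑ s' ∈ box r I,
            (if ((D / k : ℕ) : ℤ) ∣ (pr s : ℤ) - pr s' then (1 : ℝ) else 0)) := by
        refine Finset.sum_congr rfl fun s _ => ?_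
        rw [Finset.sum_add_distrib, Finset.sum_const, nsmul_eq_mul, Finset.sum_comm]
    _ ≤ ∑ s ∈ box r I, (SS r P κ * (1 / (G : ℝ)) +
          G * (SS r P κ * (G / D + (1 + r * D.primeFactors.card) / W))) := by
        refine Finset.sum_le_sum fun s hs => add_le_add ?_ ?_
        · exact mul_le_mul_of_nonneg_right hcard (by positivity)
        · refine (Finset.sum_le_sum (hclass s hs)).trans ?_
          rw [Finset.sum_const, nsmul_eq_mul]
          refine mul_le_mul_of_nonneg_right ?_ (by (clear * - hSS hG hD hW; positivity))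
          have : ((Icc 1 G).filter (fun k => k ∣ D)).card ≤ G := by
            refine (Finset.card_filter_le _ _).trans ?_
            rw [Nat.card_Icc]; omega
          exact_mod_cast this
    _ = (box r I).card * (SS r P κ * (1 / (G : ℝ) + G * (G / D +
          (1 + r * D.primeFactors.card) / W))) := by
        rw [Finset.sum_const, nsmul_eq_mul]; ring
    _ ≤ SS r P κ * (SS r P κ * (1 / (G : ℝ) + G * (G / D +
          (1 + r * D.primeFactors.card) / W))) :=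
        mul_le_mul_of_nonneg_right hcard (by (clear * - hSS hG hD hW; positivity))
    _ = _ := by ring

/-- upper bound for a product -/
theorem Boxes.pr_le (h : Boxes r I P κ W) {s : Fin (r + 1) → ℕ} (hs : s ∈ box r I) :
    (pr s : ℝ) ≤ 2 ^ (r + 1) * ∏ j ∈ range (r + 1), P j := by
  unfold pr
  push_cast
  rw [← Fin.prod_univ_eq_prod_range (fun j => P j)]
  calc ∏ j : Fin (r + 1), (s j : ℝ) ≤ ∏ j : Fin (r + 1), (2 * P j) := by
        refine Finset.prod_le_prod (fun _ _ => Nat.cast_nonneg _) fun j _ => ?_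
        have h1 := h.hi j (by omega) _ (mem_box hs j)
        have h2 := h.hκ1
        have h3 := h.hP j (by omega)
        linarith only [h1, mul_nonneg (sub_nonneg.2 h2) (le_of_lt (sub_pos.2 h3))]
    _ = _ := by
        rw [Finset.prod_mul_distrib, Finset.prod_const, Finset.card_univ, Fintype.card_fin]

theorem Boxes.pr_pos (h : Boxes r I P κ W) {s : Fin (r + 1) → ℕ} (hs : s ∈ box r I) :
    0 < pr s := by
  unfold pr
  exact Finset.prod_pos fun j _ => (h.prime j (by omega) _ (mem_box hs j)).pos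

/-- number of close pairs -/
theorem Boxes.close_sum (h : Boxes r I P κ W) (η : ℝ) (hη : 0 ≤ η) :
    ∑ s ∈ box r I, ∑ s' ∈ box r I, (if |(pr s' : ℝ) - pr s| ≤ η * pr s then (1 : ℝ) else 0) ≤
      SS r P κ ^ 2 * (2 ^ (r + 2) * η / κ + 1 / W) := by
  classical
  have hκ := h.hκ
  have hW := h.hW
  have hSS := h.SS_pos
  calc ∑ s ∈ box r I, ∑ s' ∈ box r I, (if |(pr s' : ℝ) - pr s| ≤ η * pr s then (1 : ℝ) else 0)
      ≤ ∑ s ∈ box r I, SS r P κ * (2 ^ (r + 2) * η / κ + 1 / W) := by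
        refine Finset.sum_le_sum fun s hs => ?_
        rw [← Finset.sum_filter, Finset.sum_const, nsmul_eq_mul, mul_one]
        exact h.close_count η (pr s) hη (Nat.cast_nonneg _) (h.pr_le hs)
    _ = (box r I).card * (SS r P κ * (2 ^ (r + 2) * η / κ + 1 / W)) := by
        rw [Finset.sum_const, nsmul_eq_mul]
    _ ≤ SS r P κ * (SS r P κ * (2 ^ (r + 2) * η / κ + 1 / W)) :=
        mul_le_mul_of_nonneg_right h.box_card_le (by positivity)
    _ = _ := by ring

end Vale.Agent.P013.J.Ntl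
end

section

/-!
# Natural theorem, part 6: the two cases
-/

open Finset

namespace Vale.Agent.P013.J.Ntl

/-- the frequency of the slow phase -/
noncomputable def xi (B b : ℤ) (D e₁ q q' : ℕ) : ℝ :=
  (b : ℝ) * B / (D * e₁) * (1 / q - 1 / q')

/-- the inner sum -/
noncomputable def inn (V B b : ℤ) (D e₁ q q' N₁ N₂ : ℕ) : ℂ :=
  ∑ n ∈ (Ico N₁ N₂).filter (fun n => Nat.Coprime n (D * e₁ * q * q')),
    e ((b : ℝ) * B / (D * e₁) * (1 / q - 1 / q') / n) *
      e (((b * (D * V - B) * ((q' : ℤ) - q) : ℤ) : ℝ) * inv n (D * e₁ * q * q') /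
        ((D * e₁ * q * q' : ℕ) : ℝ))

theorem xi_le (B b : ℤ) (D e₁ q q' : ℕ) (hD : 0 < D) (he : 0 < e₁) (hq : 0 < q) (hq' : 0 < q') :
    |xi B b D e₁ q q'| ≤ |(b : ℝ)| * |(B : ℝ)| := by
  have hD' : (1 : ℝ) ≤ D := by exact_mod_cast hD
  have he' : (1 : ℝ) ≤ e₁ := by exact_mod_cast he
  have hqr : (1 : ℝ) ≤ q := by exact_mod_cast hq
  have hqr' : (1 : ℝ) ≤ q' := by exact_mod_cast hq'
  unfold xi
  rw [abs_mul, abs_div, abs_mul]
  have h1 : |(1 : ℝ) / q - 1 / q'| ≤ 1 := by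
    have a1 : (1 : ℝ) / q ≤ 1 := by rw [div_le_one (by linarith only [hqr])]; exact hqr
    have a2 : (1 : ℝ) / q' ≤ 1 := by rw [div_le_one (by linarith only [hqr'])]; exact hqr'
    have a3 : (0 : ℝ) ≤ 1 / q := by positivity
    have a4 : (0 : ℝ) ≤ 1 / q' := by positivity
    rw [abs_le]; constructor <;> linarith only [a2, a3, a1, a4]
  have h2 : (1 : ℝ) ≤ |(D : ℝ) * e₁| := by
    rw [abs_of_pos (by positivity)]
    nlinarith only [hD', he']
  have h3 : |(b : ℝ)| * |(B : ℝ)| / |(D : ℝ) * e₁| ≤ |(b : ℝ)| * |(B : ℝ)| :=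
    div_le_self (by positivity) h2
  calc |(b : ℝ)| * |(B : ℝ)| / |(D : ℝ) * e₁| * |(1 : ℝ) / q - 1 / q'|
      ≤ |(b : ℝ)| * |(B : ℝ)| * 1 := mul_le_mul h3 h1 (abs_nonneg _) (by positivity)
    _ = _ := mul_one _

theorem xi_ge (B b : ℤ) (D e₁ q q' : ℕ) (hD : 0 < D) (he : 0 < e₁) (hq : 0 < q) (hq' : 0 < q')
    (hb : b ≠ 0) (η Pm : ℝ) (hη : 0 ≤ η) (hfar : ¬ |(q' : ℝ) - q| ≤ η * q) (hPm : (q' : ℝ) ≤ Pm) :
    |(B : ℝ)| * η / (D * e₁ * Pm) ≤ |xi B b D e₁ q q'| := by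
  have hD' : (0 : ℝ) < D := by exact_mod_cast hD
  have he' : (0 : ℝ) < e₁ := by exact_mod_cast he
  have hqr : (0 : ℝ) < q := by exact_mod_cast hq
  have hqr' : (0 : ℝ) < q' := by exact_mod_cast hq'
  have hb1 : (1 : ℝ) ≤ |(b : ℝ)| := by
    rw [← Int.cast_abs]
    exact_mod_cast Int.one_le_abs hb
  push Not at hfar
  unfold xi
  rw [abs_mul, abs_div, abs_mul]
  have h1 : |(1 : ℝ) / q - 1 / q'| = |(q' : ℝ) - q| / (q * q') := by
    rw [show (1 : ℝ) / q - 1 / q' = (q' - q) / (q * q') by field_simp, abs_div,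
      abs_of_pos (mul_pos hqr hqr')]
  have h2 : η / Pm ≤ |(1 : ℝ) / q - 1 / q'| := by
    rw [h1]
    have h3 : η * q / (q * q') ≤ |(q' : ℝ) - q| / (q * q') :=
      div_le_div_of_nonneg_right hfar.le (by positivity)
    have h4 : η * q / (q * q') = η / q' := by field_simp
    rw [h4] at h3
    refine le_trans ?_ h3
    exact div_le_div_of_nonneg_left hη hqr' hPm
  have hPm0 : 0 < Pm := hqr'.trans_le hPm
  rw [abs_of_pos (mul_pos hD' he')]
  calc |(B : ℝ)| * η / (D * e₁ * Pm) = 1 * |(B : ℝ)| / (D * e₁) * (η / Pm) := by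
        field_simp
    _ ≤ |(b : ℝ)| * |(B : ℝ)| / (D * e₁) * |(1 : ℝ) / q - 1 / q'| := by
        refine mul_le_mul ?_ h2 (by positivity) (by positivity)
        gcongr

theorem pair_bound (V B b : ℤ) (D e₁ q q' : ℕ) (hD : 0 < D) (he : 0 < e₁) (hq : 0 < q)
    (hq' : 0 < q') (hBD : IsCoprime B (D : ℤ)) (hb : b ≠ 0) (Y Qm X : ℝ) (hY : 0 < Y)
    (hQm : (D : ℝ) * e₁ * q * q' ≤ Qm) (hX : |(b : ℝ)| * |(B : ℝ)| ≤ X) (N₁ N₂ : ℕ)
    (h1 : Y ≤ N₁) (h12 : N₁ ≤ N₂) (h2 : (N₂ : ℝ) - N₁ ≤ 2 * Y) :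
    ‖inn V B b D e₁ q q' N₁ N₂‖ ≤
      min 1 (|(b : ℝ)| * (1 + Real.log Qm) * ((Int.gcd (D : ℤ) ((q' : ℤ) - q) : ℝ) / D)) *
        ‖∑ n ∈ Ico N₁ N₂, e (xi B b D e₁ q q' / (n : ℝ))‖ +
      2 * Qm * (2 + 4 * Real.pi * X / Y) := by
  have hQ : 0 < D * e₁ * q * q' := by positivity
  have hmain := inner_bound (D * e₁ * q * q') hQ (b * (D * V - B) * ((q' : ℤ) - q))
    (xi B b D e₁ q q') Y hY N₁ N₂ h1 h12
  have hdef : inn V B b D e₁ q q' N₁ N₂ = ∑ n ∈ (Ico N₁ N₂).filter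
      (fun n => Nat.Coprime n (D * e₁ * q * q')), e (xi B b D e₁ q q' / (n : ℝ)) *
        e (((b * (D * V - B) * ((q' : ℤ) - q) : ℤ) : ℝ) * inv n (D * e₁ * q * q') /
        ((D * e₁ * q * q' : ℕ) : ℝ)) := rfl
  rw [hdef]
  refine hmain.trans ?_
  have hD' : (0 : ℝ) < D := by exact_mod_cast hD
  have he' : (0 : ℝ) < e₁ := by exact_mod_cast he
  have hqr : (0 : ℝ) < q := by exact_mod_cast hq
  have hqr' : (0 : ℝ) < q' := by exact_mod_cast hq'
  have hQr : (0 : ℝ) < ((D * e₁ * q * q' : ℕ) : ℝ) := by exact_mod_cast hQ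
  have hQm' : ((D * e₁ * q * q' : ℕ) : ℝ) ≤ Qm := by push_cast; exact hQm
  have hQm0 : 0 < Qm := hQr.trans_le hQm'
  have hX0 : 0 ≤ X := le_trans (by (clear * - hb; positivity)) hX
  have hxi := (xi_le B b D e₁ q q' hD he hq hq').trans hX
  have hpi := Real.pi_pos
  refine add_le_add ?_ ?_
  · refine mul_le_mul_of_nonneg_right ?_ (norm_nonneg _)
    refine min_le_min_left 1 ?_
    have hw : IsCoprime (D : ℤ) (D * V - B) := by
      obtain ⟨u, v, huv⟩ := hBD
      exact ⟨v + u * V, -u, by linear_combination huv⟩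
    have hg := gcd_bound (D := D) (R := e₁ * q * q') (b := b) (w := D * V - B)
      (t := (q' : ℤ) - q) hD hw hb (by positivity)
    have hg' : (Int.gcd ((D * e₁ * q * q' : ℕ) : ℤ) (b * (D * V - B) * ((q' : ℤ) - q)) : ℝ) ≤
        |(b : ℝ)| * (Int.gcd (D : ℤ) ((q' : ℤ) - q)) * ((e₁ : ℝ) * q * q') := by
      have h3 : D * e₁ * q * q' = D * (e₁ * q * q') := by ring
      rw [h3]
      have h4 : |(b : ℝ)| = (b.natAbs : ℝ) := by
        rw [← Int.cast_abs, Int.abs_eq_natAbs]; simp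
      rw [h4]
      exact_mod_cast hg
    have hQ1 : (1 : ℝ) ≤ ((D * e₁ * q * q' : ℕ) : ℝ) := by exact_mod_cast hQ
    have hlog : Real.log ((D * e₁ * q * q' : ℕ) : ℝ) ≤ Real.log Qm := Real.log_le_log hQr hQm'
    have hlog0 : 0 ≤ Real.log ((D * e₁ * q * q' : ℕ) : ℝ) := Real.log_nonneg hQ1
    rw [div_le_iff₀ hQr]
    calc (Int.gcd ((D * e₁ * q * q' : ℕ) : ℤ) (b * (D * V - B) * ((q' : ℤ) - q)) : ℝ) *
          (1 + Real.log ((D * e₁ * q * q' : ℕ) : ℝ))
        ≤ (|(b : ℝ)| * (Int.gcd (D : ℤ) ((q' : ℤ) - q)) * ((e₁ : ℝ) * q * q')) *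
          (1 + Real.log Qm) := by
          refine mul_le_mul hg' (by linarith only [hlog]) (by linarith only [hlog0]) (by positivity)
      _ = _ := by
          push_cast
          field_simp
  · have h3 : 2 * Real.pi * |xi B b D e₁ q q'| / Y ^ 2 * ((N₂ : ℝ) - N₁) ≤
        4 * Real.pi * X / Y := by
      calc 2 * Real.pi * |xi B b D e₁ q q'| / Y ^ 2 * ((N₂ : ℝ) - N₁)
          ≤ 2 * Real.pi * X / Y ^ 2 * (2 * Y) := by
            refine mul_le_mul ?_ h2 ?_ (by (clear * - hX0 hY; positivity))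
            · gcongr
            · have : (N₁ : ℝ) ≤ N₂ := by exact_mod_cast h12
              linarith only [this]
        _ = _ := by field_simp; ring
    have h4 : 0 ≤ 2 * Real.pi * |xi B b D e₁ q q'| / Y ^ 2 * ((N₂ : ℝ) - N₁) := by
      have : (N₁ : ℝ) ≤ N₂ := by exact_mod_cast h12
      have : 0 ≤ (N₂ : ℝ) - N₁ := by linarith only [this]
      positivity
    refine mul_le_mul ?_ ?_ (by (clear * - h4; positivity)) (by positivity)
    · linarith only [hQm']
    · linarith only [h3]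

theorem slow_trivial (ξ Y : ℝ) (N₁ N₂ : ℕ) (h12 : N₁ ≤ N₂) (h2 : (N₂ : ℝ) - N₁ ≤ 2 * Y) :
    ‖∑ n ∈ Ico N₁ N₂, e (ξ / (n : ℝ))‖ ≤ 2 * Y := by
  refine (norm_sum_le _ _).trans ?_
  have : ∑ n ∈ Ico N₁ N₂, ‖e (ξ / (n : ℝ))‖ = ((N₂ : ℝ) - N₁) := by
    rw [Finset.sum_congr rfl (fun n _ => norm_e _), Finset.sum_const, Nat.card_Ico, nsmul_eq_mul,
      mul_one, Nat.cast_sub h12]
  rw [this]; exact h2

variable {r : ℕ} {I : ℕ → Finset ℕ} {P : ℕ → ℝ} {κ W : ℝ}

theorem Boxes.same_sum (h : Boxes r I P κ W) :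
    ∑ s ∈ box r I, ∑ s' ∈ box r I, (if pr s = pr s' then (1 : ℝ) else 0) ≤
      SS r P κ ^ 2 * (1 / W) := by
  have h1 := h.close_sum 0 le_rfl
  refine le_trans ?_ (h1.trans (le_of_eq (by ring)))
  refine Finset.sum_le_sum fun s _ => Finset.sum_le_sum fun s' _ => ?_
  by_cases hp : pr s = pr s'
  · rw [if_pos hp, if_pos]
    rw [hp]; simp
  · rw [if_neg hp]; split_ifs <;> norm_num

/-- the first case: large denominator -/
theorem Boxes.case1 (h : Boxes r I P κ W) (V B b : ℤ) (D e₁ : ℕ) (hD : 0 < D) (he : 0 < e₁)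
    (hBD : IsCoprime B (D : ℤ)) (hb : b ≠ 0) (Y Qm X : ℝ) (hY : 0 < Y)
    (hQm : (D : ℝ) * e₁ * (2 ^ (r + 1) * ∏ j ∈ range (r + 1), P j) *
      (2 ^ (r + 1) * ∏ j ∈ range (r + 1), P j) ≤ Qm) (hQm1 : 1 ≤ Qm)
    (hX : |(b : ℝ)| * |(B : ℝ)| ≤ X) (N₁ N₂ : ℕ)
    (h1 : Y ≤ N₁) (h12 : N₁ ≤ N₂) (h2 : (N₂ : ℝ) - N₁ ≤ 2 * Y) (G : ℕ) (hG : 0 < G) :
    ∑ s ∈ box r I, ∑ s' ∈ box r I, ‖inn V B b D e₁ (pr s) (pr s') N₁ N₂‖ ≤
      SS r P κ ^ 2 * (2 * Y * (1 / W + |(b : ℝ)| * (1 + Real.log Qm) *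
        (1 / G + G * (G / D + (1 + r * D.primeFactors.card) / W))) +
        2 * Qm * (2 + 4 * Real.pi * X / Y)) := by
  have hX0 : 0 ≤ X := le_trans (by positivity) hX
  have hpi := Real.pi_pos
  have hlog : 0 ≤ Real.log Qm := Real.log_nonneg hQm1
  have hSS := h.SS_pos
  have hPr : 0 < ∏ j ∈ range (r + 1), P j := Finset.prod_pos fun j hj =>
    h.hP _ (Nat.lt_succ_iff.mp (Finset.mem_range.mp hj))
  set Err := 2 * Qm * (2 + 4 * Real.pi * X / Y) with hErr
  have hErr0 : 0 ≤ Err := by (clear * - hQm1 hX0 hY; positivity)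
  have hpt : ∀ s ∈ box r I, ∀ s' ∈ box r I, ‖inn V B b D e₁ (pr s) (pr s') N₁ N₂‖ ≤
      2 * Y * (if pr s = pr s' then (1 : ℝ) else 0) +
      2 * Y * (|(b : ℝ)| * (1 + Real.log Qm)) * (if pr s = pr s' then 0 else
      (Int.gcd (D : ℤ) ((pr s' : ℤ) - pr s) : ℝ) / D) + Err := by
    intro s hs s' hs'
    have hQ' : (D : ℝ) * e₁ * (pr s) * (pr s') ≤ Qm := by
      refine le_trans ?_ hQm
      have a1 := h.pr_le hs
      have a2 := h.pr_le hs'
      gcongr
    have hpb := pair_bound V B b D e₁ (pr s) (pr s') hD he (h.pr_pos hs) (h.pr_pos hs') hBD hb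
      Y Qm X hY hQ' hX N₁ N₂ h1 h12 h2
    have htr := slow_trivial (xi B b D e₁ (pr s) (pr s')) Y N₁ N₂ h12 h2
    refine hpb.trans ?_
    rw [← hErr]
    refine add_le_add ?_ le_rfl
    by_cases hp : pr s = pr s'
    · rw [if_pos hp, if_pos hp]
      calc _ ≤ 1 * (2 * Y) := mul_le_mul (min_le_left _ _) htr (norm_nonneg _) zero_le_one
        _ = _ := by ring
    · rw [if_neg hp, if_neg hp]
      calc _ ≤ (|(b : ℝ)| * (1 + Real.log Qm) *
            ((Int.gcd (D : ℤ) (((pr s' : ℕ) : ℤ) - pr s) : ℝ) / D)) * (2 * Y) :=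
            mul_le_mul (min_le_right _ _) htr (norm_nonneg _) (by (clear * - hb hlog hD; positivity))
        _ = _ := by ring
  have hgcd := h.gcd_sum D hD G hG
  have hsame := h.same_sum
  have hcard := h.box_card_le
  calc ∑ s ∈ box r I, ∑ s' ∈ box r I, ‖inn V B b D e₁ (pr s) (pr s') N₁ N₂‖
      ≤ ∑ s ∈ box r I, ∑ s' ∈ box r I, (2 * Y * (if pr s = pr s' then (1 : ℝ) else 0) +
      2 * Y * (|(b : ℝ)| * (1 + Real.log Qm)) * (if pr s = pr s' then 0 else
      (Int.gcd (D : ℤ) ((pr s' : ℤ) - pr s) : ℝ) / D) + Err) :=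
        Finset.sum_le_sum fun s hs => Finset.sum_le_sum fun s' hs' => hpt s hs s' hs'
    _ = 2 * Y * (∑ s ∈ box r I, ∑ s' ∈ box r I, (if pr s = pr s' then (1 : ℝ) else 0)) +
        2 * Y * (|(b : ℝ)| * (1 + Real.log Qm)) * (∑ s ∈ box r I, ∑ s' ∈ box r I,
          (if pr s = pr s' then 0 else (Int.gcd (D : ℤ) ((pr s' : ℤ) - pr s) : ℝ) / D)) +
        ((box r I).card : ℝ) ^ 2 * Err := by
        simp only [Finset.sum_add_distrib, Finset.sum_const, nsmul_eq_mul, ← Finset.mul_sum]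
        ring
    _ ≤ 2 * Y * (SS r P κ ^ 2 * (1 / W)) +
        2 * Y * (|(b : ℝ)| * (1 + Real.log Qm)) * (SS r P κ ^ 2 *
          (1 / G + G * (G / D + (1 + r * D.primeFactors.card) / W))) + SS r P κ ^ 2 * Err := by
        refine add_le_add (add_le_add ?_ ?_) ?_
        · exact mul_le_mul_of_nonneg_left hsame (by positivity)
        · exact mul_le_mul_of_nonneg_left hgcd (by (clear * - hY hb hlog; positivity))
        · gcongr
    _ = _ := by ring

/-- the second case: large numerator -/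
theorem Boxes.case2 (h : Boxes r I P κ W) (V B b : ℤ) (D e₁ : ℕ) (hD : 0 < D) (he : 0 < e₁)
    (hBD : IsCoprime B (D : ℤ)) (hb : b ≠ 0) (hB : B ≠ 0) (Y Qm X : ℝ) (hY : 0 < Y)
    (hQm : (D : ℝ) * e₁ * (2 ^ (r + 1) * ∏ j ∈ range (r + 1), P j) *
      (2 ^ (r + 1) * ∏ j ∈ range (r + 1), P j) ≤ Qm) (hQm1 : 1 ≤ Qm)
    (hX : |(b : ℝ)| * |(B : ℝ)| ≤ X) (N₁ N₂ : ℕ)
    (h1 : Y ≤ N₁) (h12 : N₁ ≤ N₂) (h2 : (N₂ : ℝ) - N₁ ≤ 2 * Y) (h3 : (N₂ : ℝ) ≤ 3 * Y)
    (η : ℝ) (hη : 0 < η) :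
    ∑ s ∈ box r I, ∑ s' ∈ box r I, ‖inn V B b D e₁ (pr s) (pr s') N₁ N₂‖ ≤
      SS r P κ ^ 2 * (2 * Y * (2 ^ (r + 2) * η / κ + 1 / W) +
        (3 * Y) ^ 2 / (Real.pi * (|(B : ℝ)| * η / (D * e₁ *
          (2 ^ (r + 1) * ∏ j ∈ range (r + 1), P j)))) +
        4 * Qm * (2 + 4 * Real.pi * X / Y)) := by
  have hX0 : 0 ≤ X := le_trans (by positivity) hX
  have hpi := Real.pi_pos
  have hSS := h.SS_pos
  have hD' : (0 : ℝ) < D := by exact_mod_cast hD
  have he' : (0 : ℝ) < e₁ := by exact_mod_cast he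
  have hB' : 0 < |(B : ℝ)| := abs_pos.mpr (by exact_mod_cast hB)
  have hPr : 0 < ∏ j ∈ range (r + 1), P j := Finset.prod_pos fun j hj =>
    h.hP _ (Nat.lt_succ_iff.mp (Finset.mem_range.mp hj))
  set Pm := 2 ^ (r + 1) * ∏ j ∈ range (r + 1), P j with hPm
  have hPm0 : 0 < Pm := by positivity
  set xm := |(B : ℝ)| * η / (D * e₁ * Pm) with hxm
  have hxm0 : 0 < xm := by (clear * - hB hη hD he hPr; positivity)
  set Err := 2 * Qm * (2 + 4 * Real.pi * X / Y) with hErr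
  have hErr0 : 0 ≤ Err := by (clear * - hQm1 hX0 hY; positivity)
  have hErr1 : 4 * Real.pi * X / Y ≤ Err := by
    rw [hErr]
    have : 0 ≤ 4 * Real.pi * X / Y := by (clear * - hX0 hY; positivity)
    linarith only [hQm1, this, mul_nonneg (sub_nonneg.2 hQm1) (sub_nonneg.2 this)]
  have hpt : ∀ s ∈ box r I, ∀ s' ∈ box r I, ‖inn V B b D e₁ (pr s) (pr s') N₁ N₂‖ ≤
      2 * Y * (if |(pr s' : ℝ) - pr s| ≤ η * pr s then (1 : ℝ) else 0) +
      ((3 * Y) ^ 2 / (Real.pi * xm) + 2 * Err) := by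
    intro s hs s' hs'
    have hQ' : (D : ℝ) * e₁ * (pr s) * (pr s') ≤ Qm := by
      refine le_trans ?_ hQm
      have a1 := h.pr_le hs
      have a2 := h.pr_le hs'
      gcongr
    have hpb := pair_bound V B b D e₁ (pr s) (pr s') hD he (h.pr_pos hs) (h.pr_pos hs') hBD hb
      Y Qm X hY hQ' hX N₁ N₂ h1 h12 h2
    refine hpb.trans ?_
    rw [← hErr]
    by_cases hp : |(pr s' : ℝ) - pr s| ≤ η * pr s
    · rw [if_pos hp]
      have htr := slow_trivial (xi B b D e₁ (pr s) (pr s')) Y N₁ N₂ h12 h2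
      have h5 : 0 ≤ (3 * Y) ^ 2 / (Real.pi * xm) := by (clear * - hY hB hη hD he hPr; positivity)
      have h6 : min 1 (|(b : ℝ)| * (1 + Real.log Qm) *
          ((Int.gcd (D : ℤ) (((pr s' : ℕ) : ℤ) - pr s) : ℝ) / D)) *
          ‖∑ n ∈ Ico N₁ N₂, e (xi B b D e₁ (pr s) (pr s') / (n : ℝ))‖ ≤ 1 * (2 * Y) :=
        mul_le_mul (min_le_left _ _) htr (norm_nonneg _) zero_le_one
      linarith only [h6, h5, hErr0]
    · rw [if_neg hp]
      have hge := xi_ge B b D e₁ (pr s) (pr s') hD he (h.pr_pos hs) (h.pr_pos hs') hb η Pm hη.le hp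
        (h.pr_le hs')
      have hxi := (xi_le B b D e₁ (pr s) (pr s') hD he (h.pr_pos hs) (h.pr_pos hs')).trans hX
      have hne : xi B b D e₁ (pr s) (pr s') ≠ 0 := by
        intro h0
        rw [h0, abs_zero] at hge
        linarith only [hxm0, hge]
      have hsl := slow_sum_bound (xi B b D e₁ (pr s) (pr s')) Y hne hY N₁ N₂ h1 h12
      have h6 : min 1 (|(b : ℝ)| * (1 + Real.log Qm) *
          ((Int.gcd (D : ℤ) (((pr s' : ℕ) : ℤ) - pr s) : ℝ) / D)) *
          ‖∑ n ∈ Ico N₁ N₂, e (xi B b D e₁ (pr s) (pr s') / (n : ℝ))‖ ≤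
          1 * ‖∑ n ∈ Ico N₁ N₂, e (xi B b D e₁ (pr s) (pr s') / (n : ℝ))‖ :=
        mul_le_mul_of_nonneg_right (min_le_left _ _) (norm_nonneg _)
      have h7 : 2 * Real.pi * |xi B b D e₁ (pr s) (pr s')| / Y ^ 2 * ((N₂ : ℝ) - N₁) ≤
          4 * Real.pi * X / Y := by
        calc 2 * Real.pi * |xi B b D e₁ (pr s) (pr s')| / Y ^ 2 * ((N₂ : ℝ) - N₁)
            ≤ 2 * Real.pi * X / Y ^ 2 * (2 * Y) := by
              refine mul_le_mul ?_ h2 ?_ (by (clear * - hX0 hY; positivity))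
              · gcongr
              · have : (N₁ : ℝ) ≤ N₂ := by exact_mod_cast h12
                linarith only [this]
          _ = _ := by field_simp; ring
      have h8 : (N₂ : ℝ) ^ 2 / (Real.pi * |xi B b D e₁ (pr s) (pr s')|) ≤
          (3 * Y) ^ 2 / (Real.pi * xm) := by
        gcongr
      linarith only [hErr1, hsl, h6, h7, h8]
  have hclose := h.close_sum η hη.le
  have hcard := h.box_card_le
  have hF0 : 0 ≤ (3 * Y) ^ 2 / (Real.pi * xm) + 2 * Err := by (clear * - hY hB hη hD he hPr hQm1 hX0; positivity)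
  calc ∑ s ∈ box r I, ∑ s' ∈ box r I, ‖inn V B b D e₁ (pr s) (pr s') N₁ N₂‖
      ≤ ∑ s ∈ box r I, ∑ s' ∈ box r I, (2 * Y *
        (if |(pr s' : ℝ) - pr s| ≤ η * pr s then (1 : ℝ) else 0) +
      ((3 * Y) ^ 2 / (Real.pi * xm) + 2 * Err)) :=
        Finset.sum_le_sum fun s hs => Finset.sum_le_sum fun s' hs' => hpt s hs s' hs'
    _ = 2 * Y * (∑ s ∈ box r I, ∑ s' ∈ box r I,
          (if |(pr s' : ℝ) - pr s| ≤ η * pr s then (1 : ℝ) else 0)) +
        ((box r I).card : ℝ) ^ 2 * ((3 * Y) ^ 2 / (Real.pi * xm) + 2 * Err) := by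
        simp only [Finset.sum_add_distrib, Finset.sum_const, nsmul_eq_mul, ← Finset.mul_sum]
        ring
    _ ≤ 2 * Y * (SS r P κ ^ 2 * (2 ^ (r + 2) * η / κ + 1 / W)) +
        SS r P κ ^ 2 * ((3 * Y) ^ 2 / (Real.pi * xm) + 2 * Err) := by
        refine add_le_add ?_ ?_
        · exact mul_le_mul_of_nonneg_left hclose (by positivity)
        · gcongr
    _ = _ := by rw [hErr]; ring

end Vale.Agent.P013.J.Ntl
end

section

/-!
# Natural theorem, part 7: the range of the parameters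
-/

open Finset Filter

namespace Vale.Agent.P013.J.Ntl

/-- `l` is large in terms of `A` and `r` -/
structure Big (A : ℝ) (r : ℕ) (l : ℝ) : Prop where
  c0 : 2 ^ (r + 10) + 32 * ((r : ℝ) + 10) ≤ l
  c1 : 1 ≤ Real.log l
  c2 : 9 * A + 5 ≤ Real.log l ^ 2
  c3 : 2 * ((r : ℝ) + 1) * Real.log l ^ (10 * r + 5) ≤ l ^ (0.5 : ℝ)
  c4 : (4 * A + 1) * Real.log l ≤ l ^ (0.5 : ℝ)
  c5 : 2 * l ^ (0.5 : ℝ) ≤ l ^ (0.96 : ℝ)
  c6 : 40 * l ^ (0.96 : ℝ) ≤ l

theorem pow_log_le (n : ℕ) (M : ℝ) (hM : 0 < M) :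
    ∀ᶠ l : ℝ in atTop, M * Real.log l ^ n ≤ l ^ (0.5 : ℝ) := by
  have := (isLittleO_log_rpow_rpow_atTop (n : ℝ) (show (0 : ℝ) < 0.5 by norm_num)).bound
    (show (0 : ℝ) < 1 / M by positivity)
  filter_upwards [this, Real.tendsto_log_atTop.eventually_ge_atTop 1, eventually_ge_atTop 0]
    with l hl hl1 hl0
  rw [Real.rpow_natCast, Real.norm_of_nonneg (by positivity),
    Real.norm_of_nonneg (by positivity)] at hl
  calc M * Real.log l ^ n ≤ M * (1 / M * l ^ (0.5 : ℝ)) := mul_le_mul_of_nonneg_left hl hM.le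
    _ = l ^ (0.5 : ℝ) := by field_simp

theorem pow_pow_le (a b : ℝ) (hab : a < b) (M : ℝ) :
    ∀ᶠ l : ℝ in atTop, M * l ^ a ≤ l ^ b := by
  have h1 := (tendsto_rpow_atTop (show 0 < b - a by linarith)).eventually_ge_atTop M
  filter_upwards [h1, eventually_gt_atTop 0] with l hl hl0
  calc M * l ^ a ≤ l ^ (b - a) * l ^ a := mul_le_mul_of_nonneg_right hl (by positivity)
    _ = l ^ b := by rw [← Real.rpow_add hl0]; congr 1; ring

theorem big_eventually (A : ℝ) (hA : 0 < A) (r : ℕ) : ∀ᶠ l in atTop, Big A r l := by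
  have h0 := eventually_ge_atTop (2 ^ (r + 10) + 32 * ((r : ℝ) + 10))
  have h1 : ∀ᶠ l : ℝ in atTop, 1 ≤ Real.log l := Real.tendsto_log_atTop.eventually_ge_atTop 1
  have h2 : ∀ᶠ l : ℝ in atTop, 9 * A + 5 ≤ Real.log l ^ 2 :=
    ((tendsto_pow_atTop two_ne_zero).comp Real.tendsto_log_atTop).eventually_ge_atTop _
  have h3 := pow_log_le (10 * r + 5) (2 * ((r : ℝ) + 1)) (by positivity)
  have h4 := pow_log_le 1 (4 * A + 1) (by positivity)
  have h5 := pow_pow_le 0.5 0.96 (by norm_num) 2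
  have h6 := pow_pow_le 0.96 1 (by norm_num) 40
  filter_upwards [h0, h1, h2, h3, h4, h5, h6] with l a0 a1 a2 a3 a4 a5 a6
  refine ⟨a0, a1, a2, a3, ?_, a5, ?_⟩
  · simpa using a4
  · simpa using a6

theorem card_primeFactors_le (D : ℕ) (hD : 0 < D) (x : ℝ) (hx : (D : ℝ) ≤ Real.exp x) :
    (D.primeFactors.card : ℝ) ≤ 2 * x := by
  have h1 : 2 ^ D.primeFactors.card ≤ D := by
    calc 2 ^ D.primeFactors.card = ∏ _p ∈ D.primeFactors, 2 := by rw [Finset.prod_const]
      _ ≤ ∏ p ∈ D.primeFactors, p :=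
        Finset.prod_le_prod' fun p hp => (Nat.prime_of_mem_primeFactors hp).two_le
      _ ≤ D := Nat.le_of_dvd hD (Nat.prod_primeFactors_dvd D)
  have h2 : (2 : ℝ) ^ D.primeFactors.card ≤ Real.exp x := by
    refine le_trans ?_ hx
    exact_mod_cast h1
  have h3 := Real.log_le_log (by positivity) h2
  rw [Real.log_pow, Real.log_exp] at h3
  have h4 : (0.5 : ℝ) ≤ Real.log 2 := by
    have := Real.log_two_gt_d9
    linarith only [this]
  have h5 : (0 : ℝ) ≤ (D.primeFactors.card : ℝ) := Nat.cast_nonneg _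
  linarith only [mul_nonneg (mul_self_nonneg (1 : ℝ)) (sub_nonneg.2 h3), mul_nonneg (sub_nonneg.2 h4) (sub_nonneg.2 h5)]

end Vale.Agent.P013.J.Ntl
end

section

/-!
# Natural theorem, part 8: estimates of the parameters
-/

open Finset Filter

namespace Vale.Agent.P013.J.Ntl

variable {A : ℝ} {r : ℕ} {l : ℝ}

theorem Big.hl (h : Big A r l) : 1 ≤ l := by
  have := h.c0
  have h1 : (0 : ℝ) ≤ 2 ^ (r + 10) := by positivity
  have h2 : (0 : ℝ) ≤ r := Nat.cast_nonneg _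
  linarith only [this, h1]

theorem Big.h96 (h : Big A r l) : 1 ≤ l ^ (0.96 : ℝ) :=
  Real.one_le_rpow h.hl (by norm_num)

/-- the width -/
noncomputable def WW (A l : ℝ) : ℝ := l ^ (-A) * Real.exp (Real.log l ^ 3)

theorem Big.W_pos (h : Big A r l) : 0 < WW A l := by
  have := h.hl
  unfold WW
  positivity

theorem Big.W_inv (h : Big A r l) : 1 / WW A l ≤ l ^ (-(8 * A + 5)) := by
  have hl0 : 0 < l := by linarith [h.hl]
  have hW := h.W_pos
  rw [div_le_iff₀ hW]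
  unfold WW
  rw [← mul_assoc, ← Real.rpow_add hl0, Real.rpow_def_of_pos hl0, ← Real.exp_add]
  rw [Real.one_le_exp_iff]
  have h1 := h.c1
  have h2 := h.c2
  have h3 : Real.log l ^ 3 = Real.log l * Real.log l ^ 2 := by ring
  rw [h3]
  have : 0 ≤ Real.log l * (Real.log l ^ 2 - (9 * A + 5)) := by
    apply mul_nonneg <;> linarith
  linarith only [this]

theorem Big.prod_le (h : Big A r l) (P : ℕ → ℝ) (hP : ∀ j ≤ r, 0 < P j ∧
    Real.log (P j) ≤ Real.log l ^ (10 * j + 5)) :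
    2 ^ (r + 1) * ∏ j ∈ range (r + 1), P j ≤ Real.exp (l ^ (0.5 : ℝ)) := by
  have h1 := h.c1
  calc (2 : ℝ) ^ (r + 1) * ∏ j ∈ range (r + 1), P j = ∏ j ∈ range (r + 1), (2 * P j) := by
        rw [Finset.prod_mul_distrib, Finset.prod_const, Finset.card_range]
    _ ≤ ∏ j ∈ range (r + 1), Real.exp (2 * Real.log l ^ (10 * r + 5)) := by
        refine Finset.prod_le_prod (fun j hj => ?_) fun j hj => ?_
        · have := (hP j (Nat.lt_succ_iff.mp (Finset.mem_range.mp hj))).1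
          positivity
        · have hj' := Nat.lt_succ_iff.mp (Finset.mem_range.mp hj)
          obtain ⟨a1, a2⟩ := hP j hj'
          have a3 : Real.log l ^ (10 * j + 5) ≤ Real.log l ^ (10 * r + 5) :=
            pow_le_pow_right₀ h1 (by omega)
          have a4 : 1 ≤ Real.log l ^ (10 * r + 5) := one_le_pow₀ h1
          have a5 : (2 : ℝ) ≤ Real.exp 1 := by
            have := Real.exp_one_gt_d9; linarith only [this]
          calc 2 * P j = 2 * Real.exp (Real.log (P j)) := by rw [Real.exp_log a1]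
            _ ≤ Real.exp 1 * Real.exp (Real.log l ^ (10 * r + 5)) := by
                refine mul_le_mul a5 (Real.exp_le_exp.mpr (a2.trans a3)) (Real.exp_pos _).le
                  (Real.exp_pos _).le
            _ = Real.exp (1 + Real.log l ^ (10 * r + 5)) := by rw [Real.exp_add]
            _ ≤ _ := Real.exp_le_exp.mpr (by linarith only [a4])
    _ = Real.exp (2 * (r + 1) * Real.log l ^ (10 * r + 5)) := by
        rw [Finset.prod_const, Finset.card_range, ← Real.exp_nat_mul]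
        congr 1
        push_cast; ring
    _ ≤ _ := Real.exp_le_exp.mpr h.c3

/-- the range of `Y` -/
theorem Big.Y_ge (h : Big A r l) (Y E Pr : ℝ) (hE : 0 < E) (hE1 : E ≤ Real.exp (l ^ (0.96 : ℝ)))
    (hPr : 0 < Pr) (hPr1 : Pr ≤ Real.exp (l ^ (0.5 : ℝ)))
    (hY : Real.exp l * l ^ (-A) ≤ Y * E * Pr) : Real.exp (l / 2) ≤ Y := by
  have hl0 : 0 < l := by linarith only [h.hl, h]
  have h1 : Real.exp (l / 2) * (E * Pr) ≤ Y * (E * Pr) := by
    calc Real.exp (l / 2) * (E * Pr) ≤ Real.exp (l / 2) * (Real.exp (l ^ (0.96 : ℝ)) *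
          Real.exp (l ^ (0.5 : ℝ))) := by gcongr
      _ = Real.exp (l / 2 + l ^ (0.96 : ℝ) + l ^ (0.5 : ℝ)) := by
          rw [Real.exp_add, Real.exp_add]; ring
      _ ≤ Real.exp (l + Real.log l * (-A)) := by
          apply Real.exp_le_exp.mpr
          have a1 := h.c4
          have a2 := h.c5
          have a3 := h.c6
          have a4 := h.c1
          have a5 := h.h96
          rcases le_total A 0 with hA | hA
          · have : 0 ≤ Real.log l * (-A) := mul_nonneg (by linarith only [a4]) (by linarith only [hA])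
            linarith only [a1, a2, a3, a4, a5]
          · have : A * Real.log l ≤ (4 * A + 1) * Real.log l := by
              apply mul_le_mul_of_nonneg_right <;> linarith only [hA, a4]
            linarith only [a1, a2, a3, a4, a5]
      _ = Real.exp l * l ^ (-A) := by rw [Real.exp_add, Real.rpow_def_of_pos hl0]
      _ ≤ Y * E * Pr := hY
      _ = _ := by ring
  exact le_of_mul_le_mul_right h1 (by positivity)

theorem Big.X_le (h : Big A r l) (hA : 0 < A) (Y E Pr : ℝ) (hE : 0 < E)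
    (hE1 : E ≤ Real.exp (l ^ (0.96 : ℝ)))
    (hPr : 0 < Pr) (hPr1 : Pr ≤ Real.exp (l ^ (0.5 : ℝ)))
    (hY : Real.exp l * l ^ (-A) ≤ Y * E * Pr) :
    l ^ A * (Real.exp l * Real.exp (l ^ (0.96 : ℝ))) ≤ Real.exp (3 * l ^ (0.96 : ℝ)) * Y := by
  have hl0 : 0 < l := by linarith only [h.hl, h]
  have h1 : (l ^ A * (Real.exp l * Real.exp (l ^ (0.96 : ℝ)))) * (E * Pr) ≤
      (Real.exp (3 * l ^ (0.96 : ℝ)) * Y) * (E * Pr) := by
    calc (l ^ A * (Real.exp l * Real.exp (l ^ (0.96 : ℝ)))) * (E * Pr) ≤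
          (l ^ A * (Real.exp l * Real.exp (l ^ (0.96 : ℝ)))) * (Real.exp (l ^ (0.96 : ℝ)) *
          Real.exp (l ^ (0.5 : ℝ))) := by gcongr
      _ = Real.exp (Real.log l * A + l + 2 * l ^ (0.96 : ℝ) + l ^ (0.5 : ℝ)) := by
          rw [Real.rpow_def_of_pos hl0, two_mul]
          simp only [Real.exp_add]; ring
      _ ≤ Real.exp (3 * l ^ (0.96 : ℝ) + (l + Real.log l * (-A))) := by
          apply Real.exp_le_exp.mpr
          have a1 := h.c4
          have a2 := h.c5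
          have a4 := h.c1
          have : 2 * (A * Real.log l) ≤ (4 * A + 1) * Real.log l := by
            have : 0 ≤ (2 * A + 1) * Real.log l := by positivity
            linarith only [this]
          linarith only [a1, a2, this]
      _ = Real.exp (3 * l ^ (0.96 : ℝ)) * (Real.exp l * l ^ (-A)) := by
          rw [Real.exp_add, Real.exp_add, Real.rpow_def_of_pos hl0 (-A)]
      _ ≤ Real.exp (3 * l ^ (0.96 : ℝ)) * (Y * E * Pr) := by gcongr
      _ = _ := by ring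
  exact le_of_mul_le_mul_right h1 (by positivity)

theorem Big.err_le (h : Big A r l) (hA : 0 < A) (Y X : ℝ) (hY : Real.exp (l / 2) ≤ Y)
    (hX : X ≤ Real.exp (3 * l ^ (0.96 : ℝ)) * Y) :
    4 * Real.exp (3 * l ^ (0.96 : ℝ)) * (2 + 4 * Real.pi * X / Y) ≤ Y * l ^ (-(3 * A)) / 8 := by
  have hl0 : 0 < l := by linarith only [h.hl, h]
  have hY0 : 0 < Y := (Real.exp_pos _).trans_le hY
  have hpi := Real.pi_pos
  have hpi4 := Real.pi_le_four
  set U := Real.exp (3 * l ^ (0.96 : ℝ)) with hU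
  have hU1 : 1 ≤ U := by
    rw [hU, Real.one_le_exp_iff]
    have := h.h96; linarith only [this]
  have h1 : 4 * Real.pi * X / Y ≤ 16 * U := by
    rw [div_le_iff₀ hY0]
    have h2 : 4 * Real.pi * X ≤ 4 * Real.pi * (U * Y) := by gcongr
    have h3 : 4 * Real.pi * (U * Y) ≤ 16 * (U * Y) := by
      apply mul_le_mul_of_nonneg_right _ (by positivity)
      linarith only [hpi4]
    linarith only [h2, h3]
  have h2 : 4 * U * (2 + 4 * Real.pi * X / Y) ≤ 72 * (U * U) := by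
    calc 4 * U * (2 + 4 * Real.pi * X / Y) ≤ 4 * U * (2 * U + 16 * U) := by
          apply mul_le_mul_of_nonneg_left _ (by positivity)
          linarith only [hU1, h1]
      _ = _ := by ring
  refine h2.trans ?_
  have h3 : 8 * (72 * (U * U)) ≤ Y * l ^ (-(3 * A)) := by
    calc 8 * (72 * (U * U)) ≤ Real.exp 7 * (U * U) := by
          have : (576 : ℝ) ≤ Real.exp 7 := by
            have a1 : (2.7182818283 : ℝ) < Real.exp 1 := Real.exp_one_gt_d9
            have a2 : Real.exp 7 = Real.exp 1 ^ 7 := by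
              rw [← Real.exp_nat_mul]; norm_num
            rw [a2]
            calc (576 : ℝ) ≤ 2.7182818283 ^ 7 := by norm_num
              _ ≤ Real.exp 1 ^ 7 := pow_le_pow_left₀ (by norm_num) a1.le 7
          have h4 : 0 ≤ U * U := by positivity
          linarith only [mul_nonneg (mul_self_nonneg (U : ℝ)) (sub_nonneg.2 this)]
      _ = Real.exp (7 + 6 * l ^ (0.96 : ℝ)) := by
          rw [hU, ← Real.exp_add, ← Real.exp_add]
          congr 1; ring
      _ ≤ Real.exp (l / 2 + Real.log l * (-(3 * A))) := by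
          apply Real.exp_le_exp.mpr
          have a1 := h.c4
          have a2 := h.c5
          have a3 := h.c6
          have a4 := h.c1
          have a5 := h.h96
          have : 3 * (A * Real.log l) ≤ (4 * A + 1) * Real.log l := by
            have : 0 ≤ (A + 1) * Real.log l := by positivity
            linarith only [this]
          linarith only [a5, a4, a3, a2, a1]
      _ = Real.exp (l / 2) * l ^ (-(3 * A)) := by
          rw [Real.exp_add, Real.rpow_def_of_pos hl0]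
      _ ≤ _ := by gcongr
  linarith only [h3]

/-- first case of the final estimate -/
theorem Big.final1 (h : Big A r l) (hA : 0 < A) (D : ℕ) (hD : 0 < D)
    (hDe : (D : ℝ) ≤ Real.exp (l ^ (0.96 : ℝ))) (hD2 : l ^ (20 * A + 20) ≤ (D : ℝ))
    (β : ℝ) (hβ0 : 0 ≤ β) (hβ : β ≤ l ^ A) (Y Err : ℝ) (hY : 0 < Y)
    (hErr : Err ≤ Y * l ^ (-(3 * A)) / 8) :
    2 * Y * (1 / WW A l + β * (1 + Real.log (Real.exp (3 * l ^ (0.96 : ℝ)))) *
        (1 / (⌈l ^ (4 * A + 2)⌉₊ : ℝ) + (⌈l ^ (4 * A + 2)⌉₊ : ℝ) *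
          ((⌈l ^ (4 * A + 2)⌉₊ : ℝ) / D + (1 + r * D.primeFactors.card) / WW A l))) + Err ≤
      Y * l ^ (-(3 * A)) := by
  have hl1 := h.hl
  have hl0 : 0 < l := by linarith only [hl1]
  have hW := h.W_pos
  have hWi := h.W_inv
  set G : ℝ := (⌈l ^ (4 * A + 2)⌉₊ : ℝ) with hG
  have hpw : 1 ≤ l ^ (4 * A + 2) := Real.one_le_rpow hl1 (by positivity)
  have hG1 : l ^ (4 * A + 2) ≤ G := Nat.le_ceil _
  have hG2 : G ≤ 2 * l ^ (4 * A + 2) := by
    have := Nat.ceil_lt_add_one (show 0 ≤ l ^ (4 * A + 2) by positivity)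
    rw [hG]; linarith only [hpw, this]
  have hG0 : 0 < G := by linarith only [hpw, hG1]
  have hD' : (0 : ℝ) < D := by exact_mod_cast hD
  set T : ℝ := l ^ (-(3 * A) - 1) with hT
  have hT0 : 0 < T := by positivity
  -- 1/W
  have e1 : 1 / WW A l ≤ T := hWi.trans (Real.rpow_le_rpow_of_exponent_le hl1 (by linarith only [hA]))
  -- the factor
  have e2 : β * (1 + Real.log (Real.exp (3 * l ^ (0.96 : ℝ)))) ≤ l ^ (A + 1) := by
    rw [Real.log_exp, Real.rpow_add hl0, Real.rpow_one]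
    have a1 := h.c6
    have a2 := h.h96
    exact mul_le_mul hβ (by linarith only [a1, a2]) (by linarith only [a2]) (by positivity)
  have e20 : 0 ≤ β * (1 + Real.log (Real.exp (3 * l ^ (0.96 : ℝ)))) := by
    rw [Real.log_exp]
    have a2 := h.h96
    positivity
  -- 1/G
  have e3 : 1 / G ≤ l ^ (-(4 * A + 2)) := by
    rw [Real.rpow_neg hl0.le, ← one_div]
    exact one_div_le_one_div_of_le (by positivity) hG1
  -- G * G / D
  have e4 : G * (G / D) ≤ 4 * l ^ (2 * (4 * A + 2) - (20 * A + 20)) := by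
    have a1 : G * G ≤ 4 * l ^ (2 * (4 * A + 2)) := by
      calc G * G ≤ (2 * l ^ (4 * A + 2)) * (2 * l ^ (4 * A + 2)) := by gcongr
        _ = 4 * (l ^ (4 * A + 2) * l ^ (4 * A + 2)) := by ring
        _ = 4 * l ^ (2 * (4 * A + 2)) := by rw [← Real.rpow_add hl0]; congr 2; ring
    rw [Real.rpow_sub hl0]
    calc G * (G / D) = G * G / D := by ring
      _ ≤ 4 * l ^ (2 * (4 * A + 2)) / l ^ (20 * A + 20) := by gcongr
      _ = _ := by ring
  -- number of prime factors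
  have e5 : (1 + r * D.primeFactors.card : ℝ) ≤ (r + 1) * l := by
    have a1 := card_primeFactors_le D hD _ hDe
    have a2 := h.c6
    have a3 := h.h96
    have a4 : (D.primeFactors.card : ℝ) ≤ l := by linarith only [a1, a2, a3]
    have a5 : (0 : ℝ) ≤ r := Nat.cast_nonneg _
    nlinarith only [a2, a3, hl1, a1]
  have e6 : G * ((1 + r * D.primeFactors.card) / WW A l) ≤
      2 * (r + 1) * l ^ ((4 * A + 2) + 1 + (-(8 * A + 5))) := by
    rw [Real.rpow_add hl0, Real.rpow_add hl0, Real.rpow_one]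
    calc G * ((1 + r * D.primeFactors.card) / WW A l)
        = G * (1 + r * D.primeFactors.card) * (1 / WW A l) := by ring
      _ ≤ (2 * l ^ (4 * A + 2)) * ((r + 1) * l) * l ^ (-(8 * A + 5)) := by gcongr
      _ = _ := by ring
  have e7 : β * (1 + Real.log (Real.exp (3 * l ^ (0.96 : ℝ)))) *
        (1 / G + G * (G / D + (1 + r * D.primeFactors.card) / WW A l)) ≤
      T + 4 * T + 2 * (r + 1) * T := by
    have a0 : 1 / G + G * (G / D + (1 + r * D.primeFactors.card) / WW A l) ≤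
        l ^ (-(4 * A + 2)) + 4 * l ^ (2 * (4 * A + 2) - (20 * A + 20)) +
        2 * (r + 1) * l ^ ((4 * A + 2) + 1 + (-(8 * A + 5))) := by
      rw [mul_add]; linarith only [e3, e4, e6]
    refine (mul_le_mul e2 a0 (by (clear * - hl1 hD hW; positivity)) (by positivity)).trans ?_
    have b1 : l ^ (A + 1) * l ^ (-(4 * A + 2)) = T := by
      rw [← Real.rpow_add hl0, hT]; congr 1; ring
    have b2 : l ^ (A + 1) * l ^ (2 * (4 * A + 2) - (20 * A + 20)) ≤ T := by
      rw [← Real.rpow_add hl0, hT]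
      exact Real.rpow_le_rpow_of_exponent_le hl1 (by linarith only [hA])
    have b3 : l ^ (A + 1) * l ^ ((4 * A + 2) + 1 + (-(8 * A + 5))) ≤ T := by
      rw [← Real.rpow_add hl0, hT]
      exact Real.rpow_le_rpow_of_exponent_le hl1 (by linarith only [])
    have a5 : (0 : ℝ) ≤ r := Nat.cast_nonneg _
    calc l ^ (A + 1) * (l ^ (-(4 * A + 2)) + 4 * l ^ (2 * (4 * A + 2) - (20 * A + 20)) +
          2 * (r + 1) * l ^ ((4 * A + 2) + 1 + (-(8 * A + 5))))
        = l ^ (A + 1) * l ^ (-(4 * A + 2)) +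
          4 * (l ^ (A + 1) * l ^ (2 * (4 * A + 2) - (20 * A + 20))) +
          2 * (r + 1) * (l ^ (A + 1) * l ^ ((4 * A + 2) + 1 + (-(8 * A + 5)))) := by ring
      _ ≤ T + 4 * T + 2 * (r + 1) * T := by
          rw [b1]; gcongr
  have hTl : T * l = l ^ (-(3 * A)) := by
    rw [hT, Real.rpow_sub hl0, Real.rpow_one]
    field_simp
  have hfin : (16 * ((r : ℝ) + 10)) * T ≤ l ^ (-(3 * A)) := by
    rw [← hTl, mul_comm]
    refine mul_le_mul_of_nonneg_left ?_ hT0.le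
    have a0 := h.c0
    have a5 : (0 : ℝ) ≤ r := Nat.cast_nonneg _
    have a6 : (0 : ℝ) ≤ 2 ^ (r + 10) := by positivity
    linarith only [a0, a6]
  have hfin2 : 2 * Y * (T + (T + 4 * T + 2 * (r + 1) * T)) ≤ Y * l ^ (-(3 * A)) / 2 := by
    have a5 : (0 : ℝ) ≤ r := Nat.cast_nonneg _
    have a6 : 2 * (T + (T + 4 * T + 2 * (r + 1) * T)) ≤ l ^ (-(3 * A)) / 2 := by
      have : 4 * (T + (T + 4 * T + 2 * (r + 1) * T)) ≤ (16 * ((r : ℝ) + 10)) * T := by
        have : 0 ≤ (r : ℝ) * T := by (clear * - hl1; positivity)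
        linarith only [this, hT0]
      linarith only [hfin, this]
    calc 2 * Y * (T + (T + 4 * T + 2 * (r + 1) * T)) =
          Y * (2 * (T + (T + 4 * T + 2 * (r + 1) * T))) := by ring
      _ ≤ Y * (l ^ (-(3 * A)) / 2) := mul_le_mul_of_nonneg_left a6 hY.le
      _ = _ := by ring
  have hpos : 0 ≤ Y * l ^ (-(3 * A)) := by positivity
  calc _ ≤ 2 * Y * (T + (T + 4 * T + 2 * (r + 1) * T)) + Err := by
        have := add_le_add e1 e7
        have := mul_le_mul_of_nonneg_left this (show 0 ≤ 2 * Y by positivity)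
        linarith only [this]
    _ ≤ _ := by linarith only [hErr, hfin2, hpos]

/-- second case of the final estimate -/
theorem Big.final2 (h : Big A r l) (hA : 0 < A) (D : ℝ) (hD : 0 < D)
    (hD2 : D ≤ l ^ (20 * A + 20)) (κ : ℝ) (hκ : l ^ (-A) ≤ κ)
    (Bv : ℝ) (hB : Real.exp l * l ^ (40 * A + 40) ≤ Bv) (Y E Pr Err : ℝ) (hY : 0 < Y)
    (hE : 0 < E) (hPr : 0 < Pr) (hYu : Y * E * Pr ≤ Real.exp l * l ^ A)
    (hErr : Err ≤ Y * l ^ (-(3 * A)) / 8) :
    2 * Y * (2 ^ (r + 2) * l ^ (-(10 * A + 10)) / κ + 1 / WW A l) +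
      (3 * Y) ^ 2 / (Real.pi * (Bv * l ^ (-(10 * A + 10)) / (D * E * (2 ^ (r + 1) * Pr)))) + Err ≤
      Y * l ^ (-(3 * A)) := by
  have hl1 := h.hl
  have hl0 : 0 < l := by linarith only [hl1]
  have hW := h.W_pos
  have hWi := h.W_inv
  have hpi := Real.pi_pos
  have hpi3 := Real.pi_gt_three
  have hκ0 : 0 < κ := lt_of_lt_of_le (by positivity) hκ
  set T : ℝ := l ^ (-(3 * A) - 1) with hT
  have hT0 : 0 < T := by positivity
  have e1 : 1 / WW A l ≤ T := hWi.trans (Real.rpow_le_rpow_of_exponent_le hl1 (by linarith only [hA]))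
  have e2 : 2 ^ (r + 2) * l ^ (-(10 * A + 10)) / κ ≤ 2 ^ (r + 2) * T := by
    rw [div_le_iff₀ hκ0]
    have a1 : l ^ (-(10 * A + 10)) ≤ T * κ := by
      calc l ^ (-(10 * A + 10)) ≤ l ^ ((-(3 * A) - 1) + (-A)) :=
            Real.rpow_le_rpow_of_exponent_le hl1 (by linarith only [hA])
        _ = T * l ^ (-A) := by rw [Real.rpow_add hl0]
        _ ≤ T * κ := by gcongr
    calc 2 ^ (r + 2) * l ^ (-(10 * A + 10)) ≤ 2 ^ (r + 2) * (T * κ) := by gcongr
      _ = _ := by ring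
  have hB0 : 0 < Bv := lt_of_lt_of_le (by positivity) hB
  have e3 : (3 * Y) ^ 2 / (Real.pi * (Bv * l ^ (-(10 * A + 10)) / (D * E * (2 ^ (r + 1) * Pr)))) ≤
      3 * 2 ^ (r + 1) * (Y * T) := by
    have a1 : (3 * Y) ^ 2 / (Real.pi * (Bv * l ^ (-(10 * A + 10)) / (D * E * (2 ^ (r + 1) * Pr)))) =
        (9 / Real.pi) * 2 ^ (r + 1) * Y * ((Y * E * Pr) * D / (Bv * l ^ (-(10 * A + 10)))) := by
      field_simp
      ring
    rw [a1]
    have a2 : 9 / Real.pi ≤ 3 := by rw [div_le_iff₀ hpi]; linarith only [hpi3]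
    have a3 : (Y * E * Pr) * D / (Bv * l ^ (-(10 * A + 10))) ≤ T := by
      rw [div_le_iff₀ (by positivity)]
      calc (Y * E * Pr) * D ≤ (Real.exp l * l ^ A) * l ^ (20 * A + 20) := by gcongr
        _ = Real.exp l * l ^ (A + (20 * A + 20)) := by
            rw [Real.rpow_add hl0 A (20 * A + 20)]; ring
        _ ≤ Real.exp l * l ^ ((-(3 * A) - 1) + (40 * A + 40) + (-(10 * A + 10))) := by
            refine mul_le_mul_of_nonneg_left ?_ (Real.exp_pos _).le
            exact Real.rpow_le_rpow_of_exponent_le hl1 (by linarith only [hA])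
        _ = T * ((Real.exp l * l ^ (40 * A + 40)) * l ^ (-(10 * A + 10))) := by
            rw [Real.rpow_add hl0, Real.rpow_add hl0]; ring
        _ ≤ T * (Bv * l ^ (-(10 * A + 10))) := by gcongr
    calc (9 / Real.pi) * 2 ^ (r + 1) * Y * ((Y * E * Pr) * D / (Bv * l ^ (-(10 * A + 10))))
        ≤ 3 * 2 ^ (r + 1) * Y * T := by gcongr
      _ = _ := by ring
  have hTl : T * l = l ^ (-(3 * A)) := by
    rw [hT, Real.rpow_sub hl0, Real.rpow_one]
    field_simp
  have hfin : (2 ^ (r + 10) + 32) * T ≤ l ^ (-(3 * A)) := by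
    rw [← hTl, mul_comm]
    refine mul_le_mul_of_nonneg_left ?_ hT0.le
    have a0 := h.c0
    have a5 : (0 : ℝ) ≤ r := Nat.cast_nonneg _
    linarith only [a0]
  have hfin2 : 2 * Y * (2 ^ (r + 2) * T + T) + 3 * 2 ^ (r + 1) * (Y * T) ≤
      Y * l ^ (-(3 * A)) / 2 := by
    have a6 : 2 * (2 ^ (r + 2) * T + T) + 3 * 2 ^ (r + 1) * T ≤ l ^ (-(3 * A)) / 2 := by
      have b1 : (2 : ℝ) ^ (r + 10) = 1024 * 2 ^ r := by rw [pow_add]; norm_num; ring
      have b2 : (2 : ℝ) ^ (r + 2) = 4 * 2 ^ r := by rw [pow_add]; norm_num; ring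
      have b3 : (2 : ℝ) ^ (r + 1) = 2 * 2 ^ r := by rw [pow_add]; norm_num; ring
      rw [b2, b3]
      rw [b1] at hfin
      have : 0 ≤ (2 : ℝ) ^ r * T := by positivity
      linarith only [hT0, hfin, this]
    calc 2 * Y * (2 ^ (r + 2) * T + T) + 3 * 2 ^ (r + 1) * (Y * T) =
          Y * (2 * (2 ^ (r + 2) * T + T) + 3 * 2 ^ (r + 1) * T) := by ring
      _ ≤ Y * (l ^ (-(3 * A)) / 2) := mul_le_mul_of_nonneg_left a6 hY.le
      _ = _ := by ring
  have hpos : 0 ≤ Y * l ^ (-(3 * A)) := by positivity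
  calc _ ≤ 2 * Y * (2 ^ (r + 2) * T + T) + 3 * 2 ^ (r + 1) * (Y * T) + Err := by
        have := add_le_add e2 e1
        have := mul_le_mul_of_nonneg_left this (show 0 ≤ 2 * Y by positivity)
        linarith only [e3, this]
    _ ≤ _ := by linarith only [hErr, hfin2, hpos]

end Vale.Agent.P013.J.Ntl
end

section

/-!
# Siegel's theorem, part C: Estermann's lemma
-/

open Finset Filter Topology Complex
open scoped ComplexOrder Nat

namespace Vale.Agent.P013.J.Siegel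

/-- `ζ(s) - 1/(s-1)` as an entire function -/
noncomputable def Zr : ℂ → ℂ :=
  Function.update (fun s => riemannZeta s - 1 / (s - 1)) 1 (Real.eulerMascheroniConstant : ℂ)

lemma Zr_of_ne {s : ℂ} (hs : s ≠ 1) : Zr s = riemannZeta s - 1 / (s - 1) :=
  Function.update_of_ne hs _ _

lemma Zr_differentiableAt_of_ne {s : ℂ} (hs : s ≠ 1) : DifferentiableAt ℂ Zr s := by
  have h1 : DifferentiableAt ℂ (fun s => riemannZeta s - 1 / (s - 1)) s := by
    refine (differentiableAt_riemannZeta hs).sub ?_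
    refine (differentiableAt_const _).div (differentiableAt_id.sub (differentiableAt_const _)) ?_
    exact sub_ne_zero.mpr hs
  refine h1.congr_of_eventuallyEq ?_
  filter_upwards [eventually_ne_nhds hs] with t ht using Zr_of_ne ht

lemma Zr_differentiable : Differentiable ℂ Zr := by
  intro s
  rcases ne_or_eq s 1 with hs | rfl
  · exact Zr_differentiableAt_of_ne hs
  refine (analyticAt_of_differentiable_on_punctured_nhds_of_continuousAt ?_ ?_).differentiableAt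
  · filter_upwards [self_mem_nhdsWithin] with t ht
    exact Zr_differentiableAt_of_ne ht
  · rw [Zr, continuousAt_update_same]
    exact tendsto_riemannZeta_sub_one_div

lemma exists_Zr_bound : ∃ C : ℝ, 0 ≤ C ∧ ∀ s : ℂ, ‖s - 2‖ ≤ 3 / 2 → ‖Zr s‖ ≤ C := by
  obtain ⟨C, hC⟩ := (isCompact_closedBall (2 : ℂ) (3 / 2)).exists_bound_of_continuousOn
    Zr_differentiable.continuous.continuousOn
  refine ⟨max C 0, le_max_right _ _, fun s hs => (hC s ?_).trans (le_max_left _ _)⟩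
  rwa [mem_closedBall_iff_norm]

/-- the entire part of `ζ(s) P(s)` -/
noncomputable def GG (P : ℂ → ℂ) (s : ℂ) : ℂ := Zr s * P s + dslope P 1 s

lemma GG_differentiable {P : ℂ → ℂ} (hP : Differentiable ℂ P) : Differentiable ℂ (GG P) := by
  have h1 : Differentiable ℂ (dslope P 1) := by
    have := (differentiableOn_dslope (f := P) (s := Set.univ) (c := 1) univ_mem).mpr
      hP.differentiableOn
    exact differentiableOn_univ.mp this
  exact (Zr_differentiable.mul hP).add h1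

lemma zeta_mul_eq (P : ℂ → ℂ) {s : ℂ} (hs : s ≠ 1) :
    riemannZeta s * P s = GG P s + P 1 * (s - 1)⁻¹ := by
  have h : s - 1 ≠ 0 := sub_ne_zero.mpr hs
  rw [GG, Zr_of_ne hs, dslope_of_ne _ hs, slope_def_field]
  field_simp
  ring

lemma norm_GG_le {P : ℂ → ℂ} {CZ K : ℝ} (hC0 : 0 ≤ CZ)
    (hCZ : ∀ s : ℂ, ‖s - 2‖ ≤ 3 / 2 → ‖Zr s‖ ≤ CZ)
    (hPK : ∀ s : ℂ, ‖s - 2‖ ≤ 3 / 2 → ‖P s‖ ≤ K) {s : ℂ} (hs : ‖s - 2‖ = 3 / 2) :
    ‖GG P s‖ ≤ (CZ + 4) * K := by
  have hK : 0 ≤ K := (norm_nonneg _).trans (hPK s hs.le)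
  have h1 : 1 / 2 ≤ ‖s - 1‖ := by
    have : ‖s - 2‖ ≤ ‖s - 1‖ + ‖(1 : ℂ)‖ := by
      have := norm_sub_le (s - 1) 1
      rwa [show s - 1 - 1 = s - 2 by ring] at this
    rw [hs, norm_one] at this
    linarith only [this]
  have hs1 : s ≠ 1 := by
    rintro rfl
    simp at h1
    linarith only [h1]
  have h2 : ‖P 1‖ ≤ K := hPK 1 (by norm_num)
  rw [GG, dslope_of_ne _ hs1, slope_def_field]
  refine (norm_add_le _ _).trans ?_
  rw [norm_mul, norm_div]
  have h3 : ‖Zr s‖ * ‖P s‖ ≤ CZ * K :=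
    mul_le_mul (hCZ s hs.le) (hPK s hs.le) (norm_nonneg _) hC0
  have h4 : ‖P s - P 1‖ / ‖s - 1‖ ≤ (2 * K) / (1 / 2) := by
    refine div_le_div₀ (by linarith only [hK]) ?_ (by norm_num) h1
    refine (norm_sub_le _ _).trans ?_
    have := hPK s hs.le
    linarith only [h2, this]
  calc _ ≤ CZ * K + (2 * K) / (1 / 2) := add_le_add h3 h4
    _ = (CZ + 4) * K := by ring

lemma iteratedDeriv_inv_sub (m : ℕ) :
    iteratedDeriv m (fun s : ℂ => (s - 1)⁻¹) 2 = (-1) ^ m * m ! := by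
  have h := iter_deriv_inv_linear_sub m (1 : ℂ) 1
  simp only [one_mul, one_pow, mul_one] at h
  rw [iteratedDeriv_eq_iterate, h]
  have : (2 : ℂ) - 1 = 1 := by norm_num
  simp [this]

section
variable {P : ℂ → ℂ} {b : ArithmeticFunction ℂ}

lemma iteratedDeriv_eq (hP : Differentiable ℂ P)
    (hL : ∀ s : ℂ, 1 < s.re → LSeries (fun n => b n) s = riemannZeta s * P s) (m : ℕ) :
    iteratedDeriv m (LSeries (fun n => b n)) 2 =
      iteratedDeriv m (GG P) 2 + P 1 * ((-1) ^ m * m !) := by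
  have h1 : LSeries (fun n => b n) =ᶠ[𝓝 2] fun s => GG P s + P 1 * (s - 1)⁻¹ := by
    have h2 : {s : ℂ | 1 < s.re} ∈ 𝓝 (2 : ℂ) :=
      (continuous_re.isOpen_preimage _ isOpen_Ioi).mem_nhds (by simp)
    filter_upwards [h2] with s hs
    have hs' : 1 < s.re := hs
    rw [hL s hs', zeta_mul_eq]
    rintro rfl
    simp at hs'
  rw [h1.iteratedDeriv_eq]
  have h3 : ContDiffAt ℂ m (GG P) 2 := (GG_differentiable hP).contDiff.contDiffAt
  have h4 : ContDiffAt ℂ m (fun s : ℂ => P 1 * (s - 1)⁻¹) 2 := by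
    refine contDiffAt_const.mul (ContDiffAt.inv (contDiffAt_id.sub contDiffAt_const) ?_)
    norm_num
  rw [iteratedDeriv_fun_add h3 h4, iteratedDeriv_const_mul_field, iteratedDeriv_inv_sub]

/-- coefficient `a_m` of the Taylor expansion of the L-series in powers of `2 - s` -/
noncomputable def am (b : ArithmeticFunction ℂ) (m : ℕ) : ℝ :=
  ((-1) ^ m * iteratedDeriv m (LSeries (fun n => b n)) 2 / m !).re

lemma abscissa_le (hs : ∀ s : ℂ, 1 < s.re → LSeriesSummable (fun n => b n) s) :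
    LSeries.abscissaOfAbsConv (fun n => b n) < ((2 : ℝ) : EReal) := by
  have : LSeries.abscissaOfAbsConv (fun n => b n) ≤ (1 : ℝ) := by
    refine LSeries.abscissaOfAbsConv_le_of_forall_lt_LSeriesSummable fun y hy => hs _ ?_
    simpa using hy
  exact this.trans_lt (by exact_mod_cast one_lt_two)

lemma am_nonneg (hb : ∀ n, 0 ≤ b n)
    (hs : ∀ s : ℂ, 1 < s.re → LSeriesSummable (fun n => b n) s) (m : ℕ) : 0 ≤ am b m := by
  have h := LSeries.iteratedDeriv_alternating (a := fun n => b n) (fun n => hb n)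
    (abscissa_le hs) m
  have h2 : (0 : ℂ) ≤ (-1) ^ m * iteratedDeriv m (LSeries (fun n => b n)) 2 / m ! := by
    refine div_nonneg (by simpa using h) ?_
    exact_mod_cast (Nat.zero_le _)
  exact (Complex.nonneg_iff.mp h2).1

lemma am_zero (hb : ∀ n, 0 ≤ b n) (hb1 : b 1 = 1)
    (hs : ∀ s : ℂ, 1 < s.re → LSeriesSummable (fun n => b n) s) : 1 ≤ am b 0 := by
  have hsum : LSeriesSummable (fun n => b n) 2 := hs 2 (by simp)
  have h1 : am b 0 = ∑' n, (LSeries.term (fun n => b n) 2 n).re := by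
    simp only [am, pow_zero, iteratedDeriv_zero, Nat.factorial_zero, Nat.cast_one, div_one, one_mul]
    exact Complex.re_tsum hsum
  rw [h1]
  have h2 : ∀ n, 0 ≤ (LSeries.term (fun n => b n) 2 n).re := fun n => by
    have := LSeries.term_nonneg (a := fun n => b n) (n := n) (hb n) 2
    exact (Complex.nonneg_iff.mp (by simpa using this)).1
  have h3 : (LSeries.term (fun n => b n) 2 1).re = 1 := by
    simp [hb1]
  rw [← h3]
  exact (Complex.hasSum_re hsum.hasSum).summable.le_tsum 1 (fun n _ => h2 n)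

lemma taylor_re (hP : Differentiable ℂ P)
    (hL : ∀ s : ℂ, 1 < s.re → LSeries (fun n => b n) s = riemannZeta s * P s) (δ : ℝ) :
    HasSum (fun m : ℕ => (1 + δ) ^ m * (am b m - (P 1).re)) (GG P (1 - δ)).re := by
  have h := Complex.hasSum_re (hasSum_taylorSeries_of_entire (GG_differentiable hP) 2 (1 - δ))
  convert! h using 2 with m
  have h1 : iteratedDeriv m (GG P) 2 = iteratedDeriv m (LSeries (fun n => b n)) 2 -
      P 1 * ((-1) ^ m * m !) := by
    rw [iteratedDeriv_eq hP hL]; ring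
  rw [h1]
  have hm : (m ! : ℂ) ≠ 0 := by exact_mod_cast (Nat.factorial_ne_zero m)
  have h2 : ((1 : ℂ) - δ - 2) ^ m = (-1) ^ m * (((1 + δ) ^ m : ℝ) : ℂ) := by
    push_cast
    rw [← mul_pow]
    congr 1
    ring
  have h3 : ((-1 : ℂ) ^ m) * (-1) ^ m = 1 := by rw [← mul_pow]; simp
  have h4 : (m ! : ℂ)⁻¹ • ((1 : ℂ) - δ - 2) ^ m • (iteratedDeriv m (LSeries (fun n => b n)) 2 -
      P 1 * ((-1) ^ m * m !)) = (((1 + δ) ^ m : ℝ) : ℂ) *
        ((-1) ^ m * iteratedDeriv m (LSeries (fun n => b n)) 2 / (m ! : ℂ) - P 1) := by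
    rw [h2, smul_eq_mul, smul_eq_mul]
    field_simp
    linear_combination (-(((1 + δ) ^ m : ℝ) : ℂ) * P 1 * m !) * h3
  rw [h4, Complex.re_ofReal_mul, Complex.sub_re]
  rfl

lemma coeff_bound (hP : Differentiable ℂ P)
    (hL : ∀ s : ℂ, 1 < s.re → LSeries (fun n => b n) s = riemannZeta s * P s) {B : ℝ}
    (hB : ∀ s : ℂ, ‖s - 2‖ = 3 / 2 → ‖GG P s‖ ≤ B) (m : ℕ) :
    |am b m - (P 1).re| ≤ B * (2 / 3) ^ m := by
  have h1 : iteratedDeriv m (GG P) 2 = iteratedDeriv m (LSeries (fun n => b n)) 2 -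
      P 1 * ((-1) ^ m * m !) := by
    rw [iteratedDeriv_eq hP hL]; ring
  have hm : (m ! : ℂ) ≠ 0 := by exact_mod_cast (Nat.factorial_ne_zero m)
  have hm' : (0 : ℝ) < m ! := by exact_mod_cast (Nat.factorial_pos m)
  have h3 : ((-1 : ℂ) ^ m) * (-1) ^ m = 1 := by rw [← mul_pow]; simp
  have h2 : am b m - (P 1).re = ((-1) ^ m * iteratedDeriv m (GG P) 2 / m !).re := by
    rw [h1, am, ← Complex.sub_re]
    congr 1
    field_simp
    linear_combination (P 1 * m !) * h3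
  rw [h2]
  refine (Complex.abs_re_le_norm _).trans ?_
  rw [norm_div, norm_mul, norm_pow, norm_neg, norm_one, one_pow, one_mul, Complex.norm_natCast,
    div_le_iff₀ hm']
  have h5 := norm_iteratedDeriv_le_of_forall_mem_sphere_norm_le (c := 2) (R := 3 / 2) (C := B)
    (f := GG P) m (by norm_num) (GG_differentiable hP).diffContOnCl
    (fun z hz => hB z (by simpa [mem_sphere_iff_norm] using hz))
  refine h5.trans (le_of_eq ?_)
  rw [div_pow, div_pow]
  field_simp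

/-- main inequality -/
lemma estermann_aux (hP : Differentiable ℂ P) (hb : ∀ n, 0 ≤ b n) (hb1 : b 1 = 1)
    (hs : ∀ s : ℂ, 1 < s.re → LSeriesSummable (fun n => b n) s)
    (hL : ∀ s : ℂ, 1 < s.re → LSeries (fun n => b n) s = riemannZeta s * P s) {B : ℝ}
    (hB : ∀ s : ℂ, ‖s - 2‖ = 3 / 2 → ‖GG P s‖ ≤ B) {δ : ℝ} (h0 : 0 < δ) (h1 : δ ≤ 1 / 8)
    (hneg : (riemannZeta (1 - δ) * P (1 - δ)).re ≤ 0) {M : ℕ} (hM1 : 1 ≤ M)
    (hM : 4 * B * (3 / 4) ^ M ≤ 1 / 2) :
    δ / 2 ≤ (P 1).re * (1 + δ) ^ M := by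
  have hB0 : 0 ≤ B := (norm_nonneg _).trans (hB (2 + 3 / 2) (by norm_num))
  set lam := (P 1).re with hlam
  have hT := taylor_re hP hL δ
  have hne : (1 : ℂ) - δ ≠ 1 := by
    intro h
    have : (δ : ℂ) = 0 := by linear_combination -h
    exact h0.ne' (by exact_mod_cast this)
  have hz := zeta_mul_eq P hne
  have hz' : (GG P (1 - δ)).re ≤ lam / δ := by
    have h2 : (riemannZeta (1 - δ) * P (1 - δ)).re = (GG P (1 - δ)).re - lam / δ := by
      rw [hz, Complex.add_re]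
      have : P 1 * ((1 : ℂ) - δ - 1)⁻¹ = P 1 * ((-(1 / δ) : ℝ) : ℂ) := by
        push_cast
        rw [show (1 : ℂ) - δ - 1 = -δ by ring, ← neg_inv, one_div]
      rw [this, Complex.re_mul_ofReal]
      ring
    linarith only [hneg, h2]
  -- split the sum
  have hsumm := hT.summable
  have hsplit := hsumm.sum_add_tsum_nat_add M
  rw [hT.tsum_eq] at hsplit
  -- tail
  have htail : |∑' m, ((1 + δ) ^ (m + M) * (am b (m + M) - lam))| ≤ 4 * B * (3 / 4) ^ M := by
    have hgeo : HasSum (fun m : ℕ => B * (3 / 4) ^ M * (3 / 4 : ℝ) ^ m)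
        (B * (3 / 4) ^ M * (1 - 3 / 4)⁻¹) :=
      (hasSum_geometric_of_lt_one (by norm_num) (by norm_num)).mul_left _
    have hle : ∀ m : ℕ, ‖(1 + δ) ^ (m + M) * (am b (m + M) - lam)‖ ≤
        B * (3 / 4) ^ M * (3 / 4 : ℝ) ^ m := by
      intro m
      rw [norm_mul, Real.norm_eq_abs, Real.norm_eq_abs, abs_of_nonneg (by positivity)]
      calc (1 + δ) ^ (m + M) * |am b (m + M) - lam|
          ≤ (9 / 8) ^ (m + M) * (B * (2 / 3) ^ (m + M)) :=
            mul_le_mul (pow_le_pow_left₀ (by linarith only [h0, h1]) (by linarith only [h1]) _)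
              (coeff_bound hP hL hB _) (abs_nonneg _) (by positivity)
        _ = B * ((9 / 8) * (2 / 3)) ^ (m + M) := by rw [mul_pow]; ring
        _ = B * (3 / 4) ^ M * (3 / 4 : ℝ) ^ m := by
            rw [show (9 / 8 : ℝ) * (2 / 3) = 3 / 4 by norm_num, pow_add]; ring
    have := tsum_of_norm_bounded hgeo hle
    rw [Real.norm_eq_abs] at this
    refine this.trans (le_of_eq ?_)
    norm_num
    ring
  have htail' := (abs_le.mp htail).1
  -- head
  have hhead : 1 - lam * (((1 + δ) ^ M - 1) / δ) ≤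
      ∑ m ∈ range M, (1 + δ) ^ m * (am b m - lam) := by
    have h2 : ∑ m ∈ range M, (1 + δ) ^ m * (am b m - lam) =
        ∑ m ∈ range M, (1 + δ) ^ m * am b m - lam * ∑ m ∈ range M, (1 + δ) ^ m := by
      rw [Finset.mul_sum, ← Finset.sum_sub_distrib]
      exact Finset.sum_congr rfl fun m _ => by ring
    have h3 : ∑ m ∈ range M, (1 + δ) ^ m = ((1 + δ) ^ M - 1) / δ := by
      rw [geom_sum_eq (by linarith only [h0])]
      ring_nf
    have h4 : 1 ≤ ∑ m ∈ range M, (1 + δ) ^ m * am b m := by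
      have h5 : (1 + δ) ^ 0 * am b 0 ≤ ∑ m ∈ range M, (1 + δ) ^ m * am b m :=
        Finset.single_le_sum (f := fun m => (1 + δ) ^ m * am b m)
          (fun m _ => mul_nonneg (by positivity) (am_nonneg hb hs m)) (mem_range.mpr hM1)
      have := am_zero hb hb1 hs
      simp only [pow_zero, one_mul] at h5
      linarith only [this, h5]
    rw [h2, h3]
    linarith only [h4]
  have hfin : 1 / 2 ≤ lam * ((1 + δ) ^ M / δ) := by
    have h6 : lam * (((1 + δ) ^ M - 1) / δ) + lam / δ = lam * ((1 + δ) ^ M / δ) := by ring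
    linarith only [hM, hz', hsplit, htail', hhead, h6]
  rw [mul_div_assoc', le_div_iff₀ h0] at hfin
  linarith only [hfin]

end

/-- **Estermann's lemma.** -/
theorem estermann : ∃ C₀ : ℝ, 8 ≤ C₀ ∧ ∀ (P : ℂ → ℂ) (b : ArithmeticFunction ℂ),
    Differentiable ℂ P → (∀ n, 0 ≤ b n) → b 1 = 1 →
    (∀ s : ℂ, 1 < s.re → LSeriesSummable (fun n => b n) s) →
    (∀ s : ℂ, 1 < s.re → LSeries (fun n => b n) s = riemannZeta s * P s) →
    ∀ K : ℝ, 1 ≤ K → (∀ s : ℂ, ‖s - 2‖ ≤ 3 / 2 → ‖P s‖ ≤ K) →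
    ∀ δ : ℝ, 0 < δ → δ ≤ 1 / 8 → (riemannZeta (1 - δ) * P (1 - δ)).re ≤ 0 →
      δ / 6 * (C₀ * K) ^ (-(4 * δ)) ≤ (P 1).re := by
  obtain ⟨CZ, hCZ0, hCZ⟩ := exists_Zr_bound
  refine ⟨8 * (CZ + 4), by linarith, fun P b hP hb hb1 hs hL K hK hPK δ h0 h1 hneg => ?_⟩
  set B : ℝ := (CZ + 4) * K with hBdef
  have hB4 : 4 ≤ B := by linarith only [mul_nonneg (sub_nonneg.2 hCZ0) (sub_nonneg.2 hK), hK, hCZ0]
  have hBb : ∀ s : ℂ, ‖s - 2‖ = 3 / 2 → ‖GG P s‖ ≤ B := fun s hs' =>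
    norm_GG_le hCZ0 hCZ hPK hs'
  have hlog43 : (1 : ℝ) / 4 ≤ Real.log (4 / 3) := by
    have := Real.one_sub_inv_le_log_of_pos (x := 4 / 3) (by norm_num)
    norm_num at this ⊢
    linarith only [this]
  have hlog8 : 0 < Real.log (8 * B) := Real.log_pos (by linarith only [h0, h1, hB4])
  set M : ℕ := ⌈Real.log (8 * B) / Real.log (4 / 3)⌉₊ with hMdef
  have hM1 : 1 ≤ M := Nat.one_le_ceil_iff.mpr (div_pos hlog8 (by linarith only [h0, h1, hlog43]))
  have hMle : Real.log (8 * B) / Real.log (4 / 3) ≤ M := Nat.le_ceil _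
  have hMlt : (M : ℝ) < Real.log (8 * B) / Real.log (4 / 3) + 1 :=
    Nat.ceil_lt_add_one (div_pos hlog8 (by linarith only [h0, h1, hlog43])).le
  have hpow : 8 * B ≤ (4 / 3) ^ M := by
    rw [div_le_iff₀ (by linarith only [h0, h1, hlog43])] at hMle
    have h2 : Real.log (8 * B) ≤ Real.log ((4 / 3) ^ M) := by rwa [Real.log_pow]
    exact (Real.log_le_log_iff (by linarith only [h0, h1, hB4]) (by positivity)).mp h2
  have hM : 4 * B * (3 / 4) ^ M ≤ 1 / 2 := by
    have h3 : (3 / 4 : ℝ) ^ M * (4 / 3) ^ M = 1 := by rw [← mul_pow]; norm_num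
    have h4 : 0 < (3 / 4 : ℝ) ^ M := by positivity
    nlinarith only [h3, h0, h1, hpow, h4]
  have hmain := estermann_aux hP hb hb1 hs hL hBb h0 h1 hneg hM1 hM
  -- bound `(1+δ)^M`
  have hx : (1 + δ) ^ M ≤ 3 * (8 * B) ^ (4 * δ) := by
    calc (1 + δ) ^ M ≤ (Real.exp δ) ^ M :=
          pow_le_pow_left₀ (by linarith only [h0, h1]) (by linarith only [Real.add_one_le_exp δ]) _
      _ = Real.exp (M * δ) := by rw [← Real.exp_nat_mul]
      _ ≤ Real.exp (1 + Real.log (8 * B) * (4 * δ)) := by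
          refine Real.exp_le_exp.mpr ?_
          have h5 : Real.log (8 * B) / Real.log (4 / 3) ≤ Real.log (8 * B) * 4 := by
            rw [div_le_iff₀ (by linarith only [h0, h1, hlog43])]
            nlinarith only [h0, h1, hlog43, hlog8]
          nlinarith only [h1, h0, hMlt, h5]
      _ = Real.exp 1 * (8 * B) ^ (4 * δ) := by
          rw [Real.exp_add, Real.rpow_def_of_pos (by linarith only [h0, h1, hB4])]
      _ ≤ 3 * (8 * B) ^ (4 * δ) := by
          refine mul_le_mul_of_nonneg_right ?_ (Real.rpow_nonneg (by linarith only [h0, h1, hB4]) _)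
          exact Real.exp_one_lt_three.le
  have hpos : 0 < (1 + δ) ^ M := by positivity
  have hlam : 0 < (P 1).re := by
    by_contra hcon
    push Not at hcon
    have : (P 1).re * (1 + δ) ^ M ≤ 0 := mul_nonpos_of_nonpos_of_nonneg hcon hpos.le
    linarith only [h0, hmain, this]
  have h8B : 8 * (CZ + 4) * K = 8 * B := by rw [hBdef]; ring
  rw [h8B, Real.rpow_neg (by linarith only [h0, h1, hB4])]
  have hr : 0 < (8 * B) ^ (4 * δ) := Real.rpow_pos_of_pos (by linarith only [h0, h1, hB4]) _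
  rw [← div_eq_mul_inv, div_le_iff₀ hr]
  have h6 : (P 1).re * (1 + δ) ^ M ≤ (P 1).re * (3 * (8 * B) ^ (4 * δ)) :=
    mul_le_mul_of_nonneg_left hx hlam.le
  linarith only [hmain, h6]

end Vale.Agent.P013.J.Siegel
end

section

/-!
# Siegel's theorem
-/

open Finset Filter Topology Complex DirichletCharacter
open scoped ComplexOrder

namespace Vale.Agent.P013.J.Siegel

variable {q : ℕ}

lemma re_ge_half {s : ℂ} (hs : ‖s - 2‖ ≤ 3 / 2) : 1 / 2 ≤ s.re := by
  have h1 : |(s - 2).re| ≤ 3 / 2 := (Complex.abs_re_le_norm _).trans hs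
  have h2 := (abs_le.mp h1).1
  simp only [Complex.sub_re, Complex.re_ofNat] at h2
  linarith only [h2]

lemma norm_LFunction_ball [NeZero q] {χ : DirichletCharacter ℂ q} (hχ : χ ≠ 1) {s : ℂ}
    (hs : ‖s - 2‖ ≤ 3 / 2) : ‖LFunction χ s‖ ≤ 7 * q := by
  have h1 := re_ge_half hs
  have h2 : ‖s‖ ≤ 7 / 2 := by
    have := norm_add_le (s - 2) 2
    rw [sub_add_cancel] at this
    have h3 : ‖(2 : ℂ)‖ = 2 := by simp
    linarith only [hs, this, h3]
  refine (norm_LFunction_le hχ (by linarith only [h1])).trans ?_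
  have h3 : (q : ℝ) / s.re ≤ 2 * q := by
    rw [div_le_iff₀ (by linarith only [h1])]
    have : (0 : ℝ) ≤ q := Nat.cast_nonneg q
    nlinarith only [h1]
  have h4 : 0 ≤ (q : ℝ) / s.re := div_nonneg (Nat.cast_nonneg q) (by linarith only [h1])
  calc ‖s‖ * (q / s.re) ≤ (7 / 2) * (2 * q) := mul_le_mul h2 h3 h4 (by norm_num)
    _ = 7 * q := by ring

lemma one_le_q [NeZero q] : (1 : ℝ) ≤ q := by
  exact_mod_cast Nat.one_le_iff_ne_zero.mpr (NeZero.ne q)

/-- `Re L(2, χ) > 0` -/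
lemma re_two_pos [NeZero q] {χ : DirichletCharacter ℂ q} (hχ2 : χ ^ 2 = 1) :
    0 < (LFunction χ 2).re := by
  have h1 : 0 < LSeries (fun n => b2 χ n) (2 : ℝ) :=
    LSeries.positive (a := fun n => b2 χ n) (fun n => b2_nonneg hχ2 n)
      (by simp [b2_one]) (abscissa_le fun s hs => b2_summable χ hs)
  have h2 := b2_LSeries χ (s := 2) (by simp)
  rw [show ((2 : ℝ) : ℂ) = 2 by simp, h2, riemannZeta_two] at h1
  have h3 := (Complex.pos_iff.mp h1).1
  have h4 : ((Real.pi : ℂ) ^ 2 / 6) = ((Real.pi ^ 2 / 6 : ℝ) : ℂ) := by push_cast; ring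
  rw [h4, Complex.re_ofReal_mul] at h3
  have h5 : 0 < Real.pi ^ 2 / 6 := by positivity
  exact (pos_iff_pos_of_mul_pos h3).mp h5

/-- sign of `L(1 - δ, χ)` when there is no zero in `[1 - δ, 1)` -/
lemma re_nonneg_of_no_zero [NeZero q] {χ : DirichletCharacter ℂ q} (hχ : χ ≠ 1)
    (hχ2 : χ ^ 2 = 1) {δ : ℝ} (h0 : 0 < δ) (h1 : δ ≤ 1 / 8)
    (hno : ∀ δ' : ℝ, 0 < δ' → δ' ≤ δ → LFunction χ (1 - δ') ≠ 0) :
    0 ≤ (LFunction χ (1 - δ)).re := by
  by_contra hcon
  push Not at hcon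
  have hcont : Continuous (fun σ : ℝ => (LFunction χ (σ : ℂ)).re) :=
    Complex.continuous_re.comp ((differentiable_LFunction hχ).continuous.comp
      Complex.continuous_ofReal)
  have hle : (1 - δ) ≤ (2 : ℝ) := by linarith only [h0, h1]
  have hmem : (0 : ℝ) ∈ Set.Icc (LFunction χ ((1 - δ : ℝ) : ℂ)).re (LFunction χ ((2 : ℝ) : ℂ)).re := by
    refine ⟨?_, ?_⟩
    · push_cast; exact hcon.le
    · push_cast; exact (re_two_pos hχ2).le
  obtain ⟨σ, hσ, hσ0⟩ := intermediate_value_Icc hle hcont.continuousOn hmem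
  have hz : LFunction χ (σ : ℂ) = 0 :=
    Complex.ext (by simpa using hσ0)
      (by simpa using im_LFunction hχ hχ2 (s := σ) (by linarith only [hσ.1, h0, h1, hσ]))
  rcases lt_or_ge σ 1 with hlt | hge
  · refine hno (1 - σ) (by linarith) (by linarith [hσ.1]) ?_
    push_cast
    rw [sub_sub_cancel]
    exact hz
  · exact LFunction_ne_zero_of_one_le_re χ (Or.inl hχ) (by simpa using hge) hz

/-- `Re ζ(1-δ) ≤ 0` for small `δ` -/
lemma exists_zeta_neg : ∃ δ₀ : ℝ, 0 < δ₀ ∧ ∀ δ : ℝ, 0 < δ → δ ≤ δ₀ → (riemannZeta (1 - δ)).re ≤ 0 := by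
  obtain ⟨CZ, hCZ0, hCZ⟩ := exists_Zr_bound
  refine ⟨min (1 / (CZ + 1)) (1 / 2), by positivity, fun δ h0 h1 => ?_⟩
  have h2 : δ ≤ 1 / (CZ + 1) := h1.trans (min_le_left _ _)
  have h3 : δ ≤ 1 / 2 := h1.trans (min_le_right _ _)
  have hne : (1 : ℂ) - δ ≠ 1 := by
    intro h
    have : (δ : ℂ) = 0 := by linear_combination -h
    exact h0.ne' (by exact_mod_cast this)
  have h4 := Zr_of_ne hne
  have h5 : (riemannZeta (1 - δ)).re = (Zr (1 - δ)).re - 1 / δ := by
    rw [h4, Complex.sub_re]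
    have : (1 : ℂ) / (1 - δ - 1) = ((-(1 / δ) : ℝ) : ℂ) := by
      push_cast
      rw [show (1 : ℂ) - δ - 1 = -δ by ring, div_neg]
    rw [this, Complex.ofReal_re]
    ring
  have h6 : (Zr (1 - δ)).re ≤ CZ := by
    refine (Complex.re_le_norm _).trans (hCZ _ ?_)
    have : (1 : ℂ) - δ - 2 = ((-(1 + δ) : ℝ) : ℂ) := by push_cast; ring
    rw [this, Complex.norm_real, Real.norm_eq_abs, abs_neg, abs_of_pos (by linarith only [h0, h3])]
    linarith only [h3]
  have h7 : CZ + 1 ≤ 1 / δ := by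
    rw [le_div_iff₀ h0]
    rw [le_div_iff₀ (by linarith only [hCZ0, h0, h3])] at h2
    linarith only [h2]
  rw [h5]
  linarith only [h0, h3, h6, h7]

/-- `2^{-ω(N)} ≥ c N^{-ε}` -/
lemma exists_half_pow {ε : ℝ} (hε : 0 < ε) : ∃ c : ℝ, 0 < c ∧ ∀ N : ℕ, N ≠ 0 →
    c * (N : ℝ) ^ (-ε) ≤ ∏ _p ∈ N.primeFactors, (1 / 2 : ℝ) := by
  obtain ⟨P₀, hP₀⟩ : ∃ P₀ : ℕ, ∀ p : ℕ, P₀ ≤ p → (p : ℝ) ^ (-ε) ≤ 1 / 2 := by
    have h := (tendsto_rpow_neg_atTop hε).comp (tendsto_natCast_atTop_atTop (R := ℝ))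
    have h2 := h.eventually (gt_mem_nhds (show (0 : ℝ) < 1 / 2 by norm_num))
    obtain ⟨P₀, hP₀⟩ := eventually_atTop.mp h2
    exact ⟨P₀, fun p hp => (hP₀ p hp).le⟩
  refine ⟨(1 / 2) ^ P₀, by positivity, fun N hN => ?_⟩
  have hNpos : (0 : ℝ) < N := by exact_mod_cast Nat.pos_of_ne_zero hN
  have h1 : ∏ p ∈ N.primeFactors, (p : ℝ) ≤ N := by
    have := Nat.le_of_dvd (Nat.pos_of_ne_zero hN) (Nat.prod_primeFactors_dvd N)
    rw [← Nat.cast_prod]
    exact_mod_cast this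
  have hpos : 0 < ∏ p ∈ N.primeFactors, (p : ℝ) :=
    Finset.prod_pos fun p hp => by exact_mod_cast (Nat.prime_of_mem_primeFactors hp).pos
  have h2 : (N : ℝ) ^ (-ε) ≤ ∏ p ∈ N.primeFactors, (p : ℝ) ^ (-ε) := by
    rw [Real.finsetProd_rpow _ _ (fun p _ => Nat.cast_nonneg p)]
    exact Real.rpow_le_rpow_of_nonpos hpos h1 (by linarith)
  have h3 : (1 / 2 : ℝ) ^ P₀ ≤ ∏ p ∈ N.primeFactors, (if p < P₀ then (1 / 2 : ℝ) else 1) := by
    rw [Finset.prod_ite]
    simp only [Finset.prod_const, one_pow, mul_one]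
    refine pow_le_pow_of_le_one (by norm_num) (by norm_num) ?_
    calc (N.primeFactors.filter (fun p => p < P₀)).card ≤ (range P₀).card :=
          Finset.card_le_card fun p hp => mem_range.mpr (Finset.mem_filter.mp hp).2
      _ = P₀ := by simp
  calc (1 / 2 : ℝ) ^ P₀ * (N : ℝ) ^ (-ε)
      ≤ (∏ p ∈ N.primeFactors, (if p < P₀ then (1 / 2 : ℝ) else 1)) *
          ∏ p ∈ N.primeFactors, (p : ℝ) ^ (-ε) := by
        refine mul_le_mul h3 h2 (Real.rpow_nonneg hNpos.le _) ?_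
        exact Finset.prod_nonneg fun p _ => by split_ifs <;> norm_num
    _ = ∏ p ∈ N.primeFactors, ((if p < P₀ then (1 / 2 : ℝ) else 1) * (p : ℝ) ^ (-ε)) := by
        rw [Finset.prod_mul_distrib]
    _ ≤ ∏ _p ∈ N.primeFactors, (1 / 2 : ℝ) := by
        refine Finset.prod_le_prod (fun p hp => ?_) (fun p hp => ?_)
        · have : (0 : ℝ) ≤ (p : ℝ) ^ (-ε) := Real.rpow_nonneg (Nat.cast_nonneg p) _
          split_ifs <;> positivity
        · have hp1 : (1 : ℝ) ≤ p := by exact_mod_cast (Nat.prime_of_mem_primeFactors hp).one_le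
          split_ifs with h
          · have := Real.rpow_le_one_of_one_le_of_nonpos hp1 (show -ε ≤ 0 by linarith only [hε])
            linarith only [this]
          · rw [one_mul]; exact hP₀ p (not_lt.mp h)

/-- Euler factor bounds -/
lemma euler_factor (χ : DirichletCharacter ℂ q) {p : ℕ} (hp : p.Prime) :
    1 / 2 ≤ ‖1 - χ p * (p : ℂ) ^ (-(1 : ℂ))‖ ∧ ‖1 - χ p * (p : ℂ) ^ (-(1 : ℂ))‖ ≤ 2 := by
  have h1 : ‖χ p * (p : ℂ) ^ (-(1 : ℂ))‖ ≤ 1 / 2 := by
    rw [norm_mul, Complex.cpow_neg, Complex.cpow_one, norm_inv, Complex.norm_natCast]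
    have h2 : ‖χ p‖ ≤ 1 := DirichletCharacter.norm_le_one χ _
    have h3 : ((p : ℝ))⁻¹ ≤ 1 / 2 := by
      rw [one_div]
      exact inv_anti₀ (by norm_num) (by exact_mod_cast hp.two_le)
    have h4 : 0 ≤ ((p : ℝ))⁻¹ := by positivity
    nlinarith only [norm_nonneg (χ p), h3, h2, h4]
  constructor
  · have := norm_sub_norm_le (1 : ℂ) (χ p * (p : ℂ) ^ (-(1 : ℂ)))
    rw [norm_one] at this
    linarith
  · have := norm_sub_le (1 : ℂ) (χ p * (p : ℂ) ^ (-(1 : ℂ)))
    rw [norm_one] at this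
    linarith

/-- upper bound of the Euler product correction: only primes of `q₁` matter -/
lemma euler_prod_le {q₁ : ℕ} (hq₁ : q₁ ≠ 0) (χ : DirichletCharacter ℂ q) :
    ∏ p ∈ (q₁ * q).primeFactors, ‖1 - χ p * (p : ℂ) ^ (-(1 : ℂ))‖ ≤ 2 ^ (q₁ + 1) := by
  have h1 : ∏ p ∈ (q₁ * q).primeFactors, ‖1 - χ p * (p : ℂ) ^ (-(1 : ℂ))‖ ≤
      ∏ p ∈ (q₁ * q).primeFactors, (if p ∈ q₁.primeFactors then (2 : ℝ) else 1) := by
    refine Finset.prod_le_prod (fun p _ => norm_nonneg _) (fun p hp => ?_)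
    have hpp := Nat.prime_of_mem_primeFactors hp
    split_ifs with h
    · exact (euler_factor χ hpp).2
    · have hpq : p ∣ q := by
        rcases (hpp.dvd_mul).mp (Nat.dvd_of_mem_primeFactors hp) with h' | h'
        · exact absurd (Nat.mem_primeFactors.mpr ⟨hpp, h', hq₁⟩) h
        · exact h'
      have hχ0 : χ p = 0 := by
        refine MulChar.map_nonunit χ ?_
        rw [ZMod.isUnit_iff_coprime]
        intro hcop
        have := Nat.dvd_gcd dvd_rfl hpq
        rw [hcop] at this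
        exact hpp.one_lt.ne' (Nat.dvd_one.mp this)
      simp [hχ0]
  refine h1.trans ?_
  rw [Finset.prod_ite]
  simp only [Finset.prod_const, one_pow, mul_one]
  refine pow_le_pow_right₀ (by norm_num) ?_
  calc ((q₁ * q).primeFactors.filter (fun p => p ∈ q₁.primeFactors)).card
      ≤ q₁.primeFactors.card :=
        Finset.card_le_card fun p hp => (Finset.mem_filter.mp hp).2
    _ ≤ (range (q₁ + 1)).card := by
        refine Finset.card_le_card fun p hp => mem_range.mpr ?_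
        exact Nat.lt_succ_of_le (Nat.le_of_dvd (Nat.pos_of_ne_zero hq₁)
          (Nat.dvd_of_mem_primeFactors hp))
    _ ≤ q₁ + 1 := by simp

/-- the estimate supplied by Estermann's lemma -/
def Est (C₀ : ℝ) : Prop := ∀ (P : ℂ → ℂ) (b : ArithmeticFunction ℂ),
    Differentiable ℂ P → (∀ n, 0 ≤ b n) → b 1 = 1 →
    (∀ s : ℂ, 1 < s.re → LSeriesSummable (fun n => b n) s) →
    (∀ s : ℂ, 1 < s.re → LSeries (fun n => b n) s = riemannZeta s * P s) →
    ∀ K : ℝ, 1 ≤ K → (∀ s : ℂ, ‖s - 2‖ ≤ 3 / 2 → ‖P s‖ ≤ K) →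
    ∀ δ : ℝ, 0 < δ → δ ≤ 1 / 8 → (riemannZeta (1 - δ) * P (1 - δ)).re ≤ 0 →
      δ / 6 * (C₀ * K) ^ (-(4 * δ)) ≤ (P 1).re

/-- no real zero close to 1 -/
lemma caseB {C₀ : ℝ} (hC₀ : Est C₀) [NeZero q] {χ : DirichletCharacter ℂ q} (hχ : χ ≠ 1)
    (hχ2 : χ ^ 2 = 1) {δ : ℝ} (h0 : 0 < δ) (h1 : δ ≤ 1 / 8) (hz : (riemannZeta (1 - δ)).re ≤ 0)
    (hno : ∀ δ' : ℝ, 0 < δ' → δ' ≤ δ → LFunction χ (1 - δ') ≠ 0) :
    δ / 6 * (C₀ * (7 * q)) ^ (-(4 * δ)) ≤ ‖LFunction χ 1‖ := by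
  refine (hC₀ (LFunction χ) (b2 χ) (differentiable_LFunction hχ) (b2_nonneg hχ2) (b2_one χ)
    (fun s hs => b2_summable χ hs) (fun s hs => b2_LSeries χ hs) (7 * q) ?_
    (fun s hs => norm_LFunction_ball hχ hs) δ h0 h1 ?_).trans (Complex.re_le_norm _)
  · have := one_le_q (q := q)
    linarith only [h0, h1, this]
  · have him : (LFunction χ (1 - δ)).im = 0 := by
      have := im_LFunction hχ hχ2 (s := 1 - δ) (by linarith only [h0, h1])
      push_cast at this
      exact this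
    rw [Complex.mul_re, him, mul_zero, sub_zero]
    exact mul_nonpos_of_nonpos_of_nonneg hz (re_nonneg_of_no_zero hχ hχ2 h0 h1 hno)

/-- a real zero of a fixed character -/
lemma caseA {C₀ : ℝ} (hC₀ : Est C₀) {q₁ : ℕ} [NeZero q₁] {χ₁ : DirichletCharacter ℂ q₁}
    (hχ₁ : χ₁ ≠ 1) (hχ₁2 : χ₁ ^ 2 = 1) {δ : ℝ} (h0 : 0 < δ) (h1 : δ ≤ 1 / 8)
    (hzero : LFunction χ₁ (1 - δ) = 0) {η : ℝ} (hη0 : 0 < η) (hη1 : η ≤ 1)
    [NeZero q] {χ : DirichletCharacter ℂ q} (hχ : χ ≠ 1) (hχ2 : χ ^ 2 = 1) :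
    δ / 6 * (C₀ * (7 * ((q₁ * q : ℕ) : ℝ)) ^ 3) ^ (-(4 * δ)) ≤
        (((q₁ * q : ℕ) : ℝ) ^ η / η) ^ 2 * (‖LFunction χ 1‖ * 2 ^ (q₁ + 1)) ∨
      ‖LFunction χ₁ 1‖ * ∏ _p ∈ (q₁ * q).primeFactors, (1 / 2 : ℝ) ≤
        ‖LFunction χ 1‖ * 2 ^ (q₁ + 1) := by
  have hq₁ : q₁ ≠ 0 := NeZero.ne q₁
  have hq : q ≠ 0 := NeZero.ne q
  have : NeZero (q₁ * q) := ⟨mul_ne_zero hq₁ hq⟩
  have hd1 : q₁ ∣ q₁ * q := Dvd.intro _ rfl
  have hd2 : q ∣ q₁ * q := Dvd.intro_left _ rfl
  set ψ₁ := changeLevel hd1 χ₁ with hψ₁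
  set ψ := changeLevel hd2 χ with hψ
  have hψ₁1 : ψ₁ ≠ 1 := (changeLevel_eq_one_iff hd1).not.mpr hχ₁
  have hψ1 : ψ ≠ 1 := (changeLevel_eq_one_iff hd2).not.mpr hχ
  have hψ₁2 : ψ₁ ^ 2 = 1 := by rw [hψ₁, ← map_pow, hχ₁2, map_one]
  have hψ2 : ψ ^ 2 = 1 := by rw [hψ, ← map_pow, hχ2, map_one]
  have hLψ : ‖LFunction ψ 1‖ ≤ ‖LFunction χ 1‖ * 2 ^ (q₁ + 1) := by
    rw [hψ, LFunction_changeLevel hd2 χ (Or.inl hχ), norm_mul, norm_prod]
    exact mul_le_mul_of_nonneg_left (euler_prod_le hq₁ χ) (norm_nonneg _)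
  by_cases hpr : ψ₁ * ψ = 1
  · right
    have heq : ψ₁ = ψ := by
      have h3 : ψ * ψ = 1 := by rw [← sq]; exact hψ2
      calc ψ₁ = ψ₁ * (ψ * ψ) := by rw [h3, mul_one]
        _ = (ψ₁ * ψ) * ψ := by rw [mul_assoc]
        _ = ψ := by rw [hpr, one_mul]
    refine le_trans ?_ hLψ
    rw [← heq, hψ₁, LFunction_changeLevel hd1 χ₁ (Or.inl hχ₁), norm_mul, norm_prod]
    refine mul_le_mul_of_nonneg_left ?_ (norm_nonneg _)
    exact Finset.prod_le_prod (fun _ _ => by norm_num)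
      (fun p hp => (euler_factor χ₁ (Nat.prime_of_mem_primeFactors hp)).1)
  · left
    have hN1 : (1 : ℝ) ≤ ((q₁ * q : ℕ) : ℝ) := one_le_q
    have hK1 : (1 : ℝ) ≤ (7 * ((q₁ * q : ℕ) : ℝ)) ^ 3 := one_le_pow₀ (by linarith only [h0, h1, hN1])
    have h := hC₀ (fun s => LFunction ψ₁ s * LFunction ψ s * LFunction (ψ₁ * ψ) s) (b4 ψ₁ ψ)
      (((differentiable_LFunction hψ₁1).mul (differentiable_LFunction hψ1)).mul
        (differentiable_LFunction hpr)) (b4_nonneg hψ₁2 hψ2) (b4_one ψ₁ ψ)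
      (fun s hs => b4_summable ψ₁ ψ hs) (fun s hs => b4_LSeries ψ₁ ψ hs)
      ((7 * ((q₁ * q : ℕ) : ℝ)) ^ 3) hK1 (fun s hs => ?_) δ h0 h1 ?_
    · refine h.trans ((Complex.re_le_norm _).trans ?_)
      rw [norm_mul, norm_mul]
      have e1 := norm_LFunction_one_le hψ₁1 hη0 hη1
      have e2 := norm_LFunction_one_le hpr hη0 hη1
      set A := ‖LFunction ψ₁ 1‖
      set D := ‖LFunction (ψ₁ * ψ) 1‖
      set R := ((q₁ * q : ℕ) : ℝ) ^ η / η
      have hA : 0 ≤ A := norm_nonneg _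
      have hD : 0 ≤ D := norm_nonneg _
      have hX : 0 ≤ ‖LFunction ψ 1‖ := norm_nonneg _
      calc A * ‖LFunction ψ 1‖ * D = (A * D) * ‖LFunction ψ 1‖ := by ring
        _ ≤ (R * R) * (‖LFunction χ 1‖ * 2 ^ (q₁ + 1)) :=
            mul_le_mul (mul_le_mul e1 e2 hD (hA.trans e1)) hLψ hX
              (mul_nonneg (hA.trans e1) (hA.trans e1))
        _ = R ^ 2 * (‖LFunction χ 1‖ * 2 ^ (q₁ + 1)) := by ring
    · rw [norm_mul, norm_mul]
      have e1 := norm_LFunction_ball hψ₁1 hs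
      have e2 := norm_LFunction_ball hψ1 hs
      have e3 := norm_LFunction_ball hpr hs
      set R := 7 * ((q₁ * q : ℕ) : ℝ)
      calc _ ≤ R * R * R := mul_le_mul (mul_le_mul e1 e2 (norm_nonneg _)
            ((norm_nonneg _).trans e1)) e3 (norm_nonneg _)
            (mul_nonneg ((norm_nonneg _).trans e1) ((norm_nonneg _).trans e1))
        _ = R ^ 3 := by ring
    · have : LFunction ψ₁ (1 - δ) = 0 := by
        rw [hψ₁, LFunction_changeLevel hd1 χ₁ (Or.inl hχ₁), hzero, zero_mul]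
      simp [this]

/-- **Siegel's theorem** for all (not necessarily primitive) real non-principal characters -/
theorem siegel : SiegelStmt := by
  intro ε hε
  obtain ⟨C₀, hC₀8, hE⟩ := estermann
  have hE' : Est C₀ := hE
  obtain ⟨δz, hδz0, hδz⟩ := exists_zeta_neg
  set δ₀ : ℝ := min (min (1 / 8) (ε / 24)) δz with hδ₀
  have hδ₀0 : 0 < δ₀ := by rw [hδ₀]; positivity
  have hδ₀8 : δ₀ ≤ 1 / 8 := (min_le_left _ _).trans (min_le_left _ _)
  have hδ₀ε : δ₀ ≤ ε / 24 := (min_le_left _ _).trans (min_le_right _ _)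
  have hδ₀z : δ₀ ≤ δz := min_le_right _ _
  by_cases hA : ∃ (q₁ : ℕ) (_ : NeZero q₁) (χ₁ : DirichletCharacter ℂ q₁) (δ : ℝ), χ₁ ≠ 1 ∧
      χ₁ ^ 2 = 1 ∧ 0 < δ ∧ δ ≤ δ₀ ∧ LFunction χ₁ (1 - δ) = 0
  · obtain ⟨q₁, inst, χ₁, δ, hχ₁, hχ₁2, h0, h1, hzero⟩ := hA
    obtain ⟨c₂, hc₂, hc₂'⟩ := exists_half_pow hε
    set η : ℝ := min (ε / 4) 1 with hη
    have hη0 : 0 < η := by rw [hη]; positivity
    have hη1 : η ≤ 1 := min_le_right _ _
    have hηε : η ≤ ε / 4 := min_le_left _ _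
    have hq₁1 : (1 : ℝ) ≤ q₁ := one_le_q
    have hL₁ : 0 < ‖LFunction χ₁ 1‖ :=
      norm_pos_iff.mpr (LFunction_ne_zero_of_one_le_re χ₁ (Or.inl hχ₁) (by simp))
    set cA := δ / 6 * (C₀ * (7 * (q₁ : ℝ)) ^ 3) ^ (-(4 * δ)) * η ^ 2 /
      (((q₁ : ℝ) ^ η) ^ 2 * 2 ^ (q₁ + 1)) with hcA
    set cB := ‖LFunction χ₁ 1‖ * (c₂ * (q₁ : ℝ) ^ (-ε)) / 2 ^ (q₁ + 1) with hcB
    have hCq : 0 < C₀ * (7 * (q₁ : ℝ)) ^ 3 := by positivity
    have hcA0 : 0 < cA := by
      have : 0 < (C₀ * (7 * (q₁ : ℝ)) ^ 3) ^ (-(4 * δ)) := Real.rpow_pos_of_pos hCq _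
      (clear * - h0 hC₀8 hq₁1 hε; positivity)
    have hcB0 : 0 < cB := by positivity
    refine ⟨min cA cB, lt_min hcA0 hcB0, fun q instq χ hχ hχ2 => ?_⟩
    have hq1 : (1 : ℝ) ≤ q := one_le_q
    have hq0 : (0 : ℝ) < q := by linarith only [hδ₀0, hδ₀8, hq1]
    have hqε : 0 < (q : ℝ) ^ (-ε) := Real.rpow_pos_of_pos hq0 _
    rcases caseA hE' hχ₁ hχ₁2 h0 (h1.trans hδ₀8) hzero hη0 hη1 hχ hχ2 with h | h
    · have e1 : (C₀ * (7 * ((q₁ * q : ℕ) : ℝ)) ^ 3) ^ (-(4 * δ)) =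
          (C₀ * (7 * (q₁ : ℝ)) ^ 3) ^ (-(4 * δ)) * (q : ℝ) ^ (-(12 * δ)) := by
        have : C₀ * (7 * ((q₁ * q : ℕ) : ℝ)) ^ 3 = (C₀ * (7 * (q₁ : ℝ)) ^ 3) * (q : ℝ) ^ (3 : ℝ) := by
          push_cast
          rw [show ((3 : ℝ)) = ((3 : ℕ) : ℝ) by norm_num, Real.rpow_natCast]
          ring
        rw [this, Real.mul_rpow hCq.le (Real.rpow_nonneg hq0.le _), ← Real.rpow_mul hq0.le]
        congr 2
        ring
      have e2 : (((q₁ * q : ℕ) : ℝ) ^ η / η) ^ 2 =
          ((q₁ : ℝ) ^ η) ^ 2 * (q : ℝ) ^ (2 * η) / η ^ 2 := by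
        push_cast
        rw [Real.mul_rpow (by linarith only [hδ₀0, hδ₀8, hq₁1]) hq0.le, div_pow, mul_pow]
        congr 2
        rw [← Real.rpow_natCast, ← Real.rpow_mul hq0.le]
        congr 1
        push_cast
        ring
      rw [e1, e2] at h
      have e3 : (q : ℝ) ^ (-ε) * (q : ℝ) ^ (2 * η) ≤ (q : ℝ) ^ (-(12 * δ)) := by
        rw [← Real.rpow_add hq0]
        refine Real.rpow_le_rpow_of_exponent_le hq1 ?_
        linarith only [hδ₀ε, h1, hηε]
      have hq2 : 0 < (q : ℝ) ^ (2 * η) := Real.rpow_pos_of_pos hq0 _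
      have hW : 0 < ((q₁ : ℝ) ^ η) ^ 2 := by positivity
      have hV : 0 < (C₀ * (7 * (q₁ : ℝ)) ^ 3) ^ (-(4 * δ)) := Real.rpow_pos_of_pos hCq _
      have h2p : (0 : ℝ) < 2 ^ (q₁ + 1) := by positivity
      have h5 : cA * (q : ℝ) ^ (-ε) ≤ ‖LFunction χ 1‖ := by
        have h6 : δ / 6 * ((C₀ * (7 * (q₁ : ℝ)) ^ 3) ^ (-(4 * δ)) *
            ((q : ℝ) ^ (-ε) * (q : ℝ) ^ (2 * η))) ≤
            ((q₁ : ℝ) ^ η) ^ 2 * (q : ℝ) ^ (2 * η) / η ^ 2 *
              (‖LFunction χ 1‖ * 2 ^ (q₁ + 1)) :=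
          le_trans (mul_le_mul_of_nonneg_left (mul_le_mul_of_nonneg_left e3 hV.le)
            (by positivity)) h
        rw [hcA, div_mul_eq_mul_div, div_le_iff₀ (by positivity)]
        have h7 : δ / 6 * (C₀ * (7 * (q₁ : ℝ)) ^ 3) ^ (-(4 * δ)) * η ^ 2 * (q : ℝ) ^ (-ε) *
            ((q : ℝ) ^ (2 * η) / η ^ 2) ≤
            ‖LFunction χ 1‖ * (((q₁ : ℝ) ^ η) ^ 2 * 2 ^ (q₁ + 1)) *
            ((q : ℝ) ^ (2 * η) / η ^ 2) := by
          calc _ = δ / 6 * ((C₀ * (7 * (q₁ : ℝ)) ^ 3) ^ (-(4 * δ)) *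
                ((q : ℝ) ^ (-ε) * (q : ℝ) ^ (2 * η))) := by
                field_simp
            _ ≤ _ := h6
            _ = _ := by ring
        exact le_of_mul_le_mul_right h7 (by positivity)
      exact (mul_le_mul_of_nonneg_right (min_le_left _ _) hqε.le).trans h5
    · have h2p : (0 : ℝ) < 2 ^ (q₁ + 1) := by positivity
      have h3 := hc₂' (q₁ * q) (mul_ne_zero (NeZero.ne q₁) (NeZero.ne q))
      have h5 : cB * (q : ℝ) ^ (-ε) ≤ ‖LFunction χ 1‖ := by
        rw [hcB, div_mul_eq_mul_div, div_le_iff₀ h2p]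
        refine le_trans ?_ h
        rw [mul_assoc]
        refine mul_le_mul_of_nonneg_left ?_ hL₁.le
        refine le_trans (le_of_eq ?_) h3
        push_cast
        rw [Real.mul_rpow (by linarith only [hδ₀0, hδ₀8, hq₁1]) hq0.le]
        ring
      exact (mul_le_mul_of_nonneg_right (min_le_right _ _) hqε.le).trans h5
  · push Not at hA
    refine ⟨δ₀ / 6 * (C₀ * 7) ^ (-(4 * δ₀)), ?_, fun q instq χ hχ hχ2 => ?_⟩
    · have : 0 < (C₀ * 7) ^ (-(4 * δ₀)) := Real.rpow_pos_of_pos (by linarith only [hC₀8, hδ₀0, hδ₀8]) _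
      positivity
    · have hq1 : (1 : ℝ) ≤ q := one_le_q
      have hq0 : (0 : ℝ) < q := by linarith only [hδ₀0, hδ₀8, hq1]
      have h := caseB hE' hχ hχ2 hδ₀0 hδ₀8 (hδz δ₀ hδ₀0 hδ₀z)
        (fun δ' hδ' hle => hA q instq χ δ' hχ hχ2 hδ' hle)
      refine le_trans ?_ h
      rw [← mul_assoc C₀ 7, Real.mul_rpow (by linarith only [hC₀8, hδ₀0, hδ₀8]) hq0.le, ← mul_assoc]
      refine mul_le_mul_of_nonneg_left ?_ ?_
      · refine Real.rpow_le_rpow_of_exponent_le hq1 ?_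
        linarith only [hδ₀0, hδ₀ε]
      · have : 0 < (C₀ * 7) ^ (-(4 * δ₀)) := Real.rpow_pos_of_pos (by linarith only [hC₀8, hδ₀0, hδ₀8]) _
        positivity

end Vale.Agent.P013.J.Siegel

namespace Vale.Agent.P013.J

theorem siegel : SiegelStmt := Siegel.siegel

end Vale.Agent.P013.J
end

section

/-!
# BV-lite: the kernel `1[n = h mod q] - 1[(n,q)=1]/phi(q)` and its correlations
-/

open Finset

namespace Vale.Agent.P013.J.BV

/-- kernel of the discrepancy in the class `h` modulo `q` -/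
noncomputable def K (q h n : ℕ) : ℝ :=
  (if n ≡ h [MOD q] then 1 else 0) - (if Nat.Coprime n q then 1 / (Nat.totient q : ℝ) else 0)

lemma K_abs_le {q : ℕ} (hq : 1 ≤ q) (h n : ℕ) : |K q h n| ≤ 1 := by
  have h1 : (1 : ℝ) ≤ Nat.totient q := by exact_mod_cast Nat.totient_pos.2 hq
  have h2 : 1 / (Nat.totient q : ℝ) ≤ 1 := by
    rw [div_le_one (by linarith)]; exact h1
  have h3 : 0 < 1 / (Nat.totient q : ℝ) := by positivity
  unfold K
  rw [abs_le]
  split_ifs <;> constructor <;> linarith only [h2, h3]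

lemma coprime_of_modEq {q a b : ℕ} (h : a ≡ b [MOD q]) (hb : Nat.Coprime b q) :
    Nat.Coprime a q := by
  unfold Nat.Coprime at *
  rw [h.gcd_eq]; exact hb

lemma K_eq_zero {q h n : ℕ} (hh : Nat.Coprime h q) (hn : ¬ Nat.Coprime n q) : K q h n = 0 := by
  unfold K
  rw [if_neg (fun h1 => hn (coprime_of_modEq h1 hh)), if_neg hn, sub_zero]

lemma K_congr {q h n n' : ℕ} (hn : n ≡ n' [MOD q]) : K q h n = K q h n' := by
  unfold K
  have h1 : n ≡ h [MOD q] ↔ n' ≡ h [MOD q] := ⟨fun h => hn.symm.trans h, fun h => hn.trans h⟩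
  have h2 : Nat.Coprime n q ↔ Nat.Coprime n' q :=
    ⟨coprime_of_modEq hn.symm, coprime_of_modEq hn⟩
  simp only [h1, h2]

/-- the number of `m < L` coprime to `L` in a reduced class modulo a divisor `q` of `L` -/
lemma card_units_class {q L a : ℕ} (hL : 1 ≤ L) (hqL : q ∣ L) (ha : Nat.Coprime a q) :
    ((((range L).filter (fun m => m ≡ a [MOD q] ∧ Nat.Coprime m L)).card : ℕ) : ℝ) =
      (Nat.totient L : ℝ) / Nat.totient q := by
  have hq : 1 ≤ q := Nat.pos_of_dvd_of_pos hqL hL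
  have : NeZero L := ⟨by omega⟩
  have : NeZero q := ⟨by omega⟩
  classical
  -- fibres of unitsMap
  have hsurj := ZMod.unitsMap_surjective hqL
  have hfib : ∀ u : (ZMod q)ˣ, (univ.filter (fun z : (ZMod L)ˣ => ZMod.unitsMap hqL z = u)).card =
      (univ.filter (fun z : (ZMod L)ˣ => ZMod.unitsMap hqL z = ZMod.unitOfCoprime a ha)).card := by
    intro u
    exact MonoidHom.card_fiber_eq_of_mem_range _ (hsurj u) (hsurj _)
  have hsum : (Fintype.card (ZMod L)ˣ) = ∑ u : (ZMod q)ˣ,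
      (univ.filter (fun z : (ZMod L)ˣ => ZMod.unitsMap hqL z = u)).card := by
    rw [← Finset.card_univ]
    exact Finset.card_eq_sum_card_fiberwise (fun _ _ => Finset.mem_coe.2 (mem_univ _))
  rw [Finset.sum_congr rfl (fun u _ => hfib u), Finset.sum_const, Finset.card_univ,
    ZMod.card_units_eq_totient, ZMod.card_units_eq_totient, smul_eq_mul] at hsum
  have hcard : ((range L).filter (fun m => m ≡ a [MOD q] ∧ Nat.Coprime m L)).card =
      (univ.filter (fun z : (ZMod L)ˣ => ZMod.unitsMap hqL z = ZMod.unitOfCoprime a ha)).card := by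
    symm
    apply Finset.card_bij (fun (z : (ZMod L)ˣ) _ => (z : ZMod L).val)
    · intro z hz
      rw [Finset.mem_filter] at hz
      rw [Finset.mem_filter, Finset.mem_range]
      refine ⟨ZMod.val_lt _, ?_, ?_⟩
      · rw [← ZMod.natCast_eq_natCast_iff]
        have h1 := congrArg (fun u : (ZMod q)ˣ => (u : ZMod q)) hz.2
        simp only [ZMod.unitsMap_val, ZMod.coe_unitOfCoprime] at h1
        rw [← h1, ZMod.natCast_val]
      · exact ZMod.val_coe_unit_coprime z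
    · intro z _ z' _ h
      exact Units.ext (ZMod.val_injective L h)
    · intro m hm
      rw [Finset.mem_filter, Finset.mem_range] at hm
      obtain ⟨h1, h2, h3⟩ := hm
      refine ⟨ZMod.unitOfCoprime m h3, ?_, ?_⟩
      · rw [Finset.mem_filter]
        refine ⟨mem_univ _, ?_⟩
        apply Units.ext
        rw [ZMod.unitsMap_val, ZMod.coe_unitOfCoprime, ZMod.coe_unitOfCoprime]
        rw [ZMod.cast_natCast hqL]
        exact (ZMod.natCast_eq_natCast_iff _ _ _).2 h2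
      · rw [ZMod.coe_unitOfCoprime, ZMod.val_natCast, Nat.mod_eq_of_lt h1]
  rw [hcard]
  have hq0 : (Nat.totient q : ℝ) ≠ 0 := by
    have := Nat.totient_pos.2 hq
    positivity
  rw [eq_div_iff hq0, hsum]
  push_cast
  ring

lemma coprime_lcm_iff {q q' m : ℕ} :
    Nat.Coprime m (Nat.lcm q q') ↔ Nat.Coprime m q ∧ Nat.Coprime m q' := by
  constructor
  · intro h
    exact ⟨h.coprime_dvd_right (Nat.dvd_lcm_left q q'), h.coprime_dvd_right (Nat.dvd_lcm_right q q')⟩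
  · rintro ⟨h1, h2⟩
    exact Nat.Coprime.coprime_dvd_right (Nat.lcm_dvd_mul q q') (Nat.Coprime.mul_right h1 h2)

lemma card_two_classes {q q' a a' : ℕ} (hq : 1 ≤ q) (hq' : 1 ≤ q') :
    ((((range (Nat.lcm q q')).filter (fun m => m ≡ a [MOD q] ∧ m ≡ a' [MOD q'])).card : ℕ) : ℝ) =
      if a ≡ a' [MOD Nat.gcd q q'] then 1 else 0 := by
  split_ifs with h
  · have h1 : (range (Nat.lcm q q')).filter (fun m => m ≡ a [MOD q] ∧ m ≡ a' [MOD q']) =
        {((Nat.chineseRemainder' h : {k // k ≡ a [MOD q] ∧ k ≡ a' [MOD q']}) : ℕ)} := by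
      ext m
      rw [Finset.mem_filter, Finset.mem_range, Finset.mem_singleton]
      have hk := (Nat.chineseRemainder' h).2
      have hlt := Nat.chineseRemainder'_lt_lcm h (by omega) (by omega)
      constructor
      · rintro ⟨h2, h3, h4⟩
        have h5 := Nat.mod_lcm (h3.trans hk.1.symm) (h4.trans hk.2.symm)
        exact Nat.ModEq.eq_of_lt_of_lt h5 h2 hlt
      · rintro rfl
        exact ⟨hlt, hk.1, hk.2⟩
    rw [h1, Finset.card_singleton, Nat.cast_one]
  · rw [Finset.filter_eq_empty_iff.2, Finset.card_empty, Nat.cast_zero]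
    intro m _ h2
    apply h
    have h3 := h2.1.of_dvd (Nat.gcd_dvd_left q q')
    have h4 := h2.2.of_dvd (Nat.gcd_dvd_right q q')
    exact h3.symm.trans h4

lemma aux_ident (P Q C D E : Prop) [Decidable P] [Decidable Q] [Decidable C] [Decidable D]
    [Decidable E] (x y : ℝ) (h1 : P → C) (h2 : Q → D) (h3 : E ↔ C ∧ D) :
    ((if P then (1 : ℝ) else 0) - (if C then x else 0)) *
      ((if Q then (1 : ℝ) else 0) - (if D then y else 0)) =
    (if P ∧ Q then (1 : ℝ) else 0) - (if P ∧ E then (1 : ℝ) else 0) * y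
      - (if Q ∧ E then (1 : ℝ) else 0) * x + (if E then (1 : ℝ) else 0) * (x * y) := by
  by_cases hP : P <;> by_cases hQ : Q <;> by_cases hC : C <;> by_cases hD : D <;>
    simp only [h3, hP, hQ, hC, hD, and_true, and_false, and_self, if_true, if_false] <;>
    first | exact absurd (h1 hP) hC | exact absurd (h2 hQ) hD | ring1

lemma corr0 {q q' a a' : ℕ} (hq : 1 ≤ q) (hq' : 1 ≤ q') (ha : Nat.Coprime a q)
    (ha' : Nat.Coprime a' q') :
    ∑ m ∈ range (Nat.lcm q q'), K q a m * K q' a' m =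
      (if a ≡ a' [MOD Nat.gcd q q'] then 1 else 0) - 1 / (Nat.totient (Nat.gcd q q') : ℝ) := by
  set L := Nat.lcm q q' with hLdef
  have hL : 1 ≤ L := Nat.lcm_pos hq hq'
  have hq0 : (Nat.totient q : ℝ) ≠ 0 := by
    have := Nat.totient_pos.2 hq
    positivity
  have hq0' : (Nat.totient q' : ℝ) ≠ 0 := by
    have := Nat.totient_pos.2 hq'
    positivity
  have hg : 1 ≤ Nat.gcd q q' := Nat.gcd_pos_of_pos_left _ hq
  have hg0 : (Nat.totient (Nat.gcd q q') : ℝ) ≠ 0 := by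
    have := Nat.totient_pos.2 hg
    positivity
  -- totients
  have htot : (Nat.totient L : ℝ) * Nat.totient (Nat.gcd q q') = Nat.totient q * Nat.totient q' := by
    have h1 := Nat.totient_gcd_mul_totient_mul q q'
    have h2 := Nat.totient_gcd_mul_totient_mul (Nat.gcd q q') L
    have h3 : Nat.gcd q q' * L = q * q' := Nat.gcd_mul_lcm q q'
    have h4 : Nat.gcd (Nat.gcd q q') L = Nat.gcd q q' :=
      Nat.gcd_eq_left ((Nat.gcd_dvd_left q q').trans (Nat.dvd_lcm_left q q'))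
    rw [h4, h3] at h2
    have h5 : Nat.totient (Nat.gcd q q') * Nat.totient L * Nat.gcd q q' =
        Nat.totient q * Nat.totient q' * Nat.gcd q q' := by rw [← h2, h1]
    have h6 := Nat.eq_of_mul_eq_mul_right hg h5
    have h7 : (Nat.totient (Nat.gcd q q') : ℝ) * Nat.totient L = Nat.totient q * Nat.totient q' := by
      exact_mod_cast h6
    linarith only [h7]
  have e1 : ∀ m ∈ range L, K q a m * K q' a' m =
      (if m ≡ a [MOD q] ∧ m ≡ a' [MOD q'] then (1 : ℝ) else 0)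
      - (if m ≡ a [MOD q] ∧ Nat.Coprime m L then (1 : ℝ) else 0) * (1 / (Nat.totient q' : ℝ))
      - (if m ≡ a' [MOD q'] ∧ Nat.Coprime m L then (1 : ℝ) else 0) * (1 / (Nat.totient q : ℝ))
      + (if Nat.Coprime m L then (1 : ℝ) else 0) *
        ((1 / (Nat.totient q : ℝ)) * (1 / (Nat.totient q' : ℝ))) := by
    intro m _
    unfold K
    have hc1 : m ≡ a [MOD q] → Nat.Coprime m q := fun h => coprime_of_modEq h ha
    have hc2 : m ≡ a' [MOD q'] → Nat.Coprime m q' := fun h => coprime_of_modEq h ha'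
    have hcL : Nat.Coprime m L ↔ Nat.Coprime m q ∧ Nat.Coprime m q' := coprime_lcm_iff
    exact aux_ident _ _ _ _ _ _ _ hc1 hc2 hcL
  rw [Finset.sum_congr rfl e1, Finset.sum_add_distrib, Finset.sum_sub_distrib,
    Finset.sum_sub_distrib, ← Finset.sum_mul, ← Finset.sum_mul, ← Finset.sum_mul]
  have f1 : ∑ m ∈ range L, (if m ≡ a [MOD q] ∧ m ≡ a' [MOD q'] then (1 : ℝ) else 0) =
      if a ≡ a' [MOD Nat.gcd q q'] then 1 else 0 := by
    rw [← card_two_classes hq hq', Finset.sum_boole]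
  have f2 : ∑ m ∈ range L, (if m ≡ a [MOD q] ∧ Nat.Coprime m L then (1 : ℝ) else 0) =
      (Nat.totient L : ℝ) / Nat.totient q := by
    rw [← card_units_class hL (Nat.dvd_lcm_left q q') ha, Finset.sum_boole]
  have f3 : ∑ m ∈ range L, (if m ≡ a' [MOD q'] ∧ Nat.Coprime m L then (1 : ℝ) else 0) =
      (Nat.totient L : ℝ) / Nat.totient q' := by
    rw [← card_units_class hL (Nat.dvd_lcm_right q q') ha', Finset.sum_boole]
  have f4 : ∑ m ∈ range L, (if Nat.Coprime m L then (1 : ℝ) else 0) = (Nat.totient L : ℝ) := by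
    rw [Finset.sum_boole, Nat.totient_eq_card_coprime]
    congr 2
    apply Finset.filter_congr
    intro m _
    exact Nat.coprime_comm
  rw [f1, f2, f3, f4]
  have h8 : (Nat.totient L : ℝ) = Nat.totient q * Nat.totient q' / Nat.totient (Nat.gcd q q') := by
    rw [eq_div_iff hg0]; exact htot
  rw [h8]
  field_simp
  ring

lemma exists_inv {q h n : ℕ} (hq : 1 ≤ q) (hh : Nat.Coprime h q) (hn : Nat.Coprime n q) :
    ∃ a : ℕ, Nat.Coprime a q ∧ a * n ≡ h [MOD q] ∧ ∀ m, K q h (m * n) = K q a m := by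
  have : NeZero q := ⟨by omega⟩
  set u := ZMod.unitOfCoprime n hn
  set v := ZMod.unitOfCoprime h hh
  have hval : (((v * u⁻¹ : (ZMod q)ˣ) : ZMod q).val * n : ℕ) ≡ h [MOD q] := by
    rw [← ZMod.natCast_eq_natCast_iff]
    push_cast
    rw [ZMod.natCast_zmod_val]
    have h1 : ((n : ℕ) : ZMod q) = (u : ZMod q) := (ZMod.coe_unitOfCoprime n hn).symm
    have h2 : ((h : ℕ) : ZMod q) = (v : ZMod q) := (ZMod.coe_unitOfCoprime h hh).symm
    rw [h1, h2, mul_assoc, Units.inv_mul, mul_one]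
  have hcop : Nat.Coprime ((v * u⁻¹ : (ZMod q)ˣ) : ZMod q).val q := ZMod.val_coe_unit_coprime _
  refine ⟨((v * u⁻¹ : (ZMod q)ˣ) : ZMod q).val, hcop, hval, ?_⟩
  intro m
  set a := ((v * u⁻¹ : (ZMod q)ˣ) : ZMod q).val
  unfold K
  have h1 : m * n ≡ h [MOD q] ↔ m ≡ a [MOD q] := by
    constructor
    · intro h2
      exact Nat.ModEq.cancel_right_of_coprime (by rw [Nat.gcd_comm]; exact hn) (h2.trans hval.symm)
    · intro h2
      exact (h2.mul_right n).trans hval
  have h2 : Nat.Coprime (m * n) q ↔ Nat.Coprime m q := by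
    rw [Nat.coprime_mul_iff_left]
    exact ⟨fun h => h.1, fun h => ⟨h, hn⟩⟩
  simp only [h1, h2]

lemma corr {q q' h h' n n' : ℕ} (hq : 1 ≤ q) (hq' : 1 ≤ q') (hh : Nat.Coprime h q)
    (hh' : Nat.Coprime h' q') (hn : Nat.Coprime n q) (hn' : Nat.Coprime n' q') :
    ∑ m ∈ range (Nat.lcm q q'), K q h (m * n) * K q' h' (m * n') =
      (if h * n' ≡ h' * n [MOD Nat.gcd q q'] then 1 else 0) -
        1 / (Nat.totient (Nat.gcd q q') : ℝ) := by
  obtain ⟨a, ha, han, haK⟩ := exists_inv hq hh hn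
  obtain ⟨a', ha', han', haK'⟩ := exists_inv hq' hh' hn'
  simp only [haK, haK']
  rw [corr0 hq hq' ha ha']
  have h1 : a ≡ a' [MOD Nat.gcd q q'] ↔ h * n' ≡ h' * n [MOD Nat.gcd q q'] := by
    have e1 : h * n' ≡ a * (n * n') [MOD Nat.gcd q q'] := by
      have := ((han.of_dvd (Nat.gcd_dvd_left q q')).mul_right n').symm
      rwa [mul_assoc] at this
    have e2 : h' * n ≡ a' * (n * n') [MOD Nat.gcd q q'] := by
      have := ((han'.of_dvd (Nat.gcd_dvd_right q q')).mul_right n).symm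
      rwa [mul_assoc, mul_comm n' n] at this
    constructor
    · intro h2
      exact e1.trans ((h2.mul_right _).trans e2.symm)
    · intro h2
      have hc : Nat.Coprime (Nat.gcd q q') (n * n') := by
        apply Nat.Coprime.mul_right
        · exact (hn.coprime_dvd_right (Nat.gcd_dvd_left q q')).symm
        · exact (hn'.coprime_dvd_right (Nat.gcd_dvd_right q q')).symm
      exact Nat.ModEq.cancel_right_of_coprime hc (e1.symm.trans (h2.trans e2))
  simp only [h1]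

end Vale.Agent.P013.J.BV
end

section

/-!
# Vaughan's identity and type I sums in the class 1 modulo a prime
-/

open Finset ArithmeticFunction

namespace Vale.Agent.P005.BV

lemma sum_conv (f g : ArithmeticFunction ℝ) (φ : ℕ → ℝ) (x : ℕ) :
    ∑ n ∈ Icc 1 x, (f * g) n * φ n =
      ∑ d ∈ Icc 1 x, ∑ m ∈ Icc 1 (x / d), f d * g m * φ (d * m) := by
  simp_rw [ArithmeticFunction.mul_apply, Finset.sum_mul]
  rw [Finset.sum_sigma', Finset.sum_sigma']
  apply Finset.sum_bij' (fun (s : Σ _ : ℕ, ℕ × ℕ) _ => (⟨s.2.1, s.2.2⟩ : Σ _ : ℕ, ℕ))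
    (fun s _ => (⟨s.1 * s.2, (s.1, s.2)⟩ : Σ _ : ℕ, ℕ × ℕ))
  · rintro ⟨n, d, m⟩ h
    simp only [Finset.mem_sigma, Finset.mem_Icc, Nat.mem_divisorsAntidiagonal] at h ⊢
    obtain ⟨⟨h1, h2⟩, h3, h4⟩ := h
    have hd : 0 < d := Nat.pos_of_ne_zero (by rintro rfl; simp at h3; omega)
    have hm : 0 < m := Nat.pos_of_ne_zero (by rintro rfl; simp at h3; omega)
    refine ⟨⟨hd, ?_⟩, hm, ?_⟩
    · calc d ≤ d * m := Nat.le_mul_of_pos_right d hm
        _ ≤ x := by omega
    · rw [Nat.le_div_iff_mul_le hd]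
      rw [mul_comm]; omega
  · rintro ⟨d, m⟩ h
    simp only [Finset.mem_sigma, Finset.mem_Icc, Nat.mem_divisorsAntidiagonal] at h ⊢
    obtain ⟨⟨h1, h2⟩, h3, h4⟩ := h
    rw [Nat.le_div_iff_mul_le (by omega)] at h4
    refine ⟨⟨Nat.mul_pos h1 h3, ?_⟩, trivial, ?_⟩
    · rw [mul_comm]; exact h4
    · exact (Nat.mul_pos h1 h3).ne'
  · rintro ⟨n, d, m⟩ h
    simp only [Finset.mem_sigma, Finset.mem_Icc, Nat.mem_divisorsAntidiagonal] at h
    obtain ⟨⟨h1, h2⟩, h3, h4⟩ := h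
    simp only [h3]
  · rintro ⟨d, m⟩ h
    rfl
  · rintro ⟨n, d, m⟩ h
    simp only [Finset.mem_sigma, Finset.mem_Icc, Nat.mem_divisorsAntidiagonal] at h
    obtain ⟨⟨h1, h2⟩, h3, h4⟩ := h
    simp only [h3]

lemma sum_abs_conv (f g : ArithmeticFunction ℝ) (x : ℕ) :
    ∑ n ∈ Icc 1 x, |(f * g) n| ≤ (∑ n ∈ Icc 1 x, |f n|) * ∑ n ∈ Icc 1 x, |g n| := by
  have h1 : ∀ n ∈ Icc 1 x, |(f * g) n| = (f * g) n * (fun n => SignType.sign ((f * g) n) : ℕ → ℝ) n := by
    intro n _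
    exact (self_mul_sign _).symm
  rw [Finset.sum_congr rfl h1, sum_conv, Finset.sum_mul_sum]
  apply Finset.sum_le_sum
  intro d hd
  calc ∑ m ∈ Icc 1 (x / d), f d * g m * (SignType.sign ((f * g) (d * m)) : ℝ)
      ≤ ∑ m ∈ Icc 1 (x / d), |f d| * |g m| := by
        apply Finset.sum_le_sum
        intro m _
        refine (le_abs_self _).trans ?_
        rw [abs_mul, abs_mul]
        have : |(SignType.sign ((f * g) (d * m)) : ℝ)| ≤ 1 := by
          rcases SignType.trichotomy (SignType.sign ((f * g) (d * m))) with h | h | h <;>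
            rw [h] <;> simp
        calc |f d| * |g m| * |(SignType.sign ((f * g) (d * m)) : ℝ)|
            ≤ |f d| * |g m| * 1 := by
              apply mul_le_mul_of_nonneg_left this (by positivity)
          _ = _ := mul_one _
    _ ≤ ∑ m ∈ Icc 1 x, |f d| * |g m| := by
        apply Finset.sum_le_sum_of_subset_of_nonneg
        · exact Finset.Icc_subset_Icc_right (Nat.div_le_self x d)
        · intro m _ _; positivity

/-- Abel summation with a monotone weight. -/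
lemma abel_bound (a h : ℕ → ℝ) (hmono : Monotone h) (h0 : 0 ≤ h 0)
    (ha : ∀ j, |∑ m ∈ Icc 1 j, a m| ≤ 1) (y : ℕ) :
    |∑ m ∈ Icc 1 y, h m * a m| ≤ 2 * h y := by
  have key : ∀ y : ℕ, |∑ m ∈ Icc 1 y, h m * a m - h y * ∑ m ∈ Icc 1 y, a m| ≤ h y := by
    intro y
    induction y with
    | zero => simpa using h0
    | succ y ih =>
      rw [Finset.sum_Icc_succ_top (by omega), Finset.sum_Icc_succ_top (by omega)]
      have e1 : ∑ m ∈ Icc 1 y, h m * a m + h (y + 1) * a (y + 1) -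
          h (y + 1) * (∑ m ∈ Icc 1 y, a m + a (y + 1)) =
          (∑ m ∈ Icc 1 y, h m * a m - h y * ∑ m ∈ Icc 1 y, a m) -
            (h (y + 1) - h y) * ∑ m ∈ Icc 1 y, a m := by ring
      rw [e1]
      have hd : 0 ≤ h (y + 1) - h y := sub_nonneg.2 (hmono (Nat.le_succ y))
      calc _ ≤ |∑ m ∈ Icc 1 y, h m * a m - h y * ∑ m ∈ Icc 1 y, a m| +
            |(h (y + 1) - h y) * ∑ m ∈ Icc 1 y, a m| := abs_sub _ _
        _ ≤ h y + (h (y + 1) - h y) * 1 := by
            apply add_le_add ih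
            rw [abs_mul, abs_of_nonneg hd]
            exact mul_le_mul_of_nonneg_left (ha y) hd
        _ = h (y + 1) := by ring
  have hy : 0 ≤ h y := h0.trans (hmono (Nat.zero_le y))
  have h1 := key y
  have h2 : |h y * ∑ m ∈ Icc 1 y, a m| ≤ h y := by
    rw [abs_mul, abs_of_nonneg hy]
    calc h y * |∑ m ∈ Icc 1 y, a m| ≤ h y * 1 := mul_le_mul_of_nonneg_left (ha y) hy
      _ = h y := mul_one _
  rw [abs_le] at *
  constructor <;> linarith [h1.1, h1.2, h2.1, h2.2]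

/-- lower cut -/
noncomputable def lo (f : ArithmeticFunction ℝ) (U : ℕ) : ArithmeticFunction ℝ :=
  ⟨fun n => if n ≤ U then f n else 0, by simp⟩

/-- upper cut -/
noncomputable def hi (f : ArithmeticFunction ℝ) (U : ℕ) : ArithmeticFunction ℝ :=
  ⟨fun n => if n ≤ U then 0 else f n, by simp⟩

lemma lo_apply (f : ArithmeticFunction ℝ) (U n : ℕ) : lo f U n = if n ≤ U then f n else 0 := rfl
lemma hi_apply (f : ArithmeticFunction ℝ) (U n : ℕ) : hi f U n = if n ≤ U then 0 else f n := rfl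

lemma lo_add_hi (f : ArithmeticFunction ℝ) (U : ℕ) : lo f U + hi f U = f := by
  ext n
  rw [ArithmeticFunction.add_apply, lo_apply, hi_apply]
  split_ifs <;> simp

/-- The real Moebius function. -/
noncomputable def mu : ArithmeticFunction ℝ := (ArithmeticFunction.moebius : ArithmeticFunction ℝ)
/-- The real zeta function. -/
noncomputable def ze : ArithmeticFunction ℝ := (ArithmeticFunction.zeta : ArithmeticFunction ℝ)

lemma mu_mul_ze : mu * ze = 1 := coe_moebius_mul_coe_zeta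

lemma vaughan (U V : ℕ) :
    vonMangoldt = lo vonMangoldt U + lo mu V * ArithmeticFunction.log
      - (lo vonMangoldt U * lo mu V) * ze + hi vonMangoldt U * (hi mu V * ze) := by
  have h1 : vonMangoldt * ze = ArithmeticFunction.log := vonMangoldt_mul_zeta
  have h2 : mu * ze = 1 := mu_mul_ze
  have h3 := lo_add_hi vonMangoldt U
  have h4 := lo_add_hi mu V
  rw [← h1]
  have h5 : hi vonMangoldt U = vonMangoldt - lo vonMangoldt U := eq_sub_of_add_eq' h3
  have h6 : hi mu V = mu - lo mu V := eq_sub_of_add_eq' h4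
  rw [h5, h6]
  linear_combination (lo vonMangoldt U - vonMangoldt) * h2

end Vale.Agent.P005.BV
end

section

/-!
# Type II sums in the class 1, on average over prime moduli
-/

open Finset ArithmeticFunction

namespace Vale.Agent.P005.BV

end Vale.Agent.P005.BV
end

section

/-!
# Bombieri-Vinogradov for prime moduli in `(x^a, x^b)`, residue class 1, with a power saving
-/

open Finset ArithmeticFunction Filter Asymptotics

namespace Vale.Agent.P005.BV

lemma mu_abs_le (n : ℕ) : |mu n| ≤ 1 := by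
  unfold mu
  rw [ArithmeticFunction.intCoe_apply]
  exact_mod_cast abs_moebius_le_one

lemma ze_mono : Monotone (fun n => ze n) := by
  intro m n h
  simp only [ze, ArithmeticFunction.natCoe_apply, ArithmeticFunction.zeta_apply]
  split_ifs with h1 h2
  · exact le_refl _
  · simp
  · omega
  · exact le_refl _

lemma log_mono : Monotone (fun n => ArithmeticFunction.log n) := by
  intro m n h
  simp only [ArithmeticFunction.log_apply]
  rcases Nat.eq_zero_or_pos m with rfl | hm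
  · simp
    exact Real.log_natCast_nonneg n
  · exact Real.log_le_log (by exact_mod_cast hm) (by exact_mod_cast h)

lemma sum_lo_vonMangoldt (x U : ℕ) (_hx : 1 ≤ x) :
    ∑ n ∈ Icc 1 x, |lo vonMangoldt U n| ≤ U * Real.log x := by
  calc ∑ n ∈ Icc 1 x, |lo vonMangoldt U n|
      ≤ ∑ n ∈ Icc 1 x, (if n ∈ Icc 1 U then Real.log x else 0) := by
        apply Finset.sum_le_sum
        intro n hn
        rw [Finset.mem_Icc] at hn
        rw [lo_apply]
        by_cases h : n ≤ U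
        · rw [if_pos h, if_pos (Finset.mem_Icc.2 ⟨hn.1, h⟩), abs_of_nonneg vonMangoldt_nonneg]
          calc vonMangoldt n ≤ Real.log n := vonMangoldt_le_log
            _ ≤ Real.log x := Real.log_le_log (by exact_mod_cast hn.1) (by exact_mod_cast hn.2)
        · rw [if_neg h, if_neg (fun h' => h (Finset.mem_Icc.1 h').2), abs_zero]
    _ ≤ ∑ n ∈ Icc 1 U, Real.log x := by
        rw [← Finset.sum_filter]
        apply Finset.sum_le_sum_of_subset_of_nonneg
        · intro n hn; exact (Finset.mem_filter.1 hn).2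
        · intro n _ _; exact Real.log_natCast_nonneg x
    _ = U * Real.log x := by rw [Finset.sum_const, Nat.card_Icc, nsmul_eq_mul]; simp

lemma sum_lo_mu (x V : ℕ) :
    ∑ n ∈ Icc 1 x, |lo mu V n| ≤ V := by
  calc ∑ n ∈ Icc 1 x, |lo mu V n|
      ≤ ∑ n ∈ Icc 1 x, (if n ∈ Icc 1 V then (1 : ℝ) else 0) := by
        apply Finset.sum_le_sum
        intro n hn
        rw [Finset.mem_Icc] at hn
        rw [lo_apply]
        by_cases h : n ≤ V
        · rw [if_pos h, if_pos (Finset.mem_Icc.2 ⟨hn.1, h⟩)]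
          exact mu_abs_le n
        · rw [if_neg h, if_neg (fun h' => h (Finset.mem_Icc.1 h').2), abs_zero]
    _ ≤ ∑ n ∈ Icc 1 V, (1 : ℝ) := by
        rw [← Finset.sum_filter]
        apply Finset.sum_le_sum_of_subset_of_nonneg
        · intro n hn; exact (Finset.mem_filter.1 hn).2
        · intro n _ _; norm_num
    _ = V := by simp

lemma abs_hi_mu_ze_le (V n : ℕ) : |(hi mu V * ze) n| ≤ tau n := by
  rw [ArithmeticFunction.mul_apply]
  refine (Finset.abs_sum_le_sum_abs _ _).trans ?_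
  calc ∑ p ∈ n.divisorsAntidiagonal, |hi mu V p.1 * ze p.2|
      ≤ ∑ p ∈ n.divisorsAntidiagonal, (1 : ℝ) := by
        apply Finset.sum_le_sum
        intro p _
        rw [abs_mul]
        have h1 : |hi mu V p.1| ≤ 1 := by
          rw [hi_apply]
          split_ifs
          · simp
          · exact mu_abs_le _
        have h2 : |ze p.2| ≤ 1 := by
          simp only [ze, ArithmeticFunction.natCoe_apply, ArithmeticFunction.zeta_apply]
          split_ifs <;> simp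
        calc |hi mu V p.1| * |ze p.2| ≤ 1 * 1 := mul_le_mul h1 h2 (abs_nonneg _) zero_le_one
          _ = 1 := one_mul 1
    _ = tau n := by
        have h := Nat.sum_divisorsAntidiagonal (fun _ _ => (1 : ℝ)) (n := n)
        rw [h]
        unfold tau
        simp

lemma hi_mu_ze_zero (V n : ℕ) (h : n ≤ V) : (hi mu V * ze) n = 0 := by
  rw [ArithmeticFunction.mul_apply]
  apply Finset.sum_eq_zero
  intro p hp
  rw [Nat.mem_divisorsAntidiagonal] at hp
  have h1 : p.1 ≤ n := Nat.le_of_dvd (Nat.pos_of_ne_zero hp.2) ⟨p.2, hp.1.symm⟩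
  rw [hi_apply, if_pos (by omega), zero_mul]

end Vale.Agent.P005.BV
end

section

/-!
# BV-lite: periodic sums and summation by parts
-/

open Finset

namespace Vale.Agent.P013.J.BV

open Vale.Agent.P005.BV (abel_bound)

lemma sum_range_mul_period (c : ℕ → ℝ) (L : ℕ) (hper : ∀ m, c (m + L) = c m)
    (hsum : ∑ m ∈ range L, c m = 0) (k : ℕ) : ∑ m ∈ range (k * L), c m = 0 := by
  have hper' : ∀ k m, c (k * L + m) = c m := by
    intro k
    induction k with
    | zero => intro m; simp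
    | succ k ih =>
      intro m
      have : (k + 1) * L + m = (k * L + m) + L := by ring
      rw [this, hper, ih]
  induction k with
  | zero => simp
  | succ k ih =>
    rw [Nat.add_mul, one_mul, Finset.sum_range_add, ih, zero_add]
    rw [← hsum]
    apply Finset.sum_congr rfl
    intro m _
    exact hper' k m

lemma periodic_bound (c : ℕ → ℝ) (L : ℕ) (hL : 1 ≤ L) (B : ℝ) (hper : ∀ m, c (m + L) = c m)
    (hsum : ∑ m ∈ range L, c m = 0) (hb : ∀ m, |c m| ≤ B) (j : ℕ) :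
    |∑ m ∈ range j, c m| ≤ B * L := by
  have hB : 0 ≤ B := (abs_nonneg _).trans (hb 0)
  have h1 : j = (j / L) * L + j % L := by
    rw [mul_comm]; exact (Nat.div_add_mod j L).symm
  rw [h1, Finset.sum_range_add, sum_range_mul_period c L hper hsum, zero_add]
  refine (Finset.abs_sum_le_sum_abs _ _).trans ?_
  calc ∑ m ∈ range (j % L), |c (j / L * L + m)| ≤ ∑ m ∈ range (j % L), B :=
        Finset.sum_le_sum fun m _ => hb _
    _ = (j % L : ℕ) * B := by rw [Finset.sum_const, Finset.card_range, nsmul_eq_mul]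
    _ ≤ L * B := by
        apply mul_le_mul_of_nonneg_right _ hB
        exact_mod_cast (Nat.mod_lt j (by omega)).le
    _ = B * L := mul_comm _ _

lemma sum_Icc_eq_range (c : ℕ → ℝ) (j : ℕ) : ∑ m ∈ Icc 1 j, c m = ∑ m ∈ range j, c (m + 1) := by
  induction j with
  | zero => simp
  | succ j ih => rw [Finset.sum_Icc_succ_top (by omega), Finset.sum_range_succ, ih]

lemma periodic_bound_Icc (c : ℕ → ℝ) (L : ℕ) (hL : 1 ≤ L) (B : ℝ) (hper : ∀ m, c (m + L) = c m)
    (hsum : ∑ m ∈ range L, c m = 0) (hb : ∀ m, |c m| ≤ B) (j : ℕ) :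
    |∑ m ∈ Icc 1 j, c m| ≤ B * L := by
  rw [sum_Icc_eq_range]
  apply periodic_bound (fun m => c (m + 1)) L hL B
  · intro m
    have : m + L + 1 = m + 1 + L := by ring
    simp only [this, hper]
  · have h1 : ∑ m ∈ range (L + 1), c m = ∑ m ∈ range L, c (m + 1) + c 0 :=
      Finset.sum_range_succ' c L
    rw [Finset.sum_range_succ, hsum] at h1
    have h2 : c L = c 0 := by
      have := hper 0
      rwa [zero_add] at this
    linarith only [h1, h2]
  · intro m; exact hb _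

/-- Abel summation with a non-increasing weight -/
lemma abel_anti (w a : ℕ → ℝ) (β : ℝ) (X : ℕ) (hw : ∀ n, 0 ≤ w n)
    (hanti : ∀ n, w (n + 1) ≤ w n)
    (ha : ∀ N, N ≤ X → |∑ n ∈ Icc 1 N, a n| ≤ β * N) :
    |∑ n ∈ Icc 1 X, a n * w n| ≤ β * ∑ n ∈ Icc 1 X, w n := by
  have key : ∀ Y, Y ≤ X → |∑ n ∈ Icc 1 Y, a n * w n - (∑ n ∈ Icc 1 Y, a n) * w Y| ≤
      β * (∑ n ∈ Icc 1 Y, w n - Y * w Y) := by
    intro Y
    induction Y with
    | zero => intro _; simp
    | succ Y ih =>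
      intro hY
      have ih' := ih (by omega)
      have hA := ha Y (by omega)
      rw [Finset.sum_Icc_succ_top (by omega), Finset.sum_Icc_succ_top (by omega),
        Finset.sum_Icc_succ_top (by omega)]
      have e1 : ∑ n ∈ Icc 1 Y, a n * w n + a (Y + 1) * w (Y + 1) -
          (∑ n ∈ Icc 1 Y, a n + a (Y + 1)) * w (Y + 1) =
          (∑ n ∈ Icc 1 Y, a n * w n - (∑ n ∈ Icc 1 Y, a n) * w Y) +
            (∑ n ∈ Icc 1 Y, a n) * (w Y - w (Y + 1)) := by ring
      rw [e1]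
      have hd : 0 ≤ w Y - w (Y + 1) := sub_nonneg.2 (hanti Y)
      calc _ ≤ |∑ n ∈ Icc 1 Y, a n * w n - (∑ n ∈ Icc 1 Y, a n) * w Y| +
            |(∑ n ∈ Icc 1 Y, a n) * (w Y - w (Y + 1))| := abs_add_le _ _
        _ ≤ β * (∑ n ∈ Icc 1 Y, w n - Y * w Y) + (β * Y) * (w Y - w (Y + 1)) := by
            apply add_le_add ih'
            rw [abs_mul, abs_of_nonneg hd]
            exact mul_le_mul_of_nonneg_right hA hd
        _ = β * (∑ n ∈ Icc 1 Y, w n + w (Y + 1) - ((Y + 1 : ℕ) : ℝ) * w (Y + 1)) := by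
            push_cast; ring
  have h1 := key X le_rfl
  have h2 : |(∑ n ∈ Icc 1 X, a n) * w X| ≤ β * X * w X := by
    rw [abs_mul, abs_of_nonneg (hw X)]
    exact mul_le_mul_of_nonneg_right (ha X le_rfl) (hw X)
  rw [abs_le] at *
  constructor <;> nlinarith only [h1.1, h1.2, h2.1, h2.2, h1, h2]

/-- weighted sums of periodic functions -/
lemma weighted_periodic (f : ℕ → ℝ) (L V Z : ℕ) (hL : 1 ≤ L) (hper : ∀ m, f (m + L) = f m)
    (hb : ∀ m, |f m| ≤ 1) :
    |∑ m ∈ Ioc V Z, (m : ℝ) * f m - (∑ m ∈ range L, f m) / L * ∑ m ∈ Ioc V Z, (m : ℝ)| ≤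
      8 * L * Z := by
  have hLr : (1 : ℝ) ≤ L := by exact_mod_cast hL
  set μ : ℝ := (∑ m ∈ range L, f m) / L with hμ
  have hμ1 : |μ| ≤ 1 := by
    rw [hμ, abs_div, abs_of_pos (by linarith only [hLr] : (0 : ℝ) < L), div_le_one (by linarith only [hLr])]
    refine (Finset.abs_sum_le_sum_abs _ _).trans ?_
    calc ∑ m ∈ range L, |f m| ≤ ∑ m ∈ range L, (1 : ℝ) := Finset.sum_le_sum fun m _ => hb m
      _ = L := by simp
  set c : ℕ → ℝ := fun m => f m - μ with hc
  have hcper : ∀ m, c (m + L) = c m := by intro m; simp only [hc, hper]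
  have hcsum : ∑ m ∈ range L, c m = 0 := by
    simp only [hc]
    rw [Finset.sum_sub_distrib, Finset.sum_const, Finset.card_range, nsmul_eq_mul, hμ,
      mul_div_cancel₀ _ (by linarith only [hLr] : (L : ℝ) ≠ 0)]
    ring
  have hcb : ∀ m, |c m| ≤ 2 := by
    intro m
    have := abs_sub (f m) μ
    have := hb m
    simp only [hc]
    linarith
  have hpart := periodic_bound_Icc c L hL 2 hcper hcsum hcb
  have hZ : ∀ Z : ℕ, |∑ m ∈ Icc 1 Z, (m : ℝ) * c m| ≤ 4 * L * Z := by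
    intro Z
    have h1 := abel_bound (fun m => c m / (2 * L)) (fun m => (m : ℝ) * (2 * L))
      (by
        intro a b hab
        have : (a : ℝ) ≤ b := by exact_mod_cast hab
        simp only
        apply mul_le_mul_of_nonneg_right this (by positivity)) (by simp)
      (by
        intro j
        rw [← Finset.sum_div, abs_div, abs_of_pos (by positivity : (0 : ℝ) < 2 * L),
          div_le_one (by positivity)]
        exact hpart j) Z
    have h2 : ∀ m ∈ Icc 1 Z, (m : ℝ) * (2 * L) * (c m / (2 * L)) = (m : ℝ) * c m := by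
      intro m _
      field_simp
    rw [Finset.sum_congr rfl h2] at h1
    refine h1.trans (le_of_eq ?_)
    ring
  have e1 : ∑ m ∈ Ioc V Z, (m : ℝ) * f m - μ * ∑ m ∈ Ioc V Z, (m : ℝ) =
      ∑ m ∈ Ioc V Z, (m : ℝ) * c m := by
    rw [Finset.mul_sum, ← Finset.sum_sub_distrib]
    apply Finset.sum_congr rfl
    intro m _
    simp only [hc]; ring
  rw [e1]
  by_cases hVZ : V ≤ Z
  · have e2 : ∑ m ∈ Icc 1 Z, (m : ℝ) * c m = ∑ m ∈ Icc 1 V, (m : ℝ) * c m +
        ∑ m ∈ Ioc V Z, (m : ℝ) * c m := by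
      have h1 : Icc 1 Z = Ioc 0 Z := by ext; simp [Finset.mem_Icc, Finset.mem_Ioc]; omega
      have h2 : Icc 1 V = Ioc 0 V := by ext; simp [Finset.mem_Icc, Finset.mem_Ioc]; omega
      rw [h1, h2, Finset.sum_Ioc_consecutive _ (by omega) hVZ]
    have e3 : ∑ m ∈ Ioc V Z, (m : ℝ) * c m = ∑ m ∈ Icc 1 Z, (m : ℝ) * c m -
        ∑ m ∈ Icc 1 V, (m : ℝ) * c m := by linarith only [e2]
    rw [e3]
    have hVZr : (V : ℝ) ≤ Z := by exact_mod_cast hVZ
    have h3 := hZ Z
    have h4 := hZ V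
    have h5 : 4 * (L : ℝ) * V ≤ 4 * L * Z := by
      apply mul_le_mul_of_nonneg_left hVZr (by positivity)
    have h6 := abs_sub (∑ m ∈ Icc 1 Z, (m : ℝ) * c m) (∑ m ∈ Icc 1 V, (m : ℝ) * c m)
    linarith only [h3, h4, h5, h6]
  · rw [Finset.Ioc_eq_empty (by omega), Finset.sum_empty, abs_zero]
    (clear * - hL; positivity)

lemma sum_range_K {q a : ℕ} (hq : 1 ≤ q) (ha : Nat.Coprime a q) :
    ∑ m ∈ range q, K q a m = 0 := by
  have hq0 : (Nat.totient q : ℝ) ≠ 0 := by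
    have := Nat.totient_pos.2 hq
    positivity
  unfold K
  rw [Finset.sum_sub_distrib]
  have h1 : ∑ m ∈ range q, (if m ≡ a [MOD q] then (1 : ℝ) else 0) = 1 := by
    have h2 := card_units_class (q := q) (L := q) (a := a) hq dvd_rfl ha
    rw [div_self hq0] at h2
    rw [Finset.sum_boole, ← h2]
    congr 2
    apply Finset.filter_congr
    intro m _
    exact ⟨fun h => ⟨h, coprime_of_modEq h ha⟩, fun h => h.1⟩
  have h3 : ∑ m ∈ range q, (if Nat.Coprime m q then 1 / (Nat.totient q : ℝ) else 0) = 1 := by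
    rw [← Finset.sum_filter, Finset.sum_const, nsmul_eq_mul]
    have h4 : ((range q).filter (fun m => Nat.Coprime m q)).card = Nat.totient q := by
      rw [Nat.totient_eq_card_coprime]
      congr 1
      apply Finset.filter_congr
      intro m _
      exact Nat.coprime_comm
    rw [h4, mul_one_div_cancel hq0]
  rw [h1, h3, sub_self]

lemma K_period (q h n : ℕ) : K q h (n + q) = K q h n :=
  K_congr (by unfold Nat.ModEq; simp)

lemma sum_K_mul_le {q h : ℕ} (hq : 1 ≤ q) (hh : Nat.Coprime h q) (d j : ℕ) :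
    |∑ m ∈ Icc 1 j, K q h (d * m)| ≤ q := by
  by_cases hd : Nat.Coprime d q
  · obtain ⟨a, ha, _, haK⟩ := exists_inv hq hh hd
    have e1 : ∀ m ∈ Icc 1 j, K q h (d * m) = K q a m := by
      intro m _
      rw [mul_comm]; exact haK m
    rw [Finset.sum_congr rfl e1]
    have := periodic_bound_Icc (K q a) q hq 1 (K_period q a) (sum_range_K hq ha)
      (fun m => K_abs_le hq a m) j
    linarith only [this]
  · rw [Finset.sum_eq_zero, abs_zero]
    · positivity
    · intro m _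
      apply K_eq_zero hh
      intro h1
      exact hd (Nat.Coprime.coprime_mul_right h1)

end Vale.Agent.P013.J.BV
end

section

/-!
# BV-lite: Vaughan's identity and the type I sums
-/

open Finset ArithmeticFunction

namespace Vale.Agent.P013.J.BV

open Vale.Agent.P005.BV (hi lo mu ze tau vaughan sum_conv sum_abs_conv sum_lo_vonMangoldt sum_lo_mu
  log_mono ze_mono abel_bound)

/-- Type I sums with a monotone weight. -/
lemma typeI_K (g f : ArithmeticFunction ℝ) (hmono : Monotone (fun n => f n)) (X : ℕ) {q h : ℕ}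
    (hq : 1 ≤ q) (hh : Nat.Coprime h q) :
    |∑ n ∈ Icc 1 X, (g * f : ArithmeticFunction ℝ) n * K q h n| ≤
      2 * q * f X * ∑ d ∈ Icc 1 X, |g d| := by
  rw [sum_conv, Finset.mul_sum]
  have hqr : (0 : ℝ) < q := by exact_mod_cast hq
  refine (Finset.abs_sum_le_sum_abs _ _).trans ?_
  apply Finset.sum_le_sum
  intro d _
  have e1 : ∀ m ∈ Icc 1 (X / d), g d * f m * K q h (d * m) =
      g d * (q * (f m * (K q h (d * m) / q))) := by
    intro m _
    field_simp
  rw [Finset.sum_congr rfl e1, ← Finset.mul_sum, ← Finset.mul_sum, abs_mul, abs_mul,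
    abs_of_pos hqr]
  have h1 := abel_bound (fun m => K q h (d * m) / q) (fun n => f n) hmono (by simp)
    (fun j => by
      rw [← Finset.sum_div, abs_div, abs_of_pos hqr, div_le_one hqr]
      exact sum_K_mul_le hq hh d j) (X / d)
  have h2 : f (X / d) ≤ f X := hmono (Nat.div_le_self X d)
  calc |g d| * (q * _) ≤ |g d| * (q * (2 * f (X / d))) :=
        mul_le_mul_of_nonneg_left (mul_le_mul_of_nonneg_left h1 hqr.le) (abs_nonneg _)
    _ ≤ |g d| * (q * (2 * f X)) := by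
        apply mul_le_mul_of_nonneg_left _ (abs_nonneg _)
        apply mul_le_mul_of_nonneg_left _ hqr.le
        linarith only [h2]
    _ = _ := by ring

theorem vaughan_reduce (X U V : ℕ) (hX : 1 ≤ X) (hU : 1 ≤ U) (hV : 1 ≤ V) {q h : ℕ} (hq : 1 ≤ q)
    (hh : Nat.Coprime h q) :
    |∑ n ∈ Icc 1 X, vonMangoldt n * K q h n| ≤ 5 * q * U * V * (1 + Real.log X) +
      |∑ n ∈ Icc 1 X, ∑ m ∈ Icc 1 (X / n),
        hi vonMangoldt U n * (hi mu V * ze) m * K q h (n * m)| := by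
  have hL : 0 ≤ Real.log X := Real.log_natCast_nonneg X
  have hqr : (1 : ℝ) ≤ q := by exact_mod_cast hq
  have hUr : (1 : ℝ) ≤ U := by exact_mod_cast hU
  have hVr : (1 : ℝ) ≤ V := by exact_mod_cast hV
  have hv : ∀ n, vonMangoldt n = lo vonMangoldt U n + (lo mu V * ArithmeticFunction.log) n -
      ((lo vonMangoldt U * lo mu V) * ze) n + (hi vonMangoldt U * (hi mu V * ze)) n := by
    intro n
    have h1 := congrArg (fun f : ArithmeticFunction ℝ => f n) (vaughan U V)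
    have h2 : (lo vonMangoldt U + lo mu V * ArithmeticFunction.log -
      (lo vonMangoldt U * lo mu V) * ze + hi vonMangoldt U * (hi mu V * ze) :
        ArithmeticFunction ℝ) n +
        ((lo vonMangoldt U * lo mu V) * ze : ArithmeticFunction ℝ) n =
      lo vonMangoldt U n + (lo mu V * ArithmeticFunction.log) n +
        (hi vonMangoldt U * (hi mu V * ze)) n := by
      rw [← ArithmeticFunction.add_apply]
      have : (lo vonMangoldt U + lo mu V * ArithmeticFunction.log -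
        (lo vonMangoldt U * lo mu V) * ze + hi vonMangoldt U * (hi mu V * ze) :
          ArithmeticFunction ℝ) + (lo vonMangoldt U * lo mu V) * ze =
          lo vonMangoldt U + lo mu V * ArithmeticFunction.log +
            hi vonMangoldt U * (hi mu V * ze) := by ring
      rw [this, ArithmeticFunction.add_apply, ArithmeticFunction.add_apply]
    change vonMangoldt n = _ at h1
    rw [h1]
    linarith only [h2]
  have hsplit : ∑ n ∈ Icc 1 X, vonMangoldt n * K q h n =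
      ∑ n ∈ Icc 1 X, lo vonMangoldt U n * K q h n +
      ∑ n ∈ Icc 1 X, (lo mu V * ArithmeticFunction.log) n * K q h n -
      ∑ n ∈ Icc 1 X, ((lo vonMangoldt U * lo mu V) * ze) n * K q h n +
      ∑ n ∈ Icc 1 X, (hi vonMangoldt U * (hi mu V * ze)) n * K q h n := by
    rw [← Finset.sum_add_distrib, ← Finset.sum_sub_distrib, ← Finset.sum_add_distrib]
    apply Finset.sum_congr rfl
    intro n _
    rw [hv n]; ring
  rw [hsplit, sum_conv (hi vonMangoldt U)]
  have b1 : |∑ n ∈ Icc 1 X, lo vonMangoldt U n * K q h n| ≤ U * Real.log X := by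
    refine (Finset.abs_sum_le_sum_abs _ _).trans ?_
    refine le_trans ?_ (sum_lo_vonMangoldt X U hX)
    apply Finset.sum_le_sum
    intro n _
    rw [abs_mul]
    calc |lo vonMangoldt U n| * |K q h n| ≤ |lo vonMangoldt U n| * 1 :=
          mul_le_mul_of_nonneg_left (K_abs_le hq h n) (abs_nonneg _)
      _ = _ := mul_one _
  have b2 : |∑ n ∈ Icc 1 X, (lo mu V * ArithmeticFunction.log) n * K q h n| ≤
      2 * q * Real.log X * V := by
    refine (typeI_K (lo mu V) ArithmeticFunction.log log_mono X hq hh).trans ?_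
    rw [ArithmeticFunction.log_apply]
    exact mul_le_mul_of_nonneg_left (sum_lo_mu X V) (by positivity)
  have b3 : |∑ n ∈ Icc 1 X, ((lo vonMangoldt U * lo mu V) * ze) n * K q h n| ≤
      2 * q * 1 * ((U * Real.log X) * V) := by
    refine (typeI_K (lo vonMangoldt U * lo mu V) ze ze_mono X hq hh).trans ?_
    have hze : ze X = 1 := by
      simp only [ze, ArithmeticFunction.natCoe_apply, ArithmeticFunction.zeta_apply]
      rw [if_neg (by omega)]; simp
    rw [hze]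
    apply mul_le_mul_of_nonneg_left _ (by positivity)
    refine (sum_abs_conv _ _ _).trans ?_
    exact mul_le_mul (sum_lo_vonMangoldt X U hX) (sum_lo_mu X V)
      (Finset.sum_nonneg fun _ _ => abs_nonneg _) (by positivity)
  have hfin : U * Real.log X + 2 * q * Real.log X * V + 2 * q * 1 * ((U * Real.log X) * V) ≤
      5 * q * U * V * (1 + Real.log X) := by
    have hqV : (1 : ℝ) ≤ q * V := one_le_mul_of_one_le_of_one_le hqr hVr
    have e1 : (U : ℝ) * Real.log X ≤ q * U * V * Real.log X := by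
      have : (U : ℝ) * Real.log X * 1 ≤ U * Real.log X * (q * V) :=
        mul_le_mul_of_nonneg_left hqV (by positivity)
      linarith only [this]
    have e2 : 2 * (q : ℝ) * Real.log X * V ≤ 2 * (q * U * V * Real.log X) := by
      have : 2 * (q : ℝ) * Real.log X * V * 1 ≤ 2 * q * Real.log X * V * U :=
        mul_le_mul_of_nonneg_left hUr (by positivity)
      linarith only [this]
    have e3 : 0 ≤ (q : ℝ) * U * V := by positivity
    linarith only [e3, e2, e1]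
  refine (abs_add_le _ _).trans ?_
  have := abs_sub (∑ n ∈ Icc 1 X, lo vonMangoldt U n * K q h n +
      ∑ n ∈ Icc 1 X, (lo mu V * ArithmeticFunction.log) n * K q h n)
      (∑ n ∈ Icc 1 X, ((lo vonMangoldt U * lo mu V) * ze) n * K q h n)
  have := abs_add_le (∑ n ∈ Icc 1 X, lo vonMangoldt U n * K q h n)
      (∑ n ∈ Icc 1 X, (lo mu V * ArithmeticFunction.log) n * K q h n)
  linarith

end Vale.Agent.P013.J.BV
end

section

/-!
# BV-lite: elementary bounds for the von Mangoldt function and totients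
-/

open Finset ArithmeticFunction

namespace Vale.Agent.P013.J.BV

open Vale.Agent.P005.BV (hi hi_apply lo tau)

lemma log_nat_nonneg (X : ℕ) : 0 ≤ Real.log X := Real.log_natCast_nonneg X

lemma card_primeFactors_le (q : ℕ) : q.primeFactors.card ≤ q := by
  calc q.primeFactors.card ≤ (Icc 1 q).card := by
        apply Finset.card_le_card
        intro p hp
        rw [Finset.mem_Icc]
        exact ⟨(Nat.prime_of_mem_primeFactors hp).one_lt.le, Nat.le_of_mem_primeFactors hp⟩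
    _ = q := by simp

/-- the prime powers not coprime to `q` contribute little -/
lemma sum_not_coprime_le {q N : ℕ} (hq : 1 ≤ q) (hN : 1 ≤ N) :
    ∑ n ∈ (Icc 1 N).filter (fun n => ¬ Nat.Coprime n q), vonMangoldt n ≤ q * Real.log N := by
  classical
  set M : ℕ := ∏ p ∈ q.primeFactors, p ^ Nat.log p N with hM
  have hM0 : M ≠ 0 := by
    rw [hM, Finset.prod_ne_zero_iff]
    intro p hp
    exact pow_ne_zero _ (Nat.prime_of_mem_primeFactors hp).ne_zero
  have h1 : ∑ n ∈ (Icc 1 N).filter (fun n => ¬ Nat.Coprime n q), vonMangoldt n ≤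
      ∑ n ∈ M.divisors, vonMangoldt n := by
    rw [← Finset.sum_filter_ne_zero (s := (Icc 1 N).filter (fun n => ¬ Nat.Coprime n q))]
    apply Finset.sum_le_sum_of_subset_of_nonneg
    · intro n hn
      rw [Finset.mem_filter, Finset.mem_filter, Finset.mem_Icc] at hn
      obtain ⟨⟨⟨hn1, hn2⟩, hn3⟩, hn4⟩ := hn
      rw [Nat.mem_divisors]
      refine ⟨?_, hM0⟩
      rw [vonMangoldt_ne_zero_iff] at hn4
      obtain ⟨p, k, hp, hk, rfl⟩ := (isPrimePow_nat_iff _).1 hn4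
      have hpq : p ∣ q := by
        by_contra h
        exact hn3 ((hp.coprime_iff_not_dvd.2 h).pow_left k)
      have hpm : p ∈ q.primeFactors := Nat.mem_primeFactors.2 ⟨hp, hpq, by omega⟩
      have hkl : k ≤ Nat.log p N := Nat.le_log_of_pow_le hp.one_lt hn2
      exact (pow_dvd_pow p hkl).trans (Finset.dvd_prod_of_mem (fun p => p ^ Nat.log p N) hpm)
    · intro n _ _; exact vonMangoldt_nonneg
  refine h1.trans ?_
  rw [vonMangoldt_sum]
  have h2 : Real.log M = ∑ p ∈ q.primeFactors, Real.log ((p ^ Nat.log p N : ℕ) : ℝ) := by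
    rw [hM, Nat.cast_prod, Real.log_prod]
    intro p hp
    have := (Nat.prime_of_mem_primeFactors hp).pos
    positivity
  rw [h2]
  calc ∑ p ∈ q.primeFactors, Real.log ((p ^ Nat.log p N : ℕ) : ℝ)
      ≤ ∑ p ∈ q.primeFactors, Real.log N := by
        apply Finset.sum_le_sum
        intro p hp
        have hpos := (Nat.prime_of_mem_primeFactors hp).pos
        apply Real.log_le_log
        · positivity
        · exact_mod_cast Nat.pow_log_le_self p (by omega)
    _ = q.primeFactors.card * Real.log N := by rw [Finset.sum_const, nsmul_eq_mul]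
    _ ≤ q * Real.log N := by
        apply mul_le_mul_of_nonneg_right _ (log_nat_nonneg N)
        exact_mod_cast card_primeFactors_le q

lemma vM_le_log {n X : ℕ} (hn : 1 ≤ n) (hX : n ≤ X) : vonMangoldt n ≤ Real.log X :=
  vonMangoldt_le_log.trans (Real.log_le_log (by exact_mod_cast hn) (by exact_mod_cast hX))

lemma hi_nonneg (U n : ℕ) : 0 ≤ hi vonMangoldt U n := by
  rw [hi_apply]
  split_ifs
  · exact le_rfl
  · exact vonMangoldt_nonneg

lemma hi_le (U n : ℕ) : hi vonMangoldt U n ≤ vonMangoldt n := by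
  rw [hi_apply]
  split_ifs
  · exact vonMangoldt_nonneg
  · exact le_rfl

lemma hi_le_log {U n X : ℕ} (hn : 1 ≤ n) (hX : n ≤ X) : hi vonMangoldt U n ≤ Real.log X :=
  (hi_le U n).trans (vM_le_log hn hX)

/-- the number of `n ≤ N` in a class -/
lemma card_class_le {g c N : ℕ} (hg : 1 ≤ g) :
    ((((Icc 1 N).filter (fun n => n ≡ c [MOD g])).card : ℕ) : ℝ) ≤ N / g + 1 := by
  have hgr : (0 : ℝ) < g := by exact_mod_cast hg
  have h1 : (((Icc 1 N).filter (fun n => n ≡ c [MOD g])).card : ℕ) ≤ N / g + 1 := by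
    have h2 : (Icc 1 N).filter (fun n => n ≡ c [MOD g]) ⊆
        (range (N / g + 1)).image (fun k => k * g + c % g) := by
      intro n hn
      rw [Finset.mem_filter, Finset.mem_Icc] at hn
      rw [Finset.mem_image]
      refine ⟨n / g, ?_, ?_⟩
      · rw [Finset.mem_range]
        have := Nat.div_le_div_right (c := g) hn.1.2
        omega
      · have h3 : n % g = c % g := hn.2
        rw [← h3, mul_comm]
        exact Nat.div_add_mod n g
    calc _ ≤ _ := Finset.card_le_card h2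
      _ ≤ (range (N / g + 1)).card := Finset.card_image_le
      _ = N / g + 1 := Finset.card_range _
  have h3 : ((N / g : ℕ) : ℝ) ≤ (N : ℝ) / g := Nat.cast_div_le
  calc ((((Icc 1 N).filter (fun n => n ≡ c [MOD g])).card : ℕ) : ℝ) ≤ ((N / g + 1 : ℕ) : ℝ) := by
        exact_mod_cast h1
    _ = ((N / g : ℕ) : ℝ) + 1 := by push_cast; ring
    _ ≤ _ := by linarith only [h3]

/-- trivial bound for the discrepancy of the truncated von Mangoldt function -/
lemma trivial_disc {U N X g c : ℕ} (hg : 1 ≤ g) (hNX : N ≤ X) (ind : ℕ → ℝ)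
    (hind : ∀ n, |ind n| ≤ 1) :
    |∑ n ∈ Icc 1 N, hi vonMangoldt U n * ind n * K g c n| ≤
      Real.log X * (N / g + 1 + N / Nat.totient g) := by
  have hφ : (0 : ℝ) < Nat.totient g := by exact_mod_cast Nat.totient_pos.2 hg
  refine (Finset.abs_sum_le_sum_abs _ _).trans ?_
  have h1 : ∀ n ∈ Icc 1 N, |hi vonMangoldt U n * ind n * K g c n| ≤
      Real.log X * ((if n ≡ c [MOD g] then (1 : ℝ) else 0) + 1 / Nat.totient g) := by
    intro n hn
    rw [Finset.mem_Icc] at hn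
    rw [abs_mul, abs_mul, abs_of_nonneg (hi_nonneg U n)]
    have hK : |K g c n| ≤ (if n ≡ c [MOD g] then (1 : ℝ) else 0) + 1 / Nat.totient g := by
      have : 0 < 1 / (Nat.totient g : ℝ) := by positivity
      unfold K
      rw [abs_le]
      split_ifs <;> constructor <;> linarith only [this]
    have hK0 : 0 ≤ (if n ≡ c [MOD g] then (1 : ℝ) else 0) + 1 / Nat.totient g :=
      (abs_nonneg _).trans hK
    have h2 : hi vonMangoldt U n * |ind n| ≤ Real.log X := by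
      calc hi vonMangoldt U n * |ind n| ≤ hi vonMangoldt U n * 1 :=
            mul_le_mul_of_nonneg_left (hind n) (hi_nonneg U n)
        _ ≤ Real.log X := by rw [mul_one]; exact hi_le_log hn.1 (hn.2.trans hNX)
    exact mul_le_mul h2 hK (abs_nonneg _) (log_nat_nonneg X)
  refine (Finset.sum_le_sum h1).trans ?_
  rw [← Finset.mul_sum, Finset.sum_add_distrib, Finset.sum_const, Finset.sum_boole, nsmul_eq_mul,
    Nat.card_Icc]
  apply mul_le_mul_of_nonneg_left _ (log_nat_nonneg X)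
  have h3 := card_class_le (g := g) (c := c) (N := N) hg
  have h4 : ((N + 1 - 1 : ℕ) : ℝ) * (1 / (Nat.totient g : ℝ)) = N / Nat.totient g := by
    rw [Nat.add_sub_cancel]; ring
  rw [h4]
  linarith only [h3]

/-- removing the coprimality condition -/
lemma remove_coprime {U N X g q c : ℕ} (hg : 1 ≤ g) (hq : 1 ≤ q) (hNX : N ≤ X) :
    |∑ n ∈ Icc 1 N, hi vonMangoldt U n * (if Nat.Coprime n q then (1 : ℝ) else 0) * K g c n| ≤
      |∑ n ∈ Icc 1 N, hi vonMangoldt U n * K g c n| + q * Real.log X := by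
  rcases Nat.eq_zero_or_pos N with rfl | hN
  · simp
    have := log_nat_nonneg X
    positivity
  have h1 : ∑ n ∈ Icc 1 N, hi vonMangoldt U n * (if Nat.Coprime n q then (1 : ℝ) else 0) * K g c n =
      ∑ n ∈ Icc 1 N, hi vonMangoldt U n * K g c n -
      ∑ n ∈ Icc 1 N, (if Nat.Coprime n q then 0 else hi vonMangoldt U n * K g c n) := by
    rw [← Finset.sum_sub_distrib]
    apply Finset.sum_congr rfl
    intro n _
    split_ifs <;> ring
  have h2 : |∑ n ∈ Icc 1 N, (if Nat.Coprime n q then 0 else hi vonMangoldt U n * K g c n)| ≤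
      q * Real.log X := by
    refine (Finset.abs_sum_le_sum_abs _ _).trans ?_
    calc ∑ n ∈ Icc 1 N, |(if Nat.Coprime n q then 0 else hi vonMangoldt U n * K g c n)|
        ≤ ∑ n ∈ Icc 1 N, (if ¬ Nat.Coprime n q then vonMangoldt n else 0) := by
          apply Finset.sum_le_sum
          intro n _
          by_cases h : Nat.Coprime n q
          · rw [if_pos h, if_neg (not_not.2 h), abs_zero]
          · rw [if_neg h, if_pos h, abs_mul, abs_of_nonneg (hi_nonneg U n)]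
            calc hi vonMangoldt U n * |K g c n| ≤ hi vonMangoldt U n * 1 :=
                  mul_le_mul_of_nonneg_left (K_abs_le hg c n) (hi_nonneg U n)
              _ ≤ vonMangoldt n := by rw [mul_one]; exact hi_le U n
      _ = ∑ n ∈ (Icc 1 N).filter (fun n => ¬ Nat.Coprime n q), vonMangoldt n := by
          rw [Finset.sum_filter]
      _ ≤ q * Real.log N := sum_not_coprime_le hq hN
      _ ≤ q * Real.log X := by
          apply mul_le_mul_of_nonneg_left _ (by positivity)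
          exact Real.log_le_log (by exact_mod_cast hN) (by exact_mod_cast hNX)
  rw [h1]
  have := abs_sub (∑ n ∈ Icc 1 N, hi vonMangoldt U n * K g c n)
    (∑ n ∈ Icc 1 N, (if Nat.Coprime n q then 0 else hi vonMangoldt U n * K g c n))
  linarith only [h2, this]

/-! ### totients -/

lemma prod_ratio_le (s : Finset ℕ) (hs : ∀ p ∈ s, 2 ≤ p) :
    ∏ p ∈ s, ((p : ℝ) / (p - 1)) ≤ s.card + 1 := by
  classical
  induction s using Finset.induction_on_max with
  | empty => simp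
  | insert a s ha ih =>
    have has : a ∉ s := fun h => lt_irrefl _ (ha a h)
    have ih' := ih fun p hp => hs p (Finset.mem_insert_of_mem hp)
    have ha2 : 2 ≤ a := hs a (Finset.mem_insert_self _ _)
    rw [Finset.prod_insert has, Finset.card_insert_of_notMem has]
    have hcard : s.card + 2 ≤ a := by
      have h1 : s ⊆ Finset.Ico 2 a := by
        intro p hp
        exact Finset.mem_Ico.mpr ⟨hs p (Finset.mem_insert_of_mem hp), ha p hp⟩
      have h2 := Finset.card_le_card h1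
      rw [Nat.card_Ico] at h2
      omega
    have hcard' : (s.card : ℝ) + 2 ≤ a := by exact_mod_cast hcard
    have h0 : (0 : ℝ) ≤ s.card := by positivity
    have h1 : (a : ℝ) / (a - 1) ≤ (s.card + 2) / (s.card + 1) := by
      rw [div_le_div_iff₀ (by linarith only [hcard']) (by linarith only [])]
      linarith only [hcard']
    have h3 : 0 ≤ ∏ p ∈ s, ((p : ℝ) / (p - 1)) := by
      refine Finset.prod_nonneg fun p hp => ?_
      have : (2 : ℝ) ≤ p := by exact_mod_cast hs p (Finset.mem_insert_of_mem hp)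
      exact div_nonneg (by linarith only [this]) (by linarith only [this])
    calc (a : ℝ) / (a - 1) * ∏ p ∈ s, ((p : ℝ) / (p - 1))
        ≤ (s.card + 2) / (s.card + 1) * (s.card + 1) := by gcongr
      _ = ((s.card + 1 : ℕ) : ℝ) + 1 := by
          rw [div_mul_cancel₀ _ (by positivity)]
          push_cast
          ring

lemma inv_ratio {f : ℕ} (hf : f ≠ 0) : (f : ℝ) / Nat.totient f =
    ∏ p ∈ f.primeFactors, ((p : ℝ) / (p - 1)) := by
  have hfr : (0 : ℝ) < f := by exact_mod_cast Nat.pos_of_ne_zero hf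
  have h1 : (Nat.totient f : ℝ) = f * ∏ p ∈ f.primeFactors, (1 - (p : ℝ)⁻¹) := by
    have := Nat.totient_eq_mul_prod_factors f
    have h2 : ((Nat.totient f : ℚ) : ℝ) = ((f * ∏ p ∈ f.primeFactors, (1 - (p : ℚ)⁻¹) : ℚ) : ℝ) := by
      rw [this]
    push_cast at h2
    exact h2
  have h2 : ∀ p ∈ f.primeFactors, (p : ℝ) / (p - 1) = (1 - (p : ℝ)⁻¹)⁻¹ := by
    intro p hp
    have : (1 : ℝ) < p := by exact_mod_cast (Nat.prime_of_mem_primeFactors hp).one_lt
    have h2 : (p : ℝ) ≠ 0 := by linarith only [this]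
    have h3 : (p : ℝ) - 1 ≠ 0 := by linarith only [this]
    have h4 : 1 - (p : ℝ)⁻¹ = (p - 1) / p := by field_simp
    rw [h4, inv_div]
  rw [Finset.prod_congr rfl h2, Finset.prod_inv_distrib, h1, div_eq_mul_inv, mul_inv, ← mul_assoc,
    mul_inv_cancel₀ hfr.ne', one_mul]

lemma ratio_le {f X : ℕ} (hf : 1 ≤ f) (hfX : f ≤ X) :
    (f : ℝ) / Nat.totient f ≤ 2 * (1 + Real.log X) := by
  rw [inv_ratio (by omega)]
  refine (prod_ratio_le _ fun p hp => (Nat.prime_of_mem_primeFactors hp).two_le).trans ?_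
  have h1 : 2 ^ f.primeFactors.card ≤ f := by
    calc 2 ^ f.primeFactors.card = ∏ _p ∈ f.primeFactors, 2 := by rw [Finset.prod_const]
      _ ≤ ∏ p ∈ f.primeFactors, p :=
          Finset.prod_le_prod' fun p hp => (Nat.prime_of_mem_primeFactors hp).two_le
      _ ≤ f := Nat.le_of_dvd (by omega) (Nat.prod_primeFactors_dvd f)
  have h2 : (f.primeFactors.card : ℝ) * Real.log 2 ≤ Real.log X := by
    rw [← Real.log_pow]
    apply Real.log_le_log (by positivity)
    calc (2 : ℝ) ^ f.primeFactors.card = ((2 ^ f.primeFactors.card : ℕ) : ℝ) := by push_cast; ring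
      _ ≤ f := by exact_mod_cast h1
      _ ≤ X := by exact_mod_cast hfX
  have h3 : (0.6931471803 : ℝ) < Real.log 2 := Real.log_two_gt_d9
  have h4 : (0 : ℝ) ≤ f.primeFactors.card := by positivity
  nlinarith only [h2, h3]

end Vale.Agent.P013.J.BV
end
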