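import Vale.Agent.P013.Bdl.B1
import Vale.Agent.P013.Bdl.B2

set_option linter.all false

section

/-!
# The dichotomy (section 6 of the blueprint)
-/

open Finset Real Filter

namespace Vale.Agent.P013.J

open Vale.Agent.P005.SQ

theorem mass_sdiff (S U : Finset ℕ) :
    ∑ p ∈ S, 1 / (p : ℝ) ≤ ∑ p ∈ S \ U, 1 / (p : ℝ) + ∑ p ∈ U, 1 / (p : ℝ) := by
  refine le_trans (mass_mono ?_) (mass_union (S \ U) U)
  intro p hp
  rw [mem_union, Finset.mem_sdiff]
  by_cases h : p ∈ U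
  · exact Or.inr h
  · exact Or.inl ⟨hp, h⟩

theorem mass_prod (S T : Finset ℕ) :
    ∑ pq ∈ S ×ˢ T, 1 / ((pq.1 : ℝ) * pq.2) =
      (∑ p ∈ S, 1 / (p : ℝ)) * ∑ q ∈ T, 1 / (q : ℝ) := by
  rw [sum_mul_sum, sum_product]
  refine sum_congr rfl fun p _ => sum_congr rfl fun q _ => ?_
  rw [one_div, one_div, one_div, mul_inv]

/-- The combinatorial core of the dichotomy, for one value of `y`. -/
theorem dich_core (y z : ℕ) (V : ℤ) (c ε ε₁ δ z' C : ℝ) (hc1 : c < 1 / 10)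
    (hε1 : ε₁ ≤ 1 / 40) (hε2 : ε₁ ≤ ε / 40) (hε0 : 0 < ε₁) (hδ1 : δ ≤ 1 / 100)
    (hy : (2 : ℝ) ≤ y) (hz1 : (y : ℝ) ^ (1 / 2 - δ) ≤ z) (hz2 : (z : ℝ) ≤ √y)
    (hz3 : z' ≤ (y : ℝ) ^ (1 / 2 + δ))
    (m1 : 0.55 ≤ ∑ p ∈ PB y 0.16 0.4, 1 / (p : ℝ)) (m2 : 0.34 ≤ ∑ p ∈ PB y 0.1 0.155, 1 / (p : ℝ))
    (m3 : ∑ p ∈ PB y (1 / 2 - δ) (1 / 2 + δ), 1 / (p : ℝ) ≤ ε / 8)
    (U : Finset ℕ) (mU1 : ∑ p ∈ U, 1 / (p : ℝ) ≤ ε / 8) (mU2 : ∑ p ∈ U, 1 / (p : ℝ) ≤ 0.04)
    (hU : ∀ p : ℕ, p.Prime → (y : ℝ) ^ c ≤ p → ∀ ρ ρ' : ℤ × ℕ, Lab y V ρ → Lab y V ρ' → ρ ≠ ρ' →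
      Natl V ρ p → Natl V ρ' p → p ∈ U)
    (hD1 : ∀ DD : Finset (ℕ × ℕ), AdmPairs y c z DD →
      (∀ pq ∈ DD, ∀ ρ : ℤ × ℕ, Lab y V ρ → ¬ Natl V ρ (pq.1 * pq.2)) →
      ∑ pq ∈ DD, 1 / ((pq.1 : ℝ) * pq.2) ≤ ε₁)
    (hD2 : ∀ ρ₀ : ℤ × ℕ, Lab y V ρ₀ → C ≤ max (ρ₀.2 : ℝ) (|(ρ₀.1 : ℝ)| / y) →
      ∀ DD : Finset (ℕ × ℕ), AdmPairs y c z DD →
      (∀ pq ∈ DD, ∀ ρ : ℤ × ℕ, Lab y V ρ → Natl V ρ (pq.1 * pq.2) → ρ = ρ₀) →
      ∑ pq ∈ DD, 1 / ((pq.1 : ℝ) * pq.2) ≤ ε₁) :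
    ∃ ρ₀ : ℤ × ℕ, Lab y V ρ₀ ∧ max (ρ₀.2 : ℝ) (|(ρ₀.1 : ℝ)| / y) < C ∧
      excMass y c z' V ρ₀.1 ρ₀.2 ≤ ε := by
  classical
  have hy1 : (1 : ℝ) < y := by linarith only [hy]
  have hsq : √(y : ℝ) ≤ y := by
    rw [Real.sqrt_le_left (by linarith only [hy])]
    nlinarith only [hy]
  set P : Finset ℕ := prm y ((y : ℝ) ^ (0.16 : ℝ)) z \ U with hP
  set Q : Finset ℕ := prm y ((y : ℝ) ^ c) ((y : ℝ) ^ (0.16 : ℝ)) \ U with hQ
  have memP : ∀ p, p ∈ P ↔ (p < y ∧ p.Prime ∧ (y : ℝ) ^ (0.16 : ℝ) ≤ p ∧ (p : ℝ) < z) ∧ p ∉ U := by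
    intro p
    rw [hP, Finset.mem_sdiff, mem_prm]
  have memQ : ∀ q, q ∈ Q ↔ (q < y ∧ q.Prime ∧ (y : ℝ) ^ c ≤ q ∧ (q : ℝ) < (y : ℝ) ^ (0.16 : ℝ)) ∧
      q ∉ U := by
    intro q
    rw [hQ, Finset.mem_sdiff, mem_prm]
  have hcP : ∀ p : ℕ, (y : ℝ) ^ (0.16 : ℝ) ≤ p → (y : ℝ) ^ c ≤ p := fun p hp =>
    le_trans (Real.rpow_le_rpow_of_exponent_le hy1.le (by linarith only [hc1])) hp
  -- masses of `P`, `Q`
  have mP : 0.5 ≤ ∑ p ∈ P, 1 / (p : ℝ) := by
    have h1 : PB y 0.16 0.4 ⊆ prm y ((y : ℝ) ^ (0.16 : ℝ)) z := by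
      intro p hp
      rw [mem_PB] at hp
      rw [mem_prm]
      have h2 : (y : ℝ) ^ (0.4 : ℝ) < (y : ℝ) ^ (1 / 2 - δ) :=
        Real.rpow_lt_rpow_of_exponent_lt hy1 (by linarith only [hδ1])
      have h3 : (p : ℝ) < z := by linarith only [h2, hz1, hp.2.2.2]
      refine ⟨?_, hp.2.1, hp.2.2.1, h3⟩
      have : (p : ℝ) < y := by linarith only [hz1, hz2, hsq, hp, h2]
      exact_mod_cast this
    have h2 := mass_mono h1
    have h3 := mass_sdiff (prm y ((y : ℝ) ^ (0.16 : ℝ)) z) U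
    rw [← hP] at h3
    linarith only [m1, mU2, h2, h3]
  have mQ : 0.3 ≤ ∑ q ∈ Q, 1 / (q : ℝ) := by
    have h1 : PB y 0.1 0.155 ⊆ prm y ((y : ℝ) ^ c) ((y : ℝ) ^ (0.16 : ℝ)) := by
      intro p hp
      rw [mem_PB] at hp
      rw [mem_prm]
      have h2 : (y : ℝ) ^ (0.155 : ℝ) < (y : ℝ) ^ (0.16 : ℝ) :=
        Real.rpow_lt_rpow_of_exponent_lt hy1 (by norm_num)
      have h3 : (y : ℝ) ^ c ≤ (y : ℝ) ^ (0.1 : ℝ) :=
        Real.rpow_le_rpow_of_exponent_le hy1.le (by linarith only [hc1])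
      have h4 : (y : ℝ) ^ (0.155 : ℝ) < (y : ℝ) ^ (1 : ℝ) :=
        Real.rpow_lt_rpow_of_exponent_lt hy1 (by norm_num)
      rw [Real.rpow_one] at h4
      refine ⟨?_, hp.2.1, le_trans h3 hp.2.2.1, lt_of_le_of_lt hp.2.2.2 h2⟩
      have : (p : ℝ) < y := by linarith only [h4, hp.2.2.2]
      exact_mod_cast this
    have h2 := mass_mono h1
    have h3 := mass_sdiff (prm y ((y : ℝ) ^ c) ((y : ℝ) ^ (0.16 : ℝ))) U
    rw [← hQ] at h3
    linarith only [m2, mU2, h2, h3]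
  have adm : ∀ S T : Finset ℕ, S ⊆ P → T ⊆ Q → AdmPairs y c z (S ×ˢ T) := by
    intro S T hS hT pq hpq
    rw [mem_product] at hpq
    have h1 := (memP _).1 (hS hpq.1)
    have h2 := (memQ _).1 (hT hpq.2)
    refine ⟨h1.1.2.1, h2.1.2.1, h2.1.2.2.1, h2.1.2.2.2, h1.1.2.2.1, ?_⟩
    exact_mod_cast h1.1.2.2.2
  have natl_left : ∀ (ρ : ℤ × ℕ) (p q : ℕ), Natl V ρ (p * q) → Natl V ρ p := by
    intro ρ p q h
    unfold Natl at h ⊢
    push_cast at h
    exact dvd_trans (dvd_mul_right _ _) h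
  have natl_right : ∀ (ρ : ℤ × ℕ) (p q : ℕ), Natl V ρ (p * q) → Natl V ρ q := by
    intro ρ p q h
    unfold Natl at h ⊢
    push_cast at h
    exact dvd_trans (dvd_mul_left _ _) h
  -- pigeonhole
  obtain ⟨q₀, hq₀, hq₀2⟩ := dich_pigeon P Q (fun q hq => ((memQ q).1 hq).1.2.1.pos)
    (fun p q => ∃ ρ, Lab y V ρ ∧ Natl V ρ (p * q)) ε₁ 0.3 (by norm_num) hε0.le mQ (by
      intro S hS
      refine hD1 S ?_ ?_
      · intro pq hpq
        obtain ⟨h1, h2, _⟩ := hS pq hpq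
        have h1 := (memP _).1 h1
        have h2 := (memQ _).1 h2
        refine ⟨h1.1.2.1, h2.1.2.1, h2.1.2.2.1, h2.1.2.2.2, h1.1.2.2.1, ?_⟩
        exact_mod_cast h1.1.2.2.2
      · intro pq hpq ρ hρ hn
        exact (hS pq hpq).2.2 ⟨ρ, hρ, hn⟩)
  obtain ⟨p₀, hp₀, ρ₀, hρ₀, hn₀⟩ : ∃ p ∈ P, ∃ ρ, Lab y V ρ ∧ Natl V ρ (p * q₀) := by
    by_contra hcon
    push Not at hcon
    have h1 := hq₀2 P (fun p hp => ⟨hp, by
      rintro ⟨ρ, hρ, hn⟩
      exact hcon p hp ρ hρ hn⟩)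
    have h2 : ε₁ / 0.3 ≤ 1 / 12 := by
      rw [div_le_iff₀ (by norm_num)]
      norm_num at hε1 ⊢
      linarith only [hε1]
    linarith only [mP, h1, h2]
  have hq₀n : Natl V ρ₀ q₀ := natl_right _ _ _ hn₀
  have hq₀' := (memQ _).1 hq₀
  -- the primes of `P`
  set S₁ : Finset ℕ := P.filter (fun p => ¬ Natl V ρ₀ p) with hS₁
  set N₁ : Finset ℕ := P.filter (fun p => Natl V ρ₀ p) with hN₁
  have mS₁ : ∑ p ∈ S₁, 1 / (p : ℝ) ≤ ε₁ / 0.3 := by
    refine hq₀2 S₁ ?_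
    intro p hp
    rw [hS₁, mem_filter] at hp
    refine ⟨hp.1, ?_⟩
    rintro ⟨ρ, hρ, hn⟩
    by_cases h : ρ = ρ₀
    · subst h
      exact hp.2 (natl_left _ _ _ hn)
    · exact hq₀'.2 (hU q₀ hq₀'.1.2.1 hq₀'.1.2.2.1 ρ ρ₀ hρ hρ₀ h (natl_right _ _ _ hn) hq₀n)
  have mN₁ : 0.4 ≤ ∑ p ∈ N₁, 1 / (p : ℝ) := by
    have h1 : ∑ p ∈ N₁, 1 / (p : ℝ) + ∑ p ∈ S₁, 1 / (p : ℝ) = ∑ p ∈ P, 1 / (p : ℝ) :=
      sum_filter_add_sum_filter_not _ _ _
    have h2 : ε₁ / 0.3 ≤ 1 / 12 := by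
      rw [div_le_iff₀ (by norm_num)]
      norm_num at hε1 ⊢
      linarith only [hε1]
    norm_num at mP mS₁ h2 h1 ⊢
    linarith only [hε1, hε0, mP, mS₁, h1]
  have hN₁P : N₁ ⊆ P := filter_subset _ _
  -- the primes of `Q`
  set S₂ : Finset ℕ := Q.filter (fun p => ¬ Natl V ρ₀ p) with hS₂
  have hS₂Q : S₂ ⊆ Q := filter_subset _ _
  have mS₂ : 0.4 * ∑ q ∈ S₂, 1 / (q : ℝ) ≤ ε₁ := by
    have h1 := hD1 (N₁ ×ˢ S₂) (adm N₁ S₂ hN₁P hS₂Q) (by
      intro pq hpq ρ hρ hn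
      rw [mem_product, hN₁, hS₂, mem_filter, mem_filter] at hpq
      have hp := (memP _).1 hpq.1.1
      by_cases h : ρ = ρ₀
      · subst h
        exact hpq.2.2 (natl_right _ _ _ hn)
      · exact hp.2 (hU pq.1 hp.1.2.1 (hcP _ hp.1.2.2.1) ρ ρ₀ hρ hρ₀ h (natl_left _ _ _ hn)
          hpq.1.2))
    rw [mass_prod] at h1
    refine le_trans ?_ h1
    exact mul_le_mul_of_nonneg_right mN₁ (mass_nonneg _)
  refine ⟨ρ₀, hρ₀, ?_, ?_⟩
  · -- small height
    by_contra hcon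
    rw [not_lt] at hcon
    have h1 := hD2 ρ₀ hρ₀ hcon (N₁ ×ˢ Q) (adm N₁ Q hN₁P (Finset.Subset.refl _)) (by
      intro pq hpq ρ hρ hn
      rw [mem_product, hN₁, mem_filter] at hpq
      have hp := (memP _).1 hpq.1.1
      by_contra h
      exact hp.2 (hU pq.1 hp.1.2.1 (hcP _ hp.1.2.2.1) ρ ρ₀ hρ hρ₀ h (natl_left _ _ _ hn)
          hpq.1.2))
    rw [mass_prod] at h1
    have h2 : (0.4 : ℝ) * 0.3 ≤ (∑ p ∈ N₁, 1 / (p : ℝ)) * ∑ q ∈ Q, 1 / (q : ℝ) :=
      mul_le_mul mN₁ mQ (by norm_num) (mass_nonneg _)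
    norm_num at h1 h2 hε1
    linarith only [hε0, h1, h2, hε1]
  · -- the exceptional mass
    unfold excMass
    have hsub : (range y).filter (fun p : ℕ => p.Prime ∧ (y : ℝ) ^ c ≤ p ∧ (p : ℝ) < z' ∧
        ¬ (p : ℤ) ∣ (ρ₀.2 : ℤ) * V - ρ₀.1) ⊆
        (S₁ ∪ S₂) ∪ (U ∪ PB y (1 / 2 - δ) (1 / 2 + δ)) := by
      intro p hp
      rw [mem_filter, mem_range] at hp
      obtain ⟨hpy, hpp, hpc, hpz, hpn⟩ := hp
      rw [mem_union, mem_union, mem_union]
      by_cases hpU : p ∈ U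
      · exact Or.inr (Or.inl hpU)
      rcases lt_or_ge (p : ℝ) ((y : ℝ) ^ (0.16 : ℝ)) with h1 | h1
      · left
        right
        rw [hS₂, mem_filter, memQ]
        exact ⟨⟨⟨hpy, hpp, hpc, h1⟩, hpU⟩, hpn⟩
      rcases lt_or_ge (p : ℝ) (z : ℝ) with h2 | h2
      · left
        left
        rw [hS₁, mem_filter, memP]
        exact ⟨⟨⟨hpy, hpp, h1, h2⟩, hpU⟩, hpn⟩
      · right
        right
        rw [mem_PB]
        exact ⟨⟨hpp.one_lt.le, hpy.le⟩, hpp, le_trans hz1 h2, by linarith only [hz3, hpz]⟩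
    have h1 := mass_mono hsub
    have h2 := mass_union (S₁ ∪ S₂) (U ∪ PB y (1 / 2 - δ) (1 / 2 + δ))
    have h3 := mass_union S₁ S₂
    have h4 := mass_union U (PB y (1 / 2 - δ) (1 / 2 + δ))
    have h5 : ε₁ / 0.3 ≤ ε / 12 := by
      rw [div_le_iff₀ (by norm_num)]
      norm_num at hε2 ⊢
      linarith only [hε2]
    have h6 : ∑ q ∈ S₂, 1 / (q : ℝ) ≤ ε / 16 := by
      norm_num at mS₂ ⊢
      linarith only [hε2, mS₂]
    have h7 : 0 < ε := by linarith only [hε2, hε0]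
    norm_num at h1 h2 h3 h4 h5 h6 m3 mU1 mS₁ ⊢
    linarith only [hε2, hε0, h1, h2, h3, h4, h6, m3, mU1, mS₁]

theorem lab_bounds (y : ℕ) (V : ℤ) (ρ : ℤ × ℕ) (hy : 1 ≤ Real.log y) (h : Lab y V ρ) :
    1 ≤ ρ.2 ∧ (ρ.2 : ℝ) ≤ Real.exp ((Real.log y) ^ (0.96 : ℝ)) ∧
      |(ρ.1 : ℝ)| ≤ y * Real.exp ((Real.log y) ^ (0.96 : ℝ)) := by
  obtain ⟨_, k, g, _, hk2, hg, hpop⟩ := h
  obtain ⟨h1, h2, h3, _⟩ := hpop
  have hg' : (1 : ℝ) ≤ g := by exact_mod_cast hg
  have hT : ((2 : ℝ) ^ k) ^ (0.3 : ℝ) ≤ Real.exp ((Real.log y) ^ (0.96 : ℝ)) := by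
    have h4 : ((2 : ℝ) ^ k) ^ (0.3 : ℝ) ≤ (Real.exp ((Real.log y) ^ (0.95 : ℝ))) ^ (0.3 : ℝ) :=
      Real.rpow_le_rpow (by positivity) hk2 (by norm_num)
    have h5 : (Real.exp ((Real.log y) ^ (0.95 : ℝ))) ^ (0.3 : ℝ) =
        Real.exp (0.3 * (Real.log y) ^ (0.95 : ℝ)) := by
      rw [← Real.exp_mul, mul_comm]
    have h6 : (Real.log y) ^ (0.95 : ℝ) ≤ (Real.log y) ^ (0.96 : ℝ) :=
      Real.rpow_le_rpow_of_exponent_le hy (by norm_num)
    have h7 : 0 ≤ (Real.log y) ^ (0.95 : ℝ) := Real.rpow_nonneg (by linarith only [hy]) _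
    rw [h5] at h4
    exact le_trans h4 (Real.exp_le_exp.2 (by linarith only [h7, h6]))
  refine ⟨?_, ?_, ?_⟩
  · rcases Nat.eq_zero_or_pos ρ.2 with h0 | h0
    · rw [h0] at h1
      omega
    · exact h0
  · refine le_trans ?_ (le_trans h2 hT)
    push_cast
    have h0 : (0 : ℝ) ≤ ρ.2 := Nat.cast_nonneg _
    nlinarith only [hg']
  · have h8 : |(ρ.1 : ℝ)| ≤ |(((g : ℤ) * ρ.1 : ℤ) : ℝ)| := by
      push_cast
      rw [abs_mul, abs_of_nonneg (by linarith only [hg'] : (0 : ℝ) ≤ (g : ℝ))]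
      have h0 := abs_nonneg (ρ.1 : ℝ)
      linarith only [mul_nonneg (sub_nonneg.2 hg') (sub_nonneg.2 h0)]
    refine le_trans h8 (le_trans h3 ?_)
    exact mul_le_mul_of_nonneg_left hT (Nat.cast_nonneg _)

/-- The dichotomy. -/
theorem dich (h1 : LevelStmt) (h2 : StabStmt) (_h3 : LabelCountStmt) (h4 : TwoLabelStmt) :
    DichStmt := by
  intro c ε A hc hc1 hε hA
  obtain ⟨W, hW⟩ := exists_goodW
  obtain ⟨C₇, K₀, hC₇, hK₀, h2⟩ := h2 W hW c A hc hc1 hA
  obtain ⟨ε₁, hε₁⟩ : ∃ ε₁ : ℝ, ε₁ = min ε 1 / 40 := ⟨_, rfl⟩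
  have hmin0 : 0 < min ε 1 := lt_min hε one_pos
  have hε₁0 : 0 < ε₁ := by rw [hε₁]; positivity
  have hε₁1 : ε₁ ≤ 1 / 40 := by
    rw [hε₁]
    linarith only [min_le_right ε 1]
  have hε₁2 : ε₁ ≤ ε / 40 := by
    rw [hε₁]
    linarith only [min_le_left ε 1]
  obtain ⟨δ, hδ⟩ : ∃ δ : ℝ, δ = min ε 1 / 100 := ⟨_, rfl⟩
  have hδ0 : 0 < δ := by rw [hδ]; positivity
  have hδ1 : δ ≤ 1 / 100 := by
    rw [hδ]
    linarith only [min_le_right ε 1, hε₁, hε₁1]
  have hδ2 : δ ≤ ε / 100 := by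
    rw [hδ]
    linarith only [min_le_left ε 1, hε₁, hε₁2]
  obtain ⟨A₁, hA₁⟩ : ∃ A₁ : ℝ, A₁ = max 1 (K₀ / ε₁) := ⟨_, rfl⟩
  have hA₁1 : 1 ≤ A₁ := by rw [hA₁]; exact le_max_left _ _
  have hKA : K₀ / A₁ ≤ ε₁ := by
    rw [div_le_iff₀ (by linarith only [hA₁1])]
    have h5 : K₀ / ε₁ ≤ A₁ := by rw [hA₁]; exact le_max_right _ _
    rw [div_le_iff₀ hε₁0] at h5
    linarith only [h5]
  obtain ⟨C₄, hC₄, y₁, h1⟩ := h1 W hW A₁ c C₇ (by linarith only [hA₁1]) hc hc1 hC₇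
  obtain ⟨y₂, h2⟩ := h2 A₁ hA₁1
  obtain ⟨y₃, h4⟩ := h4 c hc (by linarith only [hc1])
  have hlog : Tendsto (fun y : ℕ => Real.log (y : ℝ)) atTop atTop :=
    Real.tendsto_log_atTop.comp tendsto_natCast_atTop_atTop
  have l1 : (0.55 : ℝ) < Real.log (0.4 / 0.16) := by
    have := Real.one_sub_inv_le_log_of_pos (show (0 : ℝ) < 0.4 / 0.16 by norm_num)
    norm_num at this ⊢
    linarith only [this]
  have l2 : (0.34 : ℝ) < Real.log (0.155 / 0.1) := by
    have := Real.one_sub_inv_le_log_of_pos (show (0 : ℝ) < 0.155 / 0.1 by norm_num)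
    norm_num at this ⊢
    linarith only [this]
  have l3 : Real.log ((1 / 2 + δ) / (1 / 2 - δ)) < ε / 8 := by
    have h5 : (0 : ℝ) < 1 / 2 - δ := by linarith only [hε₁, hε₁0, hε₁1, hδ]
    have h6 := Real.log_le_sub_one_of_pos (x := (1 / 2 + δ) / (1 / 2 - δ)) (by (clear * - hδ0 h5; positivity))
    have h7 : (1 / 2 + δ) / (1 / 2 - δ) - 1 ≤ 5 * δ := by
      rw [sub_le_iff_le_add, div_le_iff₀ h5]
      nlinarith only [hδ, hε₁, hmin0, hε₁1, hε₁0, hδ0]
    linarith only [hε₁, hε₁2, hδ, hδ0, h6, h7]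
  have hneg : Tendsto (fun y : ℕ => (y : ℝ) ^ (-(c / 2))) atTop (nhds 0) :=
    (tendsto_rpow_neg_atTop (by positivity)).comp tendsto_natCast_atTop_atTop
  have hδ3 : 0 < δ := hδ0
  have hev : ∀ᶠ y : ℕ in atTop, ∀ V : ℤ,
      (surv y (√y * (log y) ^ A) V : ℝ) ≤ y / (log y) ^ 2 →
      ∃ (B : ℤ) (D : ℕ), IsCoprime B (D : ℤ) ∧ 1 ≤ D ∧ (D : ℝ) ≤ (log y) ^ C₄ ∧
      |(B : ℝ)| ≤ y * (log y) ^ C₄ ∧ excMass y c (√y * (log y) ^ A) V B D ≤ ε := by
    filter_upwards [eventually_ge_atTop y₁, eventually_ge_atTop y₂, eventually_ge_atTop y₃,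
      eventually_ge_atTop 2, hlog.eventually_ge_atTop 1,
      mass_lower 0.16 0.4 0.55 (by norm_num) (by norm_num) (by norm_num) l1,
      mass_lower 0.1 0.155 0.34 (by norm_num) (by norm_num) (by norm_num) l2,
      mass_upper (1 / 2 - δ) (1 / 2 + δ) (ε / 8) (by linarith only [hε₁, hε₁0, hε₁1, hδ]) (by linarith only [hδ0]) (by linarith only [hε₁, hε₁0, hε₁1, hδ]) l3,
      hneg.eventually (gt_mem_nhds (show (0 : ℝ) < ε / 8 by positivity)),
      hneg.eventually (gt_mem_nhds (show (0 : ℝ) < 0.04 by norm_num)),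
      log_pow_le_rpow C₇ δ hδ0, log_pow_le_rpow A δ hδ0, log_pow_le_exp C₄] with
      y hy₁ hy₂ hy₃ hy2 hl m1 m2 m3 u1 u2 p7 pA pe
    intro V hV
    have hy2' : (2 : ℝ) ≤ y := by exact_mod_cast hy2
    have hy0 : (0 : ℝ) < y := by linarith only [hy2']
    have hl0 : 0 < Real.log y := by linarith only [hl]
    obtain ⟨z, hz1, hz2, h2⟩ := h2 y hy₂ V hV
    obtain ⟨U, hU1, hU2⟩ := h4 y hy₃ V
    have hsqrt : √(y : ℝ) = (y : ℝ) ^ (1 / 2 : ℝ) := Real.sqrt_eq_rpow _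
    have hz1' : (y : ℝ) ^ (1 / 2 - δ) ≤ z := by
      refine le_trans ?_ hz1
      rw [hsqrt, Real.rpow_sub hy0, Real.rpow_neg hl0.le, ← div_eq_mul_inv]
      exact div_le_div_of_nonneg_left (by positivity) (by positivity) p7
    have hz0 : (0 : ℝ) < z := lt_of_lt_of_le (by positivity) hz1'
    have hz3 : √(y : ℝ) * (Real.log y) ^ A ≤ (y : ℝ) ^ (1 / 2 + δ) := by
      rw [hsqrt, Real.rpow_add hy0]
      exact mul_le_mul_of_nonneg_left pA (by positivity)
    have hT : 2 * Real.log z + A₁ * Real.log (Real.log y) ≤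
        Real.log y + A₁ * Real.log (Real.log y) := by
      have h5 : Real.log z ≤ Real.log (√(y : ℝ)) := Real.log_le_log hz0 hz2
      rw [Real.log_sqrt hy0.le] at h5
      linarith only [h5]
    obtain ⟨ρ₀, hρ1, hρ2, hρ3⟩ := dich_core y z V c ε ε₁ δ (√y * (log y) ^ A) ((log y) ^ C₄)
      hc1 hε₁1 hε₁2 hε₁0 hδ1 hy2' hz1' hz2 hz3 m1 m2 m3 U (le_trans hU1 u1.le)
      (le_trans hU1 u2.le) hU2 (by
        intro DD hDD hno
        refine le_trans (h2 DD hDD ?_) hKA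
        have hce : (⌈(Real.log y) ^ C₄⌉₊ : ℝ) < (Real.log y) ^ C₄ + 1 :=
          Nat.ceil_lt_add_one (by positivity)
        refine h1 y hy₁ V z _ hz1 hz2 hT 1 ⌈(Real.log y) ^ C₄⌉₊ isCoprime_one_left ?_ ?_ ?_ ?_
          DD hDD ?_
        · exact Nat.one_le_iff_ne_zero.2 (Nat.ceil_pos.2 (by positivity)).ne'
        · linarith only [pe, hce]
        · have h5 : (1 : ℝ) ≤ Real.exp ((Real.log y) ^ (0.96 : ℝ)) :=
            Real.one_le_exp (by positivity)
          push_cast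
          rw [abs_one]
          nlinarith only [hy2', h5]
        · exact le_trans (Nat.le_ceil _) (le_max_left _ _)
        · intro pq hpq ρ hρ hn
          exact absurd hn (hno pq hpq ρ hρ)) (by
        intro ρ₀ hρ₀ hmax DD hDD huni
        refine le_trans (h2 DD hDD ?_) hKA
        obtain ⟨b1, b2, b3⟩ := lab_bounds y V ρ₀ hl hρ₀
        exact h1 y hy₁ V z _ hz1 hz2 hT ρ₀.1 ρ₀.2 hρ₀.1 b1 b2 b3 hmax DD hDD huni)
    obtain ⟨b1, b2, b3⟩ := lab_bounds y V ρ₀ hl hρ1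
    rw [max_lt_iff, div_lt_iff₀ hy0] at hρ2
    refine ⟨ρ₀.1, ρ₀.2, hρ1.1, b1, hρ2.1.le, ?_, hρ3⟩
    linarith only [hρ2.2, hρ2]
  obtain ⟨y₀, hy₀⟩ := eventually_atTop.1 hev
  exact ⟨C₄, hC₄, y₀, hy₀⟩

end Vale.Agent.P013.J
end

section

/-!
# Assembly of the level of distribution (section 5 of the blueprint)
-/

open Finset Real

namespace Vale.Agent.P013.J

theorem level (h1 : ExcStmt) (h2 : DecompStmt) (h3 : ClassStmt) : LevelStmt := by
  intro W hW A₁ c C₇ hA₁ hc hc' hC₇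
  obtain ⟨C₉, Cκ, hC₉, hCκ, hexc⟩ := h1 W hW A₁ c C₇ hA₁ hc hc' hC₇
  obtain ⟨r, A₃, C₄, hCA, hA₃, hC₄, y₃, hcls⟩ := h3 W hW A₁ c C₇ C₉ Cκ hA₁ hc hc' hC₇ hC₉ hCκ
  obtain ⟨y₁, hexc⟩ := hexc r A₃ hCA
  obtain ⟨y₂, hdec⟩ := h2 A₁ c C₇ C₉ A₃ r hA₁ hc hc' hC₇ hC₉ hA₃
  refine ⟨C₄, hC₄, max (max y₁ y₂) (max y₃ 8), ?_⟩
  intro y hy V z T hz1 hz2 hT B₀ D₀ hBD hD₀ hD₀' hB₀ hH DD hDD hlab
  have hy1 : y₁ ≤ y := (le_max_left _ _).trans ((le_max_left _ _).trans hy)
  have hy2 : y₂ ≤ y := (le_max_right _ _).trans ((le_max_left _ _).trans hy)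
  have hy3 : y₃ ≤ y := (le_max_left _ _).trans ((le_max_right _ _).trans hy)
  have hy8 : 8 ≤ y := (le_max_right _ _).trans ((le_max_right _ _).trans hy)
  have hstd : Std y A₁ c C₇ z T DD := ⟨hz1, hz2, hT, hDD⟩
  obtain ⟨BG, KK, hBG, hgood, hkey, hbound⟩ := hdec y hy2 z T DD hstd (rr W y V)
  have e1 := hexc y hy1 V z T DD hstd BG hBG hgood
  have e3 := hcls y hy3 V z T DD hstd B₀ D₀ hBD hD₀ hD₀' hB₀ hH hlab KK hkey
  have hl : 2 ≤ log (y : ℝ) := by
    have h8 : (8 : ℝ) ≤ y := by exact_mod_cast hy8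
    rw [Real.le_log_iff_exp_le (by linarith only [hc, hc', h8])]
    have h4 : exp 2 = exp 1 * exp 1 := by rw [← exp_add]; norm_num
    have h5 : exp 1 < 2.7182818286 := exp_one_lt_d9
    have h6 : 0 < exp 1 := exp_pos 1
    rw [h4]
    nlinarith only [h8, hc, hc', h5, h6]
  have hfin : (y : ℝ) / (log y) ^ 4 + y / (log y) ^ 4 ≤ y / (log y) ^ 3 := by
    have hl0 : 0 < log (y : ℝ) := by linarith only [hc, hc', hl]
    have hy0 : (0 : ℝ) ≤ y := Nat.cast_nonneg y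
    have e : (y : ℝ) / (log y) ^ 4 + y / (log y) ^ 4 = y / (log y) ^ 3 * (2 / log y) := by
      field_simp
      ring
    rw [e]
    have h7 : 2 / log (y : ℝ) ≤ 1 := by rw [div_le_one hl0]; exact hl
    exact mul_le_of_le_one_right (by positivity) h7
  linarith only [hbound, e1, e3, hfin]

end Vale.Agent.P013.J
end

section

/-!
# Bounds for the level function `tau`
-/

open Finset Real

namespace Vale.Agent.P013.J

/-- the Euler product over the primes of `[x, z)` -/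
noncomputable def ep (x z : ℕ) : ℝ := ∏ q ∈ (Ico x z).filter Nat.Prime, (1 - 1 / (q : ℝ))

lemma fac_pos {q : ℕ} (hq : q.Prime) : 0 < 1 - 1 / (q : ℝ) := by
  have h2 : (2 : ℝ) ≤ q := by exact_mod_cast hq.two_le
  have : 1 / (q : ℝ) ≤ 1 / 2 := one_div_le_one_div_of_le (by norm_num) h2
  linarith only [this]

lemma fac_le {q : ℕ} : 1 - 1 / (q : ℝ) ≤ 1 := by
  have : (0 : ℝ) ≤ 1 / q := by positivity
  linarith

lemma ep_pos (x z : ℕ) : 0 < ep x z := by
  unfold ep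
  apply prod_pos
  intro q hq
  exact fac_pos (mem_filter.mp hq).2

lemma gv_PP (x z : ℕ) (h : x ≤ z) :
    gv (PP z) (fun q => 1 / (q : ℝ)) x = ∏ q ∈ (range x).filter Nat.Prime, (1 - 1 / (q : ℝ)) := by
  unfold gv PP
  congr 1
  ext q
  simp only [mem_filter, mem_range]
  constructor
  · rintro ⟨⟨h1, h2⟩, h3⟩; exact ⟨h3, h2⟩
  · rintro ⟨h1, h2⟩; exact ⟨⟨by omega, h2⟩, h1⟩

lemma prod_split (x z : ℕ) (h : x ≤ z) :
    (∏ q ∈ (range z).filter Nat.Prime, (1 - 1 / (q : ℝ)))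
      = (∏ q ∈ (range x).filter Nat.Prime, (1 - 1 / (q : ℝ))) * ep x z := by
  unfold ep
  rw [← prod_union]
  · congr 1
    ext q
    simp only [mem_filter, mem_range, mem_union, mem_Ico]
    constructor
    · rintro ⟨h1, h2⟩
      rcases Nat.lt_or_ge q x with h3 | h3
      · left; exact ⟨h3, h2⟩
      · right; exact ⟨⟨h3, h1⟩, h2⟩
    · rintro (⟨h1, h2⟩ | ⟨⟨h1, h2⟩, h3⟩)
      · exact ⟨by omega, h2⟩
      · exact ⟨h2, h3⟩
  · rw [disjoint_left]
    intro q h1 h2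
    simp only [mem_filter, mem_range, mem_Ico] at h1 h2
    omega

lemma tl_tau_eq (x z : ℕ) (h : x ≤ z) : tau z x = log z * ep x z := by
  unfold tau
  rw [gv_PP z z le_rfl, gv_PP x z h, prod_split x z h]
  have : 0 < ∏ q ∈ (range x).filter Nat.Prime, (1 - 1 / (q : ℝ)) :=
    prod_pos fun q hq => fac_pos (mem_filter.mp hq).2
  field_simp

lemma ep_mul (x x' z : ℕ) (h : x ≤ x') (h' : x' ≤ z) : ep x z = ep x x' * ep x' z := by
  unfold ep
  rw [← prod_union]
  · congr 1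
    ext q
    simp only [mem_filter, mem_union, mem_Ico]
    constructor
    · rintro ⟨h1, h2⟩
      rcases Nat.lt_or_ge q x' with h3 | h3
      · left; exact ⟨⟨h1.1, h3⟩, h2⟩
      · right; exact ⟨⟨h3, h1.2⟩, h2⟩
    · rintro (⟨h1, h2⟩ | ⟨h1, h3⟩)
      · exact ⟨⟨h1.1, by omega⟩, h2⟩
      · exact ⟨⟨by omega, h1.2⟩, h3⟩
  · rw [disjoint_left]
    intro q h1 h2
    simp only [mem_filter, mem_Ico] at h1 h2
    omega

/-- telescoping lower bound -/
lemma ep_ge (x x' : ℕ) (hx : 2 ≤ x) (h : x ≤ x') : ((x : ℝ) - 1) / (x' - 1) ≤ ep x x' := by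
  induction x', h using Nat.le_induction with
  | base =>
    have : ep x x = 1 := by simp [ep]
    rw [this]
    have h2 : (2 : ℝ) ≤ x := by exact_mod_cast hx
    rw [div_self (by linarith only [h2])]
  | succ n hn ih =>
    have h2 : (2 : ℝ) ≤ x := by exact_mod_cast hx
    have hn2 : (x : ℝ) ≤ n := by exact_mod_cast hn
    have hn1 : (0 : ℝ) < (n : ℝ) - 1 := by linarith only [h2, hn2]
    have hn0 : (0 : ℝ) < (n : ℝ) := by linarith only [h2, hn2]
    have e1 : ((x : ℝ) - 1) / (((n + 1 : ℕ) : ℝ) - 1) = ((x : ℝ) - 1) / (n - 1) * (1 - 1 / n) := by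
      have e0 : ((n + 1 : ℕ) : ℝ) - 1 = n := by push_cast; ring
      rw [e0]
      field_simp
    rw [e1, ep_mul x n (n + 1) hn (by omega)]
    have h3 : 1 - 1 / (n : ℝ) ≤ ep n (n + 1) := by
      unfold ep
      rw [Nat.Ico_succ_singleton, filter_singleton]
      split_ifs with hp
      · simp
      · rw [prod_empty]; exact fac_le
    have h4 : 0 ≤ 1 - 1 / (n : ℝ) := by
      have : 1 / (n : ℝ) ≤ 1 := by
        rw [div_le_one hn0]; linarith only [h2, hn2]
      linarith only [this]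
    have h5 : 0 ≤ ((x : ℝ) - 1) / (n - 1) := div_nonneg (by linarith only [h2]) hn1.le
    exact mul_le_mul ih h3 h4 (ep_pos x n).le

lemma ep_le_one (x z : ℕ) : ep x z ≤ 1 := by
  unfold ep
  apply prod_le_one
  · intro q hq; exact (fac_pos (mem_filter.mp hq).2).le
  · intro q _; exact fac_le

lemma tau_nonneg (z x : ℕ) (h : x ≤ z) : 0 ≤ tau z x := by
  rw [tl_tau_eq x z h]
  exact mul_nonneg (Real.log_natCast_nonneg z) (ep_pos x z).le

/-- `tau` is monotone and its increments are controlled. -/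
lemma tl_tau_mono (x x' z : ℕ) (h : x ≤ x') (h' : x' ≤ z) : tau z x ≤ tau z x' := by
  rw [tl_tau_eq x z (h.trans h'), tl_tau_eq x' z h', ep_mul x x' z h h']
  have h1 := ep_le_one x x'
  have h2 := (ep_pos x' z).le
  have h3 := Real.log_natCast_nonneg z
  have h4 : ep x x' * ep x' z ≤ ep x' z := mul_le_of_le_one_left h2 h1
  exact mul_le_mul_of_nonneg_left h4 h3

lemma tau_le_mul (x x' z : ℕ) (hx : 2 ≤ x) (h : x ≤ x') (h' : x' ≤ z) :
    tau z x' ≤ tau z x * (((x' : ℝ) - 1) / (x - 1)) := by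
  have h2 : (2 : ℝ) ≤ x := by exact_mod_cast hx
  have h3 : (x : ℝ) ≤ x' := by exact_mod_cast h
  have hx1 : (0 : ℝ) < (x : ℝ) - 1 := by linarith only [h2]
  have hx1' : (0 : ℝ) < (x' : ℝ) - 1 := by linarith only [h2, h3]
  have h4 := ep_ge x x' hx h
  have h5 : tau z x = tau z x' * ep x x' := by
    rw [tl_tau_eq x z (h.trans h'), tl_tau_eq x' z h', ep_mul x x' z h h']; ring
  rw [h5, mul_assoc]
  have h6 : 1 ≤ ep x x' * (((x' : ℝ) - 1) / (x - 1)) := by
    have h7 : 0 ≤ ((x' : ℝ) - 1) / (x - 1) := by positivity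
    calc (1 : ℝ) = ((x : ℝ) - 1) / (x' - 1) * (((x' : ℝ) - 1) / (x - 1)) := by field_simp
      _ ≤ _ := mul_le_mul_of_nonneg_right h4 h7
  exact le_mul_of_one_le_right (tau_nonneg z x' h') h6

open Vale.Agent.P031 in
/-- upper bound for `tau` (Mertens) -/
theorem tau_le : ∃ C : ℝ, 0 < C ∧ ∀ x z : ℕ, 2 ≤ x → x ≤ z → tau z x ≤ C * log x := by
  refine ⟨Real.exp (13 / log 2 + 1 ), by positivity, ?_⟩
  intro x z hx hz
  have hxR : (2 : ℝ) ≤ x := by exact_mod_cast hx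
  have hzR : (x : ℝ) ≤ z := by exact_mod_cast hz
  have hl2 : 0 < log 2 := log_pos (by norm_num)
  have hlx : log 2 ≤ log x := log_le_log (by norm_num) hxR
  have hlz : log x ≤ log z := log_le_log (by linarith only [hxR]) hzR
  have hx0 : 0 < log x := by linarith only [hl2, hlx]
  have hz0 : 0 < log z := by linarith only [hl2, hlx, hlz]
  rw [tl_tau_eq x z hz]
  -- the product
  have h1 : ep x z ≤ Real.exp (-∑ q ∈ (Ico x z).filter Nat.Prime, 1 / (q : ℝ)) := by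
    unfold ep
    rw [← sum_neg_distrib, Real.exp_sum]
    apply prod_le_prod
    · intro q hq; exact (fac_pos (mem_filter.mp hq).2).le
    · intro q _
      have := Real.add_one_le_exp (-(1 / (q : ℝ)))
      linarith only [this]
  -- the sum of reciprocals
  have h2 : log (log z) - log (log x) - 13 / log 2 - 1
      ≤ ∑ q ∈ (Ico x z).filter Nat.Prime, 1 / (q : ℝ) := by
    have h3 := (abs_le.mp (Vale.Agent.P005.SQ.recip_diff x z hx hz)).1
    have h4 : recipSum z - recipSum x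
        ≤ ∑ q ∈ (Ico x z).filter Nat.Prime, 1 / (q : ℝ) + 1 / (z : ℝ) := by
      have h5 : recipSum z ≤ recipSum x
          + (∑ q ∈ (Ico x z).filter Nat.Prime, 1 / (q : ℝ) + 1 / (z : ℝ)) := by
        unfold recipSum
        have h6 : Vale.Agent.P003.PLE z ⊆ Vale.Agent.P003.PLE x ∪
            ((Ico x z).filter Nat.Prime ∪ {z}) := by
          intro q hq
          rw [Vale.Agent.P003.mem_PLE] at hq
          rw [mem_union, mem_union, mem_singleton]
          by_cases h7 : q ≤ x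
          · left; exact Vale.Agent.P003.mem_PLE.mpr ⟨h7, hq.2⟩
          · right
            by_cases h8 : q = z
            · right; exact h8
            · left
              rw [mem_filter, mem_Ico]
              exact ⟨⟨by omega, by have := hq.1; omega⟩, hq.2⟩
        have h9 : ∀ s t : Finset ℕ, ∑ q ∈ s ∪ t, (1 : ℝ) / q
            ≤ ∑ q ∈ s, (1 : ℝ) / q + ∑ q ∈ t, (1 : ℝ) / q := by
          intro s t
          rw [← sum_union_inter]
          have : 0 ≤ ∑ q ∈ s ∩ t, (1 : ℝ) / q := sum_nonneg fun q _ => by positivity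
          linarith only [this]
        calc ∑ p ∈ Vale.Agent.P003.PLE z, (1 : ℝ) / p
            ≤ ∑ p ∈ Vale.Agent.P003.PLE x ∪ ((Ico x z).filter Nat.Prime ∪ {z}), (1 : ℝ) / p :=
              sum_le_sum_of_subset_of_nonneg h6 fun q _ _ => by positivity
          _ ≤ ∑ p ∈ Vale.Agent.P003.PLE x, (1 : ℝ) / p
              + ∑ p ∈ (Ico x z).filter Nat.Prime ∪ {z}, (1 : ℝ) / p := h9 _ _
          _ ≤ ∑ p ∈ Vale.Agent.P003.PLE x, (1 : ℝ) / p
              + (∑ p ∈ (Ico x z).filter Nat.Prime, (1 : ℝ) / p + ∑ p ∈ ({z} : Finset ℕ), (1 : ℝ) / p) :=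
              add_le_add le_rfl (h9 _ _)
          _ = _ := by rw [sum_singleton]
      linarith only [h5]
    have h5 : 1 / (z : ℝ) ≤ 1 := by
      rw [div_le_one (by linarith only [hxR, hzR])]; linarith only [hxR, hzR]
    have h6 : 13 / log x ≤ 13 / log 2 := div_le_div_of_nonneg_left (by norm_num) hl2 hlx
    linarith only [h3, h4, h5, h6]
  calc log z * ep x z ≤ log z * Real.exp (-(log (log z) - log (log x) - 13 / log 2 - 1)) := by
        apply mul_le_mul_of_nonneg_left _ hz0.le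
        refine h1.trans (Real.exp_le_exp.mpr ?_)
        linarith only [h2]
    _ = Real.exp (13 / log 2 + 1) * log x := by
        have : -(log (log z) - log (log x) - 13 / log 2 - 1)
            = (13 / log 2 + 1) + (log (log x) - log (log z)) := by ring
        rw [this, Real.exp_add, Real.exp_sub, Real.exp_log hx0, Real.exp_log hz0]
        field_simp

end Vale.Agent.P013.J
end

section

/-!
# Zones, boxes, exchange of the box primes
-/

open Finset Real

namespace Vale.Agent.P013.J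

section zones
variable {y κ : ℝ} {p q i j : ℕ}

lemma dc_mem_zone : p ∈ zone y j ↔ p.Prime ∧ zlo y j ≤ log p ∧ log p ≤ zhi y j := by
  unfold zone
  rw [mem_filter, mem_range]
  constructor
  · rintro ⟨_, h⟩; exact h
  · intro h
    refine ⟨?_, h⟩
    have hp : (0 : ℝ) < p := by exact_mod_cast h.1.pos
    have h1 : (p : ℝ) ≤ exp (zhi y j) := (Real.log_le_iff_le_exp hp).mp h.2.2
    have := Nat.le_floor h1
    omega

lemma zhi_lt_zlo (hL : 1 < log (log y)) (hij : i < j) : zhi y i < zlo y j := by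
  unfold zhi zlo
  exact pow_lt_pow_right₀ hL (by omega)

lemma zhi_mono (hL : 1 < log (log y)) (hij : i ≤ j) : zhi y i ≤ zhi y j := by
  unfold zhi
  exact pow_le_pow_right₀ hL.le (by omega)

lemma lt_of_log_lt (hq : 0 < q) (h : log p < log q) : p < q := by
  by_contra hcon
  push Not at hcon
  have : log q ≤ log p := log_le_log (by exact_mod_cast hq) (by exact_mod_cast hcon)
  linarith only [h, this]

lemma zone_lt (hL : 1 < log (log y)) (hij : i < j) (hp : p ∈ zone y i) (hq : q ∈ zone y j) :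
    p < q := by
  rw [dc_mem_zone] at hp hq
  have h := zhi_lt_zlo hL hij
  exact lt_of_log_lt hq.1.pos (by linarith only [hp.2.2, hq.2.1, hp, hq, h])

lemma bi_mono (hκ : 0 < κ) (hp : 0 < p) (h : p ≤ q) : bi κ p ≤ bi κ q := by
  unfold bi
  apply Nat.floor_le_floor
  have h1 : 0 ≤ log (1 + κ) := log_nonneg (by linarith only [hκ])
  exact div_le_div_of_nonneg_right (log_le_log (by exact_mod_cast hp) (by exact_mod_cast h)) h1

lemma box_ratio (hκ : 0 < κ) (hp : 0 < p) (hq : 0 < q) (h : bi κ p = bi κ q) :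
    (q : ℝ) < (1 + κ) * p := by
  have hp0 : (0 : ℝ) < p := by exact_mod_cast hp
  have hq0 : (0 : ℝ) < q := by exact_mod_cast hq
  have hp1 : (1 : ℝ) ≤ p := by exact_mod_cast hp
  have h1 : 0 < log (1 + κ) := log_pos (by linarith only [hκ])
  have h2 : (bi κ p : ℝ) ≤ log p / log (1 + κ) :=
    Nat.floor_le (div_nonneg (log_nonneg hp1) h1.le)
  have h3 : log q / log (1 + κ) < bi κ q + 1 := Nat.lt_floor_add_one _
  rw [← h] at h3
  have h4 : log q < log p + log (1 + κ) := by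
    rw [le_div_iff₀ h1] at h2
    rw [div_lt_iff₀ h1] at h3
    linarith only [h2, h3]
  rw [← log_mul hp0.ne' (by linarith only [hκ]), log_lt_log_iff hq0 (by positivity)] at h4
  linarith only [h4]

lemma dc_mem_box {β : ℕ} : p ∈ box y κ j β ↔ p ∈ zone y j ∧ bi κ p = β := by
  unfold box
  rw [mem_filter]

end zones

/-! ### Configurations -/

variable {y κ : ℝ} {r : ℕ}

/-- `H` consists of primes, and its elements in the zones are in lower boxes. -/
structure Comp (y κ : ℝ) (r : ℕ) (H : Finset ℕ) (β : Fin (r + 1) → ℕ) : Prop where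
  prime : ∀ a ∈ H, a.Prime
  low : ∀ j : Fin (r + 1), ∀ a ∈ H, a ∈ zone y j → bi κ a < β j

/-- the box vectors -/
def InBox (y κ : ℝ) (r : ℕ) (β s : Fin (r + 1) → ℕ) : Prop :=
  ∀ j : Fin (r + 1), s j ∈ zone y j ∧ bi κ (s j) = β j

/-- the enumeration of `H ∪ {s_j}` -/
def gg {r : ℕ} (H : Finset ℕ) (s : Fin (r + 1) → ℕ) : {a // a ∈ H} ⊕ Fin (r + 1) → ℕ :=
  Sum.elim (fun a => a.1) s

lemma s_lt_iff (hL : 1 < log (log y)) {β s : Fin (r + 1) → ℕ} (hs : InBox y κ r β s)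
    (i j : Fin (r + 1)) : s i < s j ↔ i < j := by
  constructor
  · intro h
    rcases lt_trichotomy i j with h1 | h1 | h1
    · exact h1
    · subst h1; omega
    · have := zone_lt hL (show (j : ℕ) < i from h1) (hs j).1 (hs i).1
      omega
  · intro h
    exact zone_lt hL (show (i : ℕ) < j from h) (hs i).1 (hs j).1

lemma gg_lt (hL : 1 < log (log y)) (hκ : 0 < κ) {H : Finset ℕ} {β s s' : Fin (r + 1) → ℕ}
    (hc : Comp y κ r H β) (hs : InBox y κ r β s) (hs' : InBox y κ r β s')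
    (u v : {a // a ∈ H} ⊕ Fin (r + 1)) (h : gg H s u < gg H s v) : gg H s' u < gg H s' v := by
  rcases u with a | i <;> rcases v with b | j
  · exact h
  · -- a < s j
    simp only [gg, Sum.elim_inl, Sum.elim_inr] at h ⊢
    have hz' := dc_mem_zone.mp (hs' j).1
    have hz := dc_mem_zone.mp (hs j).1
    have hap := hc.prime a.1 a.2
    by_cases ha : a.1 ∈ zone y j
    · have h1 := hc.low j a.1 a.2 ha
      by_contra hcon
      push Not at hcon
      have := bi_mono hκ hz'.1.pos hcon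
      rw [(hs' j).2] at this
      omega
    · have h2 : log (a.1 : ℝ) < log (s j : ℝ) :=
        log_lt_log (by exact_mod_cast hap.pos) (by exact_mod_cast h)
      have h3 : log (a.1 : ℝ) < zlo y j := by
        by_contra hcon
        push Not at hcon
        exact ha (dc_mem_zone.mpr ⟨hap, hcon, by linarith only [hz.2.2, hz, h2]⟩)
      exact lt_of_log_lt hz'.1.pos (by linarith only [hz'.2.1, hz', h3])
  · -- s i < b
    simp only [gg, Sum.elim_inl, Sum.elim_inr] at h ⊢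
    have hz' := dc_mem_zone.mp (hs' i).1
    have hz := dc_mem_zone.mp (hs i).1
    have hbp := hc.prime b.1 b.2
    by_cases hb : b.1 ∈ zone y i
    · have h1 := hc.low i b.1 b.2 hb
      have := bi_mono hκ hz.1.pos h.le
      rw [(hs i).2] at this
      omega
    · have h2 : log (s i : ℝ) < log (b.1 : ℝ) :=
        log_lt_log (by exact_mod_cast hz.1.pos) (by exact_mod_cast h)
      have h3 : zhi y i < log (b.1 : ℝ) := by
        by_contra hcon
        push Not at hcon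
        exact hb (dc_mem_zone.mpr ⟨hbp, by linarith [hz.2.1], hcon⟩)
      exact lt_of_log_lt hbp.pos (by linarith [hz'.2.2])
  · simp only [gg, Sum.elim_inr] at h ⊢
    rw [s_lt_iff hL hs] at h
    rwa [s_lt_iff hL hs']

lemma gg_inj (hL : 1 < log (log y)) {H : Finset ℕ} {β s : Fin (r + 1) → ℕ}
    (hc : Comp y κ r H β) (hs : InBox y κ r β s) : Function.Injective (gg H s) := by
  intro u v h
  rcases u with a | i <;> rcases v with b | j
  · simp only [gg, Sum.elim_inl] at h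
    rw [Subtype.ext h]
  · simp only [gg, Sum.elim_inl, Sum.elim_inr] at h
    exfalso
    have h1 := hs j
    rw [← h] at h1
    have := hc.low j a.1 a.2 h1.1
    omega
  · simp only [gg, Sum.elim_inl, Sum.elim_inr] at h
    exfalso
    have h1 := hs i
    rw [h] at h1
    have := hc.low i b.1 b.2 h1.1
    omega
  · simp only [gg, Sum.elim_inr] at h
    have h1 : ¬ s i < s j := by omega
    have h2 : ¬ s j < s i := by omega
    rw [s_lt_iff hL hs] at h1 h2
    rw [le_antisymm (not_lt.mp h2) (not_lt.mp h1)]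

/-- the support with dkey `(H, β)` and box vector `s` -/
noncomputable def mk (H : Finset ℕ) (s : Fin (r + 1) → ℕ) : Finset ℕ := H ∪ univ.image s

lemma mk_eq (H : Finset ℕ) (s : Fin (r + 1) → ℕ) : mk H s = univ.image (gg H s) := by
  ext a
  simp only [mk, mem_union, mem_image, mem_univ, true_and]
  constructor
  · rintro (h | ⟨j, h⟩)
    · exact ⟨Sum.inl ⟨a, h⟩, rfl⟩
    · exact ⟨Sum.inr j, h⟩
  · rintro ⟨u, h⟩
    rcases u with b | j
    · left; rw [← h]; exact b.2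
    · right; exact ⟨j, h⟩

lemma disj {H : Finset ℕ} {β s : Fin (r + 1) → ℕ} (hc : Comp y κ r H β)
    (hs : InBox y κ r β s) : Disjoint H (univ.image s) := by
  rw [disjoint_left]
  intro a ha h
  rw [mem_image] at h
  obtain ⟨j, -, h⟩ := h
  have h1 := hs j
  rw [h] at h1
  have := hc.low j a ha h1.1
  omega

lemma s_inj (hL : 1 < log (log y)) {β s : Fin (r + 1) → ℕ} (hs : InBox y κ r β s) :
    Function.Injective s := by
  intro i j h
  have h1 : ¬ s i < s j := by omega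
  have h2 : ¬ s j < s i := by omega
  rw [s_lt_iff hL hs] at h1 h2
  exact le_antisymm (not_lt.mp h2) (not_lt.mp h1)

lemma card_mk (hL : 1 < log (log y)) {H : Finset ℕ} {β s : Fin (r + 1) → ℕ}
    (hc : Comp y κ r H β) (hs : InBox y κ r β s) : (mk H s).card = H.card + (r + 1) := by
  unfold mk
  rw [card_union_of_disjoint (disj hc hs), card_image_of_injective _ (s_inj hL hs), card_univ,
    Fintype.card_fin]

lemma prod_mk (hL : 1 < log (log y)) {H : Finset ℕ} {β s : Fin (r + 1) → ℕ}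
    (hc : Comp y κ r H β) (hs : InBox y κ r β s) :
    ∏ p ∈ mk H s, p = (∏ p ∈ H, p) * ∏ j, s j := by
  unfold mk
  rw [prod_union (disj hc hs), prod_image (fun i _ j _ h => s_inj hL hs h)]

/-! ### Selection of the maximal elements -/

/-- the largest element of `G` in zone `j` -/
noncomputable def sel (y : ℝ) (G : Finset ℕ) (j : ℕ) : ℕ := by
  classical
  exact (G.filter (fun a => a ∈ zone y j)).sup id

lemma le_sel {G : Finset ℕ} {a j : ℕ} (h : a ∈ G) (hz : a ∈ zone y j) : a ≤ sel y G j := by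
  classical
  unfold sel
  exact Finset.le_sup (f := id) (by simp only [mem_filter]; exact ⟨h, hz⟩)

lemma sel_mem {G : Finset ℕ} {j : ℕ} (h : ∃ s ∈ G, s ∈ zone y j) :
    sel y G j ∈ G ∧ sel y G j ∈ zone y j := by
  classical
  obtain ⟨s, hs, hz⟩ := h
  have hne : (G.filter (fun a => a ∈ zone y j)).Nonempty := ⟨s, by simp only [mem_filter]; exact ⟨hs, hz⟩⟩
  obtain ⟨m, hm, hm2⟩ := Finset.exists_mem_eq_sup _ hne (id : ℕ → ℕ)
  have : sel y G j = m := by unfold sel; exact hm2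
  rw [this]
  simpa only [mem_filter] using hm

lemma sel_mk (hκ : 0 < κ) {H : Finset ℕ} {β s : Fin (r + 1) → ℕ} (hL : 1 < log (log y))
    (hc : Comp y κ r H β) (hs : InBox y κ r β s) (j : Fin (r + 1)) : sel y (mk H s) j = s j := by
  have hmem : s j ∈ mk H s := mem_union_right _ (mem_image_of_mem _ (mem_univ j))
  have h1 := le_sel hmem (hs j).1
  have h2 := sel_mem ⟨s j, hmem, (hs j).1⟩
  refine le_antisymm ?_ h1
  rcases mem_union.mp h2.1 with h3 | h3
  · have h4 := hc.low j _ h3 h2.2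
    by_contra hcon
    push Not at hcon
    have := bi_mono hκ (dc_mem_zone.mp (hs j).1).1.pos hcon.le
    rw [(hs j).2] at this
    omega
  · rw [mem_image] at h3
    obtain ⟨i, -, h3⟩ := h3
    rcases lt_trichotomy i j with h5 | h5 | h5
    · rw [← h3]; exact ((s_lt_iff hL hs i j).mpr h5).le
    · rw [← h3, h5]
    · exfalso
      have h6 := h2.2
      rw [← h3] at h6
      have := zone_lt hL (show (j : ℕ) < i from h5) h6 (hs i).1
      omega

/-- the dkey of `G` -/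
noncomputable def dkey (y κ : ℝ) (r : ℕ) (G : Finset ℕ) : Finset ℕ × (Fin (r + 1) → ℕ) :=
  (G \ univ.image (fun j : Fin (r + 1) => sel y G j), fun j => bi κ (sel y G j))

lemma key_mk (hκ : 0 < κ) {H : Finset ℕ} {β s : Fin (r + 1) → ℕ} (hL : 1 < log (log y))
    (hc : Comp y κ r H β) (hs : InBox y κ r β s) : dkey y κ r (mk H s) = (H, β) := by
  unfold dkey
  have h1 : (fun j : Fin (r + 1) => sel y (mk H s) j) = s := by
    funext j; exact sel_mk hκ hL hc hs j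
  have h2 : (fun j : Fin (r + 1) => bi κ (sel y (mk H s) j)) = β := by
    funext j; rw [sel_mk hκ hL hc hs j]; exact (hs j).2
  rw [h1, h2]
  congr 1
  unfold mk
  rw [union_sdiff_right, sdiff_eq_self_of_disjoint (disj hc hs)]

/-- the properties of a good `G` that matter here -/
lemma good_comp {C₉ : ℝ} {z : ℕ} {T : ℝ} {G : Finset ℕ} (hκ : 0 < κ)
    (hG : Good y C₉ κ r z T G) (hp : ∀ a ∈ G, a.Prime) :
    Comp y κ r (dkey y κ r G).1 (dkey y κ r G).2 ∧
      InBox y κ r (dkey y κ r G).2 (fun j => sel y G j) ∧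
      mk (dkey y κ r G).1 (fun j : Fin (r + 1) => sel y G j) = G := by
  have hsel : ∀ j : Fin (r + 1), sel y G j ∈ G ∧ sel y G j ∈ zone y j := fun j =>
    sel_mem (hG.zones j (by omega))
  refine ⟨⟨fun a ha => hp a (mem_sdiff.mp ha).1, ?_⟩, fun j => ⟨(hsel j).2, rfl⟩, ?_⟩
  · intro j a ha hz
    obtain ⟨ha1, ha2⟩ := mem_sdiff.mp ha
    have h1 := le_sel ha1 hz
    have hne : a ≠ sel y G j := by
      intro h
      exact ha2 (by rw [h]; exact mem_image_of_mem _ (mem_univ j))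
    have h2 := bi_mono hκ (hp a ha1).pos h1
    rcases lt_or_eq_of_le h2 with h3 | h3
    · exact h3
    · exact absurd (hG.box j (by omega) a ha1 _ (hsel j).1 hz (hsel j).2 h3) hne
  · unfold mk dkey
    apply sdiff_union_of_subset
    intro a ha
    rw [mem_image] at ha
    obtain ⟨j, -, h⟩ := ha
    rw [← h]
    exact (hsel j).1

/-! ### Exchange -/

lemma mem_supp_image {ι : Type*} [Fintype ι] (g : ι → ℕ)
    (hg : Function.Injective g) (Q : Finset ℕ) (τ : ℕ → ℝ) (b x : ℕ) (T : ℝ) :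
    univ.image g ∈ supp Q τ b x T ↔ (∀ i, g i ∈ Q ∧ g i < x) ∧
      ∀ i, Even ((univ.filter (fun k => g i ≤ g k)).card + b) →
        3 * τ (g i) < T - ∑ k ∈ univ.filter (fun k => g i < g k), τ (g k) := by
  classical
  have h1 : ∀ i, ((univ.image g).filter (fun s' => g i ≤ s')).card
      = (univ.filter (fun k => g i ≤ g k)).card := by
    intro i
    rw [filter_image, card_image_of_injective _ hg]
  have h2 : ∀ i, ∑ s' ∈ (univ.image g).filter (fun s' => g i < s'), τ s'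
      = ∑ k ∈ univ.filter (fun k => g i < g k), τ (g k) := by
    intro i
    rw [filter_image, sum_image (fun a _ b _ h => hg h)]
  unfold supp
  rw [mem_filter, mem_powerset]
  constructor
  · rintro ⟨h3, h4⟩
    refine ⟨fun i => ?_, fun i hi => ?_⟩
    · have := h3 (mem_image_of_mem g (mem_univ i))
      rwa [mem_filter] at this
    · have := h4 (g i) (mem_image_of_mem g (mem_univ i))
      rw [h1, h2] at this
      exact this hi
  · rintro ⟨h3, h4⟩
    refine ⟨?_, ?_⟩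
    · intro a ha
      rw [mem_image] at ha
      obtain ⟨i, -, rfl⟩ := ha
      rw [mem_filter]
      exact h3 i
    · intro a ha
      rw [mem_image] at ha
      obtain ⟨i, -, rfl⟩ := ha
      rw [h1, h2]
      exact h4 i

lemma exchange {ι : Type*} [Fintype ι] [DecidableEq ι] (g g' : ι → ℕ)
    (hg : Function.Injective g) (hg' : Function.Injective g')
    (hlt : ∀ u v, g u < g v ↔ g' u < g' v) {Q : Finset ℕ} {τ : ℕ → ℝ} {x : ℕ} {T η E : ℝ}
    (hmem : univ.image g ∈ supp Q τ 0 x T) (hQ : ∀ i, g' i ∈ Q ∧ g' i < x)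
    (S : Finset ι) (hS : ∀ u ∉ S, g' u = g u) (hτ : ∀ u ∈ S, |τ (g' u) - τ (g u)| ≤ η)
    (hη : 0 ≤ η)
    (hb : ∀ u, (∃ v, g u < g v) →
      E ≤ |T - ∑ v ∈ univ.filter (fun v => g u < g v), τ (g v) - 3 * τ (g u)|)
    (hE : (S.card + 3) * η < E) : univ.image g' ∈ supp Q τ 0 x T := by
  rw [mem_supp_image g hg] at hmem
  rw [mem_supp_image g' hg']
  refine ⟨hQ, fun i hi => ?_⟩
  have hle : ∀ u v, g u ≤ g v ↔ g' u ≤ g' v := by
    intro u v
    rw [← not_lt, ← not_lt, hlt]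
  have hi' : Even ((univ.filter (fun k => g i ≤ g k)).card + 0) := by
    have : univ.filter (fun k => g i ≤ g k) = univ.filter (fun k => g' i ≤ g' k) := by
      apply filter_congr
      intro k _
      exact hle i k
    rw [this]; exact hi
  have h1 := hmem.2 i hi'
  have h2 : ∃ v, g i < g v := by
    by_contra hcon
    push Not at hcon
    have : univ.filter (fun k => g i ≤ g k) = {i} := by
      ext k
      simp only [mem_filter, mem_univ, true_and, mem_singleton]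
      constructor
      · intro h; exact hg (le_antisymm (hcon k) h)
      · rintro rfl; exact le_rfl
    rw [this, card_singleton] at hi'
    exact absurd hi' (by decide)
  have h3 := hb i h2
  rw [abs_of_pos (by linarith)] at h3
  have hf : univ.filter (fun v => g' i < g' v) = univ.filter (fun v => g i < g v) := by
    apply filter_congr
    intro k _
    exact (hlt i k).symm
  rw [hf]
  have hall : ∀ u, |τ (g' u) - τ (g u)| ≤ η := by
    intro u
    by_cases hu : u ∈ S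
    · exact hτ u hu
    · rw [hS u hu, sub_self, abs_zero]; exact hη
  have h4 : |∑ v ∈ univ.filter (fun v => g i < g v), τ (g' v)
      - ∑ v ∈ univ.filter (fun v => g i < g v), τ (g v)| ≤ S.card * η := by
    rw [← sum_sub_distrib]
    calc |∑ v ∈ univ.filter (fun v => g i < g v), (τ (g' v) - τ (g v))|
        ≤ ∑ v ∈ univ.filter (fun v => g i < g v), |τ (g' v) - τ (g v)| := abs_sum_le_sum_abs _ _
      _ ≤ ∑ v, |τ (g' v) - τ (g v)| :=
          sum_le_sum_of_subset_of_nonneg (filter_subset _ _) fun _ _ _ => abs_nonneg _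
      _ = ∑ v ∈ S, |τ (g' v) - τ (g v)| := by
          symm
          apply sum_subset (subset_univ S)
          intro v _ hv
          rw [hS v hv, sub_self, abs_zero]
      _ ≤ ∑ v ∈ S, η := sum_le_sum hτ
      _ = S.card * η := by rw [sum_const, nsmul_eq_mul]
  have h5 := (abs_le.mp h4).2
  have h6 := (abs_le.mp (hall i)).2
  have h7 : (S.card : ℝ) * η + 3 * η < E := by linarith only [hE]
  linarith only [hE, h3, h5, h6]

end Vale.Agent.P013.J
end

section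

/-!
# Decomposition of the supports into classes (task J8)
-/

open Finset Real Filter Topology

namespace Vale.Agent.P013.J

/-- the size conditions on `y` -/
structure Big (y : ℕ) (c Ct κ : ℝ) (r : ℕ) : Prop where
  L : 1 < log (log (y : ℝ))
  c : exp (zhi y r) < (y : ℝ) ^ c
  t : (r + 4) * (2 * Ct * zhi y r) < (log (y : ℝ)) ^ (0.1 : ℝ)
  κ : 0 < κ

lemma big_eventually (c Ct A₃ : ℝ) (hc : 0 < c) (hCt : 0 < Ct) (r : ℕ) :
    ∀ᶠ y : ℕ in atTop, Big y c Ct ((log (y : ℝ)) ^ (-A₃)) r := by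
  have hlog : Tendsto (fun y : ℕ => log (y : ℝ)) atTop atTop :=
    tendsto_log_atTop.comp tendsto_natCast_atTop_atTop
  have hll : Tendsto (fun y : ℕ => log (log (y : ℝ))) atTop atTop := tendsto_log_atTop.comp hlog
  set K : ℝ := (r + 4) * (2 * Ct) + 1 / c with hK
  have hK0 : 0 < K := by positivity
  have h1 : (fun u : ℝ => log u ^ ((10 * r + 5 : ℕ) : ℝ)) =o[atTop] fun u => u ^ (0.1 : ℝ) :=
    isLittleO_log_rpow_rpow_atTop _ (by norm_num)
  have h2 := (h1.bound (show (0 : ℝ) < 1 / (2 * K) by positivity))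
  have h3 := hlog.eventually h2
  filter_upwards [h3, hlog.eventually_gt_atTop 1, hll.eventually_gt_atTop 1,
    eventually_gt_atTop 1] with y h3 h4 h5 h6
  set u := log (y : ℝ) with hu
  have hz : zhi y r = log u ^ (10 * r + 5) := rfl
  have hz0 : 0 < zhi y r := by rw [hz]; positivity
  have h7 : K * zhi y r < u ^ (0.1 : ℝ) := by
    rw [Real.rpow_natCast, Real.norm_of_nonneg (by positivity),
      Real.norm_of_nonneg (by positivity)] at h3
    rw [hz]
    have h8 : 0 < u ^ (0.1 : ℝ) := by positivity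
    calc K * log u ^ (10 * r + 5) ≤ K * (1 / (2 * K) * u ^ (0.1 : ℝ)) := by gcongr
      _ = u ^ (0.1 : ℝ) / 2 := by field_simp
      _ < u ^ (0.1 : ℝ) := by linarith only [h8]
  refine ⟨h5, ?_, ?_, by positivity⟩
  · have hy0 : (0 : ℝ) < y := by
      have : (1 : ℝ) < y := by exact_mod_cast h6
      linarith only [this]
    rw [Real.rpow_def_of_pos hy0]
    apply Real.exp_lt_exp.mpr
    have h9 : u ^ (0.1 : ℝ) ≤ u := by
      calc u ^ (0.1 : ℝ) ≤ u ^ (1 : ℝ) :=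
            Real.rpow_le_rpow_of_exponent_le h4.le (by norm_num)
        _ = u := Real.rpow_one u
    have h10 : 1 / c * zhi y r ≤ K * zhi y r := by
      apply mul_le_mul_of_nonneg_right _ hz0.le
      rw [hK]
      have : 0 ≤ ((r : ℝ) + 4) * (2 * Ct) := by positivity
      linarith only [this]
    have h11 : 1 / c * zhi y r < u := by linarith only [h10, h9, h7]
    rw [one_div, inv_mul_lt_iff₀ hc] at h11
    linarith only [h11]
  · have h10 : (r + 4) * (2 * Ct * zhi y r) ≤ K * zhi y r := by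
      rw [hK]
      have : 0 ≤ 1 / c * zhi y r := by positivity
      linarith only [this]
    linarith only [h7, h10]

section
variable {y : ℕ} {c Ct κ T C₉ : ℝ} {r z : ℕ} {DD : Finset (ℕ × ℕ)}

lemma mem_NN {G : Finset ℕ} : G ∈ NN z T DD ↔
    G ∈ supp (PP z) (tau z) 0 z T ∧ ∃ pq ∈ DD, top2 G pq.1 pq.2 := by
  classical
  unfold NN
  simp only [mem_filter]

lemma NN_prime {G : Finset ℕ} (h : G ∈ NN z T DD) : ∀ a ∈ G, a.Prime ∧ a < z := by
  intro a ha
  have h1 := (mem_NN.mp h).1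
  unfold supp at h1
  rw [mem_filter, mem_powerset] at h1
  have h2 := h1.1 ha
  rw [mem_filter] at h2
  have h3 := h2.1
  unfold PP at h3
  rw [mem_filter] at h3
  exact ⟨h3.2, h2.2⟩

lemma tau_diff (hCt : ∀ x z : ℕ, 2 ≤ x → x ≤ z → tau z x ≤ Ct * log x) (hCt0 : 0 < Ct)
    (hκ : 0 < κ) {a b : ℕ} {B : ℝ} (ha : a.Prime) (hb : b.Prime) (haz : a < z) (hbz : b < z)
    (hab : bi κ a = bi κ b) (hBa : log a ≤ B) (hBb : log b ≤ B) :
    |tau z a - tau z b| ≤ κ * (2 * Ct * B) := by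
  wlog h : a ≤ b generalizing a b
  · rw [abs_sub_comm]
    exact this hb ha hbz haz hab.symm hBb hBa (by omega)
  have h1 := tl_tau_mono a b z h hbz.le
  have h2 := tau_le_mul a b z ha.two_le h hbz.le
  have h3 := hCt a z ha.two_le haz.le
  have h4 := box_ratio hκ ha.pos hb.pos hab
  have ha2 : (2 : ℝ) ≤ a := by exact_mod_cast ha.two_le
  have h0 := tau_nonneg z a haz.le
  rw [abs_sub_comm, abs_of_nonneg (by linarith only [h1])]
  have h5 : ((b : ℝ) - 1) / (a - 1) ≤ 1 + 2 * κ := by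
    rw [div_le_iff₀ (by linarith only [ha2])]
    linarith only [mul_nonneg (le_of_lt (sub_pos.2 hκ)) (sub_nonneg.2 ha2), h4]
  have h6 : tau z a * (((b : ℝ) - 1) / (a - 1)) ≤ tau z a * (1 + 2 * κ) :=
    mul_le_mul_of_nonneg_left h5 h0
  have h7 : tau z a ≤ Ct * B := h3.trans (by gcongr)
  linarith only [mul_nonneg (mul_self_nonneg (1 : ℝ)) (sub_nonneg.2 h2), mul_nonneg (mul_self_nonneg (1 : ℝ)) (sub_nonneg.2 h6), mul_nonneg (le_of_lt (sub_pos.2 hκ)) (sub_nonneg.2 h7)]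

/-- a class of a good support consists of supports -/
lemma class_mem (hbig : Big y c Ct κ r)
    (hCt : ∀ x z : ℕ, 2 ≤ x → x ≤ z → tau z x ≤ Ct * log x) (hCt0 : 0 < Ct)
    (hAdm : AdmPairs y c z DD) {G : Finset ℕ} (hG : G ∈ NN z T DD)
    (hgood : Good y C₉ κ r z T G) {s' : Fin (r + 1) → ℕ}
    (hs' : InBox y κ r (dkey y κ r G).2 s') : mk (dkey y κ r G).1 s' ∈ NN z T DD := by
  have hL := hbig.L
  have hκ := hbig.κ
  have hprime := NN_prime hG
  obtain ⟨hcomp, hs, hmk⟩ := good_comp hκ hgood (fun a ha => (hprime a ha).1)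
  set H := (dkey y κ r G).1 with hH
  set β := (dkey y κ r G).2 with hβ
  set s : Fin (r + 1) → ℕ := fun j => sel y G j with hsdef
  obtain ⟨pq, hpq, htop⟩ := (mem_NN.mp hG).2
  obtain ⟨hp1, hp2, hc2, -, -, hz1⟩ := hAdm pq hpq
  obtain ⟨t1, t2, t3, t4⟩ := htop
  -- box primes are small
  have hsmall : ∀ (v : Fin (r + 1) → ℕ), InBox y κ r β v → ∀ j, v j < pq.2 := by
    intro v hv j
    have h1 := (dc_mem_zone.mp (hv j).1)
    have h2 : log (v j : ℝ) ≤ zhi y r := h1.2.2.trans (zhi_mono hL (by omega))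
    have h3 : (v j : ℝ) ≤ exp (zhi y r) :=
      (Real.log_le_iff_le_exp (by exact_mod_cast h1.1.pos)).mp h2
    have h4 : (v j : ℝ) < pq.2 := by linarith only [hbig.c, hc2, h3, hbig]
    exact_mod_cast h4
  have hmemH : ∀ a ∈ G, pq.2 ≤ a → a ∈ H := by
    intro a ha h1
    change a ∈ G \ univ.image (fun j : Fin (r + 1) => sel y G j)
    rw [Finset.mem_sdiff]
    refine ⟨ha, ?_⟩
    intro h2
    rw [mem_image] at h2
    obtain ⟨j, -, h2⟩ := h2
    have := hsmall s hs j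
    rw [hsdef] at this
    simp only at this
    omega
  rw [mem_NN]
  refine ⟨?_, pq, hpq, ?_⟩
  · rw [mk_eq]
    have hg := gg_inj hL hcomp hs
    have hg' := gg_inj hL hcomp hs'
    have hGim : univ.image (gg H s) = G := by rw [← mk_eq]; exact hmk
    refine exchange (η := κ * (2 * Ct * zhi y r)) (E := κ * (log (y : ℝ)) ^ (0.1 : ℝ))
      (gg H s) (gg H s') hg hg'
      (fun u v => ⟨gg_lt hL hκ hcomp hs hs' u v, gg_lt hL hκ hcomp hs' hs u v⟩)
      (by rw [hGim]; exact (mem_NN.mp hG).1) ?_ (univ.image Sum.inr) ?_ ?_ ?_ ?_ ?_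
    · intro u
      rcases u with a | j
      · have haG : a.1 ∈ G := (Finset.mem_sdiff.mp (show a.1 ∈ G \ univ.image
          (fun j : Fin (r + 1) => sel y G j) from a.2)).1
        have h1 := hprime a.1 haG
        simp only [gg, Sum.elim_inl]
        refine ⟨?_, h1.2⟩
        unfold PP
        rw [mem_filter, mem_range]
        exact ⟨h1.2, h1.1⟩
      · simp only [gg, Sum.elim_inr]
        have h1 := hsmall s' hs' j
        have h2 : s' j < z := by omega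
        refine ⟨?_, h2⟩
        unfold PP
        rw [mem_filter, mem_range]
        exact ⟨h2, (dc_mem_zone.mp (hs' j).1).1⟩
    · intro u hu
      rcases u with a | j
      · rfl
      · exact absurd (mem_image_of_mem _ (mem_univ j)) hu
    · intro u hu
      rw [mem_image] at hu
      obtain ⟨j, -, rfl⟩ := hu
      simp only [gg, Sum.elim_inr]
      have h1 := dc_mem_zone.mp (hs j).1
      have h2 := dc_mem_zone.mp (hs' j).1
      have h3 := hsmall s hs j
      have h4 := hsmall s' hs' j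
      refine tau_diff hCt hCt0 hκ h2.1 h1.1 (by omega) (by omega) ?_
        (h2.2.2.trans (zhi_mono hL (by omega))) (h1.2.2.trans (zhi_mono hL (by omega)))
      rw [(hs j).2, (hs' j).2]
    · have : 0 ≤ zhi y r := by
        unfold zhi
        have : 0 < log (log (y : ℝ)) := by linarith only [hL]
        positivity
      positivity
    · intro u hu
      obtain ⟨v, hv⟩ := hu
      have hGu : gg H s u ∈ G := by rw [← hGim]; exact mem_image_of_mem _ (mem_univ u)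
      have hGv : gg H s v ∈ G := by rw [← hGim]; exact mem_image_of_mem _ (mem_univ v)
      have h1 := hgood.bdry _ hGu ⟨_, hGv, hv⟩
      have h2 : ∑ t ∈ G.filter (fun t => gg H s u < t), tau z t
          = ∑ v ∈ univ.filter (fun v => gg H s u < gg H s v), tau z (gg H s v) := by
        conv_lhs => rw [← hGim]
        rw [filter_image, sum_image (fun a _ b _ h => hg h)]
      rw [h2] at h1
      exact h1
    · rw [card_image_of_injective _ Sum.inr_injective, card_univ, Fintype.card_fin]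
      have h1 := hbig.t
      push_cast
      calc ((r : ℝ) + 1 + 3) * (κ * (2 * Ct * zhi y r))
          = κ * ((r + 4) * (2 * Ct * zhi y r)) := by ring
        _ < κ * (log (y : ℝ)) ^ (0.1 : ℝ) := by gcongr
  · refine ⟨mem_union_left _ (hmemH _ t1 t3.le), mem_union_left _ (hmemH _ t2 le_rfl), t3, ?_⟩
    intro a ha
    rcases mem_union.mp ha with h1 | h1
    · refine t4 a ?_
      rw [hH] at h1
      exact (Finset.mem_sdiff.mp h1).1
    · rw [mem_image] at h1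
      obtain ⟨j, -, rfl⟩ := h1
      right
      exact (hsmall s' hs' j).le

end

lemma dc_ext_apply {r : ℕ} (β : Fin (r + 1) → ℕ) (j : Fin (r + 1)) : ext β j = β j := by
  unfold ext
  rw [dif_pos j.isLt]

lemma mem_piBox {y κ : ℝ} {r : ℕ} {β s : Fin (r + 1) → ℕ} :
    s ∈ Fintype.piFinset (fun j : Fin (r + 1) => box y κ j (ext β j)) ↔ InBox y κ r β s := by
  rw [Fintype.mem_piFinset]
  unfold InBox
  apply forall_congr'
  intro j
  rw [dc_mem_box, dc_ext_apply]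

/-- the class of a dkey -/
noncomputable def cls (y κ : ℝ) (r : ℕ) (K : Finset ℕ × (Fin (r + 1) → ℕ)) :
    Finset (Finset ℕ) :=
  (Fintype.piFinset (fun j : Fin (r + 1) => box y κ j (ext K.2 j))).image (mk K.1)

open Classical in
theorem decomp : DecompStmt := by
  intro A₁ c C₇ C₉ A₃ r hA₁ hc hc1 hC₇ hC₉ hA₃
  obtain ⟨Ct, hCt0, hCt⟩ := tau_le
  obtain ⟨y₀, hy₀⟩ := (big_eventually c Ct A₃ hc hCt0 r).exists_forall_of_atTop
  refine ⟨y₀, fun y hy z T DD hStd f => ?_⟩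
  have hbig := hy₀ y hy
  set κ : ℝ := (log (y : ℝ)) ^ (-A₃) with hκdef
  have hL := hbig.L
  have hκ := hbig.κ
  obtain ⟨-, -, -, hAdm⟩ := hStd
  set GG : Finset (Finset ℕ) := (NN z T DD).filter (fun G => Good y C₉ κ r z T G) with hGG
  set KK : Finset (Finset ℕ × (Fin (r + 1) → ℕ)) := GG.image (dkey y κ r) with hKK
  have hKKc : ∀ K ∈ KK, ∃ G ∈ NN z T DD, Good y C₉ κ r z T G ∧ dkey y κ r G = K := by
    intro K hK
    rw [hKK, mem_image] at hK
    obtain ⟨G, hG, rfl⟩ := hK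
    rw [hGG, mem_filter] at hG
    exact ⟨G, hG.1, hG.2, rfl⟩
  have hcomp : ∀ K ∈ KK, Comp y κ r K.1 K.2 := by
    intro K hK
    obtain ⟨G, hG, hgood, rfl⟩ := hKKc K hK
    exact (good_comp hκ hgood (fun a ha => (NN_prime hG a ha).1)).1
  have hcls : ∀ K ∈ KK, cls y κ r K ⊆ NN z T DD := by
    intro K hK G' hG'
    obtain ⟨G, hG, hgood, rfl⟩ := hKKc K hK
    unfold cls at hG'
    rw [mem_image] at hG'
    obtain ⟨s, hs, rfl⟩ := hG'
    exact class_mem hbig hCt hCt0 hAdm hG hgood (mem_piBox.mp hs)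
  have hkeycls : ∀ K ∈ KK, ∀ G' ∈ cls y κ r K, dkey y κ r G' = K := by
    intro K hK G' hG'
    unfold cls at hG'
    rw [mem_image] at hG'
    obtain ⟨s, hs, rfl⟩ := hG'
    exact key_mk hκ hL (hcomp K hK) (mem_piBox.mp hs)
  set U : Finset (Finset ℕ) := KK.biUnion (cls y κ r) with hU
  have hUsub : U ⊆ NN z T DD := by
    intro G hG
    rw [hU, mem_biUnion] at hG
    obtain ⟨K, hK, hG⟩ := hG
    exact hcls K hK hG
  have hgoodU : ∀ G ∈ NN z T DD, Good y C₉ κ r z T G → G ∈ U := by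
    intro G hG hgood
    rw [hU, mem_biUnion]
    refine ⟨dkey y κ r G, ?_, ?_⟩
    · rw [hKK]
      apply mem_image_of_mem
      rw [hGG, mem_filter]
      exact ⟨hG, hgood⟩
    · obtain ⟨h1, h2, h3⟩ := good_comp hκ hgood (fun a ha => (NN_prime hG a ha).1)
      unfold cls
      rw [mem_image]
      exact ⟨_, mem_piBox.mpr h2, h3⟩
  refine ⟨NN z T DD \ U, KK, sdiff_subset, ?_, ?_, ?_⟩
  · intro G hG hgood
    obtain ⟨h1, h2⟩ := Finset.mem_sdiff.mp hG
    exact h2 (hgoodU G h1 hgood)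
  · intro K hK
    obtain ⟨G, hG, hgood, rfl⟩ := hKKc K hK
    obtain ⟨h1, h2, h3⟩ := good_comp hκ hgood (fun a ha => (NN_prime hG a ha).1)
    exact ⟨G, hG, hgood, _, mem_piBox.mpr h2, disj h1 h2, h3.symm⟩
  · have hRD : RD z T DD f = ∑ G ∈ NN z T DD, (-1) ^ G.card * f (∏ p ∈ G, p) := by
      unfold RD NN
      rfl
    have hsplit : ∑ G ∈ NN z T DD, (-1) ^ G.card * f (∏ p ∈ G, p)
        = ∑ G ∈ NN z T DD \ U, (-1) ^ G.card * f (∏ p ∈ G, p)
          + ∑ G ∈ U, (-1) ^ G.card * f (∏ p ∈ G, p) := (sum_sdiff hUsub).symm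
    have hUsum : ∑ G ∈ U, (-1) ^ G.card * f (∏ p ∈ G, p)
        = ∑ K ∈ KK, ∑ G ∈ cls y κ r K, (-1) ^ G.card * f (∏ p ∈ G, p) := by
      rw [hU]
      apply sum_biUnion
      intro K hK K' hK' hne
      change Disjoint (cls y κ r K) (cls y κ r K')
      rw [disjoint_left]
      intro G h1 h2
      exact hne ((hkeycls K hK G h1).symm.trans (hkeycls K' hK' G h2))
    have hcl : ∀ K ∈ KK, |∑ G ∈ cls y κ r K, (-1) ^ G.card * f (∏ p ∈ G, p)|
        = ‖boxSum r (fun j => box y κ j (ext K.2 j))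
          (fun s => ((f ((∏ p ∈ K.1, p) * s) : ℝ) : ℂ))‖ := by
      intro K hK
      have hc' := hcomp K hK
      have h1 : ∑ G ∈ cls y κ r K, (-1) ^ G.card * f (∏ p ∈ G, p)
          = (-1) ^ (K.1.card + (r + 1)) *
            ∑ s ∈ Fintype.piFinset (fun j : Fin (r + 1) => box y κ j (ext K.2 j)),
              f ((∏ p ∈ K.1, p) * ∏ j, s j) := by
        unfold cls
        rw [sum_image, mul_sum]
        · apply sum_congr rfl
          intro s hs
          have hs' := mem_piBox.mp hs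
          rw [card_mk hL hc' hs', prod_mk hL hc' hs']
        · intro s hs s' hs' h
          have h2 := mem_piBox.mp (mem_coe.mp hs)
          have h3 := mem_piBox.mp (mem_coe.mp hs')
          funext j
          rw [← sel_mk hκ hL hc' h2 j, ← sel_mk hκ hL hc' h3 j, h]
      rw [h1, abs_mul, abs_pow, abs_neg, abs_one, one_pow, one_mul]
      unfold boxSum
      rw [← Complex.ofReal_sum, Complex.norm_real, Real.norm_eq_abs]
    rw [hRD, hsplit, hUsum]
    refine (abs_add_le _ _).trans (add_le_add ?_ ?_)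
    · refine (abs_sum_le_sum_abs _ _).trans (sum_le_sum fun G _ => ?_)
      rw [abs_mul, abs_pow, abs_neg, abs_one, one_pow, one_mul]
    · refine (abs_sum_le_sum_abs _ _).trans (sum_le_sum fun K hK => ?_)
      rw [hcl K hK]

end Vale.Agent.P013.J
end

section

/-!
# Size properties of the keys (J9a)
-/

open Finset Real Filter Asymptotics

namespace Vale.Agent.P013.J

/-! ### The level function -/

lemma key_factor_pos {p : ℕ} (hp : p.Prime) : 0 < 1 - 1 / (p : ℝ) := by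
  have h : (2 : ℝ) ≤ p := by exact_mod_cast hp.two_le
  have : 1 / (p : ℝ) ≤ 1 / 2 := one_div_le_one_div_of_le (by norm_num) h
  linarith only [this]

lemma key_factor_le (p : ℕ) : 1 - 1 / (p : ℝ) ≤ 1 := by
  have : 0 ≤ 1 / (p : ℝ) := by positivity
  linarith

lemma key_gv_pos (z x : ℕ) : 0 < gv (PP z) (fun q => 1 / (q : ℝ)) x := by
  unfold gv
  refine Finset.prod_pos fun p hp => ?_
  have := (Finset.mem_filter.1 (Finset.mem_filter.1 hp).1).2
  exact key_factor_pos this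

lemma key_gv_anti (z : ℕ) {x x' : ℕ} (h : x ≤ x') :
    gv (PP z) (fun q => 1 / (q : ℝ)) x' ≤ gv (PP z) (fun q => 1 / (q : ℝ)) x := by
  unfold gv
  refine Finset.prod_le_prod_of_subset_of_le_one ?_ ?_ ?_
  · intro p hp
    rw [Finset.mem_filter] at hp ⊢
    exact ⟨hp.1, by omega⟩
  · intro p hp
    have := (Finset.mem_filter.1 (Finset.mem_filter.1 hp).1).2
    exact (key_factor_pos this).le
  · intro p _ _
    exact key_factor_le p

lemma key_tau_nonneg (z x : ℕ) : 0 ≤ tau z x := by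
  unfold tau
  have h1 := key_gv_pos z x
  have h2 := key_gv_pos z z
  have h3 := Real.log_natCast_nonneg z
  positivity

lemma key_tau_mono (z : ℕ) {x x' : ℕ} (h : x ≤ x') : tau z x ≤ tau z x' := by
  unfold tau
  have h1 := key_gv_pos z x'
  have h2 := key_gv_pos z z
  have h3 := Real.log_natCast_nonneg z
  exact div_le_div_of_nonneg_left (by positivity) h1 (key_gv_anti z h)

lemma key_tau_eq {z x : ℕ} (h : x ≤ z) :
    tau z x = log z * ∏ p ∈ (Ico x z).filter Nat.Prime, (1 - 1 / (p : ℝ)) := by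
  have h1 := key_gv_pos z x
  unfold tau
  rw [div_eq_iff h1.ne', mul_assoc]
  congr 1
  unfold gv PP
  rw [← Finset.prod_union]
  · refine Finset.prod_congr ?_ fun _ _ => rfl
    ext p
    simp only [Finset.mem_filter, Finset.mem_range, Finset.mem_union, Finset.mem_Ico]
    constructor
    · rintro ⟨⟨h2, h3⟩, -⟩
      by_cases h4 : p < x
      · exact Or.inr ⟨⟨h2, h3⟩, h4⟩
      · exact Or.inl ⟨⟨by omega, h2⟩, h3⟩
    · rintro (⟨⟨h2, h3⟩, h4⟩ | ⟨⟨h2, h3⟩, h4⟩)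
      · exact ⟨⟨h3, h4⟩, h3⟩
      · exact ⟨⟨h2, h3⟩, h2⟩
  · rw [Finset.disjoint_left]
    intro p hp hp'
    simp only [Finset.mem_filter, Finset.mem_range, Finset.mem_Ico] at hp hp'
    omega

lemma key_tau_ge : ∃ C : ℝ, 0 < C ∧ ∀ z x : ℕ, 2 ≤ x → x ≤ z → log x ≤ tau z x + C := by
  obtain ⟨C, hC, h⟩ := mertens_prod
  refine ⟨C, hC, fun z x hx hz => ?_⟩
  rw [key_tau_eq hz]
  have := h x z hx hz
  linarith only [this]

/-! ### The chain property -/

lemma key_filter_split (F : Finset ℕ) (f : ℕ → ℝ) {s : ℕ} (hs : s ∈ F) :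
    ∑ t ∈ F.filter (fun t => s ≤ t), f t = f s + ∑ t ∈ F.filter (fun t => s < t), f t := by
  have h1 : F.filter (fun t => s ≤ t) = insert s (F.filter (fun t => s < t)) := by
    ext t
    simp only [Finset.mem_filter, Finset.mem_insert]
    constructor
    · rintro ⟨h1, h2⟩
      rcases h2.eq_or_lt with h | h
      · exact Or.inl h.symm
      · exact Or.inr ⟨h1, h⟩
    · rintro (h | ⟨h1, h2⟩)
      · subst h; exact ⟨hs, le_rfl⟩
      · exact ⟨h1, h2.le⟩
  rw [h1, Finset.sum_insert]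
  simp

/-- chain property at every element which is not the largest one -/
theorem key_chain {z : ℕ} {T : ℝ} {F : Finset ℕ} (hF : F ∈ supp (PP z) (tau z) 0 z T) {s : ℕ}
    (hs : s ∈ F) (hs' : ∃ t ∈ F, s < t) :
    ∑ t ∈ F.filter (fun t => s ≤ t), tau z t + tau z s ≤ T := by
  classical
  unfold supp at hF
  rw [Finset.mem_filter] at hF
  have hF2 := hF.2
  have h0 := key_tau_nonneg z s
  by_cases he : Even (F.filter (fun t => s ≤ t)).card
  · have h1 := hF2 s hs (by simpa using he)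
    rw [key_filter_split F _ hs]
    linarith
  · have hne : (F.filter (fun t => s < t)).Nonempty := by
      obtain ⟨t, ht, hst⟩ := hs'
      exact ⟨t, Finset.mem_filter.2 ⟨ht, hst⟩⟩
    set s' := (F.filter (fun t => s < t)).min' hne with hs'def
    have hs'm := Finset.min'_mem _ hne
    rw [← hs'def, Finset.mem_filter] at hs'm
    have h1 : F.filter (fun t => s < t) = F.filter (fun t => s' ≤ t) := by
      ext t
      simp only [Finset.mem_filter]
      constructor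
      · rintro ⟨h1, h2⟩
        exact ⟨h1, Finset.min'_le _ _ (Finset.mem_filter.2 ⟨h1, h2⟩)⟩
      · rintro ⟨h1, h2⟩
        exact ⟨h1, lt_of_lt_of_le hs'm.2 h2⟩
    have h2 : (F.filter (fun t => s ≤ t)).card = (F.filter (fun t => s' ≤ t)).card + 1 := by
      rw [← h1]
      have h3 : F.filter (fun t => s ≤ t) = insert s (F.filter (fun t => s < t)) := by
        ext t
        simp only [Finset.mem_filter, Finset.mem_insert]
        constructor
        · rintro ⟨h1, h2⟩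
          rcases h2.eq_or_lt with h | h
          · exact Or.inl h.symm
          · exact Or.inr ⟨h1, h⟩
        · rintro (h | ⟨h1, h2⟩)
          · subst h; exact ⟨hs, le_rfl⟩
          · exact ⟨h1, h2.le⟩
      rw [h3, Finset.card_insert_of_notMem]
      simp
    have h3 : Even (F.filter (fun t => s' ≤ t)).card := by
      rw [h2] at he
      rw [Nat.even_add_one, not_not] at he
      exact he
    have h4 := hF2 s' hs'm.1 (by simpa using h3)
    have h5 := key_tau_mono z hs'm.2.le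
    rw [key_filter_split F _ hs, h1, key_filter_split F _ hs'm.1]
    linarith only [h4, h5]

/-! ### Asymptotics -/

lemma key_ev_pow (k : ℕ) (C ε : ℝ) (hε : 0 < ε) : ∀ᶠ l : ℝ in atTop, C * (log l) ^ k ≤ l ^ ε := by
  have h1 : (fun l : ℝ => log l ^ (k : ℝ)) =o[atTop] fun l => l ^ ε := isLittleO_log_rpow_rpow_atTop _ hε
  have h2 := h1.const_mul_left (|C|)
  have h3 := h2.bound (c := 1) one_pos
  filter_upwards [h3, eventually_ge_atTop 1] with l hl hl1
  have hlog : 0 ≤ log l := log_nonneg hl1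
  rw [Real.rpow_natCast, norm_mul, norm_abs_eq_norm, Real.norm_eq_abs, Real.norm_eq_abs, Real.norm_eq_abs, one_mul,
    abs_of_nonneg (pow_nonneg hlog k), abs_of_nonneg (by positivity : (0:ℝ) ≤ l ^ ε)] at hl
  refine le_trans ?_ hl
  exact mul_le_mul_of_nonneg_right (le_abs_self C) (pow_nonneg hlog k)

lemma key_ev_rpow (a b C : ℝ) (hab : a < b) : ∀ᶠ l : ℝ in atTop, C * l ^ a ≤ l ^ b := by
  have h1 := (tendsto_rpow_atTop (sub_pos.2 hab)).eventually_ge_atTop C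
  filter_upwards [h1, eventually_gt_atTop 0] with l hl hl0
  calc C * l ^ a ≤ l ^ (b - a) * l ^ a := mul_le_mul_of_nonneg_right hl (by positivity)
    _ = l ^ b := by rw [← Real.rpow_add hl0]; congr 1; ring

lemma key_asymp (c C1 C2 : ℝ) (hc : 0 < c) (r : ℕ) : ∃ y₀ : ℕ, ∀ y : ℕ, y₀ ≤ y →
    2 * ((r : ℝ) + 1) ≤ log y ∧ 2 ≤ log (log y) ∧ (log (log y)) ^ (10 * r + 5) < c * log y ∧
    (log y) ^ (0.94 : ℝ) < c * log y ∧
    (log y) ^ (0.93 : ℝ) + 1 + C1 * log (log y) + C2 + (r + 1) * (log (log y)) ^ (10 * r + 5) ≤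
      (log y) ^ (0.94 : ℝ) ∧ 2 ≤ y := by
  have hl : Tendsto (fun y : ℕ => log (y : ℝ)) atTop atTop :=
    tendsto_log_atTop.comp tendsto_natCast_atTop_atTop
  have e1 : ∀ᶠ l : ℝ in atTop, 2 * ((r : ℝ) + 1) ≤ l := eventually_ge_atTop _
  have e2 : ∀ᶠ l : ℝ in atTop, 2 ≤ log l := tendsto_log_atTop.eventually_ge_atTop 2
  have e3 : ∀ᶠ l : ℝ in atTop, (2 / c) * (log l) ^ (10 * r + 5) ≤ l ^ (1 : ℝ) :=
    key_ev_pow _ _ _ one_pos
  have e4 : ∀ᶠ l : ℝ in atTop, (2 / c) * l ^ (0.94 : ℝ) ≤ l ^ (1 : ℝ) :=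
    key_ev_rpow _ _ _ (by norm_num)
  have e5 : ∀ᶠ l : ℝ in atTop, 5 * l ^ (0.93 : ℝ) ≤ l ^ (0.94 : ℝ) :=
    key_ev_rpow _ _ _ (by norm_num)
  have e6 : ∀ᶠ l : ℝ in atTop, (5 * C1) * (log l) ^ 1 ≤ l ^ (0.94 : ℝ) :=
    key_ev_pow _ _ _ (by norm_num)
  have e7 : ∀ᶠ l : ℝ in atTop, (5 * (1 + C2)) * (log l) ^ 0 ≤ l ^ (0.94 : ℝ) :=
    key_ev_pow _ _ _ (by norm_num)
  have e8 : ∀ᶠ l : ℝ in atTop, (5 * ((r : ℝ) + 1)) * (log l) ^ (10 * r + 5) ≤ l ^ (0.94 : ℝ) :=
    key_ev_pow _ _ _ (by norm_num)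
  have e9 : ∀ᶠ l : ℝ in atTop, 0 < l := eventually_gt_atTop 0
  have h := ((((((((e1.and e2).and e3).and e4).and e5).and e6).and e7).and e8).and e9)
  have h' := (hl.eventually h).and (eventually_ge_atTop 2)
  obtain ⟨y₀, hy₀⟩ := eventually_atTop.1 h'
  refine ⟨y₀, fun y hy => ?_⟩
  obtain ⟨⟨⟨⟨⟨⟨⟨⟨⟨f1, f2⟩, f3⟩, f4⟩, f5⟩, f6⟩, f7⟩, f8⟩, f9⟩, f10⟩ := hy₀ y hy
  rw [Real.rpow_one] at f3 f4
  have hp : 0 < (log y : ℝ) ^ (0.94 : ℝ) := Real.rpow_pos_of_pos f9 _
  have hL : 0 < (log (log y)) ^ (10 * r + 5) := by positivity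
  refine ⟨f1, f2, ?_, ?_, ?_, f10⟩
  · rw [div_mul_eq_mul_div, div_le_iff₀ hc] at f3
    linarith only [f3, hL]
  · rw [div_mul_eq_mul_div, div_le_iff₀ hc] at f4
    linarith only [hp, f4]
  · rw [pow_one] at f6
    rw [pow_zero] at f7
    linarith only [f8, f7, f6, f5, hp]

/-! ### Boxes -/

lemma key_mem_zone {y : ℝ} {j p : ℕ} (h : p ∈ zone y j) :
    p.Prime ∧ zlo y j ≤ log p ∧ log p ≤ zhi y j := by
  classical
  unfold zone at h
  exact (Finset.mem_filter.1 h).2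

lemma key_mem_box {y κ : ℝ} {j β p : ℕ} (h : p ∈ box y κ j β) : p ∈ zone y j ∧ bi κ p = β := by
  classical
  unfold box at h
  exact Finset.mem_filter.1 h

lemma key_Pb_le {y κ : ℝ} (hκ : 0 < κ) {j β p : ℕ} (h : p ∈ box y κ j β) :
    Pb y κ j β ≤ p := by
  obtain ⟨h1, h2⟩ := key_mem_box h
  obtain ⟨h3, h4, h5⟩ := key_mem_zone h1
  have hp : (0 : ℝ) < p := by exact_mod_cast h3.pos
  have hp1 : (1 : ℝ) ≤ p := by exact_mod_cast h3.one_lt.le
  have hk : 0 < log (1 + κ) := log_pos (by linarith only [hκ])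
  unfold Pb
  refine max_le ?_ ?_
  · have h6 : (β : ℝ) * log (1 + κ) ≤ log p := by
      rw [← h2]
      unfold bi
      have h7 := Nat.floor_le (div_nonneg (log_nonneg hp1) hk.le)
      calc (⌊log p / log (1 + κ)⌋₊ : ℝ) * log (1 + κ) ≤ log p / log (1 + κ) * log (1 + κ) :=
            mul_le_mul_of_nonneg_right h7 hk.le
        _ = log p := div_mul_cancel₀ _ hk.ne'
    rw [← Real.log_le_log_iff (by positivity) hp, Real.log_pow]
    exact h6
  · rw [← Real.le_log_iff_exp_le hp]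
    exact h4

lemma key_le_Pb {y κ : ℝ} (hκ : 0 < κ) {j β p : ℕ} (h : p ∈ box y κ j β) :
    (p : ℝ) ≤ (1 + κ) * Pb y κ j β := by
  obtain ⟨h1, h2⟩ := key_mem_box h
  obtain ⟨h3, h4, h5⟩ := key_mem_zone h1
  have hp : (0 : ℝ) < p := by exact_mod_cast h3.pos
  have hk : 0 < log (1 + κ) := log_pos (by linarith)
  have h6 : log p ≤ ((β : ℝ) + 1) * log (1 + κ) := by
    rw [← h2]
    unfold bi
    have h7 := (Nat.lt_floor_add_one (log p / log (1 + κ))).le
    rwa [div_le_iff₀ hk] at h7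
  have h8 : (p : ℝ) ≤ (1 + κ) ^ (β + 1) := by
    rw [← Real.log_le_log_iff hp (by positivity), Real.log_pow]
    push_cast
    exact h6
  refine h8.trans ?_
  rw [pow_succ, mul_comm]
  exact mul_le_mul_of_nonneg_left (le_max_left _ _) (by linarith only [hκ])

lemma key_Pb_pos (y κ : ℝ) (j β : ℕ) : 0 < Pb y κ j β :=
  lt_of_lt_of_le (exp_pos _) (le_max_right _ _)

lemma key_zlo_le_log_Pb (y κ : ℝ) (j β : ℕ) : zlo y j ≤ log (Pb y κ j β) := by
  rw [Real.le_log_iff_exp_le (key_Pb_pos y κ j β)]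
  exact le_max_right _ _

/-- J9a -/
theorem key : KeyStmt := by
  classical
  obtain ⟨Ct, hCt, htau⟩ := key_tau_ge
  intro A₁ c C₇ C₉ hA₁ hc hc1 hC₇ hC₉
  refine ⟨A₁ + Ct * C₉, by positivity, ?_⟩
  intro A₃ r hA₃
  obtain ⟨y₀, hy₀⟩ := key_asymp c (3 + A₁ + Ct * C₉) Ct hc r
  refine ⟨y₀, ?_⟩
  intro y hy z T DD hstd H β hadm
  obtain ⟨f1, f2, f3, f4, f5, f6⟩ := hy₀ y hy
  clear hy₀
  obtain ⟨hz1, hz2, hT, hDD⟩ := hstd
  obtain ⟨G, hG, hgood, s, hs, hdisj, hGH⟩ := hadm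
  set l : ℝ := log y with hl
  set L : ℝ := log l with hL
  set κ : ℝ := l ^ (-A₃) with hκ
  have hr0 : (0 : ℝ) ≤ r := Nat.cast_nonneg r
  have hl2 : 2 ≤ l := by linarith only [f1]
  have hl0 : 0 < l := by linarith only [hc, hc1, f1]
  have hL1 : 1 < L := by linarith only [hc, hc1, f2]
  have hy0 : (0 : ℝ) < y := by exact_mod_cast (by omega : 0 < y)
  have hκ0 : 0 < κ := Real.rpow_pos_of_pos hl0 _
  have hκ1 : κ ≤ l⁻¹ := by
    rw [hκ, ← Real.rpow_neg_one l]
    exact Real.rpow_le_rpow_of_exponent_le (by linarith only [hc, hc1, f1]) (by linarith only [hA₃])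
  -- the box elements
  have hsb : ∀ j : Fin (r + 1), s j ∈ box y κ j (ext β j) := fun j =>
    (Fintype.mem_piFinset.1 hs) j
  have hsz : ∀ j : Fin (r + 1), (s j).Prime ∧ zlo y j ≤ log (s j) ∧ log (s j) ≤ zhi y j :=
    fun j => key_mem_zone (key_mem_box (hsb j)).1
  have hzhi : ∀ j : Fin (r + 1), zhi y j ≤ L ^ (10 * r + 5) := by
    intro j
    unfold zhi
    refine pow_le_pow_right₀ hL1.le ?_
    have := j.2
    omega
  have hsinj : Function.Injective s := by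
    have hlt : ∀ i j : Fin (r + 1), i < j → s i ≠ s j := by
      intro i j hij h
      have h1 := (hsz i).2.2
      have h2 := (hsz j).2.1
      rw [h] at h1
      have h3 : zhi y i < zlo y j := by
        unfold zhi zlo
        refine pow_lt_pow_right₀ hL1 ?_
        have : (i : ℕ) < j := hij
        omega
      linarith only [h1, h2, h3]
    intro i j h
    rcases lt_trichotomy i j with h1 | h1 | h1
    · exact absurd h (hlt i j h1)
    · exact h1
    · exact absurd h.symm (hlt j i h1)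
  -- the support
  unfold NN at hG
  rw [Finset.mem_filter] at hG
  obtain ⟨hGs, pq, hpq, hp, hq, hqp, htop⟩ := hG
  have hGP : ∀ t ∈ G, t.Prime ∧ t < z := by
    intro t ht
    have h1 := hGs
    unfold supp at h1
    have h2 := Finset.mem_powerset.1 (Finset.mem_filter.1 h1).1 ht
    have h3 := (Finset.mem_filter.1 h2)
    exact ⟨(Finset.mem_filter.1 h3.1).2, h3.2⟩
  have hHG : H ⊆ G := by rw [hGH]; exact Finset.subset_union_left
  have hsG : ∀ j, s j ∈ G := fun j => by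
    rw [hGH]
    exact Finset.mem_union_right _ (Finset.mem_image_of_mem _ (Finset.mem_univ j))
  have hsH : ∀ j, s j ∉ H := fun j h =>
    (Finset.disjoint_left.1 hdisj) h (Finset.mem_image_of_mem _ (Finset.mem_univ j))
  -- sums over `G`
  have hsum : ∀ f : ℕ → ℝ, ∑ t ∈ G, f t = ∑ t ∈ H, f t + ∑ j : Fin (r + 1), f (s j) := by
    intro f
    rw [hGH, Finset.sum_union hdisj, Finset.sum_image fun i _ j _ h => hsinj h]
  have hprod : ∏ t ∈ G, (t : ℝ) = (∏ t ∈ H, (t : ℝ)) * ∏ j : Fin (r + 1), (s j : ℝ) := by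
    rw [hGH, Finset.prod_union hdisj, Finset.prod_image fun i _ j _ h => hsinj h]
  have hGpos : ∀ t ∈ G, (0 : ℝ) < t := fun t ht => by exact_mod_cast (hGP t ht).1.pos
  have hGlog : ∀ t ∈ G, 0 ≤ log (t : ℝ) := fun t _ => Real.log_natCast_nonneg t
  have hGtau : ∀ t ∈ G, log (t : ℝ) ≤ tau z t + Ct := fun t ht =>
    htau z t (hGP t ht).1.two_le (hGP t ht).2.le
  -- the two top primes
  obtain ⟨hpp, hqp', hyq, -, -, -⟩ := hDD pq hpq
  have hlq : c * l ≤ log (pq.2 : ℝ) := by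
    rw [hl, ← Real.log_rpow hy0]
    exact Real.log_le_log (by positivity) hyq
  have hq0 : (0 : ℝ) < pq.2 := by exact_mod_cast hqp'.pos
  have hlpq : log (pq.2 : ℝ) ≤ log (pq.1 : ℝ) :=
    Real.log_le_log hq0 (by exact_mod_cast hqp.le)
  have hmemH : ∀ t ∈ G, c * l ≤ log (t : ℝ) → t ∈ H := by
    intro t ht h1
    rw [hGH, Finset.mem_union] at ht
    rcases ht with h | h
    · exact h
    · obtain ⟨j, -, rfl⟩ := Finset.mem_image.1 h
      have h2 := (hsz j).2.2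
      have h3 := hzhi j
      linarith only [f3, h1, h2, h3]
  -- bounds for the small factors
  have hPb : ∀ j : Fin (r + 1), Pb y κ j (ext β j) ≤ s j := fun j => key_Pb_le hκ0 (hsb j)
  have hPb' : ∀ j : Fin (r + 1), (s j : ℝ) ≤ (1 + κ) * Pb y κ j (ext β j) := fun j =>
    key_le_Pb hκ0 (hsb j)
  have hPbprod : ∏ j ∈ range (r + 1), Pb y κ j (ext β j)
      = ∏ j : Fin (r + 1), Pb y κ j (ext β j) :=
    (Fin.prod_univ_eq_prod_range (fun j => Pb y κ j (ext β j)) (r + 1)).symm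
  have hPble : ∏ j : Fin (r + 1), Pb y κ j (ext β j) ≤ ∏ j : Fin (r + 1), (s j : ℝ) :=
    Finset.prod_le_prod (fun j _ => (key_Pb_pos _ _ _ _).le) fun j _ => hPb j
  have hPbge : ∏ j : Fin (r + 1), (s j : ℝ) ≤ 2 * ∏ j : Fin (r + 1), Pb y κ j (ext β j) := by
    have h1 : ∏ j : Fin (r + 1), (s j : ℝ) ≤
        ∏ j : Fin (r + 1), ((1 + κ) * Pb y κ j (ext β j)) :=
      Finset.prod_le_prod (fun j _ => Nat.cast_nonneg _) fun j _ => hPb' j
    rw [Finset.prod_mul_distrib, Finset.prod_const, Finset.card_univ, Fintype.card_fin] at h1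
    refine h1.trans (mul_le_mul_of_nonneg_right ?_
      (Finset.prod_nonneg fun j _ => (key_Pb_pos _ _ _ _).le))
    have h2 : (1 + κ) ^ (r + 1) ≤ exp (((r : ℝ) + 1) * κ) := by
      have h3 : 1 + κ ≤ exp κ := by linarith only [Real.add_one_le_exp κ]
      calc (1 + κ) ^ (r + 1) ≤ (exp κ) ^ (r + 1) := pow_le_pow_left₀ (by linarith only [hc, hc1, hκ0]) h3 _
        _ = exp (((r : ℝ) + 1) * κ) := by rw [← Real.exp_nat_mul]; push_cast; rfl
    have h4 : ((r : ℝ) + 1) * κ ≤ 1 / 2 := by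
      calc ((r : ℝ) + 1) * κ ≤ ((r : ℝ) + 1) * l⁻¹ :=
            mul_le_mul_of_nonneg_left hκ1 (by linarith only [hc, hc1])
        _ = ((r : ℝ) + 1) / l := by rw [div_eq_mul_inv]
        _ ≤ 1 / 2 := by
          rw [div_le_div_iff₀ hl0 (by norm_num)]
          linarith only [f1]
    have h5 : exp (1 / 2) ≤ 2 := by
      have h6 : exp (1 / 2) ^ 2 = exp 1 := by
        rw [← Real.exp_nat_mul]; norm_num
      have h7 := Real.exp_one_lt_d9
      have h8 : 0 < exp (1 / 2 : ℝ) := exp_pos _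
      nlinarith only [h6, h7, hc, hc1, h8]
    exact h2.trans ((Real.exp_le_exp.2 h4).trans h5)
  -- total size
  have hlogprod : ∀ F : Finset ℕ, F ⊆ G → ∏ t ∈ F, (t : ℝ) = exp (∑ t ∈ F, log (t : ℝ)) := by
    intro F hF
    rw [← Real.log_prod fun t ht => (hGpos t (hF ht)).ne', Real.exp_log]
    exact Finset.prod_pos fun t ht => hGpos t (hF ht)
  have hcard : (G.card : ℝ) ≤ C₉ * L := hgood.card
  have hnemp : G.Nonempty := ⟨_, hp⟩
  have hmaxtau : ∑ t ∈ G, tau z t ≤ T := by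
    set m := G.min' hnemp with hm
    have hmG : m ∈ G := Finset.min'_mem _ _
    have h1 : ∃ t ∈ G, m < t := by
      refine ⟨pq.1, hp, lt_of_le_of_lt (Finset.min'_le _ _ hq) hqp⟩
    have h2 := key_chain hGs hmG h1
    have h3 : G.filter (fun t => m ≤ t) = G :=
      Finset.filter_true_of_mem fun t ht => Finset.min'_le _ _ ht
    rw [h3] at h2
    have := key_tau_nonneg z m
    linarith only [h2, this]
  have hsumG : ∑ t ∈ G, log (t : ℝ) ≤ l + (A₁ + Ct * C₉) * L := by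
    have h1 : ∑ t ∈ G, log (t : ℝ) ≤ ∑ t ∈ G, (tau z t + Ct) := Finset.sum_le_sum hGtau
    rw [Finset.sum_add_distrib, Finset.sum_const, nsmul_eq_mul] at h1
    have h2 : (G.card : ℝ) * Ct ≤ C₉ * L * Ct := mul_le_mul_of_nonneg_right hcard hCt.le
    have h3 : T ≤ l + A₁ * L := hT
    calc ∑ t ∈ G, log (t : ℝ) ≤ T + C₉ * L * Ct := by linarith only [hmaxtau, h1, h2]
      _ ≤ l + (A₁ + Ct * C₉) * L := by linarith only [hT]
  have hlarge : l - 3 * L ≤ ∑ t ∈ G, log (t : ℝ) := by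
    have h1 := hgood.large
    rw [hlogprod G (Finset.Subset.refl _)] at h1
    have h2 : 0 < 2 * (y : ℝ) / l ^ 3 := by positivity
    have h3 := (Real.log_le_iff_le_exp h2).2 h1
    rw [Real.log_div (by positivity) (by positivity), Real.log_mul (by norm_num) hy0.ne',
      Real.log_pow] at h3
    have h4 : 0 ≤ log (2 : ℝ) := Real.log_nonneg (by norm_num)
    push_cast at h3
    linarith only [h3, h4]
  refine ⟨fun t ht => hGP t (hHG ht), ⟨pq, hpq, hmemH _ hp (hlq.trans hlpq), hmemH _ hq hlq, hqp,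
    fun t ht => htop t (hHG ht)⟩, ?_, ?_, ?_, ?_, ?_, ?_⟩
  · -- boxes are disjoint from `H`
    intro j hj t ht htH
    have hj' : j < r + 1 := by omega
    have h1 := hsb ⟨j, hj'⟩
    have h2 : t = s ⟨j, hj'⟩ := hgood.box j hj t (hHG htH) (s ⟨j, hj'⟩) (hsG _)
      (key_mem_box ht).1 (key_mem_box h1).1
      ((key_mem_box ht).2.trans (key_mem_box h1).2.symm)
    exact hsH _ (h2 ▸ htH)
  · intro j hj
    have hj' : j < r + 1 := by omega
    refine ⟨key_Pb_pos _ _ _ _, key_zlo_le_log_Pb _ _ _ _, ?_⟩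
    have h1 := hPb ⟨j, hj'⟩
    have h2 := (hsz ⟨j, hj'⟩).2.2
    exact (Real.log_le_log (key_Pb_pos _ _ _ _) h1).trans h2
  · -- lower bound for the product
    rw [hPbprod]
    have h1 := hgood.large
    rw [hprod] at h1
    have h2 : 0 ≤ ∏ t ∈ H, (t : ℝ) := Finset.prod_nonneg fun t _ => Nat.cast_nonneg t
    have h3 := mul_le_mul_of_nonneg_left hPbge h2
    have h4 : 2 * (y : ℝ) / l ^ 3 = 2 * (y / l ^ 3) := by ring
    rw [h4] at h1
    linarith only [h3, h1]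
  · -- upper bound for the product
    rw [hPbprod]
    have h2 : 0 ≤ ∏ t ∈ H, (t : ℝ) := Finset.prod_nonneg fun t _ => Nat.cast_nonneg t
    refine (mul_le_mul_of_nonneg_left hPble h2).trans ?_
    rw [← hprod, hlogprod G (Finset.Subset.refl _)]
    refine (Real.exp_le_exp.2 hsumG).trans (le_of_eq ?_)
    rw [Real.exp_add, hl, Real.exp_log hy0, ← hl, Real.rpow_def_of_pos hl0, ← hL, mul_comm L]
  · -- the smooth part is large
    set w : ℝ := exp (l ^ (0.94 : ℝ)) with hw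
    have hlogw : ∀ t ∈ G, ((t : ℝ) ≤ w ↔ log (t : ℝ) ≤ l ^ (0.94 : ℝ)) := fun t ht =>
      (Real.log_le_iff_le_exp (hGpos t ht)).symm
    have hqw : ¬ ((pq.2 : ℝ) ≤ w) := by
      rw [hlogw _ hq]
      intro h
      linarith only [h, hlq, f4]
    set Gw := G.filter (fun t : ℕ => ¬ ((t : ℝ) ≤ w)) with hGw
    have hne : Gw.Nonempty := ⟨pq.2, Finset.mem_filter.2 ⟨hq, hqw⟩⟩
    set m := Gw.min' hne with hm
    have hmG := Finset.mem_filter.1 (Finset.min'_mem Gw hne)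
    rw [← hm] at hmG
    have hmlt : ∃ t ∈ G, m < t :=
      ⟨pq.1, hp, lt_of_le_of_lt (Finset.min'_le _ _ (Finset.mem_filter.2 ⟨hq, hqw⟩)) hqp⟩
    have hchain := key_chain hGs hmG.1 hmlt
    have hfil : G.filter (fun t => m ≤ t) = Gw := by
      ext t
      rw [hGw, Finset.mem_filter, Finset.mem_filter]
      constructor
      · rintro ⟨h1, h2⟩
        refine ⟨h1, fun h3 => hmG.2 ?_⟩
        have h4 : (m : ℝ) ≤ t := by exact_mod_cast h2
        linarith only [hmG, h3, h4]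
      · rintro ⟨h1, h2⟩
        exact ⟨h1, Finset.min'_le _ _ (Finset.mem_filter.2 ⟨h1, h2⟩)⟩
    rw [hfil] at hchain
    have hmlog : l ^ (0.94 : ℝ) ≤ log (m : ℝ) := by
      by_contra h
      exact hmG.2 ((hlogw m hmG.1).2 (not_le.1 h).le)
    have hmtau := hGtau m hmG.1
    have hGwsum : ∑ t ∈ Gw, log (t : ℝ) ≤ l + A₁ * L - l ^ (0.94 : ℝ) + Ct + Ct * C₉ * L := by
      have h1 : ∑ t ∈ Gw, log (t : ℝ) ≤ ∑ t ∈ Gw, (tau z t + Ct) :=
        Finset.sum_le_sum fun t ht => hGtau t (Finset.mem_filter.1 ht).1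
      rw [Finset.sum_add_distrib, Finset.sum_const, nsmul_eq_mul] at h1
      have h2 : (Gw.card : ℝ) ≤ C₉ * L := by
        refine le_trans ?_ hcard
        exact_mod_cast Finset.card_le_card (Finset.filter_subset _ _)
      have h3 : (Gw.card : ℝ) * Ct ≤ C₉ * L * Ct := mul_le_mul_of_nonneg_right h2 hCt.le
      have h4 : T ≤ l + A₁ * L := hT
      calc ∑ t ∈ Gw, log (t : ℝ) ≤ (T - tau z m) + C₉ * L * Ct := by linarith only [hchain, h1, h3]
        _ ≤ l + A₁ * L - l ^ (0.94 : ℝ) + Ct + Ct * C₉ * L := by linarith only [hT, hmlog, hmtau]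
    have hsplit : ∑ t ∈ G, log (t : ℝ) = ∑ t ∈ G.filter (fun t : ℕ => (t : ℝ) ≤ w), log (t : ℝ)
        + ∑ t ∈ Gw, log (t : ℝ) := (Finset.sum_filter_add_sum_filter_not _ _ _).symm
    have hsmall : ∑ t ∈ G.filter (fun t : ℕ => (t : ℝ) ≤ w), log (t : ℝ) ≤
        ∑ t ∈ H.filter (fun t : ℕ => (t : ℝ) ≤ w), log (t : ℝ) +
          ∑ j : Fin (r + 1), log (s j : ℝ) := by
      have h1 := hsum (fun t => if (t : ℝ) ≤ w then log (t : ℝ) else 0)
      rw [Finset.sum_filter, Finset.sum_filter, h1]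
      refine add_le_add le_rfl (Finset.sum_le_sum fun j _ => ?_)
      split_ifs
      · exact le_rfl
      · exact hGlog _ (hsG j)
    have hssum : ∑ j : Fin (r + 1), log (s j : ℝ) ≤ ((r : ℝ) + 1) * L ^ (10 * r + 5) := by
      calc ∑ j : Fin (r + 1), log (s j : ℝ) ≤ ∑ _j : Fin (r + 1), L ^ (10 * r + 5) :=
            Finset.sum_le_sum fun j _ => (hsz j).2.2.trans (hzhi j)
        _ = ((r : ℝ) + 1) * L ^ (10 * r + 5) := by
          rw [Finset.sum_const, Finset.card_univ, Fintype.card_fin, nsmul_eq_mul]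
          push_cast
          rfl
    rw [hlogprod _ ((Finset.filter_subset _ _).trans hHG)]
    refine Real.exp_le_exp.2 ?_
    linarith only [f5, hlarge, hGwsum, hsplit, hsmall, hssum]
  · refine le_trans ?_ hgood.smooth
    refine Finset.prod_le_prod_of_subset_of_one_le (Finset.filter_subset_filter _ hHG)
      (fun t _ => Nat.cast_nonneg t) fun t ht _ => ?_
    exact_mod_cast (hGP t (Finset.mem_filter.1 ht).1).1.one_lt.le

end Vale.Agent.P013.J
end

section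

/-!
# Section 5 of the blueprint: counting keys
-/

open Finset Real

namespace Vale.Agent.P013.J

/-- a finite set of naturals inside a real interval -/
lemma card_le_of_interval (s : Finset ℕ) (a b : ℝ) (hab : a ≤ b)
    (h : ∀ n ∈ s, a ≤ (n : ℝ) ∧ (n : ℝ) ≤ b) : (s.card : ℝ) ≤ b - a + 1 := by
  rcases s.eq_empty_or_nonempty with hs | ⟨n0, hn0⟩
  · subst hs
    simp
    linarith
  have hb0 : 0 ≤ b := le_trans (Nat.cast_nonneg n0) (h n0 hn0).2
  have hsub : s ⊆ Icc ⌈a⌉₊ ⌊b⌋₊ := by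
    intro n hn
    rw [Finset.mem_Icc]
    exact ⟨Nat.ceil_le.mpr (h n hn).1, Nat.le_floor (h n hn).2⟩
  have h1 := Finset.card_le_card hsub
  rw [Nat.card_Icc] at h1
  have h2 : ⌈a⌉₊ ≤ ⌊b⌋₊ := le_trans (Nat.ceil_le.mpr (h n0 hn0).1) (Nat.le_floor (h n0 hn0).2)
  have h3 : (s.card : ℝ) ≤ ((⌊b⌋₊ + 1 - ⌈a⌉₊ : ℕ) : ℝ) := by exact_mod_cast h1
  rw [Nat.cast_sub (by omega)] at h3
  push_cast at h3
  have h4 : ((⌊b⌋₊ : ℕ) : ℝ) ≤ b := Nat.floor_le hb0
  have h5 : a ≤ ((⌈a⌉₊ : ℕ) : ℝ) := Nat.le_ceil a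
  linarith only [h5, h4, h3]

lemma Pb_pos (y κ : ℝ) (j β : ℕ) : 0 < Pb y κ j β :=
  lt_of_lt_of_le (exp_pos _) (le_max_right _ _)

lemma exp_zlo_le_Pb (y κ : ℝ) (j β : ℕ) : exp (zlo y j) ≤ Pb y κ j β := le_max_right _ _

lemma mem_zone {y : ℝ} {j p : ℕ} (h : p ∈ zone y j) :
    p.Prime ∧ zlo y j ≤ log p ∧ log p ≤ zhi y j := by
  unfold zone at h
  rw [Finset.mem_filter] at h
  exact h.2

lemma mem_box {y κ : ℝ} {j β p : ℕ} (h : p ∈ box y κ j β) : p ∈ zone y j ∧ bi κ p = β := by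
  unfold box at h
  rw [Finset.mem_filter] at h
  exact h

/-- elements of a box lie in `[Pb, (1+κ) Pb]` -/
lemma mem_box_bounds {y κ : ℝ} (hκ : 0 < κ) {j β p : ℕ} (h : p ∈ box y κ j β) :
    Pb y κ j β ≤ (p : ℝ) ∧ (p : ℝ) ≤ (1 + κ) * Pb y κ j β := by
  obtain ⟨hz, hb⟩ := mem_box h
  obtain ⟨hp, hlo, _⟩ := mem_zone hz
  have hp0 : (0 : ℝ) < p := by exact_mod_cast hp.pos
  have hlog1 : 0 < log (1 + κ) := log_pos (by linarith)
  have hlogp : 0 ≤ log (p : ℝ) := log_nonneg (by exact_mod_cast hp.one_lt.le)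
  have h1 : (β : ℝ) ≤ log p / log (1 + κ) := by
    rw [← hb]
    exact Nat.floor_le (div_nonneg hlogp hlog1.le)
  have h2 : log p / log (1 + κ) < (β : ℝ) + 1 := by
    rw [← hb]
    exact Nat.lt_floor_add_one _
  rw [le_div_iff₀ hlog1] at h1
  rw [div_lt_iff₀ hlog1] at h2
  have hpow : ∀ n : ℕ, (1 + κ) ^ n = exp (n * log (1 + κ)) := by
    intro n
    rw [mul_comm, exp_mul, exp_log (by linarith), rpow_natCast]
  have h3 : (1 + κ) ^ β ≤ (p : ℝ) := by
    rw [hpow, ← exp_log hp0]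
    exact exp_le_exp.mpr h1
  have h4 : (p : ℝ) ≤ (1 + κ) ^ (β + 1) := by
    rw [hpow, ← exp_log hp0]
    apply exp_le_exp.mpr
    push_cast
    exact h2.le
  have h5 : exp (zlo y j) ≤ (p : ℝ) := by
    rw [← exp_log hp0]
    exact exp_le_exp.mpr hlo
  refine ⟨max_le h3 h5, ?_⟩
  calc (p : ℝ) ≤ (1 + κ) ^ (β + 1) := h4
    _ = (1 + κ) * (1 + κ) ^ β := by ring
    _ ≤ (1 + κ) * Pb y κ j β := by
        apply mul_le_mul_of_nonneg_left (le_max_left _ _) (by linarith)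

/-- a box has at most `κ Pb + 1` elements -/
lemma box_card {y κ : ℝ} (hκ : 0 < κ) (j β : ℕ) :
    ((box y κ j β).card : ℝ) ≤ κ * Pb y κ j β + 1 := by
  have hP := Pb_pos y κ j β
  have h := card_le_of_interval (box y κ j β) (Pb y κ j β) ((1 + κ) * Pb y κ j β)
    (by linarith [mul_pos (sub_pos.2 hκ) (sub_pos.2 hP)]) (fun p hp => mem_box_bounds hκ hp)
  linarith

lemma ext_apply {r : ℕ} (β : Fin (r + 1) → ℕ) (j : Fin (r + 1)) : ext β j = β j := by
  unfold ext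
  rw [dif_pos j.2]

/-- `log y → ∞` along the naturals -/
lemma tendsto_log_nat : Filter.Tendsto (fun y : ℕ => log (y : ℝ)) Filter.atTop Filter.atTop :=
  Real.tendsto_log_atTop.comp tendsto_natCast_atTop_atTop

lemma tendsto_loglog_nat :
    Filter.Tendsto (fun y : ℕ => log (log (y : ℝ))) Filter.atTop Filter.atTop :=
  Real.tendsto_log_atTop.comp tendsto_log_nat

/-- powers of `log log y` are negligible -/
lemma eventually_loglog_pow (C : ℝ) (n : ℕ) (ε : ℝ) (hε : 0 < ε) :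
    ∀ᶠ y : ℕ in Filter.atTop, C * (log (log (y : ℝ))) ^ n ≤ ε * log (y : ℝ) := by
  have h1 : (fun x : ℝ => C * (log x) ^ n) =o[Filter.atTop] (fun x : ℝ => x) := by
    apply Asymptotics.IsLittleO.const_mul_left
    exact Real.isLittleO_pow_log_id_atTop
  have h2 := (h1.def hε)
  have h3 := tendsto_log_nat.eventually h2
  filter_upwards [h3, tendsto_log_nat.eventually_ge_atTop 0] with y hy hy0
  rw [Real.norm_eq_abs, Real.norm_eq_abs, abs_of_nonneg hy0] at hy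
  exact le_trans (le_abs_self _) hy

lemma one_le_zhi {y : ℝ} (h : 1 ≤ log (log y)) (j : ℕ) : 1 ≤ zhi y j := one_le_pow₀ h

lemma one_le_zlo {y : ℝ} (h : 1 ≤ log (log y)) (j : ℕ) : 1 ≤ zlo y j := one_le_pow₀ h

/-- the smallest prime of every zone exceeds any power of `log y` -/
lemma rpow_le_exp_zlo {y A : ℝ} (hl : 0 < log y) (h : 1 ≤ log (log y)) (hA : A ≤ log (log y))
    (j : ℕ) : (log y) ^ A ≤ exp (zlo y j) := by
  rw [rpow_def_of_pos hl]
  apply exp_le_exp.mpr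
  unfold zlo
  calc log (log y) * A ≤ log (log y) * log (log y) :=
        mul_le_mul_of_nonneg_left hA (by linarith)
    _ = (log (log y)) ^ 2 := by ring
    _ ≤ (log (log y)) ^ (10 * j + 3) := pow_le_pow_right₀ h (by omega)

/-- the product of the zone lengths is negligible -/
lemma eventually_prod_zhi (r : ℕ) :
    ∀ᶠ y : ℕ in Filter.atTop, ∏ j ∈ range (r + 1), (6 * zhi (y : ℝ) j) ≤ log (y : ℝ) := by
  filter_upwards [eventually_loglog_pow (6 ^ (r + 1)) ((r + 1) * (10 * r + 5)) 1 one_pos,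
    tendsto_loglog_nat.eventually_ge_atTop 1] with y hy h1
  calc ∏ j ∈ range (r + 1), (6 * zhi (y : ℝ) j)
      ≤ ∏ _j ∈ range (r + 1), (6 * (log (log (y : ℝ))) ^ (10 * r + 5)) := by
        apply Finset.prod_le_prod
        · intro j _
          have := one_le_zhi h1 j
          positivity
        · intro j hj
          rw [Finset.mem_range] at hj
          unfold zhi
          apply mul_le_mul_of_nonneg_left _ (by norm_num)
          exact pow_le_pow_right₀ h1 (by omega)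
    _ = 6 ^ (r + 1) * (log (log (y : ℝ))) ^ ((r + 1) * (10 * r + 5)) := by
        rw [Finset.prod_const, Finset.card_range, mul_pow, ← pow_mul]
        ring_nf
    _ ≤ log (y : ℝ) := by simpa using hy

/-- a finite set of primes is determined by its product -/
lemma prod_injOn_primes : Set.InjOn (fun H : Finset ℕ => ∏ p ∈ H, p)
    {H : Finset ℕ | ∀ p ∈ H, p.Prime} := by
  intro H hH H' hH' h
  have h1 : ∀ G : Finset ℕ, (∀ p ∈ G, p.Prime) → (∏ p ∈ G, p).primeFactors = G := by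
    intro G hG
    exact Nat.primeFactors_prod hG
  rw [← h1 H hH, ← h1 H' hH']
  exact congrArg Nat.primeFactors h

end Vale.Agent.P013.J
end

section

/-!
# Riesz means over characters and of the von Mangoldt function
-/

open Finset Real

namespace Vale.Agent.P013.J

lemma lin_re (σ t : ℝ) : (lin σ t).re = σ := by
  simp [lin]

lemma rpow_one_add_inv_log {x : ℝ} (hx : 0 < x) (hl : 1 ≤ log x) :
    x ^ (1 + 1 / log x) = Real.exp 1 * x := by
  rw [Real.rpow_add hx, Real.rpow_one, Real.rpow_def_of_pos hx, mul_one_div_cancel (by linarith),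
    mul_comm]

lemma sigma_bounds {x : ℝ} (hl : 1 ≤ log x) : 1 < 1 + 1 / log x ∧ 1 + 1 / log x ≤ 2 := by
  constructor
  · have : 0 < 1 / log x := by positivity
    linarith
  · have : 1 / log x ≤ 1 := by
      rw [div_le_one (by linarith)]
      exact hl
    linarith

/-- final elementary comparison -/
lemma final_cmp (C M l : ℝ) (_hC : 0 < C) (_hM : 0 ≤ M) (hl1 : 1 ≤ l) (hl2 : M ≤ l) :
    M * l ^ (1 / 2 : ℝ) * l ^ C ≤ (2 * π * l) ^ (⌈C⌉₊ + 2) := by
  have hl0 : 0 < l := by linarith only [hl1]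
  have h1 : l ^ (⌈C⌉₊ + 2) ≤ (2 * π * l) ^ (⌈C⌉₊ + 2) := by
    refine pow_le_pow_left₀ hl0.le ?_ _
    have := Real.pi_gt_three
    linarith only [mul_nonneg (sub_nonneg.2 hl1) (le_of_lt (sub_pos.2 this)), this, hl1]
  refine le_trans ?_ h1
  have h2 : l * l ^ (1 / 2 : ℝ) * l ^ C ≤ l ^ (⌈C⌉₊ + 2) := by
    have h3 : l * l ^ (1 / 2 : ℝ) * l ^ C = l ^ (1 + 1 / 2 + C : ℝ) := by
      rw [Real.rpow_add hl0, Real.rpow_add hl0, Real.rpow_one]
    rw [h3, ← Real.rpow_natCast]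
    refine Real.rpow_le_rpow_of_exponent_le hl1 ?_
    push_cast
    have := Nat.le_ceil C
    linarith only [this]
  refine le_trans ?_ h2
  have : 0 ≤ l ^ (1 / 2 : ℝ) * l ^ C := by positivity
  linarith only [mul_nonneg (sub_nonneg.2 hl2) (sub_nonneg.2 this)]

theorem rieszChar (h1 : LogDerivStmt) (h2 : GkBoundStmt) (h3 : RieszStmt) : RieszCharStmt := by
  intro C hC
  set j : ℕ := ⌈C⌉₊ + 2 with hj
  set ε : ℝ := 1 / (2 * C) with hε
  have hε0 : 0 < ε := by positivity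
  choose Cf hCf0 hCf using fun i => h1 i ε hε0
  obtain ⟨Cg, hCg0, hCg⟩ := h2 j
  set K : ℝ := ∑ i ∈ range (j + 1), Cf i with hK
  have hCfK : ∀ i ≤ j, Cf i ≤ K := fun i hi =>
    Finset.single_le_sum (fun i _ => (hCf0 i).le) (mem_range.2 (by omega))
  have hK0 : 0 ≤ K := Finset.sum_nonneg fun i _ => (hCf0 i).le
  set M : ℝ := Real.exp 1 * Cg * K with hM
  have hM0 : 0 ≤ M := by (clear * - hCg0 hK0; positivity)
  refine ⟨Real.exp (max 1 M), fun x hx q _ χ hq hχ => ?_⟩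
  have hxpos : 0 < x := lt_of_lt_of_le (Real.exp_pos _) hx
  have hlog : max 1 M ≤ log x := by
    rw [← Real.log_exp (max 1 M)]
    exact Real.log_le_log (Real.exp_pos _) hx
  have hl1 : 1 ≤ log x := le_trans (le_max_left _ _) hlog
  have hlM : M ≤ log x := le_trans (le_max_right _ _) hlog
  have hx1 : 1 ≤ x := by
    by_contra h
    have := Real.log_nonpos hxpos.le (not_le.1 h).le
    linarith only [hxpos, hl1, h, this]
  obtain ⟨hσ1, hσ2⟩ := sigma_bounds hl1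
  set σ : ℝ := 1 + 1 / log x with hσ
  set L := DirichletCharacter.LFunction χ with hL
  set F : ℂ → ℂ := fun s => - (deriv L s / L s) with hF
  have hq0 : (0 : ℝ) < q := by
    have := NeZero.pos q
    exact_mod_cast this
  have hqε : 0 ≤ (q : ℝ) ^ ε := by (clear * - hq0; positivity)
  have hLan : ∀ s : ℂ, AnalyticAt ℂ L s := fun s =>
    (DirichletCharacter.differentiable_LFunction hχ).analyticAt s
  have hLne : ∀ s : ℂ, 1 < s.re → L s ≠ 0 := fun s hs =>
    DirichletCharacter.LFunction_ne_zero_of_one_le_re χ (.inl hχ) hs.le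
  have hFan : ∀ s : ℂ, 1 < s.re → AnalyticAt ℂ F s := fun s hs =>
    ((hLan s).deriv.div (hLan s) (hLne s hs)).neg
  have hFb : ∀ i ≤ j, ∀ t : ℝ, ‖iteratedDeriv i F (lin σ t)‖ ≤
      (K * (q : ℝ) ^ ε) * (|t| + 1) ^ (1 / 2 : ℝ) := by
    intro i hi t
    have ha := hCf i q χ hχ σ t hσ1 hσ2
    rw [hF, iteratedDeriv_fun_neg, norm_neg]
    refine ha.trans ?_
    have h0 : 0 ≤ (|t| + 1) ^ (1 / 2 : ℝ) := by positivity
    exact mul_le_mul_of_nonneg_right (mul_le_mul_of_nonneg_right (hCfK i hi) hqε) h0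
  obtain ⟨hc1, hc2, hc3⟩ := hCg F σ (K * (q : ℝ) ^ ε) hσ1 hσ2 hFan hFb
  have hsum : LSeriesSummable
      (fun n : ℕ => χ (n : ZMod q) * (ArithmeticFunction.vonMangoldt n : ℂ)) (σ : ℂ) := by
    have := DirichletCharacter.LSeriesSummable_twist_vonMangoldt χ (s := (σ : ℂ))
      (by simpa using hσ1)
    exact this
  have hser : ∀ t : ℝ, LSeries
      (fun n : ℕ => χ (n : ZMod q) * (ArithmeticFunction.vonMangoldt n : ℂ)) (lin σ t) =
      F (lin σ t) + 0 / (lin σ t - 1) := by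
    intro t
    have hre : 1 < (lin σ t).re := by rw [lin_re]; exact hσ1
    have := DirichletCharacter.LSeries_twist_vonMangoldt_eq χ hre
    rw [← DirichletCharacter.deriv_LFunction_eq_deriv_LSeries χ hre,
      ← DirichletCharacter.LFunction_eq_LSeries χ hre] at this
    rw [zero_div, add_zero, hF]
    simp only
    rw [← neg_div]
    exact this
  have key := h3 _ 0 F σ hσ1 hsum hser j hc1 hc2 x hx1
  rw [zero_mul, sub_zero, rpow_one_add_inv_log hxpos hl1] at key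
  have hqb : (q : ℝ) ^ ε ≤ (log x) ^ (1 / 2 : ℝ) := by
    calc (q : ℝ) ^ ε ≤ ((log x) ^ C) ^ ε := Real.rpow_le_rpow hq0.le hq hε0.le
      _ = (log x) ^ (1 / 2 : ℝ) := by
        rw [← Real.rpow_mul (by linarith only [hl1]), hε]
        congr 1
        field_simp
  have hkey2 : ‖∑ n ∈ Icc 1 ⌊x⌋₊, χ (n : ZMod q) * (ArithmeticFunction.vonMangoldt n : ℂ) *
      (1 - (n : ℂ) / x)‖ * (2 * π * log x) ^ j ≤ x * (M * (log x) ^ (1 / 2 : ℝ)) := by
    refine key.trans ?_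
    calc Real.exp 1 * x * ∫ t, ‖iteratedDeriv j (Gk F σ) t‖
        ≤ Real.exp 1 * x * (Cg * (K * (q : ℝ) ^ ε)) :=
          mul_le_mul_of_nonneg_left hc3 (by positivity)
      _ = x * (M * (q : ℝ) ^ ε) := by rw [hM]; ring
      _ ≤ x * (M * (log x) ^ (1 / 2 : ℝ)) := by
          refine mul_le_mul_of_nonneg_left (mul_le_mul_of_nonneg_left hqb hM0) hxpos.le
  have hcmp := final_cmp C M (log x) hC hM0 hl1 hlM
  rw [← hj] at hcmp
  have hlC : 0 < (log x) ^ C := by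
    have : 0 < log x := by linarith only [hl1]
    positivity
  have hpos : 0 < (2 * π * log x) ^ j := by
    have : 0 < log x := by linarith only [hl1]
    positivity
  rw [le_div_iff₀ hlC]
  refine le_of_mul_le_mul_right ?_ hpos
  calc _ = (‖∑ n ∈ Icc 1 ⌊x⌋₊, χ (n : ZMod q) * (ArithmeticFunction.vonMangoldt n : ℂ) *
      (1 - (n : ℂ) / x)‖ * (2 * π * log x) ^ j) * (log x) ^ C := by ring
    _ ≤ x * (M * (log x) ^ (1 / 2 : ℝ)) * (log x) ^ C :=
        mul_le_mul_of_nonneg_right hkey2 hlC.le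
    _ = x * (M * (log x) ^ (1 / 2 : ℝ) * (log x) ^ C) := by ring
    _ ≤ x * (2 * π * log x) ^ j := mul_le_mul_of_nonneg_left hcmp hxpos.le

theorem rieszZeta (h1 : ZLogDerivStmt) (h2 : GkBoundStmt) (h3 : RieszStmt) : RieszZetaStmt := by
  intro C hC
  set j : ℕ := ⌈C⌉₊ + 2 with hj
  choose Cf hCf0 hCf using h1
  obtain ⟨Cg, hCg0, hCg⟩ := h2 j
  set K : ℝ := ∑ i ∈ range (j + 1), Cf i with hK
  have hCfK : ∀ i ≤ j, Cf i ≤ K := fun i hi =>
    Finset.single_le_sum (fun i _ => (hCf0 i).le) (mem_range.2 (by omega))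
  have hK0 : 0 ≤ K := Finset.sum_nonneg fun i _ => (hCf0 i).le
  set M : ℝ := 2 * (Real.exp 1 * Cg * K) with hM
  have hM0 : 0 ≤ M := by positivity
  have hev : ∀ᶠ x : ℝ in Filter.atTop, ‖(log x) ^ C‖ ≤ 1 / 2 * ‖x ^ (1 : ℝ)‖ :=
    (isLittleO_log_rpow_rpow_atTop C (by norm_num : (0 : ℝ) < 1)).def (by norm_num)
  obtain ⟨x1, hx1⟩ := Filter.eventually_atTop.1 hev
  refine ⟨max x1 (Real.exp (max 1 M)), fun x hx => ?_⟩
  have hxa : x1 ≤ x := le_trans (le_max_left _ _) hx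
  have hxb : Real.exp (max 1 M) ≤ x := le_trans (le_max_right _ _) hx
  have hxpos : 0 < x := lt_of_lt_of_le (Real.exp_pos _) hxb
  have hlog : max 1 M ≤ log x := by
    rw [← Real.log_exp (max 1 M)]
    exact Real.log_le_log (Real.exp_pos _) hxb
  have hl1 : 1 ≤ log x := le_trans (le_max_left _ _) hlog
  have hlM : M ≤ log x := le_trans (le_max_right _ _) hlog
  have hx1' : 1 ≤ x := by
    by_contra h
    have := Real.log_nonpos hxpos.le (not_le.1 h).le
    linarith only [hxpos, hl1, h, this]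
  have hlC : 0 < (log x) ^ C := by
    have : 0 < log x := by linarith only [hl1]
    positivity
  have hlCx : (log x) ^ C ≤ 1 / 2 * x := by
    have := hx1 x hxa
    rwa [Real.norm_of_nonneg hlC.le, Real.rpow_one, Real.norm_of_nonneg hxpos.le] at this
  obtain ⟨hσ1, hσ2⟩ := sigma_bounds hl1
  set σ : ℝ := 1 + 1 / log x with hσ
  set F : ℂ → ℂ := fun s => - deriv riemannZeta s / riemannZeta s - 1 / (s - 1) with hF
  have hne1 : ∀ s : ℂ, 1 < s.re → s ≠ 1 := by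
    intro s hs h
    rw [h] at hs
    simp at hs
  have hZan : ∀ s : ℂ, 1 < s.re → AnalyticAt ℂ riemannZeta s := by
    intro s hs
    have hopen : IsOpen {z : ℂ | z ≠ 1} := isOpen_ne
    refine DifferentiableOn.analyticAt (s := {z : ℂ | z ≠ 1}) ?_ (hopen.mem_nhds (hne1 s hs))
    intro z hz
    exact (differentiableAt_riemannZeta hz).differentiableWithinAt
  have hZne : ∀ s : ℂ, 1 < s.re → riemannZeta s ≠ 0 := fun s hs =>
    riemannZeta_ne_zero_of_one_le_re hs.le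
  have hFan : ∀ s : ℂ, 1 < s.re → AnalyticAt ℂ F s := by
    intro s hs
    have hs1 : s - 1 ≠ 0 := sub_ne_zero.2 (hne1 s hs)
    exact ((hZan s hs).deriv.neg.div (hZan s hs) (hZne s hs)).sub
      (analyticAt_const.div (analyticAt_id.sub analyticAt_const) hs1)
  have hFb : ∀ i ≤ j, ∀ t : ℝ, ‖iteratedDeriv i F (lin σ t)‖ ≤
      K * (|t| + 1) ^ (1 / 2 : ℝ) := by
    intro i hi t
    have ha := hCf i σ t hσ1 hσ2
    refine ha.trans ?_
    have h0 : 0 ≤ (|t| + 1) ^ (1 / 2 : ℝ) := by (clear * -; positivity)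
    exact mul_le_mul_of_nonneg_right (hCfK i hi) h0
  obtain ⟨hc1, hc2, hc3⟩ := hCg F σ K hσ1 hσ2 hFan hFb
  have hsum : LSeriesSummable
      (fun n : ℕ => (ArithmeticFunction.vonMangoldt n : ℂ)) (σ : ℂ) :=
    ArithmeticFunction.LSeriesSummable_vonMangoldt (s := (σ : ℂ)) (by simpa using hσ1)
  have hser : ∀ t : ℝ, LSeries
      (fun n : ℕ => (ArithmeticFunction.vonMangoldt n : ℂ)) (lin σ t) =
      F (lin σ t) + 1 / (lin σ t - 1) := by
    intro t
    have hre : 1 < (lin σ t).re := by rw [lin_re]; exact hσ1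
    have := ArithmeticFunction.LSeries_vonMangoldt_eq_deriv_riemannZeta_div hre
    rw [hF]
    simp only [sub_add_cancel]
    exact this
  have key := h3 _ 1 F σ hσ1 hsum hser j hc1 hc2 x hx1'
  rw [one_mul, rpow_one_add_inv_log hxpos hl1] at key
  set S : ℝ := ∑ n ∈ Icc 1 ⌊x⌋₊, ArithmeticFunction.vonMangoldt n * (1 - (n : ℝ) / x) with hS
  have hcast : (∑ n ∈ Icc 1 ⌊x⌋₊, (ArithmeticFunction.vonMangoldt n : ℂ) * (1 - (n : ℂ) / x) -
      ((x : ℂ) / 2 - 1 + 1 / (2 * x))) = ((S - (x / 2 - 1 + 1 / (2 * x)) : ℝ) : ℂ) := by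
    rw [hS]
    push_cast
    rfl
  rw [hcast, Complex.norm_real, Real.norm_eq_abs] at key
  have hpos : 0 < (2 * π * log x) ^ j := by
    have : 0 < log x := by linarith only [hl1]
    positivity
  have hkey2 : |S - (x / 2 - 1 + 1 / (2 * x))| * (2 * π * log x) ^ j ≤ x * (M / 2) := by
    refine key.trans ?_
    calc Real.exp 1 * x * ∫ t, ‖iteratedDeriv j (Gk F σ) t‖
        ≤ Real.exp 1 * x * (Cg * K) :=
          mul_le_mul_of_nonneg_left hc3 (by positivity)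
      _ = x * (M / 2) := by rw [hM]; ring
  have hcmp := final_cmp C M (log x) hC hM0 hl1 hlM
  rw [← hj] at hcmp
  have hl12 : 1 ≤ (log x) ^ (1 / 2 : ℝ) := Real.one_le_rpow hl1 (by norm_num)
  have hfirst : |S - (x / 2 - 1 + 1 / (2 * x))| ≤ 1 / 2 * x / (log x) ^ C := by
    rw [le_div_iff₀ hlC]
    refine le_of_mul_le_mul_right ?_ hpos
    calc _ = (|S - (x / 2 - 1 + 1 / (2 * x))| * (2 * π * log x) ^ j) * (log x) ^ C := by ring
      _ ≤ x * (M / 2) * (log x) ^ C := mul_le_mul_of_nonneg_right hkey2 hlC.le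
      _ = 1 / 2 * x * (M * 1 * (log x) ^ C) := by ring
      _ ≤ 1 / 2 * x * (M * (log x) ^ (1 / 2 : ℝ) * (log x) ^ C) := by
          refine mul_le_mul_of_nonneg_left ?_ (by positivity)
          exact mul_le_mul_of_nonneg_right (mul_le_mul_of_nonneg_left hl12 hM0) hlC.le
      _ ≤ 1 / 2 * x * (2 * π * log x) ^ j := mul_le_mul_of_nonneg_left hcmp (by positivity)
  have hsecond : (1 : ℝ) ≤ 1 / 2 * x / (log x) ^ C := by
    rw [le_div_iff₀ hlC, one_mul]
    exact hlCx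
  have hthird : |(-1 : ℝ) + 1 / (2 * x)| ≤ 1 := by
    have h4 : 0 ≤ 1 / (2 * x) := by positivity
    have h5 : 1 / (2 * x) ≤ 1 := by
      rw [div_le_one (by positivity)]
      linarith only [hx1', hlC, hlCx]
    rw [abs_le]
    constructor <;> linarith only [h4, h5]
  calc |S - x / 2| = |(S - (x / 2 - 1 + 1 / (2 * x))) + (-1 + 1 / (2 * x))| := by
        congr 1
        ring
    _ ≤ |S - (x / 2 - 1 + 1 / (2 * x))| + |-1 + 1 / (2 * x)| := abs_add_le _ _
    _ ≤ 1 / 2 * x / (log x) ^ C + 1 / 2 * x / (log x) ^ C :=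
        add_le_add hfirst (hthird.trans hsecond)
    _ = x / (log x) ^ C := by ring

end Vale.Agent.P013.J
end

section

/-!
# Derivatives of the Riesz kernel times a Dirichlet series on a vertical line
-/

open Finset Real

namespace Vale.Agent.P013.J

theorem gk_lin_re (σ t : ℝ) : (lin σ t).re = σ := by
  simp [lin]

theorem gk_hasDerivAt_lin (σ t : ℝ) : HasDerivAt (lin σ) (2 * π * Complex.I) t := by
  have h2 : HasDerivAt (fun v : ℝ => (v:ℂ)) 1 t := Complex.ofRealCLM.hasDerivAt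
  have h3 := ((h2.const_mul (2 * π : ℂ)).mul_const Complex.I).const_add (σ : ℂ)
  rw [mul_one] at h3
  exact h3

theorem gk_normSq (σ t : ℝ) : ‖lin σ t‖ ^ 2 = σ ^ 2 + (2 * π * t) ^ 2 := by
  rw [Complex.sq_norm, Complex.normSq_apply, lin]
  simp
  ring

theorem gk_norm_lin {σ : ℝ} (hσ : 1 < σ) (t : ℝ) : (1 + |t|) ^ 2 ≤ 2 * ‖lin σ t‖ ^ 2 := by
  rw [gk_normSq]
  have h1 : (1:ℝ) ≤ (2 * π) ^ 2 := by
    have := Real.pi_gt_three
    nlinarith only [this]
  have h2 : (0:ℝ) ≤ t ^ 2 := sq_nonneg t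
  have h3 : |t| ^ 2 = t ^ 2 := sq_abs t
  have h4 : (0:ℝ) ≤ (1 - |t|) ^ 2 := sq_nonneg _
  (by_contra nlg; linarith [mul_nonneg (sq_nonneg (σ : ℝ)) (le_of_lt (sub_pos.2 (not_le.1 nlg))), mul_nonneg (sq_nonneg (σ : ℝ)) (le_of_lt (sub_pos.2 hσ)), mul_nonneg (sq_nonneg (σ : ℝ)) (sub_nonneg.2 h4), mul_eq_zero_of_left (sub_eq_zero.2 h3) (0 - (0 - (1 + |t|) ^ 2)), mul_pos (sub_pos.2 (not_le.1 nlg)) (sub_pos.2 (not_le.1 nlg)), mul_pos (sub_pos.2 (not_le.1 nlg)) (sub_pos.2 hσ), mul_eq_zero_of_left (sub_eq_zero.2 h3) ((1 + |t|) ^ 2 - (2 * (σ ^ 2 + (2 * π * t) ^ 2))), mul_nonneg (le_of_lt (sub_pos.2 (not_le.1 nlg))) (sub_nonneg.2 h4), mul_nonneg (le_of_lt (sub_pos.2 (not_le.1 nlg))) (sub_nonneg.2 (mul_nonneg h2 (sub_nonneg.2 h1))), mul_pos (sub_pos.2 hσ) (sub_pos.2 hσ), mul_eq_zero_of_left (sub_eq_zero.2 h3) (σ - (1)), mul_nonneg (le_of_lt (sub_pos.2 hσ)) (sub_nonneg.2 h4), mul_nonneg (le_of_lt (sub_pos.2 hσ)) (sub_nonneg.2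 (mul_nonneg h2 (sub_nonneg.2 h1))), mul_nonneg (sub_nonneg.2 h1) (sub_nonneg.2 h2), mul_eq_zero_of_left (sub_eq_zero.2 h3) (t ^ 2 - (0)), mul_eq_zero_of_left (sub_eq_zero.2 h3) (|t| ^ 2 - (t ^ 2)), mul_eq_zero_of_left (sub_eq_zero.2 h3) ((1 - |t|) ^ 2 - (0)), mul_nonneg (sub_nonneg.2 h4) (sub_nonneg.2 h4), mul_nonneg (sub_nonneg.2 h4) (sub_nonneg.2 (mul_nonneg h2 (sub_nonneg.2 h1)))])

/-- the rational factor -/
noncomputable def gkR (s : ℂ) : ℂ := 1 / (s * (s + 1))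

theorem gk_ne {s : ℂ} (hs : 0 < s.re) : s * (s + 1) ≠ 0 := by
  refine mul_ne_zero ?_ ?_
  · rintro rfl
    simp at hs
  · intro h
    have := congrArg Complex.re h
    simp at this
    linarith

theorem gkR_analyticAt {s : ℂ} (hs : 0 < s.re) : AnalyticAt ℂ gkR s := by
  unfold gkR
  exact AnalyticAt.div (by fun_prop) (by fun_prop) (gk_ne hs)

theorem gkR_iteratedDeriv {σ : ℝ} (hσ : 1 < σ) (t : ℝ) (i : ℕ) :
    ‖iteratedDeriv i gkR (lin σ t)‖ ≤ (i.factorial : ℝ) * 2 ^ i * 8 / (1 + |t|) ^ 2 := by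
  have hball : ∀ z : ℂ, dist z (lin σ t) ≤ 1 / 2 → 1 / 2 < z.re ∧ ‖lin σ t‖ / 2 ≤ ‖z‖ := by
    intro z hz
    rw [dist_eq_norm] at hz
    have h1 := Complex.abs_re_le_norm (z - lin σ t)
    rw [Complex.sub_re, gk_lin_re] at h1
    have h2 := abs_le.1 (h1.trans hz)
    have h3 : ‖lin σ t‖ ≤ ‖z‖ + ‖z - lin σ t‖ := by
      have := norm_sub_norm_le (lin σ t) z
      rw [norm_sub_rev] at this
      linarith only [this]
    have h4 := Complex.re_le_norm (lin σ t)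
    rw [gk_lin_re] at h4
    constructor
    · linarith only [h2.1, hσ, h2]
    · linarith only [hσ, hz, h3, h4]
  have hd : DiffContOnCl ℂ gkR (Metric.ball (lin σ t) (1 / 2)) := by
    refine DifferentiableOn.diffContOnCl fun z hz => ?_
    have hz' : dist z (lin σ t) ≤ 1 / 2 := by
      have := Metric.closure_ball_subset_closedBall hz
      exact Metric.mem_closedBall.1 this
    exact (gkR_analyticAt (by linarith only [(hball z hz').1, hball, hz'])).differentiableAt.differentiableWithinAt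
  have hL : 0 < ‖lin σ t‖ := by
    have h4 := Complex.re_le_norm (lin σ t)
    rw [gk_lin_re] at h4
    linarith only [hσ, h4]
  have h := Complex.norm_iteratedDeriv_le_of_forall_mem_sphere_norm_le (c := lin σ t)
    (R := 1 / 2) (C := 4 / ‖lin σ t‖ ^ 2) i (by norm_num) hd (by
      intro z hz
      obtain ⟨h1, h2⟩ := hball z (le_of_eq (Metric.mem_sphere.1 hz))
      have h3 : ‖z‖ ≤ ‖z + 1‖ := by
        have h5 : ‖z‖ ^ 2 ≤ ‖z + 1‖ ^ 2 := by
          rw [Complex.sq_norm, Complex.sq_norm, Complex.normSq_apply, Complex.normSq_apply]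
          simp only [Complex.add_re, Complex.one_re, Complex.add_im, Complex.one_im, add_zero]
          linarith only [h1]
        exact le_of_sq_le_sq h5 (norm_nonneg _)
      unfold gkR
      rw [norm_div, norm_one, norm_mul]
      have h6 : ‖lin σ t‖ ^ 2 / 4 ≤ ‖z‖ * ‖z + 1‖ := by
        nlinarith only [norm_nonneg z, hL, h2, h3]
      have h7 : 4 / ‖lin σ t‖ ^ 2 = 1 / (‖lin σ t‖ ^ 2 / 4) := by
        field_simp
      rw [h7]
      exact one_div_le_one_div_of_le (by positivity) h6)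
  refine h.trans ?_
  have h8 : (i.factorial : ℝ) * (4 / ‖lin σ t‖ ^ 2) / (1 / 2) ^ i =
      (i.factorial : ℝ) * 2 ^ i * (4 / ‖lin σ t‖ ^ 2) := by
    rw [one_div, inv_pow]
    field_simp
  rw [h8, mul_div_assoc]
  refine mul_le_mul_of_nonneg_left ?_ (by positivity)
  rw [div_le_div_iff₀ (by positivity) (by positivity)]
  have := gk_norm_lin hσ t
  linarith only [this]

theorem gk_iteratedDeriv {K : ℂ → ℂ} {σ : ℝ} (hσ : 1 < σ)
    (hK : ∀ s : ℂ, 1 < s.re → AnalyticAt ℂ K s) (i : ℕ) :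
    iteratedDeriv i (fun t : ℝ => K (lin σ t)) =
      fun t : ℝ => (2 * π * Complex.I) ^ i * iteratedDeriv i K (lin σ t) := by
  induction i with
  | zero =>
    simp
  | succ i ih =>
    rw [iteratedDeriv_succ, ih]
    funext t
    have h1 : AnalyticAt ℂ (iteratedDeriv i K) (lin σ t) := by
      rw [iteratedDeriv_eq_iterate]
      exact (hK _ (by rw [gk_lin_re]; exact hσ)).iterated_deriv i
    have h2 : HasDerivAt (iteratedDeriv i K) (iteratedDeriv (i + 1) K (lin σ t)) (lin σ t) := by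
      rw [iteratedDeriv_succ]
      exact h1.differentiableAt.hasDerivAt
    have h3 := (h2.comp_of_eq t (gk_hasDerivAt_lin σ t) rfl).const_mul ((2 * π * Complex.I) ^ i)
    have h4 := h3.deriv
    simp only [Function.comp_def] at h4
    rw [h4]
    ring

theorem gk_contDiff {K : ℂ → ℂ} {σ : ℝ} (hσ : 1 < σ)
    (hK : ∀ s : ℂ, 1 < s.re → AnalyticAt ℂ K s) (j : ℕ) :
    ContDiff ℝ j (fun t : ℝ => K (lin σ t)) := by
  rw [contDiff_iff_contDiffAt]
  intro t
  have h1 : ContDiffAt ℂ j K (lin σ t) := (hK _ (by rw [gk_lin_re]; exact hσ)).contDiffAt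
  have h2 : ContDiff ℝ j (lin σ) := by
    unfold lin
    exact contDiff_const.add ((contDiff_const.mul Complex.ofRealCLM.contDiff).mul contDiff_const)
  exact (h1.restrict_scalars ℝ).comp t h2.contDiffAt

theorem gkBound : GkBoundStmt := by
  intro j
  set I₀ : ℝ := ∫ t : ℝ, (1 + ‖t‖) ^ (-(3/2) : ℝ) with hI₀
  have hint : MeasureTheory.Integrable (fun t : ℝ => (1 + ‖t‖) ^ (-(3/2) : ℝ)) :=
    integrable_one_add_norm (by simp; norm_num)
  have hI0 : 0 ≤ I₀ := MeasureTheory.integral_nonneg fun t => by positivity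
  have hC : ∀ i : ℕ, 0 ≤ (2 * π) ^ i * (2 ^ i * ((i.factorial : ℝ) * 2 ^ i * 8)) :=
    fun i => by positivity
  refine ⟨(2 * π) ^ j * (2 ^ j * ((j.factorial : ℝ) * 2 ^ j * 8)) * I₀ + 1, ?_, ?_⟩
  · have := mul_nonneg (hC j) hI0
    linarith only [this]
  intro F σ B hσ hσ2 hF hFB
  have hB : 0 ≤ B := by
    have h := (norm_nonneg _).trans (hFB 0 (Nat.zero_le _) 0)
    simpa using h
  set K : ℂ → ℂ := fun s => F s * gkR s with hK
  have hKa : ∀ s : ℂ, 1 < s.re → AnalyticAt ℂ K s := fun s hs =>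
    (hF s hs).mul (gkR_analyticAt (by linarith only [hs]))
  have hGk : Gk F σ = fun t : ℝ => K (lin σ t) := by
    funext t
    simp only [hK, Gk, gkR]
    rw [mul_one_div]
  have hbound : ∀ i ≤ j, ∀ t : ℝ, ‖iteratedDeriv i (Gk F σ) t‖ ≤
      (2 * π) ^ i * (2 ^ i * ((i.factorial : ℝ) * 2 ^ i * 8)) * B * (1 + ‖t‖) ^ (-(3/2) : ℝ) := by
    intro i hi t
    rw [hGk, gk_iteratedDeriv hσ hKa]
    have hs : 1 < (lin σ t).re := by rw [gk_lin_re]; exact hσ
    have h1 : iteratedDeriv i K (lin σ t) = ∑ l ∈ range (i + 1), (i.choose l : ℂ) *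
        iteratedDeriv l F (lin σ t) * iteratedDeriv (i - l) gkR (lin σ t) :=
      iteratedDeriv_fun_mul (hF _ hs).contDiffAt (gkR_analyticAt (by linarith only [hs])).contDiffAt
    have ht : (0:ℝ) < 1 + |t| := by positivity
    have h2 : ‖iteratedDeriv i K (lin σ t)‖ ≤
        2 ^ i * ((i.factorial : ℝ) * 2 ^ i * 8) * B * (1 + ‖t‖) ^ (-(3/2) : ℝ) := by
      rw [h1]
      refine (norm_sum_le _ _).trans ?_
      have h3 : ∀ l ∈ range (i + 1), ‖(i.choose l : ℂ) *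
          iteratedDeriv l F (lin σ t) * iteratedDeriv (i - l) gkR (lin σ t)‖ ≤
          (i.choose l : ℝ) * (((i.factorial : ℝ) * 2 ^ i * 8) * B *
            (1 + ‖t‖) ^ (-(3/2) : ℝ)) := by
        intro l hl
        rw [Finset.mem_range] at hl
        rw [norm_mul, norm_mul, Complex.norm_natCast, mul_assoc]
        refine mul_le_mul_of_nonneg_left ?_ (by positivity)
        have h4 := hFB l (by omega) t
        have h5 := gkR_iteratedDeriv hσ t (i - l)
        have h6 : ((i - l).factorial : ℝ) * 2 ^ (i - l) ≤ (i.factorial : ℝ) * 2 ^ i := by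
          refine mul_le_mul ?_ ?_ (by positivity) (by positivity)
          · exact_mod_cast Nat.factorial_le (Nat.sub_le i l)
          · exact pow_le_pow_right₀ (by norm_num) (Nat.sub_le i l)
        have h7 : (|t| + 1) ^ (1 / 2 : ℝ) / (1 + |t|) ^ 2 = (1 + ‖t‖) ^ (-(3/2) : ℝ) := by
          rw [Real.norm_eq_abs, add_comm |t| 1, ← Real.rpow_two, ← Real.rpow_sub ht]
          norm_num
        calc ‖iteratedDeriv l F (lin σ t)‖ * ‖iteratedDeriv (i - l) gkR (lin σ t)‖ ≤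
            (B * (|t| + 1) ^ (1 / 2 : ℝ)) *
              (((i - l).factorial : ℝ) * 2 ^ (i - l) * 8 / (1 + |t|) ^ 2) :=
              mul_le_mul h4 h5 (norm_nonneg _) (by positivity)
          _ ≤ (B * (|t| + 1) ^ (1 / 2 : ℝ)) *
              ((i.factorial : ℝ) * 2 ^ i * 8 / (1 + |t|) ^ 2) := by gcongr
          _ = ((i.factorial : ℝ) * 2 ^ i * 8) * B *
              ((|t| + 1) ^ (1 / 2 : ℝ) / (1 + |t|) ^ 2) := by ring
          _ = _ := by rw [h7]
      refine (Finset.sum_le_sum h3).trans (le_of_eq ?_)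
      rw [← Finset.sum_mul]
      have h4 : ∑ l ∈ range (i + 1), (i.choose l : ℝ) = 2 ^ i := by
        exact_mod_cast Nat.sum_range_choose i
      rw [h4]
      ring
    rw [norm_mul, norm_pow, norm_mul, norm_mul, Complex.norm_I, mul_one, Complex.norm_real,
      Real.norm_eq_abs, abs_of_pos Real.pi_pos]
    have h8 : ‖(2:ℂ)‖ = 2 := by simp
    rw [h8]
    calc (2 * π) ^ i * ‖iteratedDeriv i K (lin σ t)‖ ≤ (2 * π) ^ i *
        (2 ^ i * ((i.factorial : ℝ) * 2 ^ i * 8) * B * (1 + ‖t‖) ^ (-(3/2) : ℝ)) := by gcongr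
      _ = _ := by ring
  have hcd : ContDiff ℝ j (Gk F σ) := by
    rw [hGk]
    exact gk_contDiff hσ hKa j
  have hci : ∀ i ≤ j, Continuous (iteratedDeriv i (Gk F σ)) := fun i hi =>
    hcd.continuous_iteratedDeriv i (by exact_mod_cast hi)
  refine ⟨hcd, ?_, ?_⟩
  · intro i hi
    refine MeasureTheory.Integrable.mono' (hint.const_mul
      ((2 * π) ^ i * (2 ^ i * ((i.factorial : ℝ) * 2 ^ i * 8)) * B)) (hci i hi).aestronglyMeasurable
      (Filter.Eventually.of_forall fun t => hbound i hi t)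
  · calc ∫ t, ‖iteratedDeriv j (Gk F σ) t‖ ≤
        ∫ t : ℝ, (2 * π) ^ j * (2 ^ j * ((j.factorial : ℝ) * 2 ^ j * 8)) * B *
          (1 + ‖t‖) ^ (-(3/2) : ℝ) := by
          refine MeasureTheory.integral_mono_of_nonneg
            (Filter.Eventually.of_forall fun t => norm_nonneg _) (hint.const_mul _)
            (Filter.Eventually.of_forall fun t => hbound j le_rfl t)
      _ = (2 * π) ^ j * (2 ^ j * ((j.factorial : ℝ) * 2 ^ j * 8)) * B * I₀ := by
          rw [MeasureTheory.integral_const_mul]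
      _ ≤ _ := by
          linarith only [hB]

end Vale.Agent.P013.J
end

section

open Finset Real

namespace Vale.Agent.P013.J

/-! ### Case A and case B of the lower bound for `L(s, χ)` -/

theorem ll_zeta_near (hZ : ZApproxStmt) (σ : ℝ) (h1 : 1 < σ) (h2 : σ ≤ 2) :
    ‖riemannZeta (σ : ℂ)‖ ≤ 3 / (σ - 1) := by
  have hne : (σ : ℂ) ≠ 1 := by
    intro h
    have : σ = 1 := by exact_mod_cast h
    linarith
  have h := hZ (σ : ℂ) (by simpa using by linarith) hne 1 le_rfl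
  have hσ : 0 < σ := by linarith only [h1]
  have hs1 : 0 < σ - 1 := by linarith only [h1]
  have e1 : ‖(σ : ℂ)‖ / (σ : ℂ).re * ((1 : ℕ) : ℝ) ^ (-(σ : ℂ).re) = 1 := by
    simp [abs_of_pos hσ, hσ.ne']
  rw [e1] at h
  have e2 : ∑ n ∈ Icc 1 1, ((n : ℕ) : ℂ) ^ (-(σ : ℂ)) = 1 := by simp
  rw [e2] at h
  have e3 : (((1 : ℕ) : ℂ) ^ (1 - (σ : ℂ)) / ((σ : ℂ) - 1)) = ((1 / (σ - 1) : ℝ) : ℂ) := by
    push_cast
    rw [Complex.one_cpow]
  rw [e3] at h
  have h4 : ‖riemannZeta (σ : ℂ)‖ ≤ ‖riemannZeta (σ : ℂ) - 1 - ((1 / (σ - 1) : ℝ) : ℂ)‖ +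
      ‖(1 : ℂ) + ((1 / (σ - 1) : ℝ) : ℂ)‖ := by
    have := norm_add_le (riemannZeta (σ : ℂ) - 1 - ((1 / (σ - 1) : ℝ) : ℂ))
      ((1 : ℂ) + ((1 / (σ - 1) : ℝ) : ℂ))
    have e : riemannZeta (σ : ℂ) - 1 - ((1 / (σ - 1) : ℝ) : ℂ) +
        ((1 : ℂ) + ((1 / (σ - 1) : ℝ) : ℂ)) = riemannZeta (σ : ℂ) := by ring
    rwa [e] at this
  have h5 : ‖(1 : ℂ) + ((1 / (σ - 1) : ℝ) : ℂ)‖ ≤ 1 + 1 / (σ - 1) := by
    refine (norm_add_le _ _).trans ?_
    rw [Complex.norm_real, Real.norm_of_nonneg (by positivity)]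
    simp
  have h6 : 1 ≤ 1 / (σ - 1) := by
    rw [le_div_iff₀ hs1]
    linarith only [h2]
  have h7 : 3 / (σ - 1) = 3 * (1 / (σ - 1)) := by ring
  rw [h7]
  linarith only [h6, h5, h4, h]

theorem ll_inv (hZ : ZApproxStmt) (q : ℕ) [NeZero q] (χ : DirichletCharacter ℂ q) (s : ℂ)
    (h1 : 1 < s.re) (h2 : s.re ≤ 2) : (s.re - 1) / 3 ≤ ‖DirichletCharacter.LFunction χ s‖ := by
  rw [DirichletCharacter.LFunction_eq_LSeries χ h1]
  have hmul := DirichletCharacter.LSeries.mul_mu_eq_one χ h1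
  set g : ℕ → ℂ := (fun n : ℕ => χ (n : ZMod q)) * (fun n : ℕ => ((ArithmeticFunction.moebius n : ℤ) : ℂ)) with hg
  have hsum1 : LSeriesSummable (1 : ℕ → ℂ) (s.re : ℂ) := by
    rw [LSeriesSummable_one_iff]
    simpa using h1
  have hterm : ∀ n, ‖LSeries.term g s n‖ ≤ ‖LSeries.term (1 : ℕ → ℂ) (s.re : ℂ) n‖ := by
    intro n
    rw [LSeries.norm_term_eq, LSeries.norm_term_eq]
    split_ifs with hn
    · rfl
    · simp only [Complex.ofReal_re, Pi.one_apply, norm_one]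
      gcongr
      rw [hg, Pi.mul_apply, norm_mul]
      have a1 := χ.norm_le_one (n : ZMod q)
      have a2 : ‖((ArithmeticFunction.moebius n : ℤ) : ℂ)‖ ≤ 1 := by
        rw [Complex.norm_intCast]
        exact_mod_cast ArithmeticFunction.abs_moebius_le_one
      calc _ ≤ (1 : ℝ) * 1 := mul_le_mul a1 a2 (norm_nonneg _) zero_le_one
        _ = 1 := one_mul 1
  have hbound : ‖LSeries g s‖ ≤ ‖riemannZeta (s.re : ℂ)‖ := by
    have hz : riemannZeta (s.re : ℂ) = ((∑' n, ‖LSeries.term (1 : ℕ → ℂ) (s.re : ℂ) n‖ : ℝ) : ℂ) := by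
      rw [← LSeries_one_eq_riemannZeta (by simpa using h1), LSeries, Complex.ofReal_tsum]
      congr 1
      ext n
      rw [LSeries.norm_term_eq, LSeries.term_def]
      split_ifs with hn
      · simp
      · simp only [Pi.one_apply, norm_one, Complex.ofReal_re]
        rw [Complex.ofReal_div, Complex.ofReal_cpow (Nat.cast_nonneg n)]
        simp
    rw [hz, Complex.norm_real, Real.norm_of_nonneg (tsum_nonneg fun _ => norm_nonneg _), LSeries]
    have hs2 : Summable fun n => ‖LSeries.term (1 : ℕ → ℂ) (s.re : ℂ) n‖ := hsum1.norm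
    have hs3 : Summable fun n => ‖LSeries.term g s n‖ :=
      Summable.of_nonneg_of_le (fun _ => norm_nonneg _) hterm hs2
    exact (norm_tsum_le_tsum_norm hs3).trans (hs3.tsum_le_tsum hterm hs2)
  have hz2 := ll_zeta_near hZ s.re h1 h2
  have hLpos : 0 ≤ ‖LSeries (fun n : ℕ => χ (n : ZMod q)) s‖ := norm_nonneg _
  have h3 : ‖LSeries (fun n : ℕ => χ (n : ZMod q)) s‖ * ‖LSeries g s‖ = 1 := by
    rw [← norm_mul, hmul, norm_one]
  have h4 : 0 < s.re - 1 := by linarith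
  have h5 : 1 ≤ ‖LSeries (fun n : ℕ => χ (n : ZMod q)) s‖ * (3 / (s.re - 1)) := by
    calc (1 : ℝ) = ‖LSeries (fun n : ℕ => χ (n : ZMod q)) s‖ * ‖LSeries g s‖ := h3.symm
      _ ≤ _ := mul_le_mul_of_nonneg_left (hbound.trans hz2) hLpos
  have h6 : (s.re - 1) / 3 = 1 * ((s.re - 1) / 3) := by ring
  calc (s.re - 1) / 3 = 1 * ((s.re - 1) / 3) := by ring
    _ ≤ ‖LSeries (fun n : ℕ => χ (n : ZMod q)) s‖ * (3 / (s.re - 1)) * ((s.re - 1) / 3) := by
      gcongr
    _ = ‖LSeries (fun n : ℕ => χ (n : ZMod q)) s‖ := by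
      field_simp

theorem ll_prod (η : ℝ) (hη : 0 < η) : ∃ C : ℝ, 1 ≤ C ∧ ∀ q : ℕ, 1 ≤ q →
    ∏ p ∈ q.primeFactors, (1 + 1 / (p : ℝ)) ≤ C * (q : ℝ) ^ η := by
  -- `K` with `1 + 1/p ≤ p^η` for `p > K`
  set K : ℕ := ⌈1 / η⌉₊ + 3 with hK
  refine ⟨2 ^ K, one_le_pow₀ (by norm_num), fun q hq => ?_⟩
  have key : ∀ p ∈ q.primeFactors, (1 + 1 / (p : ℝ)) ≤ (if p < K then 2 else 1) * (p : ℝ) ^ η := by
    intro p hp
    have hpp := Nat.prime_of_mem_primeFactors hp
    have hp1 : (1 : ℝ) ≤ p := by exact_mod_cast hpp.one_lt.le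
    split_ifs with h
    · have a1 : 1 / (p : ℝ) ≤ 1 := by
        rw [div_le_one (by linarith only [hp1])]
        exact hp1
      have a2 : 1 ≤ (p : ℝ) ^ η := Real.one_le_rpow hp1 hη.le
      linarith only [a1, a2]
    · push Not at h
      rw [one_mul]
      have hpK : (K : ℝ) ≤ p := by exact_mod_cast h
      have hceil : 1 / η ≤ ⌈1 / η⌉₊ := Nat.le_ceil _
      have hpη : 1 / η ≤ p := by
        have : (K : ℝ) = ⌈1 / η⌉₊ + 3 := by rw [hK]; push_cast; ring
        linarith only [hpK, hceil, this]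
      have hp3 : (3 : ℝ) ≤ p := by
        have : (K : ℝ) = ⌈1 / η⌉₊ + 3 := by rw [hK]; push_cast; ring
        have h0 : (0 : ℝ) ≤ ⌈1 / η⌉₊ := Nat.cast_nonneg _
        linarith only [hpK, this]
      have hlog : 1 ≤ Real.log p := by
        rw [Real.le_log_iff_exp_le (by linarith only [hp3])]
        have := Real.exp_one_lt_d9
        linarith only [hp3, this]
      have a3 : 1 + Real.log p * η ≤ (p : ℝ) ^ η := by
        rw [Real.rpow_def_of_pos (by linarith only [hp3])]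
        linarith only [Real.add_one_le_exp (Real.log p * η)]
      have a4 : 1 / (p : ℝ) ≤ η := by
        rw [div_le_iff₀ (by linarith only [hp3])]
        rw [div_le_iff₀ hη] at hpη
        linarith only [hpη]
      have a5 : η ≤ Real.log p * η := le_mul_of_one_le_left hη.le hlog
      linarith only [a3, a4, a5]
  have hprod : ∏ p ∈ q.primeFactors, (1 + 1 / (p : ℝ)) ≤
      ∏ p ∈ q.primeFactors, ((if p < K then 2 else 1) * (p : ℝ) ^ η) := by
    refine Finset.prod_le_prod (fun p _ => by positivity) key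
  refine hprod.trans ?_
  rw [Finset.prod_mul_distrib]
  have b1 : ∏ p ∈ q.primeFactors, (if p < K then (2 : ℝ) else 1) ≤ 2 ^ K := by
    rw [← Finset.prod_filter, Finset.prod_const]
    refine pow_le_pow_right₀ (by norm_num) ?_
    calc _ ≤ (Finset.range K).card := Finset.card_le_card (by
          intro p hp
          simp only [Finset.mem_filter] at hp
          exact Finset.mem_range.mpr hp.2)
      _ = K := Finset.card_range K
  have b2 : ∏ p ∈ q.primeFactors, (p : ℝ) ^ η ≤ (q : ℝ) ^ η := by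
    rw [Real.finsetProd_rpow _ _ (fun p _ => Nat.cast_nonneg p)]
    refine Real.rpow_le_rpow (Finset.prod_nonneg fun p _ => Nat.cast_nonneg p) ?_ hη.le
    rw [← Nat.cast_prod]
    exact_mod_cast Nat.le_of_dvd hq (Nat.prod_primeFactors_dvd q)
  exact mul_le_mul b1 b2 (Finset.prod_nonneg fun p _ => by positivity) (by positivity)

theorem ll_triv (q : ℕ) [NeZero q] (s : ℂ) (hs : s ≠ 1) (h1 : 1 ≤ s.re) :
    ‖DirichletCharacter.LFunction (1 : DirichletCharacter ℂ q) s‖ ≤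
      (∏ p ∈ q.primeFactors, (1 + 1 / (p : ℝ))) * ‖riemannZeta s‖ := by
  have h := DirichletCharacter.LFunctionTrivChar_eq_mul_riemannZeta (N := q) hs
  rw [DirichletCharacter.LFunctionTrivChar] at h
  rw [h, norm_mul, norm_prod]
  gcongr with p hp
  have hpp := Nat.prime_of_mem_primeFactors hp
  have hp1 : (1 : ℝ) ≤ p := by exact_mod_cast hpp.one_lt.le
  refine (norm_sub_le _ _).trans ?_
  rw [norm_one, Complex.norm_natCast_cpow_of_pos hpp.pos]
  gcongr
  rw [Complex.neg_re, Real.rpow_neg (by linarith), one_div]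
  gcongr
  calc (p : ℝ) = (p : ℝ) ^ (1 : ℝ) := (Real.rpow_one _).symm
    _ ≤ (p : ℝ) ^ s.re := Real.rpow_le_rpow_of_exponent_le hp1 h1

theorem ll_zeta_far (hZ : ZApproxStmt) (η : ℝ) (hη : 0 < η) : ∃ C : ℝ, 1 ≤ C ∧
    ∀ s : ℂ, 1 < s.re → s.re ≤ 2 → s.im ≠ 0 →
      ‖riemannZeta s‖ ≤ 1 / |s.im| + C * (|s.im| + 2) ^ η := by
  refine ⟨2 + 2 ^ η / η, by have : 0 < (2 : ℝ) ^ η / η := by positivity
                            linarith only [this], fun s h1 h2 h3 => ?_⟩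
  have hne : s ≠ 1 := by
    intro h
    rw [h] at h1
    simp at h1
  set t := |s.im| with ht
  have htpos : 0 < t := abs_pos.mpr h3
  set N : ℕ := ⌈t⌉₊ + 2 with hN
  have hN1 : 1 ≤ N := by omega
  have hNr : (N : ℝ) = ⌈t⌉₊ + 2 := by rw [hN]; push_cast; ring
  have hNlo : t + 2 ≤ N := by
    have := Nat.le_ceil t
    linarith only [hNr, this]
  have hNhi : (N : ℝ) ≤ t + 3 := by
    have := (Nat.ceil_lt_add_one htpos.le).le
    linarith only [hNr, this]
  have hN0 : (0 : ℝ) < N := by linarith only [htpos, hNlo]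
  have hσ : 0 < s.re := by linarith only [h1]
  have h := hZ s hσ hne N hN1
  have a1 : ‖∑ n ∈ Icc 1 N, ((n : ℕ) : ℂ) ^ (-s)‖ ≤ 1 + Real.log N := by
    refine (norm_sum_le _ _).trans ?_
    have b1 : ∑ n ∈ Icc 1 N, ‖((n : ℕ) : ℂ) ^ (-s)‖ ≤ ∑ n ∈ Icc 1 N, ((n : ℝ))⁻¹ := by
      refine Finset.sum_le_sum fun n hn => ?_
      have hn1 := (Finset.mem_Icc.mp hn).1
      have hn1' : (1 : ℝ) ≤ n := by exact_mod_cast hn1
      rw [Complex.norm_natCast_cpow_of_pos (by omega), Complex.neg_re,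
        Real.rpow_neg (by linarith only [hn1'])]
      gcongr
      calc (n : ℝ) = (n : ℝ) ^ (1 : ℝ) := (Real.rpow_one _).symm
        _ ≤ (n : ℝ) ^ s.re := Real.rpow_le_rpow_of_exponent_le hn1' h1.le
    refine b1.trans ?_
    have b2 := harmonic_le_one_add_log N
    rw [harmonic_eq_sum_Icc] at b2
    push_cast at b2
    exact b2
  have a2 : ‖(N : ℂ) ^ (1 - s) / (s - 1)‖ ≤ 1 / t := by
    rw [norm_div, Complex.norm_natCast_cpow_of_pos (by omega)]
    have c1 : (N : ℝ) ^ (1 - s).re ≤ 1 := by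
      rw [Complex.sub_re, Complex.one_re]
      exact Real.rpow_le_one_of_one_le_of_nonpos (by exact_mod_cast hN1) (by linarith only [h1])
    have c2 : t ≤ ‖s - 1‖ := by
      have := Complex.abs_im_le_norm (s - 1)
      simpa [ht] using this
    gcongr
  have a3 : ‖s‖ / s.re * (N : ℝ) ^ (-s.re) ≤ 1 := by
    have d1 : ‖s‖ ≤ t + 2 := by
      refine (Complex.norm_le_abs_re_add_abs_im s).trans ?_
      rw [abs_of_pos hσ]
      linarith only [h2]
    have d2 : ‖s‖ / s.re ≤ t + 2 := by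
      rw [div_le_iff₀ hσ]
      exact d1.trans (le_mul_of_one_le_right (by linarith only [htpos]) (by linarith only [h1]))
    have d3 : (N : ℝ) ^ (-s.re) ≤ (N : ℝ)⁻¹ := by
      rw [Real.rpow_neg hN0.le]
      gcongr
      calc (N : ℝ) = (N : ℝ) ^ (1 : ℝ) := (Real.rpow_one _).symm
        _ ≤ (N : ℝ) ^ s.re :=
          Real.rpow_le_rpow_of_exponent_le (by exact_mod_cast hN1) h1.le
    calc ‖s‖ / s.re * (N : ℝ) ^ (-s.re) ≤ (t + 2) * (N : ℝ)⁻¹ := by gcongr
      _ ≤ N * (N : ℝ)⁻¹ := by gcongr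
      _ = 1 := mul_inv_cancel₀ hN0.ne'
  have a4 : ‖riemannZeta s‖ ≤ 1 / t + (2 + Real.log N) := by
    have e1 : riemannZeta s = (riemannZeta s - ∑ n ∈ Icc 1 N, ((n : ℕ) : ℂ) ^ (-s) -
        (N : ℂ) ^ (1 - s) / (s - 1)) + ∑ n ∈ Icc 1 N, ((n : ℕ) : ℂ) ^ (-s) +
        (N : ℂ) ^ (1 - s) / (s - 1) := by ring
    rw [e1]
    refine (norm_add₃_le).trans ?_
    linarith only [a3, a2, a1, h]
  have a5 : Real.log N ≤ 2 ^ η / η * (t + 2) ^ η := by
    have f1 : (N : ℝ) ≤ 2 * (t + 2) := by linarith only [htpos, hNhi]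
    have f2 := Real.log_le_rpow_div hN0.le hη
    refine f2.trans ?_
    have f3 : (N : ℝ) ^ η ≤ 2 ^ η * (t + 2) ^ η := by
      rw [← Real.mul_rpow (by norm_num) (by linarith only [htpos])]
      exact Real.rpow_le_rpow hN0.le f1 hη.le
    calc (N : ℝ) ^ η / η ≤ (2 ^ η * (t + 2) ^ η) / η := by gcongr
      _ = 2 ^ η / η * (t + 2) ^ η := by ring
  have a6 : 1 ≤ (t + 2) ^ η := Real.one_le_rpow (by linarith only [htpos]) hη.le
  calc ‖riemannZeta s‖ ≤ 1 / t + (2 + Real.log N) := a4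
    _ ≤ 1 / t + (2 * (t + 2) ^ η + 2 ^ η / η * (t + 2) ^ η) := by linarith only [a5, a6]
    _ = 1 / t + (2 + 2 ^ η / η) * (t + 2) ^ η := by ring

theorem ll_mv (q : ℕ) [NeZero q] (χ : DirichletCharacter ℂ q) (hχ : χ ≠ 1) (T B : ℝ)
    (h : ∀ s : ℂ, 1 ≤ s.re → s.re ≤ 2 → |s.im| ≤ T →
      ‖deriv (DirichletCharacter.LFunction χ) s‖ ≤ B) (x y : ℂ)
    (hx : 1 ≤ x.re ∧ x.re ≤ 2 ∧ |x.im| ≤ T) (hy : 1 ≤ y.re ∧ y.re ≤ 2 ∧ |y.im| ≤ T) :
    ‖DirichletCharacter.LFunction χ y - DirichletCharacter.LFunction χ x‖ ≤ B * ‖y - x‖ := by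
  have hd := DirichletCharacter.differentiable_LFunction hχ
  set S : Set ℂ := {z : ℂ | 1 ≤ z.re ∧ z.re ≤ 2 ∧ |z.im| ≤ T} with hS
  have hconv : Convex ℝ S := by
    have e : S = {z : ℂ | 1 ≤ z.re} ∩ ({z : ℂ | z.re ≤ 2} ∩ ({z : ℂ | -T ≤ z.im} ∩
        {z : ℂ | z.im ≤ T})) := by
      ext z
      simp only [hS, Set.mem_ofPred_eq, Set.mem_inter_iff, abs_le]
    rw [e]
    exact (convex_halfSpace_re_ge 1).inter ((convex_halfSpace_re_le 2).inter
      ((convex_halfSpace_im_ge (-T)).inter (convex_halfSpace_im_le T)))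
  exact hconv.norm_image_sub_le_of_norm_deriv_le (fun z _ => hd z)
    (fun z hz => h z hz.1 hz.2.1 hz.2.2) hx hy

theorem ll_caseA (P C1 C2 : ℝ) (hP : 1 ≤ P) (hC1 : 1 ≤ C1) (hC2 : 1 ≤ C2) : ∃ c : ℝ, 0 < c ∧
    ∀ (q : ℕ) [NeZero q] (χ : DirichletCharacter ℂ q), χ ≠ 1 → ∀ (t W : ℝ), 1 ≤ W →
    (∀ σ : ℝ, 1 < σ → σ ≤ 2 →
      ‖DirichletCharacter.LFunction (1 : DirichletCharacter ℂ q) (σ : ℂ)‖ ≤ P * W / (σ - 1)) →
    (∀ σ : ℝ, 1 < σ → σ ≤ 2 →
      ‖DirichletCharacter.LFunction (χ ^ 2) ((σ : ℂ) + 2 * Complex.I * t)‖ ≤ C2 * W ^ 12) →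
    (∀ s : ℂ, 1 ≤ s.re → s.re ≤ 2 → |s.im| ≤ |t| →
      ‖deriv (DirichletCharacter.LFunction χ) s‖ ≤ C1 * W) →
    ∀ s : ℂ, 1 < s.re → s.re ≤ 2 → s.im = t →
      c * (W ^ 18)⁻¹ ≤ ‖DirichletCharacter.LFunction χ s‖ := by
  have hP0 : 0 < P := by linarith
  have hC10 : 0 < C1 := by linarith
  have hC20 : 0 < C2 := by linarith
  set b : ℝ := 1 / (P ^ 3 * C2) with hb
  have hb0 : 0 < b := by positivity
  have hb1 : b ≤ 1 := by
    rw [hb, div_le_one (by positivity)]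
    exact one_le_mul_of_one_le_of_one_le (one_le_pow₀ hP) hC2
  set a : ℝ := b / (2 * C1) with ha
  have ha0 : 0 < a := by positivity
  have ha1 : a ≤ 1 := by
    rw [ha, div_le_one (by positivity)]
    linarith only [hC1, hb1]
  have haC : a * C1 = b / 2 := by
    rw [ha]
    field_simp
  refine ⟨a ^ 3 * b / 2, by positivity, fun q _ χ hχ t W hW h0 h2 hd s hs1 hs2 hst => ?_⟩
  have hW0 : 0 < W := by linarith only [hW]
  have key : ∀ σ : ℝ, 1 < σ → σ ≤ 2 → 1 + a ^ 4 / W ^ 19 ≤ σ →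
      a ^ 3 * b / W ^ 18 ≤ ‖DirichletCharacter.LFunction χ ((σ : ℂ) + Complex.I * t)‖ := by
    intro σ hσ1 hσ2 hσ
    have hprod := DirichletCharacter.norm_LFunction_product_ge_one χ
      (x := σ - 1) (by linarith only [hσ1]) t
    have e1 : (1 : ℂ) + ((σ - 1 : ℝ) : ℂ) = (σ : ℂ) := by push_cast; ring
    rw [e1, norm_mul, norm_mul, norm_pow, norm_pow] at hprod
    set X := ‖DirichletCharacter.LFunction χ ((σ : ℂ) + Complex.I * t)‖ with hX
    have hX0 : 0 ≤ X := norm_nonneg _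
    have hd0 : 0 < a ^ 4 / W ^ 19 := by positivity
    have hσ0 : 0 < σ - 1 := by linarith only [hσ1]
    have f1 : P * W / (σ - 1) ≤ P * W / (a ^ 4 / W ^ 19) := by
      gcongr
      linarith only [hσ]
    have f2 : P * W / (a ^ 4 / W ^ 19) = P * W ^ 20 / a ^ 4 := by
      field_simp
    have f3 := (h0 σ hσ1 hσ2).trans (f1.trans_eq f2)
    have f4 := h2 σ hσ1 hσ2
    have f5 : 1 ≤ (P * W ^ 20 / a ^ 4) ^ 3 * X ^ 4 * (C2 * W ^ 12) := by
      refine hprod.trans ?_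
      gcongr
    have f6 : (P * W ^ 20 / a ^ 4) ^ 3 * X ^ 4 * (C2 * W ^ 12) =
        X ^ 4 * (W ^ 72 / (a ^ 12 * b)) := by
      rw [hb]
      field_simp
    rw [f6] at f5
    have f7 : (a ^ 3 * b / W ^ 18) ^ 4 ≤ X ^ 4 := by
      have g1 : (a ^ 3 * b / W ^ 18) ^ 4 = (a ^ 12 * b / W ^ 72) * b ^ 3 := by
        field_simp
      have g2 : a ^ 12 * b / W ^ 72 ≤ X ^ 4 := by
        calc a ^ 12 * b / W ^ 72 = 1 * (a ^ 12 * b / W ^ 72) := (one_mul _).symm
          _ ≤ X ^ 4 * (W ^ 72 / (a ^ 12 * b)) * (a ^ 12 * b / W ^ 72) := by gcongr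
          _ = X ^ 4 := by field_simp
      rw [g1]
      calc (a ^ 12 * b / W ^ 72) * b ^ 3 ≤ (a ^ 12 * b / W ^ 72) * 1 := by
            gcongr
            exact pow_le_one₀ hb0.le hb1
        _ ≤ X ^ 4 := by rw [mul_one]; exact g2
    exact le_of_pow_le_pow_left₀ (by norm_num) hX0 f7
  have hse : s = (s.re : ℂ) + Complex.I * t := by
    rw [← hst, mul_comm]
    exact (Complex.re_add_im s).symm
  by_cases hcase : 1 + a ^ 4 / W ^ 19 ≤ s.re
  · have k1 := key s.re hs1 hs2 hcase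
    rw [← hse] at k1
    refine le_trans ?_ k1
    rw [← div_eq_mul_inv]
    gcongr
    have : 0 < a ^ 3 * b := by positivity
    linarith only [this]
  · push Not at hcase
    set σ₁ : ℝ := 1 + a ^ 4 / W ^ 19 with hσ₁
    have hd0 : 0 < a ^ 4 / W ^ 19 := by positivity
    have hd1 : a ^ 4 / W ^ 19 ≤ 1 := by
      rw [div_le_one (by positivity)]
      exact (pow_le_one₀ ha0.le ha1).trans (one_le_pow₀ hW)
    have hσ₁1 : 1 < σ₁ := by linarith only [hs1, hcase]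
    have hσ₁2 : σ₁ ≤ 2 := by linarith only [hd1]
    have k1 := key σ₁ hσ₁1 hσ₁2 le_rfl
    have hmv := ll_mv q χ hχ |t| (C1 * W) hd s ((σ₁ : ℂ) + Complex.I * t)
      ⟨hs1.le, hs2, by rw [hst]⟩ ⟨by simpa using hσ₁1.le, by simpa using hσ₁2, by simp⟩
    have hdist : ‖((σ₁ : ℂ) + Complex.I * t) - s‖ ≤ a ^ 4 / W ^ 19 := by
      have e2 : ((σ₁ : ℂ) + Complex.I * t) - s = ((σ₁ - s.re : ℝ) : ℂ) := by
        conv_lhs => rw [hse]
        push_cast
        ring
      rw [e2, Complex.norm_real, Real.norm_of_nonneg (by linarith only [hcase])]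
      linarith only [hs1]
    have k2 : ‖DirichletCharacter.LFunction χ ((σ₁ : ℂ) + Complex.I * t)‖ ≤
        ‖DirichletCharacter.LFunction χ s‖ + C1 * W * (a ^ 4 / W ^ 19) := by
      have t1 : ‖DirichletCharacter.LFunction χ ((σ₁ : ℂ) + Complex.I * t)‖ ≤
          ‖DirichletCharacter.LFunction χ s‖ +
          ‖DirichletCharacter.LFunction χ ((σ₁ : ℂ) + Complex.I * t) -
            DirichletCharacter.LFunction χ s‖ := by
        have := norm_add_le (DirichletCharacter.LFunction χ s)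
          (DirichletCharacter.LFunction χ ((σ₁ : ℂ) + Complex.I * t) -
            DirichletCharacter.LFunction χ s)
        simpa using this
      have t2 : C1 * W * ‖((σ₁ : ℂ) + Complex.I * t) - s‖ ≤ C1 * W * (a ^ 4 / W ^ 19) := by
        gcongr
      linarith only [hmv, t1, t2]
    have k3 : C1 * W * (a ^ 4 / W ^ 19) = (a ^ 3 * b / W ^ 18) / 2 := by
      have : C1 * W * (a ^ 4 / W ^ 19) = (a * C1) * (a ^ 3 / W ^ 18) := by
        field_simp
      rw [this, haC]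
      ring
    have k4 : a ^ 3 * b / 2 * (W ^ 18)⁻¹ = (a ^ 3 * b / W ^ 18) / 2 := by ring
    rw [k4]
    linarith only [k1, k2, k3]

theorem ll_caseB (hZ : ZApproxStmt) (CS C1 : ℝ) (hCS : 0 < CS) (hC1 : 1 ≤ C1) :
    ∃ c c3 : ℝ, 0 < c ∧ 0 < c3 ∧ ∀ (q : ℕ) [NeZero q] (χ : DirichletCharacter ℂ q), χ ≠ 1 →
    ∀ V : ℝ, 1 ≤ V → CS * (V ^ 2)⁻¹ ≤ ‖DirichletCharacter.LFunction χ 1‖ →
    (∀ s : ℂ, 1 ≤ s.re → s.re ≤ 2 → |s.im| ≤ 1 →
      ‖deriv (DirichletCharacter.LFunction χ) s‖ ≤ C1 * V) →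
    ∀ s : ℂ, 1 < s.re → s.re ≤ 2 → |s.im| ≤ c3 * (V ^ 3)⁻¹ →
      c * (V ^ 3)⁻¹ ≤ ‖DirichletCharacter.LFunction χ s‖ := by
  have hC10 : 0 < C1 := by linarith
  set c' : ℝ := min 1 (CS / (2 * C1)) with hc'
  have hc'0 : 0 < c' := lt_min one_pos (by positivity)
  have hc'1 : c' ≤ 1 := min_le_left _ _
  have hc'2 : c' * C1 ≤ CS / 2 := by
    have h : c' ≤ CS / (2 * C1) := min_le_right _ _
    rw [le_div_iff₀ (by positivity)] at h
    linarith only [h]
  refine ⟨min (CS / 2) (c' / 6), c' / 2, lt_min (by positivity) (by positivity), by positivity,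
    fun q _ χ hχ V hV hL1 hd s hs1 hs2 hst => ?_⟩
  have hV0 : 0 < V := by linarith only [hV]
  have hV3 : (V ^ 3)⁻¹ ≤ 1 := inv_le_one_of_one_le₀ (one_le_pow₀ hV)
  have hV30 : 0 < (V ^ 3)⁻¹ := by positivity
  have hV2 : (V ^ 3)⁻¹ ≤ (V ^ 2)⁻¹ := by
    gcongr
    norm_num
  by_cases hcase : ‖s - 1‖ ≤ c' * (V ^ 3)⁻¹
  · have him : |s.im| ≤ 1 := hst.trans (mul_le_one₀ (by linarith only [hc'1]) hV30.le hV3)
    have hmv := ll_mv q χ hχ 1 (C1 * V) hd s 1 ⟨hs1.le, hs2, him⟩ (by simp)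
    have k1 : ‖DirichletCharacter.LFunction χ 1‖ ≤ ‖DirichletCharacter.LFunction χ s‖ +
        ‖DirichletCharacter.LFunction χ 1 - DirichletCharacter.LFunction χ s‖ := by
      have := norm_add_le (DirichletCharacter.LFunction χ s)
        (DirichletCharacter.LFunction χ 1 - DirichletCharacter.LFunction χ s)
      simpa using this
    have k2 : C1 * V * ‖(1 : ℂ) - s‖ ≤ CS / 2 * (V ^ 2)⁻¹ := by
      rw [norm_sub_rev]
      calc C1 * V * ‖s - 1‖ ≤ C1 * V * (c' * (V ^ 3)⁻¹) := by gcongr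
        _ = (c' * C1) * (V ^ 2)⁻¹ := by field_simp
        _ ≤ CS / 2 * (V ^ 2)⁻¹ := by gcongr
    have k3 : CS / 2 * (V ^ 3)⁻¹ ≤ CS / 2 * (V ^ 2)⁻¹ := by gcongr
    have k4 : min (CS / 2) (c' / 6) * (V ^ 3)⁻¹ ≤ CS / 2 * (V ^ 3)⁻¹ := by
      gcongr
      exact min_le_left _ _
    have k5 : CS * (V ^ 2)⁻¹ = CS / 2 * (V ^ 2)⁻¹ + CS / 2 * (V ^ 2)⁻¹ := by ring
    linarith only [k4, k3, k2, k1, hmv, hL1]
  · push Not at hcase
    have k1 : ‖s - 1‖ ≤ (s.re - 1) + |s.im| := by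
      have := Complex.norm_le_abs_re_add_abs_im (s - 1)
      simp only [Complex.sub_re, Complex.one_re, Complex.sub_im, Complex.one_im, sub_zero] at this
      rwa [abs_of_pos (by linarith only [hs1])] at this
    have k2 : c' / 2 * (V ^ 3)⁻¹ ≤ s.re - 1 := by linarith only [hst, hcase, k1]
    have k3 := ll_inv hZ q χ s hs1 hs2
    have k4 : min (CS / 2) (c' / 6) * (V ^ 3)⁻¹ ≤ c' / 6 * (V ^ 3)⁻¹ := by
      gcongr
      exact min_le_right _ _
    linarith only [k4, k3, k1, hcase, hst]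

theorem ll_sq (η CP CZ c3 : ℝ) (hη0 : 0 < η) (hCP0 : 0 < CP) (hCZ0 : 0 < CZ) (hc3 : 0 < c3)
    (hzeta : ∀ s : ℂ, 1 < s.re → s.re ≤ 2 → s.im ≠ 0 →
      ‖riemannZeta s‖ ≤ 1 / |s.im| + CZ * (|s.im| + 2) ^ η)
    (q : ℕ) [NeZero q] (V W t : ℝ) (hV1 : 1 ≤ V) (hVW : V ≤ W) (hq1 : (1 : ℝ) ≤ q)
    (hprod : ∏ p ∈ q.primeFactors, (1 + 1 / (p : ℝ)) ≤ CP * V)
    (hW : W = ((q : ℝ) * (|t| + 2)) ^ η) (ht1 : c3 * (V ^ 3)⁻¹ < |t|) (σ : ℝ)
    (hσ1 : 1 < σ) (hσ2 : σ ≤ 2) :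
    ‖DirichletCharacter.LFunction (1 : DirichletCharacter ℂ q) ((σ : ℂ) + 2 * Complex.I * t)‖ ≤
      (CP * (1 / (2 * c3) + CZ * 2 ^ η)) * W ^ 12 := by
  have hV0 : 0 < V := by linarith only [hV1]
  have hW1 : 1 ≤ W := hV1.trans hVW
  have hW0 : 0 < W := by linarith only [hV1, hVW]
  set z : ℂ := (σ : ℂ) + 2 * Complex.I * t with hz
  have hzre : z.re = σ := by simp [hz]
  have hzim : z.im = 2 * t := by simp [hz]
  have ht2 : 0 < |t| := lt_trans (by positivity) ht1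
  have htne : t ≠ 0 := abs_pos.mp ht2
  have hzim0 : z.im ≠ 0 := by
    rw [hzim]
    exact mul_ne_zero two_ne_zero htne
  have hzne : z ≠ 1 := by
    intro h
    apply hzim0
    rw [h]
    simp
  have d1 := ll_triv q z hzne (by rw [hzre]; exact hσ1.le)
  have d2 := hzeta z (by rw [hzre]; exact hσ1) (by rw [hzre]; exact hσ2) hzim0
  rw [hzim] at d2
  have d4 : 1 / |2 * t| ≤ 1 / (2 * c3) * W ^ 3 := by
    rw [abs_mul, abs_two]
    have e1 : 1 / (2 * |t|) ≤ 1 / (2 * (c3 * (V ^ 3)⁻¹)) := by gcongr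
    have e2 : 1 / (2 * (c3 * (V ^ 3)⁻¹)) = 1 / (2 * c3) * V ^ 3 := by
      field_simp
    rw [e2] at e1
    refine e1.trans ?_
    gcongr
  have d5 : (|2 * t| + 2) ^ η ≤ 2 ^ η * W := by
    rw [hW, ← Real.mul_rpow (by norm_num) (by positivity)]
    refine Real.rpow_le_rpow (by positivity) ?_ hη0.le
    rw [abs_mul, abs_two]
    have e5 : |t| + 2 ≤ (q : ℝ) * (|t| + 2) := le_mul_of_one_le_left (by linarith only [ht2]) hq1
    linarith only [e5]
  have w3 : W ≤ W ^ 3 := le_self_pow₀ hW1 (by norm_num)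
  have d6 : ‖riemannZeta z‖ ≤ (1 / (2 * c3) + CZ * 2 ^ η) * W ^ 3 := by
    calc ‖riemannZeta z‖ ≤ 1 / |2 * t| + CZ * (|2 * t| + 2) ^ η := d2
      _ ≤ 1 / (2 * c3) * W ^ 3 + CZ * (2 ^ η * W) := by gcongr
      _ ≤ 1 / (2 * c3) * W ^ 3 + CZ * (2 ^ η * W ^ 3) := by gcongr
      _ = (1 / (2 * c3) + CZ * 2 ^ η) * W ^ 3 := by ring
  calc _ ≤ (∏ p ∈ q.primeFactors, (1 + 1 / (p : ℝ))) * ‖riemannZeta z‖ := d1
    _ ≤ (CP * V) * ((1 / (2 * c3) + CZ * 2 ^ η) * W ^ 3) := by gcongr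
    _ ≤ (CP * W) * ((1 / (2 * c3) + CZ * 2 ^ η) * W ^ 3) := by gcongr
    _ = (CP * (1 / (2 * c3) + CZ * 2 ^ η)) * W ^ 4 := by ring
    _ ≤ (CP * (1 / (2 * c3) + CZ * 2 ^ η)) * W ^ 12 := by
      gcongr
      norm_num

theorem llower (hS : SiegelStmt) (hG : LGrowthStmt) (hZ : ZApproxStmt) : LLowerStmt := by
  intro ε hε
  set η : ℝ := ε / 40 with hη
  have hη0 : 0 < η := by positivity
  obtain ⟨D0, hD0, hg0⟩ := hG 0 η hη0
  obtain ⟨D1, hD1, hg1⟩ := hG 1 η hη0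
  obtain ⟨CS, hCS, hsieg⟩ := hS (2 * η) (by positivity)
  obtain ⟨CP, hCP, hprod⟩ := ll_prod η hη0
  obtain ⟨CZ, hCZ, hzeta⟩ := ll_zeta_far hZ η hη0
  have h3η : (1 : ℝ) ≤ 3 ^ η := Real.one_le_rpow (by norm_num) hη0.le
  obtain ⟨cB, c3, hcB, hc3, hB⟩ := ll_caseB hZ CS (max D1 1 * 3 ^ η) hCS
    (one_le_mul_of_one_le_of_one_le (le_max_right _ _) h3η)
  have hCP0 : 0 < CP := by linarith
  have hCZ0 : 0 < CZ := by linarith only [hCZ]
  have h2η : (0 : ℝ) < 2 ^ η := by positivity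
  set C2 : ℝ := 1 + D0 * 2 ^ η + CP * (1 / (2 * c3) + CZ * 2 ^ η) with hC2
  have hC2a : 0 ≤ D0 * 2 ^ η := by positivity
  have hC2b : 0 ≤ CP * (1 / (2 * c3) + CZ * 2 ^ η) := by positivity
  obtain ⟨cA, hcA, hA⟩ := ll_caseA (3 * CP) (max D1 1) C2 (by linarith only [hCP]) (le_max_right _ _)
    (by rw [hC2]; linarith only [hC2a, hC2b])
  refine ⟨min cA cB, lt_min hcA hcB, fun q _ χ hχ s hs1 hs2 => ?_⟩
  have hq1 : 1 ≤ q := Nat.one_le_iff_ne_zero.mpr (NeZero.ne q)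
  have hq1' : (1 : ℝ) ≤ q := by exact_mod_cast hq1
  have hq0 : (0 : ℝ) < q := by linarith only [hq1']
  set t : ℝ := s.im with ht
  have ht0 : 0 ≤ |t| := abs_nonneg t
  set Q : ℝ := (q : ℝ) * (|t| + 2) with hQ
  have hQ1 : 1 ≤ Q := one_le_mul_of_one_le_of_one_le hq1' (by linarith only [ht0])
  have hQ0 : 0 < Q := by linarith only [hQ1]
  have hqQ : (q : ℝ) ≤ Q := le_mul_of_one_le_right hq0.le (by linarith only [ht0])
  have htQ : |t| + 2 ≤ Q := le_mul_of_one_le_left (by linarith only [ht0]) hq1'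
  set W : ℝ := Q ^ η with hW
  have hW1 : 1 ≤ W := Real.one_le_rpow hQ1 hη0.le
  have hW0 : 0 < W := by linarith only [hW1]
  set V : ℝ := (q : ℝ) ^ η with hV
  have hV1 : 1 ≤ V := Real.one_le_rpow hq1' hη0.le
  have hV0 : 0 < V := by linarith only [hV1]
  have hVW : V ≤ W := Real.rpow_le_rpow hq0.le hqQ hη0.le
  have hmain : min cA cB * Q ^ (-ε) ≤ min cA cB * (W ^ 18)⁻¹ ∧
      min cA cB * Q ^ (-ε) ≤ min cA cB * (V ^ 3)⁻¹ := by
    have h0 : 0 ≤ min cA cB := (lt_min hcA hcB).le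
    constructor
    · gcongr
      rw [Real.rpow_neg hQ0.le]
      gcongr
      rw [hW, ← Real.rpow_natCast, ← Real.rpow_mul hQ0.le]
      exact Real.rpow_le_rpow_of_exponent_le hQ1 (by rw [hη]; push_cast; linarith only [hε])
    · gcongr
      rw [Real.rpow_neg hQ0.le]
      gcongr
      rw [hV, ← Real.rpow_natCast, ← Real.rpow_mul hq0.le]
      calc (q : ℝ) ^ (η * ((3 : ℕ) : ℝ)) ≤ Q ^ (η * ((3 : ℕ) : ℝ)) :=
            Real.rpow_le_rpow hq0.le hqQ (by positivity)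
        _ ≤ Q ^ ε := Real.rpow_le_rpow_of_exponent_le hQ1 (by rw [hη]; push_cast; linarith only [hε])
  -- bound for the principal character on the real line
  have hP : ∀ σ : ℝ, 1 < σ → σ ≤ 2 →
      ‖DirichletCharacter.LFunction (1 : DirichletCharacter ℂ q) (σ : ℂ)‖ ≤
        3 * CP * W / (σ - 1) := by
    intro σ hσ1 hσ2
    have hne : (σ : ℂ) ≠ 1 := by
      intro h
      have : σ = 1 := by exact_mod_cast h
      linarith only [hσ1, this]
    have hσ0 : 0 < σ - 1 := by linarith only [hσ1]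
    have a1 := ll_triv q (σ : ℂ) hne (by simpa using hσ1.le)
    have a2 := ll_zeta_near hZ σ hσ1 hσ2
    have a3 := hprod q hq1
    have a4 : (0 : ℝ) ≤ ∏ p ∈ q.primeFactors, (1 + 1 / (p : ℝ)) :=
      Finset.prod_nonneg fun p _ => by (clear * -; positivity)
    calc _ ≤ (∏ p ∈ q.primeFactors, (1 + 1 / (p : ℝ))) * ‖riemannZeta (σ : ℂ)‖ := a1
      _ ≤ (CP * V) * (3 / (σ - 1)) := by gcongr
      _ ≤ (CP * W) * (3 / (σ - 1)) := by gcongr
      _ = 3 * CP * W / (σ - 1) := by ring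
  have h2Q : (q : ℝ) * (|2 * t| + 2) ≤ 2 * Q := by
    rw [abs_mul, abs_two, hQ]
    linarith only [hq1']
  have hder : ∀ z : ℂ, 1 ≤ z.re → z.re ≤ 2 →
      ‖deriv (DirichletCharacter.LFunction χ) z‖ ≤ max D1 1 * ((q : ℝ) * (|z.im| + 2)) ^ η := by
    intro z hz1 hz2
    have h := hg1 q χ hχ z hz1 hz2
    rw [iteratedDeriv_one] at h
    refine h.trans ?_
    gcongr
    exact le_max_left _ _
  -- the two cases
  by_cases hcase : χ ^ 2 = 1 ∧ |t| ≤ c3 * (V ^ 3)⁻¹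
  · obtain ⟨hχ2, htV⟩ := hcase
    have b1 : CS * (V ^ 2)⁻¹ ≤ ‖DirichletCharacter.LFunction χ 1‖ := by
      have := hsieg q χ hχ hχ2
      have e : (q : ℝ) ^ (-(2 * η)) = (V ^ 2)⁻¹ := by
        rw [Real.rpow_neg hq0.le, hV, ← Real.rpow_natCast, ← Real.rpow_mul hq0.le]
        congr 2
        push_cast
        ring
      rwa [e] at this
    have b2 : ∀ z : ℂ, 1 ≤ z.re → z.re ≤ 2 → |z.im| ≤ 1 →
        ‖deriv (DirichletCharacter.LFunction χ) z‖ ≤ max D1 1 * 3 ^ η * V := by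
      intro z hz1 hz2 hz3
      refine (hder z hz1 hz2).trans ?_
      rw [mul_assoc]
      gcongr
      rw [hV, ← Real.mul_rpow (by norm_num) hq0.le]
      have e5 := mul_le_mul_of_nonneg_left (show |z.im| + 2 ≤ 3 by linarith only [hz3]) hq0.le
      exact Real.rpow_le_rpow (by (clear * - hq1; positivity)) (by linarith only [e5]) hη0.le
    have b3 := hB q χ hχ V hV1 b1 b2 s hs1 hs2 htV
    refine hmain.2.trans (le_trans ?_ b3)
    gcongr
    exact min_le_right _ _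
  · have a1 : ∀ σ : ℝ, 1 < σ → σ ≤ 2 →
        ‖DirichletCharacter.LFunction (χ ^ 2) ((σ : ℂ) + 2 * Complex.I * t)‖ ≤ C2 * W ^ 12 := by
      intro σ hσ1 hσ2
      set z : ℂ := (σ : ℂ) + 2 * Complex.I * t with hz
      have hzre : z.re = σ := by simp [hz]
      have hzim : z.im = 2 * t := by simp [hz]
      have w1 : W ≤ W ^ 12 := le_self_pow₀ hW1 (by norm_num)
      by_cases hχ2 : χ ^ 2 = 1
      · have ht1 : c3 * (V ^ 3)⁻¹ < |t| := by
          by_contra hcon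
          exact hcase ⟨hχ2, not_lt.mp hcon⟩
        rw [hχ2]
        refine (ll_sq η CP CZ c3 hη0 hCP0 hCZ0 hc3 hzeta q V W t hV1 hVW hq1' (hprod q hq1) hW ht1
          σ hσ1 hσ2).trans ?_
        refine mul_le_mul_of_nonneg_right ?_ (by (clear * - hq1; positivity))
        rw [hC2]
        linarith only [hC2a]
      · have d1 := hg0 q (χ ^ 2) hχ2 z (by rw [hzre]; exact hσ1.le) (by rw [hzre]; exact hσ2)
        rw [iteratedDeriv_zero, hzim] at d1
        have d2 : ((q : ℝ) * (|2 * t| + 2)) ^ η ≤ 2 ^ η * W := by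
          rw [hW, ← Real.mul_rpow (by norm_num) hQ0.le]
          exact Real.rpow_le_rpow (by (clear * - hq1; positivity)) h2Q hη0.le
        calc _ ≤ D0 * ((q : ℝ) * (|2 * t| + 2)) ^ η := d1
          _ ≤ D0 * (2 ^ η * W) := by gcongr
          _ = (D0 * 2 ^ η) * W := by ring
          _ ≤ C2 * W ^ 12 := by
            refine mul_le_mul ?_ w1 hW0.le ?_
            · rw [hC2]
              linarith only [hC2b]
            · rw [hC2]
              linarith only [hC2a, hC2b]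
    have a2 : ∀ z : ℂ, 1 ≤ z.re → z.re ≤ 2 → |z.im| ≤ |t| →
        ‖deriv (DirichletCharacter.LFunction χ) z‖ ≤ max D1 1 * W := by
      intro z hz1 hz2 hz3
      refine (hder z hz1 hz2).trans ?_
      gcongr
      rw [hW, hQ]
      exact Real.rpow_le_rpow (by positivity) (by gcongr) hη0.le
    have a3 := hA q χ hχ t W hW1 hP a1 a2 s hs1 hs2 rfl
    refine hmain.1.trans (le_trans ?_ a3)
    gcongr
    exact min_le_left _ _

end Vale.Agent.P013.J
end

section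

/-!
# Lower bound for zeta close to the line `Re s = 1`
-/

open Finset Real

namespace Vale.Agent.P013.J

/-- real-variable endgame of the 3-4-1 argument -/
lemma zl_endgame (f : ℝ → ℝ) (X1 X2 : ℝ) (h1 : 1 ≤ X1) (h2 : 1 ≤ X2) (hf : ∀ s, 0 ≤ f s)
    (hi : ∀ s, 1 < s → s ≤ 2 → 1 ≤ (f s) ^ 4 * (2 / (s - 1)) ^ 3 * X1)
    (hii : ∀ s s', 1 < s → s ≤ s' → s' ≤ 2 → f s' ≤ f s + X2 * (s' - s)) :
    ∀ s, 1 < s → s ≤ 2 → 1 / (2 ^ 7 * X1 * X2 ^ 3) ≤ f s := by
  have hX1 : 0 < X1 := by linarith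
  have hX2 : 0 < X2 := by linarith only [h2]
  set d : ℝ := 1 / (2 ^ 7 * X1 * X2 ^ 4) with hd
  have hdpos : 0 < d := by positivity
  have hd1 : d ≤ 1 := by
    rw [hd, div_le_one (by positivity)]
    have : 1 ≤ X2 ^ 4 := one_le_pow₀ h2
    linarith only [mul_nonneg (sub_nonneg.2 h1) (sub_nonneg.2 this), this, h1]
  set g : ℝ := 1 / (2 ^ 7 * X1 * X2 ^ 3) with hg
  have hgpos : 0 < g := by positivity
  have hdg : X2 * d = g := by
    rw [hd, hg]; field_simp
  have key : ∀ s, 1 < s → s ≤ 2 → d ≤ s - 1 → 2 * g ≤ f s := by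
    intro s hs hs2 hds
    have h := hi s hs hs2
    have hs1 : 0 < s - 1 := by linarith only [hs]
    have h3 : ((s - 1) / 2) ^ 3 ≤ (f s) ^ 4 * X1 := by
      have e : (f s) ^ 4 * (2 / (s - 1)) ^ 3 * X1 = ((f s) ^ 4 * X1) / ((s - 1) / 2) ^ 3 := by
        field_simp
      rw [e, le_div_iff₀ (by positivity)] at h
      linarith only [h]
    have h4 : (d / 2) ^ 3 ≤ (f s) ^ 4 * X1 := by
      refine le_trans ?_ h3
      gcongr
    have h5 : (2 * g) ^ 4 ≤ (f s) ^ 4 := by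
      have e : (2 * g) ^ 4 * X1 = (d / 2) ^ 3 := by
        rw [hd, hg]; field_simp
      have : (2 * g) ^ 4 * X1 ≤ (f s) ^ 4 * X1 := by rw [e]; exact h4
      exact le_of_mul_le_mul_right this hX1
    exact le_of_pow_le_pow_left₀ (by norm_num) (hf s) h5
  intro s hs hs2
  by_cases hds : d ≤ s - 1
  · have := key s hs hs2 hds
    linarith only [hgpos, this]
  · push Not at hds
    have h6 := key (1 + d) (by linarith only [hs, hds]) (by linarith only [hd1]) (by linarith only [])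
    have h7 := hii s (1 + d) hs (by linarith only [hds]) (by linarith only [hd1])
    have h8 : X2 * (1 + d - s) ≤ g := by
      rw [← hdg]; gcongr; linarith only [hs]
    linarith only [h6, h7, h8]

theorem zl_341 {σ t : ℝ} (hσ : 1 < σ) (X0 X1 : ℝ) (h0 : ‖riemannZeta (σ : ℂ)‖ ≤ X0)
    (h1 : ‖riemannZeta ((σ : ℂ) + 2 * Complex.I * t)‖ ≤ X1) :
    1 ≤ ‖riemannZeta ((σ : ℂ) + Complex.I * t)‖ ^ 4 * X0 ^ 3 * X1 := by
  have h := DirichletCharacter.norm_LFunction_product_ge_one (N := 1) 1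
    (x := σ - 1) (by linarith) t
  have e1 : (1 : ℂ) + ((σ - 1 : ℝ) : ℂ) = (σ : ℂ) := by push_cast; ring
  rw [e1, DirichletCharacter.LFunctionTrivChar, DirichletCharacter.LFunction_modOne_eq,
    DirichletCharacter.LFunction_modOne_eq, norm_mul, norm_mul, norm_pow, norm_pow] at h
  have hX0 : 0 ≤ X0 := (norm_nonneg _).trans h0
  calc (1 : ℝ) ≤ _ := h
    _ ≤ X0 ^ 3 * ‖riemannZeta ((σ : ℂ) + Complex.I * t)‖ ^ 4 * X1 := by gcongr
    _ = _ := by ring

theorem zl_mv (t B : ℝ) (ht : t ≠ 0)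
    (h : ∀ s : ℂ, 1 ≤ s.re → s.re ≤ 2 → s.im = t → ‖deriv riemannZeta s‖ ≤ B) (x y : ℂ)
    (hx : 1 ≤ x.re ∧ x.re ≤ 2 ∧ x.im = t) (hy : 1 ≤ y.re ∧ y.re ≤ 2 ∧ y.im = t) :
    ‖riemannZeta y - riemannZeta x‖ ≤ B * ‖y - x‖ := by
  set S : Set ℂ := {z : ℂ | 1 ≤ z.re ∧ z.re ≤ 2 ∧ z.im = t} with hS
  have hconv : Convex ℝ S := by
    have e : S = {z : ℂ | 1 ≤ z.re} ∩ ({z : ℂ | z.re ≤ 2} ∩ ({z : ℂ | t ≤ z.im} ∩
        {z : ℂ | z.im ≤ t})) := by
      ext z
      simp only [hS, Set.mem_ofPred_eq, Set.mem_inter_iff]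
      constructor
      · rintro ⟨h1, h2, h3⟩
        exact ⟨h1, h2, h3.ge, h3.le⟩
      · rintro ⟨h1, h2, h3, h4⟩
        exact ⟨h1, h2, le_antisymm h4 h3⟩
    rw [e]
    exact (convex_halfSpace_re_ge 1).inter ((convex_halfSpace_re_le 2).inter
      ((convex_halfSpace_im_ge t).inter (convex_halfSpace_im_le t)))
  have hd : ∀ z ∈ S, DifferentiableAt ℂ riemannZeta z := by
    intro z hz
    refine differentiableAt_riemannZeta ?_
    intro h1
    apply ht
    rw [← hz.2.2, h1]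
    simp
  exact hconv.norm_image_sub_le_of_norm_deriv_le hd
    (fun z hz => h z hz.1 hz.2.1 hz.2.2) hx hy

theorem zlower (hG : ZGrowthStmt) (hZ : ZApproxStmt) : ZLowerStmt := by
  intro ε hε
  set η : ℝ := ε / 4 with hη
  have hη0 : 0 < η := by positivity
  obtain ⟨D1, hD1, hg1⟩ := hG 1 η hη0
  obtain ⟨CZ, hCZ, hz⟩ := ll_zeta_far hZ η hη0
  set C1 : ℝ := max 1 D1 with hC1
  have hC11 : 1 ≤ C1 := le_max_left _ _
  set K1 : ℝ := (27 / 8) * (1 + CZ * 2 ^ η) with hK1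
  have h2η : 0 < (2 : ℝ) ^ η := by positivity
  have hK11 : 1 ≤ K1 := by
    have : 0 < CZ * 2 ^ η := by positivity
    rw [hK1]
    linarith only [this]
  refine ⟨1 / (2 ^ 7 * K1 * C1 ^ 3), by positivity, fun s hs1 hs2 hst => ?_⟩
  set t : ℝ := s.im with ht
  set W : ℝ := (|t| + 2) ^ η with hW
  have ht2 : 1 ≤ |t| + 2 := by linarith only [abs_nonneg t, hst]
  have hW1 : 1 ≤ W := Real.one_le_rpow ht2 hη0.le
  have hW0 : 0 < W := by linarith only [hW1]
  have htne : t ≠ 0 := by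
    intro h
    rw [h, abs_zero] at hst
    linarith only [hst]
  have hi : ∀ σ : ℝ, 1 < σ → σ ≤ 2 →
      1 ≤ (‖riemannZeta ((σ : ℂ) + Complex.I * t)‖) ^ 4 * (2 / (σ - 1)) ^ 3 * (K1 * W) := by
    intro σ h1 h2
    have hσ : 0 < σ - 1 := by linarith only [h1]
    have a0 := ll_zeta_near hZ σ h1 h2
    have a1 := hz ((σ : ℂ) + 2 * Complex.I * t) (by simpa using h1) (by simpa using h2)
      (by simpa using htne)
    have e1 : ((σ : ℂ) + 2 * Complex.I * t).im = 2 * t := by simp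
    rw [e1] at a1
    have b1 : 1 / |2 * t| ≤ 1 := by
      rw [abs_mul, abs_two, div_le_one (by linarith only [hst])]
      linarith only [hst]
    have b2 : (|2 * t| + 2) ^ η ≤ 2 ^ η * W := by
      rw [hW, ← Real.mul_rpow (by norm_num) (by positivity)]
      refine Real.rpow_le_rpow (by positivity) ?_ hη0.le
      rw [abs_mul, abs_two]
      linarith only []
    have a2 : ‖riemannZeta ((σ : ℂ) + 2 * Complex.I * t)‖ ≤ (1 + CZ * 2 ^ η) * W := by
      calc _ ≤ 1 / |2 * t| + CZ * (|2 * t| + 2) ^ η := a1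
        _ ≤ 1 * W + CZ * (2 ^ η * W) := by
            gcongr
            linarith only [hW1, b1]
        _ = _ := by ring
    have a3 := zl_341 h1 _ _ a0 a2
    calc (1 : ℝ) ≤ _ := a3
      _ = _ := by
          rw [hK1]
          field_simp
          ring
  have hd : ∀ z : ℂ, 1 ≤ z.re → z.re ≤ 2 → z.im = t → ‖deriv riemannZeta z‖ ≤ C1 * W := by
    intro z h1 h2 h3
    have h4 := hg1 z h1 h2 (by rw [h3]; exact hst)
    rw [iteratedDeriv_one, h3] at h4
    refine h4.trans ?_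
    gcongr
    exact le_max_right _ _
  have hii : ∀ σ σ' : ℝ, 1 < σ → σ ≤ σ' → σ' ≤ 2 →
      ‖riemannZeta ((σ' : ℂ) + Complex.I * t)‖ ≤
        ‖riemannZeta ((σ : ℂ) + Complex.I * t)‖ + (C1 * W) * (σ' - σ) := by
    intro σ σ' h1 h2 h3
    have h4 := zl_mv t (C1 * W) htne hd ((σ : ℂ) + Complex.I * t) ((σ' : ℂ) + Complex.I * t)
      ⟨by simpa using h1.le, by simpa using h2.trans h3, by simp⟩
      ⟨by simpa using (h1.trans_le h2).le, by simpa using h3, by simp⟩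
    have e2 : ((σ' : ℂ) + Complex.I * t) - ((σ : ℂ) + Complex.I * t) = ((σ' - σ : ℝ) : ℂ) := by
      push_cast
      ring
    rw [e2, Complex.norm_real, Real.norm_of_nonneg (by linarith only [h2])] at h4
    have h5 := norm_add_le (riemannZeta ((σ : ℂ) + Complex.I * t))
      (riemannZeta ((σ' : ℂ) + Complex.I * t) - riemannZeta ((σ : ℂ) + Complex.I * t))
    rw [add_sub_cancel] at h5
    linarith only [h4, h5]
  have hmain := zl_endgame (fun σ : ℝ => ‖riemannZeta ((σ : ℂ) + Complex.I * t)‖) (K1 * W) (C1 * W)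
    (one_le_mul_of_one_le_of_one_le hK11 hW1) (one_le_mul_of_one_le_of_one_le hC11 hW1)
    (fun _ => norm_nonneg _) hi hii s.re hs1 hs2
  have hse : (s.re : ℂ) + Complex.I * t = s := by
    rw [ht, mul_comm]
    exact Complex.re_add_im s
  simp only [hse] at hmain
  refine le_trans (le_of_eq ?_) hmain
  have hWe : (|t| + 2) ^ (-ε) = (W ^ 4)⁻¹ := by
    rw [hW, Real.rpow_neg (by positivity), ← Real.rpow_natCast, ← Real.rpow_mul (by positivity), hη]
    congr 2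
    push_cast
    ring
  rw [hWe]
  field_simp

end Vale.Agent.P013.J
end

section

/-!
# Approximation of `L(s, χ)` by partial sums
-/

open Finset Filter MeasureTheory Topology Complex Asymptotics

namespace Vale.Agent.P013.J

/-- bound for character sums -/
theorem norm_charSum_le {q : ℕ} [NeZero q] {χ : DirichletCharacter ℂ q} (hχ : χ ≠ 1) (N : ℕ) :
    ‖∑ n ∈ Icc 1 N, χ (n : ZMod q)‖ ≤ q := by
  rw [Siegel.S_eq_range]
  exact Siegel.norm_sum_range_le hχ 1 _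

private theorem hasDerivAt_cpow_neg (s : ℂ) {t : ℝ} (ht : 0 < t) :
    HasDerivAt (fun u : ℝ => (u : ℂ) ^ (-s)) (-s * (t : ℂ) ^ (-(s + 1))) t := by
  have h1 : HasDerivAt (fun u : ℂ => u ^ (-s)) (-s * (t : ℂ) ^ (-s - 1) * 1) (t : ℂ) :=
    (hasDerivAt_id (t : ℂ)).cpow_const (Or.inl (by simpa using ht))
  have h2 := h1.comp_ofReal
  rw [mul_one] at h2
  have h3 : -(s + 1) = -s - 1 := by ring
  rw [h3]
  exact h2

private theorem norm_cpow_le (s : ℂ) {t : ℝ} (ht : 0 < t) :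
    ‖(t : ℂ) ^ (-(s + 1))‖ = t ^ (-s.re - 1) := by
  rw [Complex.norm_cpow_eq_rpow_re_of_pos ht]
  congr 1
  simp
  ring

private theorem integrableOn_S {q : ℕ} [NeZero q] {χ : DirichletCharacter ℂ q} (hχ : χ ≠ 1)
    {s : ℂ} (hs : 0 < s.re) :
    IntegrableOn (fun t : ℝ => Siegel.S χ t * (t : ℂ) ^ (-(s + 1))) (Set.Ioi 1) := by
  have hint : IntegrableOn (fun t : ℝ => (q : ℝ) * t ^ (-s.re - 1)) (Set.Ioi 1) :=
    (integrableOn_Ioi_rpow_of_lt (by linarith) zero_lt_one).const_mul _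
  refine Integrable.mono' hint ?_ ?_
  · refine ((Siegel.measurable_S χ).aestronglyMeasurable).mul ?_
    refine ContinuousOn.aestronglyMeasurable (fun t ht => ?_) measurableSet_Ioi
    have ht' : (0 : ℝ) < t := lt_trans zero_lt_one ht
    exact ((continuousAt_cpow_const (by simpa using ht')).comp
      Complex.continuous_ofReal.continuousAt).continuousWithinAt
  · refine (ae_restrict_iff' measurableSet_Ioi).2 (Eventually.of_forall fun t ht => ?_)
    have ht' : (0 : ℝ) < t := lt_trans zero_lt_one ht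
    rw [norm_mul, norm_cpow_le s ht']
    exact mul_le_mul_of_nonneg_right (Siegel.norm_S_le hχ t) (Real.rpow_nonneg ht'.le _)

/-- `L(s, χ)` minus its partial sum -/
private theorem L_sub_eq {q : ℕ} [NeZero q] {χ : DirichletCharacter ℂ q} (hχ : χ ≠ 1)
    {s : ℂ} (hs : 0 < s.re) {N : ℕ} (hN : 1 ≤ N) :
    DirichletCharacter.LFunction χ s - ∑ n ∈ Icc 1 N, χ (n : ZMod q) * (n : ℂ) ^ (-s) =
      s * (∫ t in Set.Ioi (N : ℝ), Siegel.S χ t * (t : ℂ) ^ (-(s + 1))) -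
        (N : ℂ) ^ (-s) * ∑ n ∈ Icc 1 N, χ (n : ZMod q) := by
  have hN' : (1 : ℝ) ≤ N := by exact_mod_cast hN
  have hint := integrableOn_S hχ hs
  have hsplit : ∫ t in Set.Ioi (1 : ℝ), Siegel.S χ t * (t : ℂ) ^ (-(s + 1)) =
      (∫ t in Set.Ioc (1 : ℝ) N, Siegel.S χ t * (t : ℂ) ^ (-(s + 1))) +
        ∫ t in Set.Ioi (N : ℝ), Siegel.S χ t * (t : ℂ) ^ (-(s + 1)) := by
    rw [← setIntegral_union (Set.Ioc_disjoint_Ioi le_rfl) measurableSet_Ioi
      (hint.mono_set Set.Ioc_subset_Ioi_self) (hint.mono_set (Set.Ioi_subset_Ioi hN')),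
      Set.Ioc_union_Ioi_eq_Ioi hN']
  set c : ℕ → ℂ := fun n => if n = 0 then 0 else χ (n : ZMod q) with hc
  have hc0 : c 0 = 0 := by simp [hc]
  have hsum : ∀ (m : ℕ) (g : ℕ → ℂ), ∑ k ∈ Icc 0 m, g k * c k =
      ∑ k ∈ Icc 1 m, g k * χ (k : ZMod q) := by
    intro m g
    rw [← Finset.sum_subset (Finset.Icc_subset_Icc_left (Nat.zero_le 1))]
    · refine Finset.sum_congr rfl fun k hk => ?_
      have : k ≠ 0 := by
        have := (Finset.mem_Icc.1 hk).1
        omega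
      simp [hc, this]
    · intro k hk hk'
      have : k = 0 := by
        rw [Finset.mem_Icc] at hk hk'
        omega
      simp [this, hc0]
  have habel := sum_mul_eq_sub_integral_mul₀' (f := fun u : ℝ => (u : ℂ) ^ (-s)) c hc0 N
    (fun t ht => (hasDerivAt_cpow_neg s (lt_of_lt_of_le zero_lt_one ht.1)).differentiableAt) ?_
  · have h1 : ∀ t ∈ Set.Ioc (1 : ℝ) N, deriv (fun u : ℝ => (u : ℂ) ^ (-s)) t *
        ∑ k ∈ Icc 0 ⌊t⌋₊, c k = -s * (Siegel.S χ t * (t : ℂ) ^ (-(s + 1))) := by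
      intro t ht
      rw [(hasDerivAt_cpow_neg s (lt_trans zero_lt_one ht.1)).deriv]
      have := hsum ⌊t⌋₊ (fun _ => 1)
      simp only [one_mul] at this
      rw [this, Siegel.S]
      ring
    rw [setIntegral_congr_fun measurableSet_Ioc h1, integral_const_mul, hsum N] at habel
    have h2 := hsum N (fun _ => 1)
    simp only [one_mul] at h2
    rw [h2] at habel
    have h3 : ∑ n ∈ Icc 1 N, χ (n : ZMod q) * (n : ℂ) ^ (-s) =
        ∑ k ∈ Icc 1 N, ((k : ℝ) : ℂ) ^ (-s) * χ (k : ZMod q) := by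
      refine Finset.sum_congr rfl fun n _ => ?_
      push_cast
      ring
    rw [h3, habel, Siegel.LFunction_eq_integral hχ hs, hsplit]
    push_cast
    ring
  · refine ContinuousOn.integrableOn_compact isCompact_Icc ?_
    intro t ht
    have ht' : (0 : ℝ) < t := lt_of_lt_of_le zero_lt_one ht.1
    have h1 : ContinuousAt (fun u : ℝ => -s * (u : ℂ) ^ (-(s + 1))) t :=
      continuousAt_const.mul ((continuousAt_cpow_const (by simpa using ht')).comp
        Complex.continuous_ofReal.continuousAt)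
    refine (h1.congr ?_).continuousWithinAt
    filter_upwards [lt_mem_nhds ht'] with u hu
    exact (hasDerivAt_cpow_neg s hu).deriv.symm

/-- (R) approximation of `L(s, χ)` by its partial sums for `Re s > 0` -/
theorem lapprox : LApproxStmt := by
  intro q _ χ hχ s hs N hN
  have hN0 : (0 : ℝ) < N := by exact_mod_cast hN
  rw [L_sub_eq hχ hs hN]
  have hNs : ‖(N : ℂ) ^ (-s)‖ = (N : ℝ) ^ (-s.re) := by
    have := Complex.norm_cpow_eq_rpow_re_of_pos hN0 (-s)
    simpa using this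
  have h1 : ‖(N : ℂ) ^ (-s) * ∑ n ∈ Icc 1 N, χ (n : ZMod q)‖ ≤ (N : ℝ) ^ (-s.re) * q := by
    rw [norm_mul, hNs]
    exact mul_le_mul_of_nonneg_left (norm_charSum_le hχ N) (Real.rpow_nonneg hN0.le _)
  have hint : IntegrableOn (fun t : ℝ => (q : ℝ) * t ^ (-s.re - 1)) (Set.Ioi (N : ℝ)) :=
    (integrableOn_Ioi_rpow_of_lt (by linarith only [hs]) hN0).const_mul _
  have h2 : ‖∫ t in Set.Ioi (N : ℝ), Siegel.S χ t * (t : ℂ) ^ (-(s + 1))‖ ≤
      q * ((N : ℝ) ^ (-s.re) / s.re) := by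
    refine (norm_integral_le_of_norm_le hint ?_).trans (le_of_eq ?_)
    · refine (ae_restrict_iff' measurableSet_Ioi).2 (Eventually.of_forall fun t ht => ?_)
      have ht' : (0 : ℝ) < t := lt_trans hN0 ht
      rw [norm_mul, norm_cpow_le s ht']
      exact mul_le_mul_of_nonneg_right (Siegel.norm_S_le hχ t) (Real.rpow_nonneg ht'.le _)
    · rw [integral_const_mul, integral_Ioi_rpow_of_lt (by linarith only [hs]) hN0]
      congr 1
      rw [show -s.re - 1 + 1 = -s.re by ring, neg_div_neg_eq]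
  have hsre : s.re ≤ ‖s‖ := Complex.re_le_norm s
  have hNr : 0 ≤ (N : ℝ) ^ (-s.re) := Real.rpow_nonneg hN0.le _
  calc ‖s * (∫ t in Set.Ioi (N : ℝ), Siegel.S χ t * (t : ℂ) ^ (-(s + 1))) -
        (N : ℂ) ^ (-s) * ∑ n ∈ Icc 1 N, χ (n : ZMod q)‖
      ≤ ‖s‖ * (q * ((N : ℝ) ^ (-s.re) / s.re)) + (N : ℝ) ^ (-s.re) * q := by
        refine (norm_sub_le _ _).trans (add_le_add ?_ h1)
        rw [norm_mul]
        exact mul_le_mul_of_nonneg_left h2 (norm_nonneg _)
    _ ≤ ‖s‖ * (q * ((N : ℝ) ^ (-s.re) / s.re)) + (N : ℝ) ^ (-s.re) * q * (‖s‖ / s.re) := by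
        refine add_le_add le_rfl (le_mul_of_one_le_right (by positivity) ?_)
        rw [one_le_div hs]
        exact hsre
    _ = 2 * q * ‖s‖ / s.re * (N : ℝ) ^ (-s.re) := by
        field_simp
        ring

end Vale.Agent.P013.J
end

section

namespace Vale.Agent.P013

open Finset Real

/-- Comparison of the densities at two levels. -/
lemma Vn_ratio : ∃ C : ℝ, 0 < C ∧ ∀ n z' z : ℕ, n ≠ 0 → 2 ≤ z' → z' ≤ z → 2 * C ≤ Real.log z' →
    Vn n z' ≤ 2 * (Real.log z / Real.log z') * Vn n z := by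
  obtain ⟨C, hC0, hC⟩ := mertens_prod
  refine ⟨C, hC0, ?_⟩
  intro n z' z hn hz' hzz hlog
  have h1 := hC z' z hz' hzz
  have hz'R : (2 : ℝ) ≤ z' := by exact_mod_cast hz'
  have hzR : (z' : ℝ) ≤ z := by exact_mod_cast hzz
  have hl' : 0 < Real.log z' := Real.log_pos (by linarith)
  have hl : 0 < Real.log z := Real.log_pos (by linarith)
  have hsub : Qn n z' ⊆ Qn n z := by
    intro q hq
    rw [Qn, mem_filter] at hq ⊢
    exact ⟨hq.1, lt_of_lt_of_le hq.2 hzz⟩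
  have hfac : ∀ q : ℕ, q.Prime → 0 < 1 - 1 / (q : ℝ) ∧ 1 - 1 / (q : ℝ) ≤ 1 := by
    intro q hq
    have : (2 : ℝ) ≤ q := by exact_mod_cast hq.two_le
    have h2 : 1 / (q : ℝ) ≤ 1 / 2 := one_div_le_one_div_of_le (by norm_num) this
    have h3 : 0 ≤ 1 / (q : ℝ) := by positivity
    constructor <;> linarith
  have hsd : Qn n z \ Qn n z' ⊆ (Ico z' z).filter Nat.Prime := by
    intro q hq
    rw [mem_sdiff, Qn, Qn, mem_filter, mem_filter, Nat.mem_primeFactors] at hq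
    rw [mem_filter, mem_Ico]
    refine ⟨⟨?_, hq.1.2⟩, hq.1.1.1⟩
    by_contra hlt
    push Not at hlt
    exact hq.2 ⟨hq.1.1, hlt⟩
  have h2 : ∏ p ∈ (Ico z' z).filter Nat.Prime, (1 - 1 / (p : ℝ)) ≤
      ∏ q ∈ Qn n z \ Qn n z', (1 - 1 / (q : ℝ)) := by
    rw [← prod_sdiff hsd]
    apply mul_le_of_le_one_left
    · apply prod_nonneg
      intro p hp
      exact (hfac p (mem_filter.mp (hsd hp)).2).1.le
    · apply prod_le_one
      · intro p hp
        exact (hfac p (mem_filter.mp (sdiff_subset hp)).2).1.le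
      · intro p hp
        exact (hfac p (mem_filter.mp (sdiff_subset hp)).2).2
  have h3 : Vn n z = (∏ q ∈ Qn n z \ Qn n z', (1 - 1 / (q : ℝ))) * Vn n z' := by
    unfold Vn
    rw [prod_sdiff hsub]
  have hV' : 0 < Vn n z' := by
    unfold Vn
    apply prod_pos
    intro q hq
    rw [Qn, mem_filter, Nat.mem_primeFactors] at hq
    exact (hfac q hq.1.1).1
  have h4 : Real.log z' / 2 ≤ Real.log z * ∏ q ∈ Qn n z \ Qn n z', (1 - 1 / (q : ℝ)) := by
    have := mul_le_mul_of_nonneg_left h2 hl.le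
    linarith only [this, h1, hlog]
  rw [h3]
  have h5 : (1 : ℝ) ≤ 2 * (Real.log z / Real.log z') *
      ∏ q ∈ Qn n z \ Qn n z', (1 - 1 / (q : ℝ)) := by
    have e : 2 * (Real.log z / Real.log z') * ∏ q ∈ Qn n z \ Qn n z', (1 - 1 / (q : ℝ)) =
      (Real.log z * ∏ q ∈ Qn n z \ Qn n z', (1 - 1 / (q : ℝ))) / (Real.log z' / 2) := by
      field_simp
    rw [e, one_le_div (by positivity)]
    exact h4
  have h6 := mul_le_mul_of_nonneg_right h5 hV'.le
  linarith only [h6]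

lemma cn_anti (n : ℕ) {z' z : ℕ} (h : z' ≤ z) (u : ℤ) (m q : ℕ) :
    cn n z u m q ≤ cn n z' u m q := by
  unfold cn
  apply card_le_card
  intro t ht
  rw [mem_filter] at ht ⊢
  refine ⟨ht.1, ht.2.1, ?_⟩
  intro q' hq'
  apply ht.2.2
  rw [Qn, mem_filter] at hq' ⊢
  exact ⟨hq'.1, lt_of_lt_of_le hq'.2 h⟩

/-- One step with all parameters explicit. -/
lemma explicit_step (C : ℝ)
    (hS : ∀ n z : ℕ, n ≠ 0 → 2 ≤ z → ∀ T : ℝ, ∀ (u : ℤ) (m : ℕ),
      (∀ d : ℕ, 0 < d → (∀ q ∈ Qn n z, Nat.Coprime d q) → Real.log z ≤ T →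
        (cn n z u m d : ℝ) ≤ m / d * (Vn n z * sF (T / Real.log z)) + Wn C n z T) ∧
      (2 * Real.log z ≤ T →
        m * Vn n z * sf (T / Real.log z) - Wn C n z T ≤ cn n z u m 1))
    (n Z z' Y m : ℕ) (u : ℤ) (ε σ : ℝ) (hn : n ≠ 0) (hz' : 2 ≤ z') (hzZ : z' ≤ Z)
    (hY0 : 0 < Y) (hε : 0 < ε) (hε1 : ε ≤ 1)
    (hσ : ∑ q ∈ (n.primeFactors.filter (fun q => Z ≤ q)).filter (fun q => q < Y), 1 / (q : ℝ) ≤ σ)
    (hmain : Wn C n Z ((2 + ε) * Real.log Z) + m * (Vn n z' * ca) * σ +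
        n.primeFactors.card * Wn C n z' (Real.log z') + m * (n.primeFactors.card / (Y : ℝ)) +
        n.primeFactors.card < m * Vn n Z * (ε / 3)) :
    ∃ t : ℤ, u < t ∧ t ≤ u + m ∧ Int.gcd t n = 1 := by
  have hZ : 2 ≤ Z := hz'.trans hzZ
  apply exists_coprime n Z hn u m
  have hz'R : (2 : ℝ) ≤ z' := by exact_mod_cast hz'
  have hZR : (2 : ℝ) ≤ Z := by exact_mod_cast hZ
  have hl' : 0 < Real.log z' := Real.log_pos (by linarith only [hz'R])
  have hl : 0 < Real.log Z := Real.log_pos (by linarith only [hZR])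
  have hm0 : (0 : ℝ) ≤ m := Nat.cast_nonneg _
  have hVnn : 0 ≤ Vn n Z := by
    rw [Vn_eq_vv]
    exact (vv_pos (fun q hq => Nat.prime_of_mem_primeFactors hq) Z).le
  have hV'nn : 0 ≤ Vn n z' := by
    rw [Vn_eq_vv]
    exact (vv_pos (fun q hq => Nat.prime_of_mem_primeFactors hq) z').le
  have hca : 0 ≤ ca := by
    have h1 := sF_F1 (t := 1) one_pos (by norm_num)
    have h2 := one_le_sF 1
    linarith
  -- lower bound
  have h1 := (hS n Z hn hZ ((2 + ε) * Real.log Z) u m).2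
    (by (by_contra nlg; linarith only [nlg, mul_pos (sub_pos.2 hε) (sub_pos.2 hl), mul_nonneg (le_of_lt (sub_pos.2 (not_le.1 nlg))) (sub_nonneg.2 hε1), mul_pos (sub_pos.2 (not_le.1 nlg)) (sub_pos.2 hε)]))
  have e1 : (2 + ε) * Real.log Z / Real.log Z = 2 + ε := by field_simp
  rw [e1] at h1
  have h2 : ε / 3 ≤ sf (2 + ε) := by
    refine le_trans ?_ (sf_lower (t := 2 + ε) (by linarith only [hε]))
    rw [div_le_div_iff₀ (by norm_num) (by linarith only [hε])]
    (by_contra nlg; linarith only [nlg, mul_nonneg (le_of_lt (sub_pos.2 hε)) (sub_nonneg.2 hε1), mul_nonneg (le_of_lt (sub_pos.2 (not_le.1 nlg))) (sub_nonneg.2 hε1), mul_pos (sub_pos.2 (not_le.1 nlg)) (sub_pos.2 hε)])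
  have h3 : m * Vn n Z * (ε / 3) ≤ m * Vn n Z * sf (2 + ε) :=
    mul_le_mul_of_nonneg_left h2 (by (clear * - hVnn; positivity))
  -- the other primes
  have h4 : ∑ q ∈ n.primeFactors.filter (fun q => Z ≤ q), (cn n Z u m q : ℝ) ≤
      m * (Vn n z' * ca) * σ +
        n.primeFactors.card * Wn C n z' (Real.log z') + m * (n.primeFactors.card / (Y : ℝ)) +
        n.primeFactors.card := by
    have hWnn : 0 ≤ Wn C n z' (Real.log z') := by
      unfold Wn
      apply mul_nonneg (Real.exp_pos _).le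
      apply prod_nonneg
      intro q _; positivity
    rw [← sum_filter_add_sum_filter_not (n.primeFactors.filter (fun q => Z ≤ q))
      (fun q => q < Y)]
    have hA : ∑ q ∈ (n.primeFactors.filter (fun q => Z ≤ q)).filter (fun q => q < Y),
        (cn n Z u m q : ℝ) ≤ m * (Vn n z' * ca) * σ +
        n.primeFactors.card * Wn C n z' (Real.log z') := by
      calc _ ≤ ∑ q ∈ (n.primeFactors.filter (fun q => Z ≤ q)).filter (fun q => q < Y),
          ((m * (Vn n z' * ca)) * (1 / (q : ℝ)) + Wn C n z' (Real.log z')) := by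
            apply sum_le_sum
            intro q hq
            rw [mem_filter, mem_filter, Nat.mem_primeFactors] at hq
            have hqp := hq.1.1.1
            have h5 : (cn n Z u m q : ℝ) ≤ cn n z' u m q := by
              exact_mod_cast cn_anti n hzZ u m q
            have h6 := (hS n z' hn hz' (Real.log z') u m).1 q hqp.pos (by
              intro q' hq'
              rw [Qn, mem_filter, Nat.mem_primeFactors] at hq'
              refine (Nat.coprime_primes hqp hq'.1.1).mpr ?_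
              have := hq.1.2
              omega) le_rfl
            have e2 : Real.log z' / Real.log z' = 1 := div_self hl'.ne'
            have e3 : sF 1 = ca := by
              have := sF_F1 (t := 1) one_pos (by norm_num)
              linarith
            rw [e2, e3] at h6
            refine (h5.trans h6).trans (le_of_eq ?_)
            ring
        _ = (m * (Vn n z' * ca)) * (∑ q ∈ (n.primeFactors.filter (fun q => Z ≤ q)).filter
              (fun q => q < Y), 1 / (q : ℝ)) +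
            (((n.primeFactors.filter (fun q => Z ≤ q)).filter (fun q => q < Y)).card : ℝ) *
              Wn C n z' (Real.log z') := by
            rw [sum_add_distrib, ← mul_sum, sum_const, nsmul_eq_mul]
        _ ≤ _ := by
            apply add_le_add
            · exact mul_le_mul_of_nonneg_left hσ (by (clear * - hV'nn hca; positivity))
            · apply mul_le_mul_of_nonneg_right _ hWnn
              exact_mod_cast (card_filter_le _ _).trans (card_filter_le _ _)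
    have hB : ∑ q ∈ (n.primeFactors.filter (fun q => Z ≤ q)).filter (fun q => ¬ q < Y),
        (cn n Z u m q : ℝ) ≤ m * (n.primeFactors.card / (Y : ℝ)) + n.primeFactors.card := by
      have hYR : (0 : ℝ) < Y := by exact_mod_cast hY0
      calc _ ≤ ∑ q ∈ (n.primeFactors.filter (fun q => Z ≤ q)).filter (fun q => ¬ q < Y),
          ((m : ℝ) / Y + 1) := by
            apply sum_le_sum
            intro q hq
            rw [mem_filter, mem_filter, Nat.mem_primeFactors] at hq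
            refine (cn_le n Z u m q hq.1.1.1.pos).trans ?_
            have : (Y : ℝ) ≤ q := by exact_mod_cast not_lt.mp hq.2
            have := div_le_div_of_nonneg_left hm0 hYR this
            linarith only [this]
        _ = (((n.primeFactors.filter (fun q => Z ≤ q)).filter (fun q => ¬ q < Y)).card : ℝ) *
            ((m : ℝ) / Y + 1) := by
            rw [sum_const, nsmul_eq_mul]
        _ ≤ (n.primeFactors.card : ℝ) * ((m : ℝ) / Y + 1) := by
            apply mul_le_mul_of_nonneg_right _ (by (clear * - hY0; positivity))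
            exact_mod_cast (card_filter_le _ _).trans (card_filter_le _ _)
        _ = _ := by ring
    linarith only [hB, hA]
  have h7 : (((∑ q ∈ n.primeFactors.filter (fun q => Z ≤ q), cn n Z u m q : ℕ)) : ℝ) <
      (cn n Z u m 1 : ℝ) := by
    push_cast
    linarith only [h4, h3, h1, hmain]
  exact_mod_cast h7

end Vale.Agent.P013
end

section

namespace Vale.Agent.P013

open Finset Real Filter

lemma ev_log_pow (B a δ : ℝ) (hδ : 0 < δ) :
    ∀ᶠ k : ℕ in atTop, B * (Real.log k) ^ a ≤ (k : ℝ) ^ δ := by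
  have h := (isLittleO_log_rpow_rpow_atTop a hδ)
  have h1 : ∀ᶠ x : ℝ in atTop, ‖(Real.log x) ^ a‖ ≤ (1 / (|B| + 1)) * ‖x ^ δ‖ :=
    h.bound (by positivity)
  have h2 := tendsto_natCast_atTop_atTop (R := ℝ) |>.eventually h1
  filter_upwards [h2, eventually_ge_atTop 1] with k hk hk1
  have hk0 : (0 : ℝ) < (k : ℝ) ^ δ := Real.rpow_pos_of_pos (by exact_mod_cast hk1) _
  rw [Real.norm_eq_abs, Real.norm_eq_abs, abs_of_pos hk0] at hk
  calc B * (Real.log k) ^ a ≤ |B * (Real.log k) ^ a| := le_abs_self _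
    _ = |B| * |(Real.log k) ^ a| := abs_mul _ _
    _ ≤ |B| * (1 / (|B| + 1) * (k : ℝ) ^ δ) := mul_le_mul_of_nonneg_left hk (abs_nonneg _)
    _ = (|B| / (|B| + 1)) * (k : ℝ) ^ δ := by ring
    _ ≤ 1 * (k : ℝ) ^ δ := by
        apply mul_le_mul_of_nonneg_right _ hk0.le
        rw [div_le_one (by positivity)]
        linarith
    _ = (k : ℝ) ^ δ := one_mul _

lemma ev_log_ge (B : ℝ) : ∀ᶠ k : ℕ in atTop, B ≤ Real.log k :=
  (Real.tendsto_log_atTop.comp (tendsto_natCast_atTop_atTop (R := ℝ))).eventually_ge_atTop B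

/-- Mertens' second theorem between `k` and `Y`. -/
lemma sum_inv_between (C : ℝ) (hC : ∀ x z : ℕ, 2 ≤ x → x ≤ z →
    ∑ p ∈ (Ico x z).filter Nat.Prime, 1 / (p : ℝ) ≤
      Real.log (Real.log z) - Real.log (Real.log x) + C / Real.log x)
    (n k Y : ℕ) (hk : 2 ≤ k) (hkY : k < Y) :
    ∑ q ∈ n.primeFactors.filter (fun q => k < q ∧ q < Y), 1 / (q : ℝ) ≤
      Real.log (Real.log Y) - Real.log (Real.log k) + C / Real.log k := by
  refine le_trans ?_ (hC k Y hk hkY.le)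
  apply sum_le_sum_of_subset_of_nonneg
  · intro q hq
    rw [mem_filter, Nat.mem_primeFactors] at hq
    rw [mem_filter, mem_Ico]
    exact ⟨⟨hq.2.1.le, hq.2.2⟩, hq.1.1⟩
  · intro q _ _; positivity

lemma Ln_le_log (D : ℝ) (hD : ∀ x : ℕ, 1 ≤ x →
    |(∑ p ∈ (range x).filter Nat.Prime, Real.log p / p) - Real.log x| ≤ D)
    (n z : ℕ) (hz : 1 ≤ z) : Ln n z ≤ Real.log z + D := by
  have h := (abs_le.mp (hD z hz)).2
  have h1 : Ln n z ≤ ∑ p ∈ (range z).filter Nat.Prime, Real.log p / p := by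
    unfold Ln
    apply sum_le_sum_of_subset_of_nonneg
    · intro q hq
      rw [Qn, mem_filter, Nat.mem_primeFactors] at hq
      rw [mem_filter, mem_range]
      exact ⟨hq.2, hq.1.1⟩
    · intro p hp _
      rw [mem_filter] at hp
      exact div_nonneg (Real.log_nonneg (by exact_mod_cast hp.2.one_le)) (Nat.cast_nonneg _)
  linarith

set_option maxHeartbeats 1000000 in
/-- Vaughan-type bound, for a cut above `k ^ δ`. -/
theorem vaughan_core (δ : ℝ) (hδ : 0 < δ) (hδ1 : δ ≤ 1 / 8) :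
    ∃ η : ℝ, 0 < η ∧ ∃ K₀ A₀ : ℝ, 0 < K₀ ∧ 0 < A₀ ∧ ∀ᶠ k : ℕ in atTop, ∀ n Z : ℕ,
      n.primeFactors.card = k → ⌊(k : ℝ) ^ δ⌋₊ ≤ Z → Z ≤ k + 1 →
      (∑ q ∈ n.primeFactors.filter (fun q => Z ≤ q ∧ q ≤ k), 1 / (q : ℝ)) ≤ η →
      (jacobsthal n : ℝ) ≤ K₀ * (Real.log k) ^ A₀ * (k : ℝ) ^ (2 * δ) *
        max (k : ℝ) (Z * Real.exp (Ln n Z)) := by
  obtain ⟨C, hC0, hS⟩ := sieve_both
  obtain ⟨CR, hCR, hratio⟩ := Vn_ratio
  obtain ⟨CM, hCM, hM2⟩ := mertens_two
  obtain ⟨D, hD0, hD⟩ := mertens_one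
  obtain ⟨c1, hc1, hV⟩ := Vn_lower
  obtain ⟨KW, A, hKW, hA, hW⟩ := Wn_upper C hC0
  have hca : 0 < ca := by
    have h1 := sF_F1 (t := 1) one_pos (by norm_num)
    have h2 := one_le_sF 1
    linarith
  obtain ⟨η, hη⟩ : ∃ η : ℝ, η = min (1 / 8) (δ ^ 2 / (384 * ca)) := ⟨_, rfl⟩
  have hη0 : 0 < η := by rw [hη]; positivity
  have hη8 : η ≤ 1 / 8 := by rw [hη]; exact min_le_left _ _
  have hηca : 32 * ca * η / δ ≤ δ / 12 := by
    have : η ≤ δ ^ 2 / (384 * ca) := by rw [hη]; exact min_le_right _ _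
    rw [div_le_div_iff₀ hδ (by norm_num)]
    rw [le_div_iff₀ (by positivity)] at this
    linarith only [this]
  refine ⟨η, hη0, (12 / (c1 * δ)) * (KW * 2 ^ A * 4 + KW * 2 ^ A * Real.exp D + 1) + 1, A + 1,
    by positivity, by positivity, ?_⟩
  have hδ0 : 0 < δ / 2 := by linarith only [hδ]
  filter_upwards [ev_log_ge 1, ev_log_ge (CM / η), ev_log_ge (4 * CR / δ), ev_log_ge (4 / δ),
    ev_log_pow (24 / (c1 * δ)) 1 η hη0, ev_log_pow 2 0 η hη0, eventually_ge_atTop 8]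
    with k hk1 hkCM hkCR hkδ hkη hk2η hk8
  intro n Z hcard hZlow hZup hsum
  have hn : n ≠ 0 := by rintro rfl; simp at hcard; omega
  have hkR : (8 : ℝ) ≤ k := by exact_mod_cast hk8
  have hk0 : (0 : ℝ) < k := by linarith only [hkR, hη8, hη0]
  have hℓ0 : 0 < Real.log k := by linarith only [hk1, hη8, hη0]
  obtain ⟨z', hz'def⟩ : ∃ z' : ℕ, z' = ⌊(k : ℝ) ^ δ⌋₊ := ⟨_, rfl⟩
  rw [← hz'def] at hZlow
  obtain ⟨ℓ, hℓ⟩ : ∃ ℓ : ℝ, ℓ = Real.log k := ⟨_, rfl⟩
  rw [← hℓ] at hk1 hkCM hkCR hkδ hkη hk2η hℓ0 ⊢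
  have hδℓ : 4 ≤ δ * ℓ := by rw [div_le_iff₀ hδ] at hkδ; linarith only [hkδ]
  have hkδdef : (k : ℝ) ^ δ = Real.exp (δ * ℓ) := by
    rw [Real.rpow_def_of_pos hk0, hℓ, mul_comm]
  have hkδ4 : 5 ≤ (k : ℝ) ^ δ := by
    rw [hkδdef]
    have := Real.add_one_le_exp (δ * ℓ)
    linarith only [this, hδℓ]
  have hz'le : (z' : ℝ) ≤ (k : ℝ) ^ δ := by
    rw [hz'def]; exact Nat.floor_le (by positivity)
  have hz'ge : (k : ℝ) ^ δ / 2 ≤ z' := by
    have := Nat.lt_floor_add_one ((k : ℝ) ^ δ)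
    rw [← hz'def] at this
    linarith only [this, hkδ4, hη8, hη0]
  have hz'2 : 2 ≤ z' := by
    have : (2 : ℝ) ≤ z' := by linarith only [hz'ge, hkδ4, hη8, hη0]
    exact_mod_cast this
  have hz'R : (2 : ℝ) ≤ z' := by exact_mod_cast hz'2
  have hlog2 : Real.log 2 ≤ 1 := by
    have := Real.log_two_lt_d9; linarith only [this, hη8, hη0]
  have hlz'ge : δ / 2 * ℓ ≤ Real.log z' := by
    have h1 : Real.log ((k : ℝ) ^ δ / 2) ≤ Real.log z' := Real.log_le_log (by positivity) hz'ge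
    rw [Real.log_div (by positivity) (by norm_num), hkδdef, Real.log_exp] at h1
    linarith only [h1, hlog2, hδℓ, hη8, hη0]
  have hlz'0 : 0 < Real.log z' := Real.log_pos (by linarith only [hz'ge, hkδ4, hη8, hη0])
  have hlz'le : Real.log z' ≤ ℓ := by
    have h1 : Real.log z' ≤ Real.log ((k : ℝ) ^ δ) := Real.log_le_log (by linarith only [hz'ge, hkδ4, hη8, hη0]) hz'le
    rw [hkδdef, Real.log_exp] at h1
    have : δ * ℓ ≤ 1 * ℓ := mul_le_mul_of_nonneg_right (by linarith only [hη8, hη0, hδ1]) hℓ0.le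
    linarith only [this, h1]
  have hlogCR : 2 * CR ≤ Real.log z' := by
    rw [div_le_iff₀ hδ] at hkCR
    linarith only [hlz'ge, hkCR]
  have hZ2 : 2 ≤ Z := hz'2.trans hZlow
  have hZR : (2 : ℝ) ≤ Z := by exact_mod_cast hZ2
  have hZk : (Z : ℝ) ≤ k + 1 := by exact_mod_cast hZup
  have hlZ0 : 0 < Real.log Z := Real.log_pos (by linarith only [hZR, hη8, hη0])
  have hlZ : Real.log Z ≤ 2 * ℓ := by
    have h1 : Real.log Z ≤ Real.log (k * Real.exp 1) := by
      apply Real.log_le_log (by linarith only [hZR, hη8, hη0])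
      have h2 : (2 : ℝ) ≤ Real.exp 1 := by
        have := Real.add_one_le_exp (1 : ℝ)
        linarith only [this]
      have h3 : (k : ℝ) * 2 ≤ k * Real.exp 1 := mul_le_mul_of_nonneg_left h2 hk0.le
      linarith only [h3, hZk, hkR, hη8, hη0]
    rw [Real.log_mul hk0.ne' (Real.exp_pos 1).ne', Real.log_exp, ← hℓ] at h1
    linarith only [h1, hlz'le, hlz'ge, hδℓ, hη8, hη0]
  -- the upper cut
  obtain ⟨Y, hYdef⟩ : ∃ Y : ℕ, Y = ⌈(k : ℝ) ^ (1 + η)⌉₊ := ⟨_, rfl⟩
  have hk1η : (k : ℝ) ^ (1 + η) = k * (k : ℝ) ^ η := by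
    rw [Real.rpow_add hk0, Real.rpow_one]
  have hk2η' : 2 ≤ (k : ℝ) ^ η := by simpa using hk2η
  have hYge : (k : ℝ) * (k : ℝ) ^ η ≤ Y := by
    rw [hYdef, ← hk1η]; exact Nat.le_ceil _
  have hYgt : k < Y := by
    have h1 : (k : ℝ) * 2 ≤ k * (k : ℝ) ^ η := mul_le_mul_of_nonneg_left hk2η' hk0.le
    have h2 : (k : ℝ) < Y := by linarith only [h1, hYge, hkR, hη8, hη0]
    exact_mod_cast h2
  have hYle : (Y : ℝ) ≤ (k : ℝ) ^ (1 + 2 * η) := by
    have h1 : (Y : ℝ) < (k : ℝ) ^ (1 + η) + 1 := by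
      rw [hYdef]; exact Nat.ceil_lt_add_one (by positivity)
    have h2 : (k : ℝ) ^ (1 + 2 * η) = k * (k : ℝ) ^ η * (k : ℝ) ^ η := by
      rw [← hk1η, ← Real.rpow_add hk0]; congr 1; ring
    rw [h2]
    rw [hk1η] at h1
    have h3 : (k : ℝ) * 2 ≤ (k : ℝ) * (k : ℝ) ^ η := mul_le_mul_of_nonneg_left hk2η' hk0.le
    have h4 : (k : ℝ) * (k : ℝ) ^ η * 2 ≤ (k : ℝ) * (k : ℝ) ^ η * (k : ℝ) ^ η :=
      mul_le_mul_of_nonneg_left hk2η' (by positivity)
    linarith only [h4, h3, h1, hkR, hη8, hη0]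
  have hY0 : (0 : ℝ) < Y := lt_of_lt_of_le (by positivity) hYge
  have hlY : Real.log Y ≤ (1 + 2 * η) * ℓ := by
    have h1 : Real.log Y ≤ Real.log ((k : ℝ) ^ (1 + 2 * η)) := Real.log_le_log hY0 hYle
    rwa [Real.log_rpow hk0, ← hℓ] at h1
  have hlY0 : 0 < Real.log Y := by
    apply Real.log_pos
    have : (k : ℝ) < Y := by exact_mod_cast hYgt
    linarith only [this, hkR, hη8, hη0]
  have hσ : ∑ q ∈ (n.primeFactors.filter (fun q => Z ≤ q)).filter (fun q => q < Y),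
      1 / (q : ℝ) ≤ 4 * η := by
    have hsub : (n.primeFactors.filter (fun q => Z ≤ q)).filter (fun q => q < Y) ⊆
        n.primeFactors.filter (fun q => Z ≤ q ∧ q ≤ k) ∪
        n.primeFactors.filter (fun q => k < q ∧ q < Y) := by
      intro q hq
      rw [mem_filter, mem_filter] at hq
      rw [mem_union, mem_filter, mem_filter]
      rcases Nat.lt_or_ge k q with h | h
      · exact Or.inr ⟨hq.1.1, h, hq.2⟩
      · exact Or.inl ⟨hq.1.1, hq.1.2, h⟩
    have h1 := sum_le_sum_of_subset_of_nonneg hsub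
      (f := fun q : ℕ => 1 / (q : ℝ)) (fun q _ _ => by positivity)
    have h2 := sum_union_inter (s₁ := n.primeFactors.filter (fun q => Z ≤ q ∧ q ≤ k))
      (s₂ := n.primeFactors.filter (fun q => k < q ∧ q < Y))
      (f := fun q : ℕ => 1 / (q : ℝ))
    have h3 : 0 ≤ ∑ q ∈ n.primeFactors.filter (fun q => Z ≤ q ∧ q ≤ k) ∩
        n.primeFactors.filter (fun q => k < q ∧ q < Y), 1 / (q : ℝ) :=
      sum_nonneg fun q _ => by positivity
    have h4 := sum_inv_between CM hM2 n k Y (by omega) hYgt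
    rw [← hℓ] at h4
    have h5 : Real.log (Real.log Y) - Real.log ℓ ≤ 2 * η := by
      have h6 : Real.log (Real.log Y) ≤ Real.log ((1 + 2 * η) * ℓ) :=
        Real.log_le_log hlY0 hlY
      rw [Real.log_mul (by linarith only [hη8, hη0]) hℓ0.ne'] at h6
      have h7 := Real.log_le_sub_one_of_pos (show 0 < 1 + 2 * η by linarith only [hη8, hη0])
      linarith only [h7, h6]
    have h6 : CM / ℓ ≤ η := by
      rw [div_le_iff₀ hη0] at hkCM
      rw [div_le_iff₀ hℓ0]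
      linarith only [hkCM]
    linarith only [h6, h5, h4, h3, h2, h1, hsum]
  -- densities
  have hVZ0 : 0 < Vn n Z := by
    rw [Vn_eq_vv]
    exact vv_pos (fun q hq => Nat.prime_of_mem_primeFactors hq) Z
  have hVZ : c1 / (2 * ℓ) ≤ Vn n Z := by
    refine le_trans ?_ (hV n Z hZ2)
    exact div_le_div_of_nonneg_left hc1.le hlZ0 hlZ
  have hVr : Vn n z' ≤ 8 / δ * Vn n Z := by
    refine (hratio n z' Z hn hz'2 hZlow hlogCR).trans ?_
    apply mul_le_mul_of_nonneg_right _ hVZ0.le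
    have h1 : Real.log Z / Real.log z' ≤ 2 * ℓ / (δ / 2 * ℓ) :=
      div_le_div₀ (by linarith only [hlz'le, hlz'ge, hδℓ, hη8, hη0]) hlZ (by positivity) hlz'ge
    have h2 : 2 * ℓ / (δ / 2 * ℓ) = 4 / δ := by
      field_simp
      norm_num
    rw [h2] at h1
    have h3 : 8 / δ = 2 * (4 / δ) := by ring
    rw [h3]
    linarith only [h1]
  obtain ⟨X, hX⟩ : ∃ X : ℝ, X = Z * Real.exp (Ln n Z) := ⟨_, rfl⟩
  have hX0 : 0 < X := by rw [hX]; positivity
  rw [← hX]
  obtain ⟨Mx, hMx⟩ : ∃ Mx : ℝ, Mx = max (k : ℝ) X := ⟨_, rfl⟩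
  have hMxk : (k : ℝ) ≤ Mx := by rw [hMx]; exact le_max_left _ _
  have hMxX : X ≤ Mx := by rw [hMx]; exact le_max_right _ _
  have hMx0 : 0 < Mx := by linarith only [hMxk, hkR, hη8, hη0]
  rw [← hMx]
  have hℓA0 : 0 < ℓ ^ A := Real.rpow_pos_of_pos hℓ0 A
  have h2A0 : 0 < (2 : ℝ) ^ A := Real.rpow_pos_of_pos (by norm_num) A
  have hW1 : Wn C n Z ((2 + δ) * Real.log Z) ≤ KW * 2 ^ A * 2 * (ℓ ^ A * (k : ℝ) ^ δ * X) := by
    refine (hW n Z hn hZ2 _).trans ?_
    have e1 : Real.exp ((2 + δ) * Real.log Z - Real.log Z) = Z * (Z : ℝ) ^ δ := by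
      have : (2 + δ) * Real.log Z - Real.log Z = Real.log Z + Real.log Z * δ := by ring
      rw [this, Real.exp_add, Real.exp_log (by linarith only [hZR, hη8, hη0]), ← Real.rpow_def_of_pos (by linarith only [hZR, hη8, hη0])]
    have h1 : (Real.log Z) ^ A ≤ 2 ^ A * ℓ ^ A := by
      rw [← Real.mul_rpow (by norm_num) hℓ0.le]
      exact Real.rpow_le_rpow hlZ0.le hlZ hA.le
    have h2 : (Z : ℝ) ^ δ ≤ 2 * (k : ℝ) ^ δ := by
      have h3 : (Z : ℝ) ^ δ ≤ (2 * (k : ℝ)) ^ δ :=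
        Real.rpow_le_rpow (by linarith only [hZR, hη8, hη0]) (by linarith only [hZk, hkR, hη8, hη0]) hδ.le
      rw [Real.mul_rpow (by norm_num) hk0.le] at h3
      have h4 : (2 : ℝ) ^ δ ≤ 2 ^ (1 : ℝ) :=
        Real.rpow_le_rpow_of_exponent_le (by norm_num) (by linarith only [hη8, hη0, hδ1])
      rw [Real.rpow_one] at h4
      have := mul_le_mul_of_nonneg_right h4 (show 0 ≤ (k : ℝ) ^ δ by positivity)
      linarith only [this, h3]
    rw [e1]
    calc KW * (Real.log Z) ^ A * (Z * (Z : ℝ) ^ δ * Real.exp (Ln n Z)) =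
        KW * ((Real.log Z) ^ A * ((Z : ℝ) ^ δ * X)) := by rw [hX]; ring
      _ ≤ KW * ((2 ^ A * ℓ ^ A) * ((2 * (k : ℝ) ^ δ) * X)) := by
        apply mul_le_mul_of_nonneg_left _ hKW.le
        apply mul_le_mul h1 _ (by positivity) (by positivity)
        exact mul_le_mul_of_nonneg_right h2 hX0.le
      _ = _ := by ring
  have hW2 : Wn C n z' (Real.log z') ≤ KW * Real.exp D * (ℓ ^ A * (k : ℝ) ^ δ) := by
    refine (hW n z' hn hz'2 _).trans ?_
    have h1 : (Real.log z') ^ A ≤ ℓ ^ A := Real.rpow_le_rpow hlz'0.le hlz'le hA.le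
    have h2 : Real.exp (Ln n z') ≤ z' * Real.exp D := by
      have := Real.exp_le_exp.mpr (Ln_le_log D hD n z' (by omega))
      rwa [Real.exp_add, Real.exp_log (by linarith only [hz'ge, hkδ4, hη8, hη0])] at this
    rw [sub_self, Real.exp_zero, one_mul]
    calc KW * (Real.log z') ^ A * Real.exp (Ln n z') ≤
        KW * ℓ ^ A * (z' * Real.exp D) := by
          apply mul_le_mul _ h2 (Real.exp_pos _).le (by positivity)
          exact mul_le_mul_of_nonneg_left h1 hKW.le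
      _ ≤ KW * ℓ ^ A * ((k : ℝ) ^ δ * Real.exp D) := by
          apply mul_le_mul_of_nonneg_left _ (by positivity)
          exact mul_le_mul_of_nonneg_right hz'le (Real.exp_pos _).le
      _ = _ := by ring
  have hkY : (k : ℝ) / Y ≤ c1 * δ / (24 * ℓ) := by
    have h1 : (k : ℝ) / Y ≤ k / (k * (k : ℝ) ^ η) :=
      div_le_div_of_nonneg_left hk0.le (by positivity) hYge
    have h2 : (k : ℝ) / (k * (k : ℝ) ^ η) = 1 / (k : ℝ) ^ η := by
      field_simp
    rw [h2] at h1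
    refine h1.trans ?_
    rw [Real.rpow_one] at hkη
    rw [div_le_div_iff₀ (by positivity) (by positivity)]
    have h3 : 24 / (c1 * δ) * ℓ * (c1 * δ) ≤ (k : ℝ) ^ η * (c1 * δ) :=
      mul_le_mul_of_nonneg_right hkη (by positivity)
    have h4 : 24 / (c1 * δ) * ℓ * (c1 * δ) = 24 * ℓ := by field_simp
    rw [h4] at h3
    linarith only [h3]
  obtain ⟨W1, hW1def⟩ : ∃ W1, W1 = Wn C n Z ((2 + δ) * Real.log Z) := ⟨_, rfl⟩
  obtain ⟨W2, hW2def⟩ : ∃ W2, W2 = Wn C n z' (Real.log z') := ⟨_, rfl⟩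
  have hWnn : ∀ (a : ℕ) (T : ℝ), 0 ≤ Wn C n a T := by
    intro a T
    unfold Wn
    apply mul_nonneg (Real.exp_pos _).le
    apply prod_nonneg
    intro q _; positivity
  have hW1nn : 0 ≤ W1 := by rw [hW1def]; exact hWnn _ _
  have hW2nn : 0 ≤ W2 := by rw [hW2def]; exact hWnn _ _
  rw [← hW1def] at hW1
  rw [← hW2def] at hW2
  obtain ⟨θ, hθ⟩ : ∃ θ : ℝ, θ = (12 * ℓ / (c1 * δ)) * (W1 + k * W2 + k) := ⟨_, rfl⟩
  have hθ0 : 0 ≤ θ := by rw [hθ]; (clear * - hℓ0 hc1 hδ hW1nn hk8 hW2nn; positivity)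
  have key : ∀ m : ℕ, θ < m → ∀ x : ℤ, ∃ t : ℤ, x < t ∧ t ≤ x + m ∧ Int.gcd t n = 1 := by
    intro m hm x
    have hm0 : (0 : ℝ) ≤ m := Nat.cast_nonneg _
    apply explicit_step C hS n Z z' Y m x δ (4 * η) hn hz'2 hZlow (by omega) hδ (by linarith only [hη8, hη0, hδ1]) hσ
    rw [← hW1def, ← hW2def, hcard]
    have h1 : W1 + k * W2 + k < m * (c1 * δ / (12 * ℓ)) := by
      rw [hθ] at hm
      have h2 : (12 * ℓ / (c1 * δ)) * (W1 + k * W2 + k) * (c1 * δ / (12 * ℓ)) <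
          m * (c1 * δ / (12 * ℓ)) := mul_lt_mul_of_pos_right hm (by positivity)
      have e : (12 * ℓ / (c1 * δ)) * (W1 + k * W2 + k) * (c1 * δ / (12 * ℓ)) =
          W1 + k * W2 + k := by field_simp
      rwa [e] at h2
    have h2 : (m : ℝ) * (Vn n z' * ca) * (4 * η) ≤ m * (Vn n Z * (δ / 12)) := by
      have h3 : Vn n z' * ca * (4 * η) ≤ (8 / δ * Vn n Z) * ca * (4 * η) := by
        apply mul_le_mul_of_nonneg_right _ (by positivity)
        exact mul_le_mul_of_nonneg_right hVr hca.le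
      have h4 : (8 / δ * Vn n Z) * ca * (4 * η) = Vn n Z * (32 * ca * η / δ) := by ring
      have h5 : Vn n Z * (32 * ca * η / δ) ≤ Vn n Z * (δ / 12) :=
        mul_le_mul_of_nonneg_left hηca hVZ0.le
      calc (m : ℝ) * (Vn n z' * ca) * (4 * η) = m * (Vn n z' * ca * (4 * η)) := by ring
        _ ≤ _ := mul_le_mul_of_nonneg_left (by linarith only [h5, h4, h3]) hm0
    have h3 : (m : ℝ) * (k / Y) ≤ m * (Vn n Z * (δ / 12)) := by
      apply mul_le_mul_of_nonneg_left _ hm0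
      refine hkY.trans ?_
      have := mul_le_mul_of_nonneg_right hVZ (show 0 ≤ δ / 12 by positivity)
      refine le_trans (le_of_eq ?_) this
      field_simp
      norm_num
    have h4 : (m : ℝ) * (c1 * δ / (12 * ℓ)) ≤ m * (Vn n Z * (δ / 6)) := by
      apply mul_le_mul_of_nonneg_left _ hm0
      have := mul_le_mul_of_nonneg_right hVZ (show 0 ≤ δ / 6 by positivity)
      refine le_trans (le_of_eq ?_) this
      field_simp
      norm_num
    have h5 : (m : ℝ) * Vn n Z * (δ / 3) = m * (Vn n Z * (δ / 12)) + m * (Vn n Z * (δ / 12)) +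
        m * (Vn n Z * (δ / 6)) := by ring
    rw [h5]
    linarith only [h4, h3, h2, h1]
  have hj : jacobsthal n ≤ ⌊θ⌋₊ + 1 := jacobsthal_le (Nat.succ_pos _) (key (⌊θ⌋₊ + 1) (by
    push_cast; exact Nat.lt_floor_add_one _))
  have hj2 : (jacobsthal n : ℝ) ≤ θ + 1 := by
    have h1 : (jacobsthal n : ℝ) ≤ ((⌊θ⌋₊ + 1 : ℕ) : ℝ) := by exact_mod_cast hj
    push_cast at h1
    have := Nat.floor_le hθ0
    linarith only [this, h1]
  refine hj2.trans ?_
  have hkδ1 : 1 ≤ (k : ℝ) ^ δ := by linarith only [hkδ4, hη8, hη0]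
  have hℓA1 : 1 ≤ ℓ ^ A := Real.one_le_rpow hk1 hA.le
  have hP : 1 ≤ ℓ ^ A * (k : ℝ) ^ δ := by
    have := mul_le_mul hℓA1 hkδ1 zero_le_one (by linarith only [hℓA1, hη8, hη0])
    linarith only [this]
  have h2A1 : 1 ≤ (2 : ℝ) ^ A := Real.one_le_rpow (by norm_num) hA.le
  have hsumW : W1 + k * W2 + k ≤ (KW * 2 ^ A * 4 + KW * 2 ^ A * Real.exp D + 1) *
      (ℓ ^ A * (k : ℝ) ^ δ * Mx) := by
    have h1 : W1 ≤ KW * 2 ^ A * 4 * (ℓ ^ A * (k : ℝ) ^ δ * Mx) := by
      refine hW1.trans ?_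
      apply mul_le_mul _ _ (by positivity) (by positivity)
      · have : 0 ≤ KW * 2 ^ A := by positivity
        linarith only [this]
      · exact mul_le_mul_of_nonneg_left hMxX (by positivity)
    have h2 : k * W2 ≤ KW * 2 ^ A * Real.exp D * (ℓ ^ A * (k : ℝ) ^ δ * Mx) := by
      calc k * W2 ≤ Mx * (KW * Real.exp D * (ℓ ^ A * (k : ℝ) ^ δ)) :=
            mul_le_mul hMxk hW2 hW2nn hMx0.le
        _ = KW * Real.exp D * (ℓ ^ A * (k : ℝ) ^ δ * Mx) * 1 := by ring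
        _ ≤ KW * Real.exp D * (ℓ ^ A * (k : ℝ) ^ δ * Mx) * 2 ^ A :=
            mul_le_mul_of_nonneg_left h2A1 (by positivity)
        _ = _ := by ring
    have h3 : (k : ℝ) ≤ 1 * (ℓ ^ A * (k : ℝ) ^ δ * Mx) := by
      have := mul_le_mul hP hMxk hk0.le (by positivity)
      linarith only [this]
    linarith only [h3, h2, h1]
  have hk2δ : (k : ℝ) ^ δ ≤ (k : ℝ) ^ (2 * δ) :=
    Real.rpow_le_rpow_of_exponent_le (by linarith only [hkR, hη8, hη0]) (by linarith only [hδ0])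
  have hfin1 : θ ≤ (12 / (c1 * δ)) * (KW * 2 ^ A * 4 + KW * 2 ^ A * Real.exp D + 1) *
      (ℓ ^ (A + 1) * (k : ℝ) ^ (2 * δ) * Mx) := by
    rw [hθ]
    calc (12 * ℓ / (c1 * δ)) * (W1 + k * W2 + k) ≤ (12 * ℓ / (c1 * δ)) *
        ((KW * 2 ^ A * 4 + KW * 2 ^ A * Real.exp D + 1) * (ℓ ^ A * (k : ℝ) ^ δ * Mx)) :=
          mul_le_mul_of_nonneg_left hsumW (by positivity)
      _ = (12 / (c1 * δ)) * (KW * 2 ^ A * 4 + KW * 2 ^ A * Real.exp D + 1) *
          (ℓ ^ (A + 1) * (k : ℝ) ^ δ * Mx) := by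
          rw [Real.rpow_add hℓ0, Real.rpow_one]; ring
      _ ≤ _ := by
          apply mul_le_mul_of_nonneg_left _ (by positivity)
          apply mul_le_mul_of_nonneg_right _ hMx0.le
          exact mul_le_mul_of_nonneg_left hk2δ (by positivity)
  have hfin2 : (1 : ℝ) ≤ 1 * (ℓ ^ (A + 1) * (k : ℝ) ^ (2 * δ) * Mx) := by
    have h1 : 1 ≤ ℓ ^ (A + 1) := Real.one_le_rpow hk1 (by linarith only [hη8, hη0, hA])
    have h2 : 1 ≤ (k : ℝ) ^ (2 * δ) := by linarith only [hk2δ, hkδ4, hη8, hη0]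
    have h3 : 1 ≤ ℓ ^ (A + 1) * (k : ℝ) ^ (2 * δ) := by
      have := mul_le_mul h1 h2 zero_le_one (by linarith only [h1, hη8, hη0])
      linarith only [this]
    have h4 := mul_le_mul h3 (show 1 ≤ Mx by linarith only [hMxk, hkR, hη8, hη0]) zero_le_one (by linarith only [h3, hη8, hη0])
    linarith only [h4]
  calc θ + 1 ≤ (12 / (c1 * δ)) * (KW * 2 ^ A * 4 + KW * 2 ^ A * Real.exp D + 1) *
      (ℓ ^ (A + 1) * (k : ℝ) ^ (2 * δ) * Mx) + 1 * (ℓ ^ (A + 1) * (k : ℝ) ^ (2 * δ) * Mx) :=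
        add_le_add hfin1 hfin2
    _ = _ := by ring

end Vale.Agent.P013
end
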