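import Vale.Agent.P013.Bdl.B1
import Vale.Agent.P013.Bdl.B4

/-!
# Natural theorem: natural bad `M` are rare
-/

open Finset Real Filter

namespace Vale.Agent.P013.J

open Ntl

theorem natural : NaturalStmt := by
  intro A r hA
  refine ⟨40 * A + 40, by positivity, ?_⟩
  have hev : ∀ᶠ y : ℝ in atTop, Ntl.Big A r (log y) :=
    Real.tendsto_log_atTop.eventually (Ntl.big_eventually A hA r)
  obtain ⟨y₀, hy₀⟩ := Filter.eventually_atTop.mp (hev.and (eventually_gt_atTop 0))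
  refine ⟨y₀, ?_⟩
  intro y hy κ hκ hκ1 P I hP hI V B b D e₁ hBD hD hDe hBe hC hb hbA he heE Y hYl hYu
  classical
  obtain ⟨hbig, hy0⟩ := hy₀ y hy
  set l := log y with hl
  have hl1 : 1 ≤ l := hbig.hl
  have hl0 : 0 < l := by linarith only [hl1]
  have hye : y = exp l := (Real.exp_log hy0).symm
  have hc1 := hbig.c1
  have hD0 : 0 < D := hD
  have he0 : 0 < e₁ := he
  have hκ0 : 0 < κ := lt_of_lt_of_le (by positivity) hκ
  have hW := hbig.W_pos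
  -- the boxes
  have hbox : Boxes r I P κ (WW A l) := by
    refine ⟨fun j hj => (hP j hj).1, hκ0, hκ1, hW, fun j hj => ?_, fun j hj p hp => (hI j hj p hp).1,
      fun j hj p hp => (hI j hj p hp).2.1, fun j hj p hp => (hI j hj p hp).2.2⟩
    obtain ⟨a1, a2, _⟩ := hP j hj
    unfold WW
    refine mul_le_mul hκ ?_ (Real.exp_pos _).le hκ0.le
    rw [← Real.exp_log a1]
    apply Real.exp_le_exp.mpr
    refine le_trans ?_ a2
    unfold zlo
    exact pow_le_pow_right₀ hc1 (by omega)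
  have hPrpos : 0 < ∏ j ∈ range (r + 1), P j := Finset.prod_pos fun j hj =>
    (hP j (Nat.lt_succ_iff.mp (Finset.mem_range.mp hj))).1
  have hPm : 2 ^ (r + 1) * ∏ j ∈ range (r + 1), P j ≤ exp (l ^ (0.5 : ℝ)) :=
    hbig.prod_le P fun j hj => ⟨(hP j hj).1, (hP j hj).2.2⟩
  set Pr := ∏ j ∈ range (r + 1), P j with hPr
  have hPr1 : Pr ≤ exp (l ^ (0.5 : ℝ)) := by
    refine le_trans ?_ hPm
    have : (1 : ℝ) ≤ 2 ^ (r + 1) := one_le_pow₀ (by norm_num)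
    nlinarith only [hPrpos, this]
  have he1 : (0 : ℝ) < e₁ := by exact_mod_cast he0
  have hD1 : (0 : ℝ) < D := by exact_mod_cast hD0
  rw [hye] at hYl hYu
  -- the range of Y
  have hYe := hbig.Y_ge Y e₁ Pr he1 heE hPrpos hPr1 hYl
  have hY0 : 0 < Y := (Real.exp_pos _).trans_le hYe
  have hY1 : 1 ≤ Y := by
    refine le_trans ?_ hYe
    rw [Real.one_le_exp_iff]; linarith only [hl1]
  set X := l ^ A * (exp l * exp (l ^ (0.96 : ℝ))) with hX
  have hXb : |(b : ℝ)| * |(B : ℝ)| ≤ X := by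
    rw [hX]
    rw [hye] at hBe
    exact mul_le_mul hbA hBe (abs_nonneg _) (by positivity)
  have hXY := hbig.X_le hA Y e₁ Pr he1 heE hPrpos hPr1 hYl
  have hErr := hbig.err_le hA Y X hYe hXY
  set Qm := exp (3 * l ^ (0.96 : ℝ)) with hQm
  have hQm1 : 1 ≤ Qm := by
    rw [hQm, Real.one_le_exp_iff]
    have := hbig.h96; linarith only [this]
  have hQmb : (D : ℝ) * e₁ * (2 ^ (r + 1) * Pr) * (2 ^ (r + 1) * Pr) ≤ Qm := by
    calc (D : ℝ) * e₁ * (2 ^ (r + 1) * Pr) * (2 ^ (r + 1) * Pr)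
        ≤ exp (l ^ (0.96 : ℝ)) * exp (l ^ (0.96 : ℝ)) * exp (l ^ (0.5 : ℝ)) *
          exp (l ^ (0.5 : ℝ)) := by gcongr
      _ = exp (2 * l ^ (0.96 : ℝ) + 2 * l ^ (0.5 : ℝ)) := by
          rw [← Real.exp_add, ← Real.exp_add, ← Real.exp_add]; congr 1; ring
      _ ≤ Qm := by
          rw [hQm]
          apply Real.exp_le_exp.mpr
          have := hbig.c5
          linarith only [this]
  -- the interval
  set N₁ := ⌈Y⌉₊ with hN₁
  set N₂ := ⌊2 * Y⌋₊ + 1 with hN₂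
  have hN1 : Y ≤ N₁ := Nat.le_ceil _
  have hN12 : N₁ ≤ N₂ := by
    rw [hN₁, hN₂]
    refine (Nat.ceil_le_floor_add_one Y).trans ?_
    have : ⌊Y⌋₊ ≤ ⌊2 * Y⌋₊ := Nat.floor_mono (by linarith only [hY0])
    omega
  have hN2 : (N₂ : ℝ) ≤ 2 * Y + 1 := by
    rw [hN₂]; push_cast
    have := Nat.floor_le (show 0 ≤ 2 * Y by positivity)
    linarith only [this]
  have hN2' : (N₂ : ℝ) ≤ 3 * Y := by linarith only [hY1, hN2]
  have hN3 : (N₂ : ℝ) - N₁ ≤ 2 * Y := by linarith only [hY1, hN1, hN2]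
  have hN10 : 0 < N₁ := Nat.ceil_pos.mpr hY0
  have hErr4 : 0 ≤ 2 * Qm * (2 + 4 * Real.pi * X / Y) := by
    have := Real.pi_pos
    positivity
  -- the double sum
  have hsum : ∑ s ∈ Ntl.box r I, ∑ s' ∈ Ntl.box r I, ‖inn V B b D e₁ (pr s) (pr s') N₁ N₂‖ ≤
      SS r P κ ^ 2 * (Y * l ^ (-(3 * A))) := by
    by_cases hcase : l ^ (20 * A + 20) ≤ (D : ℝ)
    · have hG0 : 0 < ⌈l ^ (4 * A + 2)⌉₊ := Nat.ceil_pos.mpr (by positivity)
      have h1 := hbox.case1 V B b D e₁ hD0 he0 hBD hb Y Qm X hY0 hQmb hQm1 hXb N₁ N₂ hN1 hN12 hN3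
        ⌈l ^ (4 * A + 2)⌉₊ hG0
      refine h1.trans ?_
      refine mul_le_mul_of_nonneg_left ?_ (by positivity)
      have h2 := hbig.final1 hA D hD0 hDe hcase |(b : ℝ)| (abs_nonneg _) hbA Y
        (2 * Qm * (2 + 4 * Real.pi * X / Y)) hY0 (by linarith only [hErr, hErr4])
      exact h2
    · push Not at hcase
      have hBy : exp l * l ^ (40 * A + 40) ≤ |(B : ℝ)| := by
        have h1 : ¬ l ^ (40 * A + 40) ≤ (D : ℝ) := by
          intro h2
          have : l ^ (20 * A + 20) ≤ l ^ (40 * A + 40) :=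
            Real.rpow_le_rpow_of_exponent_le hl1 (by linarith only [hA])
          linarith only [hcase, h2, this]
        have h3 : l ^ (40 * A + 40) ≤ |(B : ℝ)| / y := by
          rcases le_max_iff.mp hC with h4 | h4
          · exact absurd h4 h1
          · exact h4
        rw [le_div_iff₀ hy0, hye] at h3
        linarith only [h3]
      have hB0 : B ≠ 0 := by
        rintro rfl
        have : 0 < exp l * l ^ (40 * A + 40) := by positivity
        simp at hBy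
        linarith only [this, hBy]
      have h1 := hbox.case2 V B b D e₁ hD0 he0 hBD hb hB0 Y Qm X hY0 hQmb hQm1 hXb N₁ N₂ hN1 hN12
        hN3 hN2' (l ^ (-(10 * A + 10))) (by positivity)
      refine h1.trans ?_
      refine mul_le_mul_of_nonneg_left ?_ (by positivity)
      exact hbig.final2 hA D hD1 hcase.le κ hκ |(B : ℝ)| hBy Y e₁ Pr
        (4 * Qm * (2 + 4 * Real.pi * X / Y)) hY0 he1 hPrpos hYu hErr
  -- second moment
  set 𝓜 := ((Icc 1 ⌊2 * Y⌋₊).filter (fun M : ℕ => Y ≤ (M : ℝ) ∧ (M : ℤ) ∣ D * V - B ∧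
    (∀ j ≤ r, ∀ p ∈ I j, ¬ p ∣ M) ∧ Nat.Coprime M e₁ ∧
    l ^ (-A) * ∏ j ∈ range (r + 1), (κ * P j + 1) ≤
      ‖boxSum r I (fun s => e ((b : ℝ) * V / ((M : ℝ) * e₁ * s)))‖)) with h𝓜
  have hmem : ∀ M ∈ 𝓜, (1 ≤ M ∧ M ≤ ⌊2 * Y⌋₊) ∧ Y ≤ (M : ℝ) ∧ (M : ℤ) ∣ D * V - B ∧
    (∀ j ≤ r, ∀ p ∈ I j, ¬ p ∣ M) ∧ Nat.Coprime M e₁ ∧
    l ^ (-A) * ∏ j ∈ range (r + 1), (κ * P j + 1) ≤
      ‖boxSum r I (fun s => e ((b : ℝ) * V / ((M : ℝ) * e₁ * s)))‖ := by
    intro M hM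
    rw [h𝓜, Finset.mem_filter, Finset.mem_Icc] at hM
    exact hM
  have hSS := hbox.SS_pos
  have hsm := second_moment (Ntl.box r I) pr (fun s hs => hbox.pr_pos hs) V B b D e₁ hD0 he0 hBD N₁ N₂
    hN10 𝓜 (fun M hM => by
      obtain ⟨⟨a1, a2⟩, a3, _⟩ := hmem M hM
      rw [Finset.mem_Ico]
      exact ⟨Nat.ceil_le.mpr a3, Nat.lt_succ_of_le a2⟩)
    (fun M hM => (hmem M hM).2.2.1) (fun M hM => (hmem M hM).2.2.2.2.1)
    (fun M hM s hs => by
      unfold pr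
      apply Nat.Coprime.prod_right
      intro j _
      have hj : (j : ℕ) ≤ r := by omega
      have hsj := Ntl.mem_box hs j
      have hp := (hI j hj _ hsj).1
      exact ((Nat.Prime.coprime_iff_not_dvd hp).mpr ((hmem M hM).2.2.2.1 j hj _ hsj)).symm)
    (l ^ (-A) * SS r P κ) (by positivity)
    (fun M hM => (hmem M hM).2.2.2.2.2)
  have hfin : (𝓜.card : ℝ) * (l ^ (-A) * SS r P κ) ^ 2 ≤ SS r P κ ^ 2 * (Y * l ^ (-(3 * A))) :=
    hsm.trans hsum
  have h5 : (l ^ (-A)) ^ 2 * l ^ (-A) = l ^ (-(3 * A)) := by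
    rw [← Real.rpow_natCast, ← Real.rpow_mul hl0.le, ← Real.rpow_add hl0]
    congr 1; push_cast; ring
  have h6 : (𝓜.card : ℝ) * (SS r P κ ^ 2 * (l ^ (-A)) ^ 2) ≤
      (Y * l ^ (-A)) * (SS r P κ ^ 2 * (l ^ (-A)) ^ 2) := by
    calc (𝓜.card : ℝ) * (SS r P κ ^ 2 * (l ^ (-A)) ^ 2) =
          (𝓜.card : ℝ) * (l ^ (-A) * SS r P κ) ^ 2 := by ring
      _ ≤ SS r P κ ^ 2 * (Y * l ^ (-(3 * A))) := hfin
      _ = _ := by rw [← h5]; ring
  exact le_of_mul_le_mul_right h6 (by positivity)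

end Vale.Agent.P013.J
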