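import Vale.Agent.P013.Bdl.B1
import Vale.Agent.P013.Bdl.B3
import Vale.Agent.P013.Bdl.B2
import Vale.Agent.P013.Bdl.B5
import Vale.Agent.P013.Bdl.B4
import Vale.Agent.P001.LSArith
import Vale.Agent.P013.Bdl.K_J_Natural
attribute [-instance] AlgebraicGeometry.Scheme.instPreorderCarrierCarrierCommRingCat instCoeT Vector.instHMul NumberField.to_charZero AddQuantale.instAddLeftMono PartOrdEmb.str CompleteAtomicBooleanAlgebra.toCompleteBooleanAlgebra CompleteAtomicBooleanAlgebra.toCompletelyDistribLattice CompleteBooleanAlgebra.toCompleteDistribLattice CompleteBooleanAlgebra.toCompleteLattice CompleteDistribLattice.toCoframe CompleteDistribLattice.toFrame CompleteLinearOrder.toCompleteLattice CompleteLinearOrder.toCompletelyDistribLattice CompletelyDistribLattice.toCompleteDistribLattice CompletelyDistribLattice.toCompleteLattice Order.Coframe.toCompleteLattice Order.Frame.toCompleteLattice AddCommMonCat.FilteredColimits.colimitAddCommMonoid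 IdemCommSemiring.toIdemSemiring KleeneAlgebra.toIdemSemiring instCoeTC Pi.addMonoidWithOne Pi.instLocallyFiniteOrder instCoeTCOfCoe TopologicalSpace.Compacts.instSetLike Std.Time.Duration.instHMulInt_1 instOfScientificFloat32 IdemSemiring.toCanonicallyOrderedAdd BoxIntegral.Box.instMembershipForallReal ProfiniteAddGrp.addGroup LinOrd.str Pi.instZero RCLike.innerProductSpace LinearOrderedCommGroupWithZero.toLinearOrderedCommMonoidWithZero ContDiffMapSupportedInClass.toDFunLike EquivLike.toFunLike RKHS.instFunLike TestFunctionClass.toDFunLike CommMonCat.str littleWedderburn NormedDivisionRing.toDivisionRing Pi.mulZeroClass SemiRingCat.instSemiringObjForgetRingHomCarrier SimpleGraph.TripartiteFromTriangles.graph.instDecidableRelAdj instPosMulMonoWithZeroOfMulLeftMono instCoeHTC instCoeHTCT BooleanRing.toRing IdemSemiring.toSemiring Pi.normedAddCommGroup BooleanRing.toCommRing EuclideanDomain.toCommRing Field.toEuclideanDomain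 NormedCommRing.toCommRing SeminormedCommRing.toCommRing Fintype.decidableForallFintype Turing.FinTM2.decidableEqK NormedCommGroup.toNormedGroup NormedCommGroup.toSeminormedCommGroup NormedGroup.toSeminormedGroup SeminormedCommGroup.toSeminormedGroup LeftPreLieRing.instLieAdmissibleRing RightPreLieRing.instLieAdmissibleRing CategoryTheory.CommGrpObj.mk CategoryTheory.CommGrpObj.toGrpObj CategoryTheory.Preadditive.instGrpObj instCommGroupOfIsSimpleGroupOfIsNilpotent CommGroup.toGroup CommGrpTypeEquivalenceCommGrp.commGrpCommGroup GrpTypeEquivalenceGrp.grpGroup NormedCommGroup.toCommGroup NormedGroup.toGroup SeminormedCommGroup.toCommGroup SeminormedGroup.toGroup coePNatNat Nat.Primes.coeNat Nat.Primes.coePNat NormedCommRing.toNormedRing NormedDivisionRing.toNormedRing AddQuantale.instAddRightMono Quantale.instMulRightMono LeftPreLieRing.toNonUnitalNonAssocRing LieAdmissibleRing.toNonUnitalNonAssocRing RightPreLieRing.toNonUnitalNonAssocRing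 CategoryTheory.Limits.Concrete.instUniqueToTypeTerminal instFloorSemiringNat LinearOrderedCommGroupWithZero.toCommGroupWithZero CategoryTheory.instBraidedCategoryType CategoryTheory.Abelian.toPreadditive Array.instDecidableForallForallMemOfDecidablePred Multiset.decidableDforallMultiset Option.decidableForallMem Vector.instDecidableForallForallMemOfDecidablePred Pi.nonUnitalNonAssocSemiring NormedRing.toSeminormedRing SeminormedRing.toRing instMulPosMonoWithZeroOfMulRightMono CommRing.toAddCommGroupWithOne Ring.toNonAssocRing Set.instAddLeftMono Pi.addGroupWithOne instSubsingleton Group.IsPerfect.subsingleton_of_isMulCommutative ChainCompletePartialOrder.instOfCompleteLattice ChainCompletePartialOrder.instOmegaCompletePartialOrder ChainCompletePartialOrder.toPartialOrder CompleteLattice.toCompletePartialOrder CompletePartialOrder.toOmegaCompletePartialOrder CompletePartialOrder.toPartialOrder OmegaCompletePartialOrder.toPartialOrder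 IsEmpty.instSubsingleton Pi.instZeroLEOneClass Lat.str CategoryTheory.Mat_.fintype Invertible.toNeZero Nat.AtLeastTwo.toNeZero Std.Time.WallTime.instHAddOffset_1 Pi.nonAssocSemiring Pi.mulOneClass Pi.commMagma CanonicallyOrderedAdd.toMulLeftMono CanonicallyOrderedMul.toMulLeftMono IdemSemiring.toMulLeftMono IsOrderedCancelMonoid.toIsOrderedMonoid IsOrderedMonoid.toIsOrderedCancelMonoid IsOrderedMonoid.toMulLeftMono LinearOrderedCommMonoidWithZero.toIsOrderedMonoid Quantale.instMulLeftMono Pi.commMonoidWithZero Set.instAddRightMono EReal.instPosMulReflectLT MeasureTheory.MeasureSpace.pi CategoryTheory.instFinCategoryOfFintypeOfIsThin FinEnum.instFintype SetLike.instFintype Unique.fintype CategoryTheory.FinCategory.fintypeObj Compactum.instTopologicalSpaceA GrpWithZero.str Nat.instCeilDiv Nat.instFloorDiv Int.instNormedAddCommGroup Pi.divInvMonoid RingCat.FilteredColimits.colimitRing Pi.normedRing Int.decidableLELE Int.decidableLELT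 Int.decidableLTLE Int.decidableLTLT List.instDecidableMemOfLawfulBEq OrderDual.instSemifield RCLike.algebraMapCoe WithCStarModule.instNormedSpaceComplexForall NonUnitalCommCStarAlgebra.toNonUnitalNormedCommRing PadicComplex.nontriviallyNormedField System.FilePath.instHDivString EReal.instMulPosReflectLT Pi.instMaxForall_mathlib Pi.isOrderedRing Semigrp.str Pi.divisionCommMonoid IsValuativeTopology.instValuedValueGroupWithZeroOfIsUniformAddGroup Std.LinearOrderPackage.toLinearPreorderPackage TopRep.hV1 Valued.toUniformSpace PosNum.dvd ArchimedeanClass.instIsStrictOrderedRingFiniteElement CStarAlgebra.toNonUnitalCStarAlgebra AlgebraicGeometry.Scheme.component_nontrivial Std.LinearOrderPackage.toPartialOrderPackage Std.LinearPreorderPackage.toPreorderPackage Std.PartialOrderPackage.toPreorderPackage UpgradedStandardBorel.toTopologicalSpace CompleteLinearOrder.toConditionallyCompleteLinearOrderBot CompleteLinearOrder.toLinearOrder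 ConditionallyCompleteLinearOrder.toLinearOrder ConditionallyCompleteLinearOrderBot.toConditionallyCompleteLinearOrder LinearOrderedAddCommGroupWithTop.instLinearOrderedAddCommMonoidWithTop LinearOrderedAddCommGroupWithTop.toLinearOrder LinearOrderedAddCommMonoidWithTop.toLinearOrder LinearOrderedCommMonoidWithZero.toLinearOrder MonCat.monoidObj instIsBotOneClass TopologicalSpace.UpgradedIsCompletelyPseudoMetrizableSpace.toPseudoMetricSpace instConditionallyCompletePartialOrderSup BiheytingAlgebra.toCoheytingAlgebra BiheytingAlgebra.toHeytingAlgebra BooleanAlgebra.toBiheytingAlgebra BooleanAlgebra.toDistribLattice BooleanAlgebra.toGeneralizedBooleanAlgebra CoheytingAlgebra.toGeneralizedCoheytingAlgebra CompleteBooleanAlgebra.toBooleanAlgebra CompleteDistribLattice.toBiheytingAlgebra CompleteLattice.toCompleteSemilatticeInf CompleteLattice.toCompleteSemilatticeSup CompleteLattice.toConditionallyCompleteLattice CompleteLattice.toLattice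 CompleteLattice.toPartialOrder' CompleteLinearOrder.toBiheytingAlgebra CompleteSemilatticeInf.toPartialOrder CompleteSemilatticeSup.toPartialOrder CompletelyDistribLattice.toBiheytingAlgebra ConditionallyCompleteLattice.toLattice ConditionallyCompletePartialOrder.toConditionallyCompletePartialOrderInf ConditionallyCompletePartialOrderInf.toPartialOrder GeneralizedBooleanAlgebra.toDistribLattice GeneralizedBooleanAlgebra.toGeneralizedCoheytingAlgebra GeneralizedCoheytingAlgebra.toDistribLattice GeneralizedCoheytingAlgebra.toLattice GeneralizedHeytingAlgebra.toDistribLattice GeneralizedHeytingAlgebra.toLattice HeytingAlgebra.toGeneralizedHeytingAlgebra IdemSemiring.toSemilatticeSup LinearOrder.toLattice Order.Coframe.toCoheytingAlgebra Order.Coframe.toDistribLattice Order.Frame.toDistribLattice Order.Frame.toHeytingAlgebra Pi.subtractionMonoid Quaternion.instDivisionRing NonAssocCommRing.toNonUnitalNonAssocCommRing NonUnitalNormedCommRing.toNonUnitalCommRing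 NonUnitalNormedCommRing.toNonUnitalSeminormedCommRing NonUnitalSeminormedCommRing.toNonUnitalCommRing UniformSpace.Completion.instNorm NonUnitalCStarAlgebra.toNonUnitalNormedRing NormedRing.toNonUnitalNormedRing instBEqOfDecidableEq Int.instLawfulBEq Std.PreorderPackage.toBEq Ordinal.instPosMulStrictMono CommSemiRingCat.FilteredColimits.colimitCommSemiring OrderDual.isDirected_le FirstOrder.Language.Theory.ModelType.nonempty' Nat.decidableBallLE Nat.decidableBallLT Nat.decidableLoHi Nat.decidableLoHiLe instNonemptyOfMonad LinearOrderedAddCommGroupWithTop.toSubNegMonoid MonomialOrder.isOrderedAddMonoid_syn Pi.instSubtractionCommMonoid ArchimedeanClass.FiniteElement.instFloorRing Std.Sat.CNF.instDecidableExistsVarMemOfDecidableEq instCoeHTCOfCoeHeadOfCoeOTC instCoeHTCTOfCoeTailOfCoeHTC instCoeOutOfCoeFun instCoeOutOfCoeSort instCoeTailIntOfIntCast instCoeTailNatOfNatCast instCoeTailRatOfRatCast instNatCastNat BialgEquivClass.instCoeToBialgEquiv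 BialgHomClass.instCoeToBialgHom CoalgEquivClass.instCoeToCoalgEquiv CoalgHomClass.instCoeToCoalgHom CompletelyPositiveMapClass.instCoeToCompletelyPositiveMap ContinuousAddMonoidHom.instCoeOutOfAddMonoidHomClassOfContinuousMapClass ContinuousMonoidHom.instCoeOutOfMonoidHomClassOfContinuousMapClass DivisionRing.toNNRatCast DivisionSemiring.toNNRatCast HomeomorphClass.instCoeOutHomeomorph IsometryClass.instCoeOutIsometryEquiv LinearMapClass.instCoeToLinearMap NNRatCast.toCoeTail NonUnitalStarRingHomClass.instCoeHeadNonUnitalStarRingHom SemilinearMapClass.instCoeToSemilinearMap SetLike.instCoeSortType StarAlgEquivClass.instCoeHead StarRingEquivClass.instCoeHead LieAdmissibleRing.instLieRing instClosedIicTopologyOrderDual covariant_swap_mul_of_covariant_mul CanonicallyOrderedAdd.toMulRightMono IdemSemiring.toMulRightMono IsOrderedAddMonoid.toAddRightMono IsOrderedMonoid.toMulRightMono LieRing.toAddCommGroup ModuleCat.isModule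 Pi.opensMeasurableSpace_of_subsingleton instFiniteProp Finite.of_fintype Finite.of_subsingleton SetLike.instFinite Pi.seminormedAddGroup ZMod.charP instUniqueAddUnitsOfSubsingleton CanonicallyOrderedCommMonoid.toUniqueAddUnits Group.instTorsor Std.DTreeMap.Raw.instSingletonSigma OrderDual.addRightStrictMono Ordinal.instNeZeroOne IdemCommSemiring.toCommSemiring Action.instMulAction DistribMulAction.toMulAction Monoid.toMulAction MulSemiringAction.toDistribMulAction Torsor.toMulAction Action.FintypeCat.instMulActionObjFiniteOf GradedMonoid.GradeZero.mulAction GrpCat.FilteredColimits.colimitInv OrderDual.instDivisionSemiring NormMulClass.toNoZeroDivisors MeasCat.str CStarAlgebra.instOrderClosedTopology TopologicalSpace.UpgradedIsCompletelyMetrizableSpace.toMetricSpace AlgEquivClass.toAlgHomClass AlgHomClass.toRingHomClass BialgEquivClass.toBialgHomClass BialgHomClass.toAlgHomClass MulSemiringActionSemiHomClass.toRingHomClass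 RingEquivClass.toRingHomClass OrderDual.instPow_1 instDecidableExistsNatEqHAddHPowOfNat_mathlib Int.decidableMultiplicityFinite Nat.decidableExistsLE Nat.decidableExistsLE' Nat.decidableExistsLT Nat.decidableExistsLT' Nat.decidableFiniteMultiplicity Nat.instDecidableExistsPowEq Set.instNoZeroDivisors Pi.monoidWithZero OrderDual.instCommGroupWithZero Int.instNormMulClass Topology.IsScott.instClosedIicTopologyOfUnivSet Topology.IsScott.instUnivSetOfIsUpper Topology.IsUpper.instClosedIicTopology Pi.normedSpace instDiscreteTopologyOfAlexandrovDiscreteOfT1Space instDiscreteTopologyOfFiniteOfJacobsonSpace instIndiscreteTopology instIndiscreteTopologyOfSubsingleton instT6SpaceOfMetrizableSpace DiscreteTopology.toAlexandrovDiscrete DiscreteUniformity.inst DiscreteUniformity.instDiscreteTopology DiscreteUniformity.instOfFiniteOfDiscreteTopology EMetricSpace.metrizableSpace Finite.instDiscreteTopology Finite.toAlexandrovDiscrete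 IndiscreteTopology.toAlexandrovDiscrete Subsingleton.discreteTopology T5Space.toT1Space T6Space.toT5Space Topology.IsLowerSet.toAlexandrovDiscrete Topology.IsUpperSet.toAlexandrovDiscrete Pi.seminormedGroup AddCommGroupWithOne.toAddCommGroup NonUnitalNormedRing.toNonUnitalRing NonUnitalNormedRing.toNonUnitalSeminormedRing NonUnitalSeminormedRing.toNonUnitalRing Ring.toNonUnitalRing SeminormedRing.toNonUnitalSeminormedRing FiniteField.instGrindPowIdentity Units.instGroup Group.IsPerfect.instOfSubsingleton Ordinal.leftDistribClass Std.DTreeMap.Raw.instInsertSigma instMonadLiftT instMonadLiftTOfMonadLift Pi.instIsRightCancelAdd NormedAddGroup.toAddGroup NormedAddGroup.toSeminormedAddGroup -- iprune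

set_option linter.all false

section

/-!
# Exceptional supports: tools
-/

open Finset Real

namespace Vale.Agent.P013.J

/-! ### Sums over sets of primes -/

lemma exc_rankin {Q : Finset ℕ} {X : Finset (Finset ℕ)} {u : ℕ → ℝ} {a : ℝ}
    {f : Finset ℕ → ℝ} (hX : X ⊆ Q.powerset) (hu : ∀ p ∈ Q, 0 ≤ u p) (ha : 0 ≤ a)
    (hf : ∀ G ∈ X, f G ≤ a * ∏ p ∈ G, u p) :
    ∑ G ∈ X, f G ≤ a * ∏ p ∈ Q, (1 + u p) := by
  rw [Finset.prod_one_add, mul_sum]
  refine (sum_le_sum hf).trans (sum_le_sum_of_subset_of_nonneg hX ?_)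
  intro G hG _
  exact mul_nonneg ha (prod_nonneg fun p hp => hu p (mem_powerset.mp hG hp))

lemma exc_erase {X : Finset (Finset ℕ)} {u : ℕ → ℝ} (s : ℕ) (hX : ∀ G ∈ X, s ∈ G) :
    ∑ G ∈ X, ∏ p ∈ G, u p = u s * ∑ G ∈ X.image (fun G => G.erase s), ∏ p ∈ G, u p := by
  rw [Finset.sum_image, mul_sum]
  · refine sum_congr rfl fun G hG => ?_
    rw [mul_prod_erase G u (hX G hG)]
  · intro G hG G' hG' h
    have h1 := congrArg (insert s) h
    simpa only [insert_erase (hX G hG), insert_erase (hX G' hG')] using h1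

lemma exc_prod_le : ∃ Cm : ℝ, 0 < Cm ∧ (∀ z : ℕ, 2 ≤ z → ∑ p ∈ PP z, 1 / (p : ℝ) ≤
    log (log z) + Cm) ∧ ∀ z : ℕ, 2 ≤ z → ∀ w : ℝ, 0 ≤ w →
    ∏ p ∈ PP z, (1 + w / (p : ℝ)) ≤ exp (w * (log (log z) + Cm)) := by
  obtain ⟨C, hC0, hC⟩ := sum_inv_prime_le
  refine ⟨C, hC0, hC, ?_⟩
  intro z hz w hw
  have h1 : ∏ p ∈ PP z, (1 + w / (p : ℝ)) ≤ ∏ p ∈ PP z, exp (w / (p : ℝ)) := by
    apply prod_le_prod
    · intro p _; positivity
    · intro p _
      rw [add_comm]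
      exact Real.add_one_le_exp _
  refine h1.trans ?_
  rw [← Real.exp_sum]
  apply Real.exp_le_exp.mpr
  have h2 : ∑ p ∈ PP z, w / (p : ℝ) = w * ∑ p ∈ PP z, 1 / (p : ℝ) := by
    rw [mul_sum]
    refine sum_congr rfl fun p _ => ?_
    ring
  rw [h2]
  exact mul_le_mul_of_nonneg_left (hC z hz) hw

/-! ### The function `τ` -/

lemma exc_hg0 (z : ℕ) : ∀ q ∈ PP z, (0 : ℝ) ≤ 1 / (q : ℝ) := fun q _ => by positivity

lemma exc_hg1 (z : ℕ) : ∀ q ∈ PP z, 1 / (q : ℝ) < 1 := fun q hq => by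
  have h : (2 : ℝ) ≤ q := by exact_mod_cast (mem_filter.mp hq).2.two_le
  rw [div_lt_one (by linarith)]
  linarith

lemma exc_gv_pos (z x : ℕ) : 0 < gv (PP z) (fun q => 1 / (q : ℝ)) x := gv_pos (exc_hg1 z) x

lemma exc_K_pos {z : ℕ} (hz : 2 ≤ z) : 0 < log z * gv (PP z) (fun q => 1 / (q : ℝ)) z := by
  apply mul_pos _ (exc_gv_pos z z)
  apply Real.log_pos
  have : (2 : ℝ) ≤ z := by exact_mod_cast hz
  linarith

lemma exc_tau_mono {z : ℕ} (hz : 2 ≤ z) : Monotone (tau z) :=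
  gtau_mono (exc_K_pos hz) (exc_hg0 z) (exc_hg1 z)

lemma exc_tau_pos {z : ℕ} (hz : 2 ≤ z) (x : ℕ) : 0 < tau z x :=
  gtau_pos (exc_K_pos hz) (exc_hg1 z) x

lemma exc_gv_split {z x x' : ℕ} (h : x ≤ x') (h' : x' ≤ z) :
    gv (PP z) (fun q => 1 / (q : ℝ)) x' = gv (PP z) (fun q => 1 / (q : ℝ)) x *
      ∏ p ∈ (Ico x x').filter Nat.Prime, (1 - 1 / (p : ℝ)) := by
  unfold gv
  rw [← prod_union]
  · apply prod_congr _ fun _ _ => rfl
    ext q
    simp only [PP, mem_union, mem_filter, mem_range, mem_Ico]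
    constructor
    · rintro ⟨⟨h1, h2⟩, h3⟩
      by_cases h4 : q < x
      · exact Or.inl ⟨⟨h1, h2⟩, h4⟩
      · exact Or.inr ⟨⟨by omega, h3⟩, h2⟩
    · rintro (⟨⟨h1, h2⟩, h3⟩ | ⟨⟨h1, h2⟩, h3⟩)
      · exact ⟨⟨h1, h2⟩, by omega⟩
      · exact ⟨⟨by omega, h3⟩, h2⟩
  · rw [Finset.disjoint_left]
    intro q h1 h2
    rw [mem_filter] at h1 h2
    rw [mem_Ico] at h2
    omega

lemma exc_tau_ge : ∃ Ct : ℝ, 0 < Ct ∧ ∀ z x : ℕ, 2 ≤ x → x ≤ z → log x - Ct ≤ tau z x := by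
  obtain ⟨C, hC0, hC⟩ := mertens_prod
  refine ⟨C, hC0, ?_⟩
  intro z x hx hz
  refine (hC x z hx hz).trans (le_of_eq ?_)
  unfold tau
  rw [exc_gv_split hz le_rfl]
  have := exc_gv_pos z x
  field_simp

/-- mass of the primes between two points -/
lemma exc_tau_mass {z x x' : ℕ} (hz : 2 ≤ z) (h : x ≤ x') (h' : x' ≤ z) :
    ∑ p ∈ (Ico x x').filter Nat.Prime, 1 / (p : ℝ) ≤ log (tau z x' / tau z x) := by
  have h1 : tau z x' / tau z x = (∏ p ∈ (Ico x x').filter Nat.Prime, (1 - 1 / (p : ℝ)))⁻¹ := by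
    unfold tau
    rw [exc_gv_split h h']
    have := exc_gv_pos z x
    have h2 := exc_K_pos hz
    have h3 : 0 < ∏ p ∈ (Ico x x').filter Nat.Prime, (1 - 1 / (p : ℝ)) := by
      apply prod_pos
      intro p hp
      have h : (2 : ℝ) ≤ p := by exact_mod_cast (mem_filter.mp hp).2.two_le
      have : 1 / (p : ℝ) < 1 := by
        rw [div_lt_one (by linarith only [h])]
        linarith only [h]
      linarith only [this]
    set K := log z * gv (PP z) (fun q => 1 / (q : ℝ)) z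
    field_simp
  rw [h1, Real.log_inv, Real.log_prod]
  · rw [← sum_neg_distrib]
    apply sum_le_sum
    intro p hp
    have h : (2 : ℝ) ≤ p := by exact_mod_cast (mem_filter.mp hp).2.two_le
    have h3 : 1 / (p : ℝ) < 1 := by
      rw [div_lt_one (by linarith only [h])]
      linarith only [h]
    have h2 := Real.log_le_sub_one_of_pos (show 0 < 1 - 1 / (p : ℝ) by linarith only [h3])
    linarith only [h2]
  · intro p hp
    have h : (2 : ℝ) ≤ p := by exact_mod_cast (mem_filter.mp hp).2.two_le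
    have : 1 / (p : ℝ) < 1 := by
      rw [div_lt_one (by linarith only [h])]
      linarith only [h]
    linarith only [this]

end Vale.Agent.P013.J
end

section

open Finset Real

namespace Vale.Agent.P013.J

/-! ### Classes of exceptional supports -/

lemma exc_cover {ι : Type*} {X : Finset (Finset ℕ)} {P : Finset ι} {f : Finset ℕ → ℝ}
    (hf : ∀ G ∈ X, 0 ≤ f G) (R : ι → Finset ℕ → Prop) [∀ i, DecidablePred (R i)]
    (h : ∀ G ∈ X, ∃ i ∈ P, R i G) :
    ∑ G ∈ X, f G ≤ ∑ i ∈ P, ∑ G ∈ X.filter (R i), f G := by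
  simp only [sum_filter]
  rw [sum_comm]
  apply sum_le_sum
  intro G hG
  obtain ⟨i, hi, hR⟩ := h G hG
  have h1 : (if R i G then f G else 0) ≤ ∑ i ∈ P, if R i G then f G else 0 :=
    single_le_sum (f := fun i => if R i G then f G else 0)
      (fun j _ => by split_ifs; exacts [hf G hG, le_rfl]) hi
  rwa [if_pos hR] at h1

lemma exc_prod_inv {z : ℕ} {G : Finset ℕ} (hG : G ⊆ PP z) (c : ℝ) :
    ∏ p ∈ G, exp c / (p : ℝ) = exp (c * G.card - ∑ p ∈ G, log (p : ℝ)) := by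
  have h : ∀ p ∈ G, exp c / (p : ℝ) = exp (c - log (p : ℝ)) := by
    intro p hp
    have : (0 : ℝ) < p := by exact_mod_cast (mem_filter.mp (hG hp)).2.pos
    rw [Real.exp_sub, Real.exp_log this]
  rw [prod_congr rfl h, ← Real.exp_sum, sum_sub_distrib, sum_const, nsmul_eq_mul, mul_comm]

lemma exc_prod_inv' {z : ℕ} {G : Finset ℕ} (hG : G ⊆ PP z) :
    ∏ p ∈ G, 1 / (p : ℝ) = exp (- ∑ p ∈ G, log (p : ℝ)) := by
  have := exc_prod_inv hG 0
  simpa using this

/-- supports with many elements -/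
lemma exc_card_class {z : ℕ} {T K Ct : ℝ} {X : Finset (Finset ℕ)}
    (hX : X ⊆ (PP z).powerset)
    (h : ∀ G ∈ X, ∑ p ∈ G, log (p : ℝ) ≤ T + Ct * G.card ∧ K ≤ G.card) :
    (X.card : ℝ) ≤ exp (T - K) * ∏ p ∈ PP z, (1 + exp (Ct + 1) / (p : ℝ)) := by
  have h1 : (X.card : ℝ) = ∑ _G ∈ X, (1 : ℝ) := by simp
  rw [h1]
  apply exc_rankin hX
  · intro p _; positivity
  · positivity
  · intro G hG
    rw [exc_prod_inv (mem_powerset.mp (hX hG)), ← Real.exp_add]
    apply Real.one_le_exp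
    obtain ⟨h2, h3⟩ := h G hG
    linarith only [h3, h2]

/-- supports with large smooth part -/
lemma exc_rankin_class {z : ℕ} {N B R : ℝ} (hR : 0 < R) {X : Finset (Finset ℕ)}
    (hX : X ⊆ (PP z).powerset)
    (h : ∀ G ∈ X, ∑ p ∈ G, log (p : ℝ) ≤ N ∧
      B ≤ ∑ p ∈ G.filter (fun p : ℕ => log (p : ℝ) ≤ R), log (p : ℝ)) :
    (X.card : ℝ) ≤ exp (N - B / R) * ∏ p ∈ PP z, (1 + exp 1 / (p : ℝ)) := by
  have h1 : (X.card : ℝ) = ∑ _G ∈ X, (1 : ℝ) := by simp
  rw [h1]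
  apply exc_rankin hX
  · intro p _; positivity
  · positivity
  · intro G hG
    rw [exc_prod_inv (mem_powerset.mp (hX hG)), ← Real.exp_add]
    apply Real.one_le_exp
    obtain ⟨h2, h3⟩ := h G hG
    have h4 : ∑ p ∈ G.filter (fun p : ℕ => log (p : ℝ) ≤ R), log (p : ℝ) ≤ R * G.card := by
      calc ∑ p ∈ G.filter (fun p : ℕ => log (p : ℝ) ≤ R), log (p : ℝ)
          ≤ ∑ p ∈ G.filter (fun p : ℕ => log (p : ℝ) ≤ R), R :=
            sum_le_sum fun p hp => (mem_filter.mp hp).2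
        _ = R * (G.filter (fun p : ℕ => log (p : ℝ) ≤ R)).card := by
            rw [sum_const, nsmul_eq_mul, mul_comm]
        _ ≤ R * G.card := by
            apply mul_le_mul_of_nonneg_left _ hR.le
            exact_mod_cast card_filter_le _ _
    have h5 : B / R ≤ G.card := by
      rw [div_le_iff₀ hR]
      linarith
    linarith

lemma exc_count_le_mass {z : ℕ} {N : ℝ} {X : Finset (Finset ℕ)} (hX : X ⊆ (PP z).powerset)
    (h : ∀ G ∈ X, ∑ p ∈ G, log (p : ℝ) ≤ N) :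
    (X.card : ℝ) ≤ exp N * ∑ G ∈ X, ∏ p ∈ G, 1 / (p : ℝ) := by
  have h1 : (X.card : ℝ) = ∑ _G ∈ X, (1 : ℝ) := by simp
  rw [h1, mul_sum]
  apply sum_le_sum
  intro G hG
  rw [exc_prod_inv' (mem_powerset.mp (hX hG)), ← Real.exp_add]
  apply Real.one_le_exp
  linarith [h G hG]

lemma exc_image_sub {Q : Finset ℕ} {X : Finset (Finset ℕ)} (hX : X ⊆ Q.powerset) (s : ℕ) :
    X.image (fun G => G.erase s) ⊆ Q.powerset := by
  intro G' hG'
  obtain ⟨G, hG, rfl⟩ := mem_image.mp hG'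
  exact mem_powerset.mpr ((erase_subset _ _).trans (mem_powerset.mp (hX hG)))

lemma exc_mass_pair {Q : Finset ℕ} {X : Finset (Finset ℕ)} (hX : X ⊆ Q.powerset) {s s' : ℕ}
    (hs : s ≠ s') (h : ∀ G ∈ X, s ∈ G ∧ s' ∈ G) :
    ∑ G ∈ X, ∏ p ∈ G, 1 / (p : ℝ) ≤ 1 / (s : ℝ) * (1 / (s' : ℝ)) *
      ∏ p ∈ Q, (1 + 1 / (p : ℝ)) := by
  rw [exc_erase (u := fun p : ℕ => 1 / (p : ℝ)) s fun G hG => (h G hG).1,
    exc_erase (u := fun p : ℕ => 1 / (p : ℝ)) s' (X := X.image (fun G => G.erase s)) ?_, mul_assoc]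
  · apply mul_le_mul_of_nonneg_left _ (by positivity)
    apply mul_le_mul_of_nonneg_left _ (by positivity)
    have h2 := exc_rankin (a := 1) (u := fun p : ℕ => 1 / (p : ℝ))
      (f := fun G => ∏ p ∈ G, 1 / (p : ℝ)) (exc_image_sub (exc_image_sub hX s) s')
      (fun p _ => by positivity) zero_le_one (fun G _ => by rw [one_mul])
    rwa [one_mul] at h2
  · intro G' hG'
    obtain ⟨G, hG, rfl⟩ := mem_image.mp hG'
    exact mem_erase.mpr ⟨hs.symm, (h G hG).2⟩

/-- supports with two elements close to each other -/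
lemma exc_box_class {z : ℕ} {N κ : ℝ} (hκ : 0 ≤ κ) {X : Finset (Finset ℕ)}
    (hX : X ⊆ (PP z).powerset)
    (h : ∀ G ∈ X, ∑ p ∈ G, log (p : ℝ) ≤ N ∧
      ∃ s ∈ G, ∃ s' ∈ G, s < s' ∧ (s' : ℝ) < (1 + κ) * s) :
    (X.card : ℝ) ≤ exp N * ((κ * ∑ p ∈ PP z, 1 / (p : ℝ)) * ∏ p ∈ PP z, (1 + 1 / (p : ℝ))) := by
  classical
  refine (exc_count_le_mass hX fun G hG => (h G hG).1).trans ?_
  apply mul_le_mul_of_nonneg_left _ (Real.exp_pos _).le
  have hE : 0 ≤ ∏ p ∈ PP z, (1 + 1 / (p : ℝ)) := prod_nonneg fun p _ => by positivity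
  set E := ∏ p ∈ PP z, (1 + 1 / (p : ℝ)) with hEdef
  have h1 := exc_cover (X := X) (f := fun G => ∏ p ∈ G, 1 / (p : ℝ))
    (P := (PP z ×ˢ PP z).filter (fun a : ℕ × ℕ => a.1 < a.2 ∧ (a.2 : ℝ) < (1 + κ) * a.1))
    (fun G _ => prod_nonneg fun p _ => by positivity)
    (fun (a : ℕ × ℕ) G => a.1 ∈ G ∧ a.2 ∈ G) (by
      intro G hG
      obtain ⟨-, s, hs, s', hs', h1, h2⟩ := h G hG
      have h3 := mem_powerset.mp (hX hG)
      exact ⟨(s, s'), mem_filter.mpr ⟨mem_product.mpr ⟨h3 hs, h3 hs'⟩, h1, h2⟩, hs, hs'⟩)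
  refine h1.trans ?_
  have h2 : ∀ a ∈ (PP z ×ˢ PP z).filter (fun a : ℕ × ℕ => a.1 < a.2 ∧ (a.2 : ℝ) < (1 + κ) * a.1),
      ∑ G ∈ X.filter (fun G => a.1 ∈ G ∧ a.2 ∈ G), ∏ p ∈ G, 1 / (p : ℝ) ≤
        1 / (a.1 : ℝ) * (1 / (a.2 : ℝ)) * E := by
    intro a ha
    rw [mem_filter] at ha
    apply exc_mass_pair ((filter_subset _ _).trans hX) ha.2.1.ne
    intro G hG
    exact (mem_filter.mp hG).2
  refine (sum_le_sum h2).trans ?_
  rw [← sum_mul]
  apply mul_le_mul_of_nonneg_right _ hE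
  rw [sum_filter, sum_product, mul_sum]
  apply sum_le_sum
  intro s hs
  have hs0 : (0 : ℝ) < s := by exact_mod_cast (mem_filter.mp hs).2.pos
  rw [← sum_filter]
  have h3 : ∑ x ∈ (PP z).filter (fun x : ℕ => s < x ∧ (x : ℝ) < (1 + κ) * s),
      1 / (s : ℝ) * (1 / (x : ℝ)) ≤
      ∑ x ∈ (PP z).filter (fun x : ℕ => s < x ∧ (x : ℝ) < (1 + κ) * s),
        1 / (s : ℝ) * (1 / (s : ℝ)) := by
    apply sum_le_sum
    intro x hx
    apply mul_le_mul_of_nonneg_left _ (by positivity)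
    apply one_div_le_one_div_of_le hs0
    exact_mod_cast (mem_filter.mp hx).2.1.le
  refine h3.trans ?_
  rw [sum_const, nsmul_eq_mul]
  have h4 : (((PP z).filter (fun x : ℕ => s < x ∧ (x : ℝ) < (1 + κ) * s)).card : ℝ) ≤ κ * s := by
    have h5 : (PP z).filter (fun x : ℕ => s < x ∧ (x : ℝ) < (1 + κ) * s) ⊆
        Ioo s ⌈(1 + κ) * (s : ℝ)⌉₊ := by
      intro x hx
      obtain ⟨-, h6, h7⟩ := mem_filter.mp hx
      rw [mem_Ioo]
      exact ⟨h6, Nat.lt_ceil.mpr h7⟩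
    have h6 := card_le_card h5
    rw [Nat.card_Ioo] at h6
    have h7 : s ≤ ⌈(1 + κ) * (s : ℝ)⌉₊ := by
      have : (s : ℝ) ≤ (1 + κ) * (s : ℝ) := by linarith only [mul_nonneg (sub_nonneg.2 hκ) (le_of_lt (sub_pos.2 hs0))]
      exact_mod_cast this.trans (Nat.le_ceil _)
    rcases Nat.eq_or_lt_of_le h7 with h8 | h8
    · rw [← h8] at h6
      have : ((PP z).filter (fun x : ℕ => s < x ∧ (x : ℝ) < (1 + κ) * s)).card = 0 := by omega
      rw [this]
      push_cast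
      (clear * - hκ hs0; positivity)
    · have h9 : ((PP z).filter (fun x : ℕ => s < x ∧ (x : ℝ) < (1 + κ) * s)).card + s + 1 ≤
          ⌈(1 + κ) * (s : ℝ)⌉₊ := by omega
      have h10 : (⌈(1 + κ) * (s : ℝ)⌉₊ : ℝ) < (1 + κ) * s + 1 :=
        Nat.ceil_lt_add_one (by positivity)
      have h11 : (((PP z).filter (fun x : ℕ => s < x ∧ (x : ℝ) < (1 + κ) * s)).card : ℝ) + s + 1 ≤
          ⌈(1 + κ) * (s : ℝ)⌉₊ := by exact_mod_cast h9
      linarith only [h11, h10]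
  calc (((PP z).filter (fun x : ℕ => s < x ∧ (x : ℝ) < (1 + κ) * s)).card : ℝ) *
        (1 / (s : ℝ) * (1 / (s : ℝ))) ≤ (κ * s) * (1 / (s : ℝ) * (1 / (s : ℝ))) :=
        mul_le_mul_of_nonneg_right h4 (by positivity)
    _ = κ * (1 / (s : ℝ)) := by field_simp

/-- mass of the primes with `τ p` in a short interval -/
lemma exc_short_mass {z : ℕ} (hz : 2 ≤ z) {y₁ η a : ℝ} (hη : 0 ≤ η) (hy₁ : 0 < y₁)
    {S : Finset ℕ} (hS : ∀ p ∈ S, p ∈ PP z ∧ y₁ ≤ p ∧ |a - tau z p| < η ∧ 1 ≤ tau z p) :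
    ∑ p ∈ S, 1 / (p : ℝ) ≤ 2 * η + 1 / y₁ := by
  rcases S.eq_empty_or_nonempty with rfl | hne
  · rw [sum_empty]; positivity
  set p₁ := S.min' hne with hp₁
  set p₂ := S.max' hne with hp₂
  have h1 : p₁ ∈ S := S.min'_mem hne
  have h2 : p₂ ∈ S := S.max'_mem hne
  have h3 : S ⊆ insert p₂ ((Ico p₁ p₂).filter Nat.Prime) := by
    intro p hp
    rw [mem_insert, mem_filter, mem_Ico]
    rcases eq_or_lt_of_le (S.le_max' p hp) with h | h
    · exact Or.inl h
    · exact Or.inr ⟨⟨S.min'_le p hp, h⟩, (mem_filter.mp (hS p hp).1).2⟩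
  have h4 : p₁ ≤ p₂ := S.min'_le_max' hne
  have h5 : p₂ ≤ z := (mem_range.mp (mem_filter.mp (hS p₂ h2).1).1).le
  have h6 := exc_tau_mass hz h4 h5
  have h7 : log (tau z p₂ / tau z p₁) ≤ 2 * η := by
    have ht1 := (hS p₁ h1).2.2.2
    have ht2 := (hS p₂ h2).2.2.2
    have hd : tau z p₂ - tau z p₁ ≤ 2 * η := by
      have e1 := abs_lt.mp (hS p₁ h1).2.2.1
      have e2 := abs_lt.mp (hS p₂ h2).2.2.1
      linarith only [e2.1, e1.2]
    have h8 := Real.log_le_sub_one_of_pos (show 0 < tau z p₂ / tau z p₁ by positivity)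
    have h9 : tau z p₂ / tau z p₁ - 1 = (tau z p₂ - tau z p₁) / tau z p₁ := by
      field_simp
    have h10 : (tau z p₂ - tau z p₁) / tau z p₁ ≤ 2 * η := by
      rw [div_le_iff₀ (by linarith only [ht1])]
      linarith only [mul_nonneg (sub_nonneg.2 hη) (sub_nonneg.2 ht1), mul_nonneg (mul_self_nonneg (1 : ℝ)) (sub_nonneg.2 hd)]
    linarith only [h10, h9, h8]
  have h8 : 1 / (p₂ : ℝ) ≤ 1 / y₁ := one_div_le_one_div_of_le hy₁ (hS p₂ h2).2.1
  calc ∑ p ∈ S, 1 / (p : ℝ) ≤ ∑ p ∈ insert p₂ ((Ico p₁ p₂).filter Nat.Prime), 1 / (p : ℝ) :=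
        sum_le_sum_of_subset_of_nonneg h3 fun _ _ _ => by positivity
    _ = 1 / (p₂ : ℝ) + ∑ p ∈ (Ico p₁ p₂).filter Nat.Prime, 1 / (p : ℝ) := by
        rw [sum_insert]
        rw [mem_filter, mem_Ico]
        rintro ⟨⟨_, h⟩, _⟩
        exact lt_irrefl _ h
    _ ≤ 2 * η + 1 / y₁ := by linarith only [h8, h7, h6]

/-- supports close to the boundary of the sieve conditions -/
lemma exc_bdry_class {z : ℕ} (hz : 2 ≤ z) {N K y₁ η T : ℝ} (hη : 0 ≤ η) (hy₁ : 0 < y₁)
    (hK : 0 ≤ K) {X : Finset (Finset ℕ)} (hX : X ⊆ (PP z).powerset)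
    (hτ : ∀ p ∈ PP z, y₁ ≤ (p : ℝ) → 1 ≤ tau z p)
    (h : ∀ G ∈ X, ∑ p ∈ G, log (p : ℝ) ≤ N ∧ (G.card : ℝ) ≤ K ∧
      ∃ p ∈ G, (∀ t ∈ G, t ≤ p) ∧ y₁ ≤ (p : ℝ) ∧ ∃ s ∈ G, s < p ∧
        |T - ∑ t ∈ G.filter (fun t => s < t), tau z t - 3 * tau z s| < η) :
    (X.card : ℝ) ≤ exp N * ((K * (2 * η + 1 / y₁)) * ∏ p ∈ PP z, (1 + 1 / (p : ℝ))) := by
  classical
  refine (exc_count_le_mass hX fun G hG => (h G hG).1).trans ?_
  apply mul_le_mul_of_nonneg_left _ (Real.exp_pos _).le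
  set R : ℕ → Finset ℕ → Prop := fun p G => p ∈ G ∧ (∀ t ∈ G, t ≤ p) ∧ y₁ ≤ (p : ℝ) ∧
    ∃ s ∈ G, s < p ∧ |T - ∑ t ∈ G.filter (fun t => s < t), tau z t - 3 * tau z s| < η with hR
  have h1 := exc_cover (X := X) (f := fun G => ∏ p ∈ G, 1 / (p : ℝ)) (P := PP z)
    (fun G _ => prod_nonneg fun p _ => by positivity) R (by
      intro G hG
      obtain ⟨-, -, p, hp, h1, h2, h3⟩ := h G hG
      exact ⟨p, mem_powerset.mp (hX hG) hp, hp, h1, h2, h3⟩)
  refine h1.trans ?_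
  set GG := (PP z).powerset.filter (fun G => (G.card : ℝ) ≤ K) with hGG
  set cond : ℕ → Finset ℕ → ℕ → Prop := fun p G s => y₁ ≤ (p : ℝ) ∧
    |(T - ∑ t ∈ G.filter (fun t => s < t), tau z t - 3 * tau z s) - tau z p| < η with hcond
  have h2 : ∀ p ∈ PP z, ∑ G ∈ X.filter (R p), ∏ p ∈ G, 1 / (p : ℝ) ≤
      ∑ G ∈ GG, (∏ p ∈ G, 1 / (p : ℝ)) * ∑ s ∈ G, if cond p G s then 1 / (p : ℝ) else 0 := by
    intro p _
    rw [exc_erase (u := fun p : ℕ => 1 / (p : ℝ)) p fun G hG => (mem_filter.mp hG).2.1, mul_sum]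
    have h3 : (X.filter (R p)).image (fun G => G.erase p) ⊆ GG := by
      intro G' hG'
      have h4 := exc_image_sub ((filter_subset _ _).trans hX) p hG'
      obtain ⟨G, hG, rfl⟩ := mem_image.mp hG'
      refine mem_filter.mpr ⟨h4, ?_⟩
      have h5 := (h G (mem_filter.mp hG).1).2.1
      refine le_trans ?_ h5
      exact_mod_cast card_le_card (erase_subset _ _)
    refine le_trans ?_ (sum_le_sum_of_subset_of_nonneg h3 ?_)
    · apply sum_le_sum
      intro G' hG'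
      obtain ⟨G, hG, rfl⟩ := mem_image.mp hG'
      obtain ⟨hG1, hpG, hmax, hyp, s, hs, hsp, hbd⟩ := mem_filter.mp hG
      rw [mul_comm]
      apply mul_le_mul_of_nonneg_left _ (prod_nonneg fun p _ => by positivity)
      have hsG : s ∈ G.erase p := mem_erase.mpr ⟨hsp.ne, hs⟩
      have hc : cond p (G.erase p) s := by
        refine ⟨hyp, ?_⟩
        have h6 : G.filter (fun t => s < t) = insert p ((G.erase p).filter (fun t => s < t)) := by
          ext t
          simp only [mem_filter, mem_insert, mem_erase]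
          constructor
          · rintro ⟨h7, h8⟩
            by_cases h9 : t = p
            · exact Or.inl h9
            · exact Or.inr ⟨⟨h9, h7⟩, h8⟩
          · rintro (rfl | ⟨⟨_, h7⟩, h8⟩)
            · exact ⟨hpG, hsp⟩
            · exact ⟨h7, h8⟩
        rw [h6, sum_insert (by simp)] at hbd
        refine lt_of_le_of_lt (le_of_eq ?_) hbd
        congr 1
        ring
      have h7 : (if cond p (G.erase p) s then 1 / (p : ℝ) else 0) ≤
          ∑ s ∈ G.erase p, if cond p (G.erase p) s then 1 / (p : ℝ) else 0 :=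
        single_le_sum (f := fun s => if cond p (G.erase p) s then 1 / (p : ℝ) else 0)
          (fun j _ => by (clear * -; positivity)) hsG
      rwa [if_pos hc] at h7
    · intro G _ _
      apply mul_nonneg (prod_nonneg fun p _ => by positivity)
      exact sum_nonneg fun s _ => by positivity
  refine (sum_le_sum h2).trans ?_
  rw [sum_comm]
  have h3 : ∀ G ∈ GG, ∑ p ∈ PP z, (∏ p ∈ G, 1 / (p : ℝ)) *
      ∑ s ∈ G, (if cond p G s then 1 / (p : ℝ) else 0) ≤
      (K * (2 * η + 1 / y₁)) * ∏ p ∈ G, 1 / (p : ℝ) := by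
    intro G hG
    rw [← mul_sum, mul_comm]
    apply mul_le_mul_of_nonneg_right _ (prod_nonneg fun p _ => by positivity)
    rw [sum_comm]
    have h4 : ∀ s ∈ G, ∑ p ∈ PP z, (if cond p G s then 1 / (p : ℝ) else 0) ≤
        2 * η + 1 / y₁ := by
      intro s _
      rw [← sum_filter]
      apply exc_short_mass hz hη hy₁
        (a := T - ∑ t ∈ G.filter (fun t => s < t), tau z t - 3 * tau z s)
      intro p hp
      obtain ⟨h5, h6, h7⟩ := mem_filter.mp hp
      exact ⟨h5, h6, h7, hτ p h5 h6⟩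
    refine (sum_le_sum h4).trans ?_
    rw [sum_const, nsmul_eq_mul]
    apply mul_le_mul_of_nonneg_right (mem_filter.mp hG).2
    positivity
  refine (sum_le_sum h3).trans ?_
  rw [← mul_sum]
  have h4 := exc_rankin (a := 1) (u := fun p : ℕ => 1 / (p : ℝ)) (X := GG)
    (f := fun G => ∏ p ∈ G, 1 / (p : ℝ)) (filter_subset _ _)
    (fun p _ => by positivity) zero_le_one (fun G _ => by rw [one_mul])
  rw [one_mul] at h4
  apply mul_le_mul_of_nonneg_left h4
  positivity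

/-- supports with small product: the sum of the remainders -/
lemma exc_small_class {X : Finset (Finset ℕ)} {z : ℕ} (hX : X ⊆ (PP z).powerset) {M b : ℝ}
    (hb : 0 ≤ b) (hM : 0 ≤ M) {f : ℕ → ℝ}
    (h : ∀ G ∈ X, ((∏ p ∈ G, p : ℕ) : ℝ) ≤ M ∧ f (∏ p ∈ G, p) ≤ b) :
    ∑ G ∈ X, f (∏ p ∈ G, p) ≤ M * b := by
  have h1 : ∑ G ∈ X, f (∏ p ∈ G, p) ≤ ∑ _G ∈ X, b := sum_le_sum fun G hG => (h G hG).2
  refine h1.trans ?_
  rw [sum_const, nsmul_eq_mul]
  apply mul_le_mul_of_nonneg_right _ hb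
  have h2 : X.card ≤ (Icc 1 ⌊M⌋₊).card := by
    apply card_le_card_of_injOn (fun G => ∏ p ∈ G, p)
    · intro G hG
      simp only [coe_Icc, Set.mem_Icc]
      refine ⟨?_, Nat.le_floor (h G hG).1⟩
      apply Nat.one_le_iff_ne_zero.mpr
      rw [prod_ne_zero_iff]
      intro p hp
      exact (mem_filter.mp (mem_powerset.mp (hX hG) hp)).2.ne_zero
    · intro G hG G' hG' heq
      have hp : ∀ G ∈ X, ∀ p ∈ G, p.Prime := fun G hG p hp =>
        (mem_filter.mp (mem_powerset.mp (hX hG) hp)).2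
      have e1 := Nat.primeFactors_prod (hp G hG)
      have e2 := Nat.primeFactors_prod (hp G' hG')
      simp only at heq
      rw [← e1, ← e2, heq]
  rw [Nat.card_Icc, Nat.add_sub_cancel] at h2
  calc (X.card : ℝ) ≤ (⌊M⌋₊ : ℝ) := by exact_mod_cast h2
    _ ≤ M := Nat.floor_le hM

end Vale.Agent.P013.J
end

section

/-!
# J7: the exceptional supports contribute little
-/

open Finset Real Filter

namespace Vale.Agent.P013.J

/-! ### Asymptotic facts -/

lemma exc_ev_rpow (K₁ K₂ δ a : ℝ) (hδ : 0 < δ) (ha : 0 < a) :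
    ∀ᶠ l : ℝ in atTop, K₁ + K₂ * log l ≤ δ * l ^ a := by
  have h1 := (isLittleO_log_rpow_atTop ha).def (show 0 < δ / (2 * (|K₂| + 1)) by positivity)
  have h2 := (tendsto_rpow_atTop ha).eventually_ge_atTop (2 * |K₁| / δ)
  filter_upwards [h1, h2, eventually_ge_atTop (1 : ℝ)] with l h3 h4 h5
  have h6 : 0 ≤ log l := Real.log_nonneg h5
  have h7 : 0 < l ^ a := Real.rpow_pos_of_pos (by linarith only [h5]) a
  rw [Real.norm_of_nonneg h6, Real.norm_of_nonneg h7.le] at h3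
  have h8 : |K₁| ≤ δ / 2 * l ^ a := by
    rw [div_le_iff₀ hδ] at h4
    linarith only [h4]
  have h9 : |K₂| * log l ≤ δ / 2 * l ^ a := by
    have h10 : (|K₂| + 1) * log l ≤ (|K₂| + 1) * (δ / (2 * (|K₂| + 1)) * l ^ a) :=
      mul_le_mul_of_nonneg_left h3 (by positivity)
    have h11 : (|K₂| + 1) * (δ / (2 * (|K₂| + 1)) * l ^ a) = δ / 2 * l ^ a := by
      field_simp
    linarith only [h6, h10, h11]
  have h12 := le_abs_self K₁
  have h13 : K₂ * log l ≤ |K₂| * log l := mul_le_mul_of_nonneg_right (le_abs_self K₂) h6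
  linarith only [h8, h9, h12, h13]

lemma exc_ev_sq (K₁ K₂ : ℝ) : ∀ᶠ l : ℝ in atTop, K₁ + K₂ * log l ≤ (log l) ^ 2 := by
  filter_upwards [Real.tendsto_log_atTop.eventually_ge_atTop (|K₁| + |K₂| + 1)] with l h
  have h1 := le_abs_self K₁
  have h2 := le_abs_self K₂
  have h3 := abs_nonneg K₁
  have h4 := abs_nonneg K₂
  nlinarith only [h, h1, h2, h3, h4]

lemma exc_ev_pow (n : ℕ) (c : ℝ) (hc : 0 < c) : ∀ᶠ l : ℝ in atTop, (log l) ^ n < c * l := by
  have h1 := (isLittleO_pow_log_id_atTop (n := n)).def (show 0 < c / 2 by positivity)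
  filter_upwards [h1, eventually_ge_atTop (1 : ℝ)] with l h2 h3
  have h6 : 0 ≤ log l := Real.log_nonneg h3
  rw [Real.norm_of_nonneg (pow_nonneg h6 n), id, Real.norm_of_nonneg (by linarith only [h3])] at h2
  linarith only [mul_nonneg (le_of_lt (sub_pos.2 hc)) (sub_nonneg.2 h3), h2, hc]

/-! ### Properties of the supports -/

/-- basic facts about `G ∈ NN z T DD` -/
lemma exc_NN {y : ℕ} {A₁ c C₇ : ℝ} {z : ℕ} {T : ℝ} {DD : Finset (ℕ × ℕ)}
    (hS : Std y A₁ c C₇ z T DD) {G : Finset ℕ} (hG : G ∈ NN z T DD) :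
    G ∈ supp (PP z) (tau z) 0 z T ∧ G ⊆ PP z ∧ ∃ p q : ℕ, p ∈ G ∧ q ∈ G ∧ q < p ∧
      (∀ t ∈ G, t ≤ p) ∧ (y : ℝ) ^ c ≤ q ∧ (y : ℝ) ^ (0.16 : ℝ) ≤ p := by
  classical
  unfold NN at hG
  rw [mem_filter] at hG
  obtain ⟨h1, pq, hpq, h2, h3, h4, h5⟩ := hG
  obtain ⟨-, -, h6, -, h7, -⟩ := hS.2.2.2 pq hpq
  refine ⟨h1, fun t ht => ((mem_supp.mp h1).1 t ht).1, pq.1, pq.2, h2, h3, h4, ?_, h6, h7⟩
  intro t ht
  rcases h5 t ht with h | h
  · exact h.le
  · exact h.trans h4.le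

lemma exc_mem_PP {z p : ℕ} (h : p ∈ PP z) : p.Prime ∧ p < z :=
  ⟨(mem_filter.mp h).2, mem_range.mp (mem_filter.mp h).1⟩

/-- size of the product -/
lemma exc_size {Ct : ℝ} (hCt : 0 < Ct)
    (hCt1 : ∀ z x : ℕ, 2 ≤ x → x ≤ z → log x - Ct ≤ tau z x) {z : ℕ} (hz : 2 ≤ z) {T : ℝ}
    {G : Finset ℕ} (hG : G ∈ supp (PP z) (tau z) 0 z T) (hsub : G ⊆ PP z) {s p : ℕ}
    (hs : s ∈ G) (hp : p ∈ G) (hsp : s < p) :
    ∑ t ∈ G.filter (fun t => s ≤ t), log (t : ℝ) + log s ≤ T + Ct * G.card + Ct := by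
  have h1 := chain_zero (fun q _ => (exc_tau_pos hz q).le)
    (fun q _ q' _ h => exc_tau_mono hz h) hG hs ⟨p, hp, hsp⟩
  have h2 : ∀ t ∈ G, log (t : ℝ) ≤ tau z t + Ct := by
    intro t ht
    obtain ⟨h3, h4⟩ := exc_mem_PP (hsub ht)
    have := hCt1 z t h3.two_le h4.le
    linarith only [this]
  have h3 : ∑ t ∈ G.filter (fun t => s ≤ t), log (t : ℝ) ≤
      ∑ t ∈ G.filter (fun t => s ≤ t), (tau z t + Ct) :=
    sum_le_sum fun t ht => h2 t (mem_filter.mp ht).1
  rw [sum_add_distrib, sum_const, nsmul_eq_mul] at h3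
  have h4 : ((G.filter (fun t => s ≤ t)).card : ℝ) ≤ G.card := by
    exact_mod_cast card_filter_le _ _
  have h5 := h2 s hs
  linarith only [mul_nonneg (le_of_lt (sub_pos.2 hCt)) (sub_nonneg.2 h4), h5, h3, h1]

lemma exc_size' {Ct : ℝ}
    (hCt1 : ∀ z x : ℕ, 2 ≤ x → x ≤ z → log x - Ct ≤ tau z x) {z : ℕ} (hz : 2 ≤ z) {T : ℝ}
    {G : Finset ℕ} (hG : G ∈ supp (PP z) (tau z) 0 z T) (hsub : G ⊆ PP z) {q p : ℕ}
    (hq : q ∈ G) (hp : p ∈ G) (hqp : q < p) :
    ∑ t ∈ G, log (t : ℝ) ≤ T + Ct * G.card := by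
  set s := G.min' ⟨q, hq⟩ with hs
  have hsG : s ∈ G := G.min'_mem _
  have hsq : s ≤ q := G.min'_le q hq
  have h1 := chain_zero (fun q _ => (exc_tau_pos hz q).le)
    (fun q _ q' _ h => exc_tau_mono hz h) hG hsG ⟨p, hp, lt_of_le_of_lt hsq hqp⟩
  have h2 : G.filter (fun t => s ≤ t) = G := by
    rw [filter_eq_self]
    intro t ht
    exact G.min'_le t ht
  rw [h2] at h1
  have h3 : ∑ t ∈ G, log (t : ℝ) ≤ ∑ t ∈ G, (tau z t + Ct) := by
    apply sum_le_sum
    intro t ht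
    obtain ⟨h3, h4⟩ := exc_mem_PP (hsub ht)
    have := hCt1 z t h3.two_le h4.le
    linarith only [this]
  rw [sum_add_distrib, sum_const, nsmul_eq_mul] at h3
  have h4 := exc_tau_pos hz s
  linarith only [h4, h3, h1]

lemma exc_bi {κ : ℝ} (hκ : 0 < κ) {s s' : ℕ} (hs : 0 < s) (hs' : 0 < s')
    (h : bi κ s = bi κ s') : (s' : ℝ) < (1 + κ) * s := by
  have hs0 : (1 : ℝ) ≤ s := by exact_mod_cast hs
  have hs0' : (1 : ℝ) ≤ s' := by exact_mod_cast hs'
  have hlk : 0 < log (1 + κ) := Real.log_pos (by linarith only [hκ])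
  unfold bi at h
  have h1 : log s' / log (1 + κ) < ⌊log s' / log (1 + κ)⌋₊ + 1 := Nat.lt_floor_add_one _
  have h2 : (⌊log s / log (1 + κ)⌋₊ : ℝ) ≤ log s / log (1 + κ) :=
    Nat.floor_le (div_nonneg (Real.log_nonneg hs0) hlk.le)
  rw [← h] at h1
  have h3 : log s' / log (1 + κ) < log s / log (1 + κ) + 1 := by linarith only [h1, h2]
  have h4 : log s' < log s + log (1 + κ) := by
    rw [div_lt_iff₀ hlk, add_mul, one_mul, div_mul_cancel₀ _ hlk.ne'] at h3
    exact h3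
  rw [← Real.log_mul (by linarith only [hs0]) (by linarith only [hκ])] at h4
  have h5 := (Real.log_lt_log_iff (by linarith only [hs0']) (by positivity)).mp h4
  linarith only [h5]

lemma exc_log_prod {z : ℕ} {G : Finset ℕ} (hG : G ⊆ PP z) :
    log (∏ p ∈ G, (p : ℝ)) = ∑ p ∈ G, log (p : ℝ) := by
  rw [Real.log_prod]
  intro p hp
  have := (exc_mem_PP (hG hp)).1.pos
  positivity

/-- the missing zone forces a large smooth part -/
lemma exc_zone {Ct : ℝ} (hCt : 0 < Ct)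
    (hCt1 : ∀ z x : ℕ, 2 ≤ x → x ≤ z → log x - Ct ≤ tau z x) {y : ℝ} {z : ℕ} (hz : 2 ≤ z)
    {T A₁ K : ℝ}
    {G : Finset ℕ} (hG : G ∈ supp (PP z) (tau z) 0 z T) (hsub : G ⊆ PP z) {q p : ℕ}
    (hq : q ∈ G) (hp : p ∈ G) (hqp : q < p) {j : ℕ} (hy : 0 < y) (hl : 0 < log y)
    (hqz : zhi y j < log q) (hT : T ≤ log y + A₁ * log (log y)) (hK : (G.card : ℝ) ≤ K)
    (hlarge : 2 * y / (log y) ^ 3 ≤ ∏ s ∈ G, (s : ℝ)) (hno : ∀ s ∈ G, s ∉ zone y j) :
    zhi y j - (A₁ + 3) * log (log y) - Ct * K - Ct ≤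
      ∑ p ∈ G.filter (fun p : ℕ => log (p : ℝ) ≤ zlo y j), log (p : ℝ) := by
  classical
  set F := G.filter (fun t : ℕ => zhi y j < log (t : ℝ)) with hF
  have hqF : q ∈ F := mem_filter.mpr ⟨hq, hqz⟩
  set s := F.min' ⟨q, hqF⟩ with hs
  have hsF : s ∈ F := F.min'_mem _
  obtain ⟨hsG, hsz⟩ := mem_filter.mp hsF
  have hsq : s ≤ q := F.min'_le q hqF
  have h1 := exc_size hCt hCt1 hz hG hsub hsG hp (lt_of_le_of_lt hsq hqp)
  have h2 : Real.log (2 * y / (log y) ^ 3) ≤ ∑ t ∈ G, log (t : ℝ) := by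
    rw [← exc_log_prod hsub]
    apply Real.log_le_log _ hlarge
    positivity
  have h3 : log y - 3 * log (log y) ≤ Real.log (2 * y / (log y) ^ 3) := by
    rw [Real.log_div (by positivity) (by positivity), Real.log_mul (by norm_num) hy.ne',
      Real.log_pow]
    have : 0 ≤ Real.log 2 := Real.log_nonneg (by norm_num)
    push_cast
    linarith only [this]
  have h4 : ∑ t ∈ G, log (t : ℝ) = ∑ t ∈ G.filter (fun t => s ≤ t), log (t : ℝ) +
      ∑ t ∈ G.filter (fun t => ¬ s ≤ t), log (t : ℝ) := by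
    rw [sum_filter_add_sum_filter_not]
  have h5 : ∑ t ∈ G.filter (fun t => ¬ s ≤ t), log (t : ℝ) ≤
      ∑ p ∈ G.filter (fun p : ℕ => log (p : ℝ) ≤ zlo y j), log (p : ℝ) := by
    apply sum_le_sum_of_subset_of_nonneg
    · intro t ht
      obtain ⟨ht1, ht2⟩ := mem_filter.mp ht
      refine mem_filter.mpr ⟨ht1, ?_⟩
      by_contra hcon
      have ht3 : ¬ zhi y j < log (t : ℝ) := fun h =>
        ht2 (F.min'_le t (mem_filter.mpr ⟨ht1, h⟩))
      apply hno t ht1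
      unfold zone
      have htp := (exc_mem_PP (hsub ht1)).1
      have ht0 : (0 : ℝ) < t := by exact_mod_cast htp.pos
      rw [mem_filter, mem_range]
      refine ⟨?_, htp, (not_le.mp hcon).le, not_lt.mp ht3⟩
      rw [Nat.lt_add_one_iff]
      apply Nat.le_floor
      rw [← Real.log_le_iff_le_exp ht0]
      exact not_lt.mp ht3
    · intro t ht _
      have htp := (exc_mem_PP (hsub (mem_filter.mp ht).1)).1
      exact Real.log_nonneg (by exact_mod_cast htp.one_le)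
  have h6 : Ct * G.card ≤ Ct * K := mul_le_mul_of_nonneg_left hK hCt.le
  linarith only [h6, h5, h4, h3, h2, h1, hsz, hT]

/-- the types of exceptional supports -/
def ExcType (y C₉ κ : ℝ) (z : ℕ) (T : ℝ) (G : Finset ℕ) : ℕ → Prop
  | 0 => C₉ * log (log y) < G.card
  | 1 => (G.card : ℝ) ≤ C₉ * log (log y) ∧ exp ((log y) ^ (0.95 : ℝ)) <
      ∏ s ∈ G.filter (fun s : ℕ => (s : ℝ) ≤ exp ((log y) ^ (0.94 : ℝ))), (s : ℝ)
  | 2 => (G.card : ℝ) ≤ C₉ * log (log y) ∧ ∃ s ∈ G, ∃ s' ∈ G, bi κ s = bi κ s' ∧ s ≠ s'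
  | 3 => (G.card : ℝ) ≤ C₉ * log (log y) ∧ ∃ s ∈ G, (∃ s' ∈ G, s < s') ∧
      |T - ∑ t ∈ G.filter (fun t => s < t), tau z t - 3 * tau z s| < κ * (log y) ^ (0.1 : ℝ)
  | 4 => ∏ s ∈ G, (s : ℝ) < 2 * y / (log y) ^ 3
  | (j + 5) => (G.card : ℝ) ≤ C₉ * log (log y) ∧ 2 * y / (log y) ^ 3 ≤ ∏ s ∈ G, (s : ℝ) ∧
      ∀ s ∈ G, s ∉ zone y j

lemma exc_types {y C₉ κ : ℝ} {r z : ℕ} {T : ℝ} {G : Finset ℕ} (h : ¬ Good y C₉ κ r z T G) :
    ∃ i ∈ range (r + 6), ExcType y C₉ κ z T G i := by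
  by_contra hcon
  push Not at hcon
  have h0 := hcon 0 (mem_range.mpr (by omega))
  have h1 := hcon 1 (mem_range.mpr (by omega))
  have h2 := hcon 2 (mem_range.mpr (by omega))
  have h3 := hcon 3 (mem_range.mpr (by omega))
  have h4 := hcon 4 (mem_range.mpr (by omega))
  have h5 := fun j (hj : j ≤ r) => hcon (j + 5) (mem_range.mpr (by omega))
  simp only [ExcType] at h0 h1 h2 h3 h4 h5
  have hcard := not_lt.mp h0
  have hlarge := not_lt.mp h4
  apply h
  refine ⟨?_, hcard, ?_, ?_, ?_, hlarge⟩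
  · intro j hj
    by_contra hno
    push Not at hno
    exact h5 j hj ⟨hcard, hlarge, hno⟩
  · by_contra hno
    exact h1 ⟨hcard, not_le.mp hno⟩
  · intro j _ s hs s' hs' _ _ hb
    by_contra hne
    exact h2 ⟨hcard, s, hs, s', hs', hb, hne⟩
  · intro s hs hs'
    by_contra hno
    exact h3 ⟨hcard, s, hs, hs', not_le.mp hno⟩

/-- the numerical inequalities which are needed -/
structure ExcNum (Cm Ct Cs A₁ c C₉ B₀ : ℝ) (r : ℕ) (l : ℝ) : Prop where
  L1 : 1 ≤ log l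
  l1 : 1 ≤ l
  f1 : exp (Ct + 1) * Cm + B₀ ≤ 2 * log l
  f2 : (exp 1 * Cm + (A₁ + 3 + Ct * C₉ + Ct) + B₀) + ((A₁ + Ct * C₉) + 4 + exp 1) * log l ≤
    (log l) ^ 2
  f3 : (exp 1 * Cm + B₀) + ((A₁ + Ct * C₉) + 4 + exp 1) * log l ≤ 1 * l ^ (0.01 : ℝ)
  f4 : 2 * Cm + B₀ ≤ 4 * log l
  f5 : log (3 * C₉) + Cm + B₀ ≤ 3 * log l
  f6 : 0 + ((A₁ + Ct * C₉) + 9) * log l ≤ 0.16 * l ^ (1 : ℝ)
  f7 : (Ct + 1) / 0.16 ≤ l
  f8 : (log l) ^ (10 * r + 5) < c * l
  f9 : 8 * Cs * (r + 6) ≤ l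

lemma excNum_ev (Cm Ct Cs A₁ C₉ B₀ : ℝ) {c : ℝ} (hc : 0 < c) (r : ℕ) :
    ∀ᶠ l : ℝ in atTop, ExcNum Cm Ct Cs A₁ c C₉ B₀ r l := by
  have hL := Real.tendsto_log_atTop
  filter_upwards [hL.eventually_ge_atTop 1, eventually_ge_atTop (1 : ℝ),
    hL.eventually_ge_atTop ((exp (Ct + 1) * Cm + B₀) / 2), exc_ev_sq _ _,
    exc_ev_rpow (exp 1 * Cm + B₀) ((A₁ + Ct * C₉) + 4 + exp 1) 1 0.01 one_pos (by norm_num),
    hL.eventually_ge_atTop ((2 * Cm + B₀) / 4),
    hL.eventually_ge_atTop ((log (3 * C₉) + Cm + B₀) / 3),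
    exc_ev_rpow 0 ((A₁ + Ct * C₉) + 9) 0.16 1 (by norm_num) one_pos,
    eventually_ge_atTop ((Ct + 1) / 0.16),
    exc_ev_pow (10 * r + 5) c hc,
    eventually_ge_atTop (8 * Cs * (r + 6))] with l h1 h2 h3 h4 h5 h6 h7 h8 h9 h10 h11
  exact ⟨h1, h2, by linarith only [h3], h4, h5, by linarith only [h6], by linarith only [h7], h8, h9, h10, h11⟩

/-- the common properties of the supports -/
structure ExcCtx (Cm Ct A₁ c C₉ A₃ : ℝ) (y z : ℕ) (T : ℝ) (BG : Finset (Finset ℕ)) : Prop where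
  Ct0 : 0 < Ct
  C₉0 : 0 < C₉
  tau_ge : ∀ z x : ℕ, 2 ≤ x → x ≤ z → log x - Ct ≤ tau z x
  hy : 1 ≤ y
  hl : 0 < log (y : ℝ)
  hz : 2 ≤ z
  T_le : T ≤ log y + A₁ * log (log y)
  sub : BG ⊆ (PP z).powerset
  elem : ∀ G ∈ BG, G ∈ supp (PP z) (tau z) 0 z T ∧ ∃ p q : ℕ, p ∈ G ∧ q ∈ G ∧ q < p ∧
      (∀ t ∈ G, t ≤ p) ∧ (y : ℝ) ^ c ≤ q ∧ (y : ℝ) ^ (0.16 : ℝ) ≤ p
  size : ∀ G ∈ BG, ∑ t ∈ G, log (t : ℝ) ≤ T + Ct * G.card
  sizeN : ∀ G ∈ BG, (G.card : ℝ) ≤ C₉ * log (log y) →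
    ∑ t ∈ G, log (t : ℝ) ≤ log y + (A₁ + Ct * C₉) * log (log y)
  prod : ∀ w : ℝ, 0 ≤ w → ∏ p ∈ PP z, (1 + w / (p : ℝ)) ≤ exp (w * (log (log y) + Cm))
  sum : ∑ p ∈ PP z, 1 / (p : ℝ) ≤ log (log y) + Cm

lemma exc_ctx {Cm Ct A₁ c C₇ C₉ : ℝ} (A₃ : ℝ) (hCt : 0 < Ct) (hC₉ : 0 < C₉)
    (hCt1 : ∀ z x : ℕ, 2 ≤ x → x ≤ z → log x - Ct ≤ tau z x)
    (hsum : ∀ z : ℕ, 2 ≤ z → ∑ p ∈ PP z, 1 / (p : ℝ) ≤ log (log z) + Cm)
    (hprod : ∀ z : ℕ, 2 ≤ z → ∀ w : ℝ, 0 ≤ w →
      ∏ p ∈ PP z, (1 + w / (p : ℝ)) ≤ exp (w * (log (log z) + Cm)))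
    {y z : ℕ} {T : ℝ} {DD : Finset (ℕ × ℕ)} (hy : 1 ≤ y) (hl : 0 < log (y : ℝ))
    (hS : Std y A₁ c C₇ z T DD) {BG : Finset (Finset ℕ)} (hBG : BG ⊆ NN z T DD)
    (hne : BG.Nonempty) : ExcCtx Cm Ct A₁ c C₉ A₃ y z T BG := by
  obtain ⟨G₀, hG₀⟩ := hne
  have hyR : (1 : ℝ) ≤ y := by exact_mod_cast hy
  have hyR0 : (0 : ℝ) < y := by linarith only [hyR]
  have hz : 2 ≤ z := by
    obtain ⟨-, h1, p, -, hp, -⟩ := exc_NN hS (hBG hG₀)
    obtain ⟨h2, h3⟩ := exc_mem_PP (h1 hp)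
    exact h2.two_le.trans h3.le
  have hzR : (2 : ℝ) ≤ z := by exact_mod_cast hz
  have hzy : (z : ℝ) ≤ y := by
    refine hS.2.1.trans ?_
    rw [Real.sqrt_le_left hyR0.le]
    nlinarith only [hyR]
  have hllz : log (log (z : ℝ)) ≤ log (log y) := by
    apply Real.log_le_log (Real.log_pos (by linarith only [hzR]))
    exact Real.log_le_log (by linarith only [hzR]) hzy
  have hT : T ≤ log y + A₁ * log (log y) := hS.2.2.1
  have hBGp : BG ⊆ (PP z).powerset := fun G hG => mem_powerset.mpr (exc_NN hS (hBG hG)).2.1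
  have hsize : ∀ G ∈ BG, ∑ t ∈ G, log (t : ℝ) ≤ T + Ct * G.card := by
    intro G hG
    obtain ⟨h1, h2, p, q, hp, hq, hqp, -⟩ := exc_NN hS (hBG hG)
    exact exc_size' hCt1 hz h1 h2 hq hp hqp
  refine ⟨hCt, hC₉, hCt1, hy, hl, hz, hT, hBGp, ?_, hsize, ?_, ?_, ?_⟩
  · intro G hG
    obtain ⟨h1, -, h2⟩ := exc_NN hS (hBG hG)
    exact ⟨h1, h2⟩
  · intro G hG hc
    have h1 := hsize G hG
    have h2 : Ct * G.card ≤ Ct * (C₉ * log (log y)) := mul_le_mul_of_nonneg_left hc hCt.le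
    linarith only [hT, h1, h2]
  · intro w hw
    refine (hprod z hz w hw).trans (Real.exp_le_exp.mpr ?_)
    exact mul_le_mul_of_nonneg_left (by linarith only [hllz]) hw
  · linarith only [hllz, hsum z hz]

section classes

variable {Cm Ct Cs A₁ c C₉ A₃ B₀ : ℝ} {r : ℕ} {y z : ℕ} {T : ℝ} {BG X : Finset (Finset ℕ)}

lemma exc_type0 (hC₉ : C₉ = A₁ + exp (Ct + 1) + 6) (h : ExcCtx Cm Ct A₁ c C₉ A₃ y z T BG)
    (hn : ExcNum Cm Ct Cs A₁ c C₉ B₀ r (log y)) (hX : X ⊆ BG)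
    (hX' : ∀ G ∈ X, ExcType y C₉ ((log y) ^ (-A₃)) z T G 0) :
    (X.card : ℝ) ≤ exp (log y - 4 * log (log y) - B₀) := by
  refine (exc_card_class (T := T) (K := C₉ * log (log y)) (Ct := Ct)
    (hX.trans h.sub) ?_).trans ?_
  · intro G hG
    have h2 := hX' G hG
    simp only [ExcType] at h2
    exact ⟨h.size G (hX hG), h2.le⟩
  · refine (mul_le_mul_of_nonneg_left (h.prod _ (Real.exp_pos _).le)
      (Real.exp_pos _).le).trans ?_
    rw [← Real.exp_add]
    apply Real.exp_le_exp.mpr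
    have h1 := h.T_le
    have h2 := hn.f1
    have h3 : C₉ * log (log (y : ℝ)) = A₁ * log (log (y : ℝ)) +
      exp (Ct + 1) * log (log (y : ℝ)) + 6 * log (log (y : ℝ)) := by
      rw [hC₉]; ring
    rw [h3]
    linarith only [h1, h2]

lemma exc_type1 (h : ExcCtx Cm Ct A₁ c C₉ A₃ y z T BG)
    (hn : ExcNum Cm Ct Cs A₁ c C₉ B₀ r (log y)) (hX : X ⊆ BG)
    (hX' : ∀ G ∈ X, ExcType y C₉ ((log y) ^ (-A₃)) z T G 1) :
    (X.card : ℝ) ≤ exp (log y - 4 * log (log y) - B₀) := by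
  have hl0 := h.hl
  refine (exc_rankin_class (N := log y + (A₁ + Ct * C₉) * log (log y))
    (B := (log (y : ℝ)) ^ (0.95 : ℝ)) (R := (log (y : ℝ)) ^ (0.94 : ℝ))
    (by positivity) (hX.trans h.sub) ?_).trans ?_
  · intro G hG
    have h2 := hX' G hG
    simp only [ExcType] at h2
    refine ⟨h.sizeN G (hX hG) h2.1, ?_⟩
    have hsub := mem_powerset.mp (h.sub (hX hG))
    have h3 : G.filter (fun s : ℕ => (s : ℝ) ≤ exp ((log (y : ℝ)) ^ (0.94 : ℝ))) =
        G.filter (fun s : ℕ => log (s : ℝ) ≤ (log (y : ℝ)) ^ (0.94 : ℝ)) := by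
      apply filter_congr
      intro s hs
      have : (0 : ℝ) < s := by exact_mod_cast (exc_mem_PP (hsub hs)).1.pos
      rw [Real.log_le_iff_le_exp this]
    have h4 := h2.2
    rw [h3] at h4
    have h5 := Real.log_lt_log (Real.exp_pos _) h4
    rw [Real.log_exp, exc_log_prod ((filter_subset _ _).trans hsub)] at h5
    exact h5.le
  · refine (mul_le_mul_of_nonneg_left (h.prod _ (Real.exp_pos _).le)
      (Real.exp_pos _).le).trans ?_
    rw [← Real.exp_add]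
    apply Real.exp_le_exp.mpr
    have h6 : (log (y : ℝ)) ^ (0.95 : ℝ) / (log (y : ℝ)) ^ (0.94 : ℝ) =
        (log (y : ℝ)) ^ (0.01 : ℝ) := by
      rw [← Real.rpow_sub hl0]
      norm_num
    rw [h6]
    have h7 := hn.f3
    linarith only [h7]

lemma exc_kappa {l E A₃ : ℝ} (hl : 0 < l) (hL : 0 ≤ log l) (hA₃ : E + 10 ≤ A₃) :
    l ^ (-A₃) ≤ exp (-(E + 10) * log l) := by
  rw [Real.rpow_def_of_pos hl]
  apply Real.exp_le_exp.mpr
  have := mul_le_mul_of_nonneg_right hA₃ hL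
  linarith only [this]

lemma exc_num_box {l L E Cm B₀ κ S P : ℝ} (hκ : κ ≤ exp (-(E + 10) * L))
    (hS0 : 0 ≤ S) (hS : S ≤ exp (L + Cm)) (hP0 : 0 ≤ P) (hP : P ≤ exp (L + Cm))
    (h : 2 * Cm + B₀ ≤ 4 * L) : exp (l + E * L) * (κ * S * P) ≤ exp (l - 4 * L - B₀) := by
  calc exp (l + E * L) * (κ * S * P)
      ≤ exp (l + E * L) * (exp (-(E + 10) * L) * exp (L + Cm) * exp (L + Cm)) := by
        apply mul_le_mul_of_nonneg_left _ (Real.exp_pos _).le
        apply mul_le_mul _ hP hP0 (by positivity)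
        exact mul_le_mul hκ hS hS0 (Real.exp_pos _).le
    _ = exp (l + E * L + (-(E + 10) * L + (L + Cm) + (L + Cm))) := by
        rw [Real.exp_add (l + E * L), Real.exp_add (-(E + 10) * L + (L + Cm)),
          Real.exp_add (-(E + 10) * L)]
    _ ≤ exp (l - 4 * L - B₀) := by
        apply Real.exp_le_exp.mpr
        linarith only [h]

lemma exc_num_bdry {l L E Cm B₀ C₉ κ Y P : ℝ} (hC₉ : 0 < C₉)
    (hκ0 : 0 ≤ κ) (hY0 : 0 ≤ Y)
    (hκ : κ ≤ exp (-(E + 9) * L)) (hY : Y ≤ exp (-(E + 9) * L)) (hP0 : 0 ≤ P)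
    (hP : P ≤ exp (L + Cm))
    (h : log (3 * C₉) + Cm + B₀ ≤ 3 * L) :
    exp (l + E * L) * (C₉ * L * (2 * κ + Y) * P) ≤ exp (l - 4 * L - B₀) := by
  have h8 : L ≤ exp L := by linarith only [Real.add_one_le_exp L]
  calc exp (l + E * L) * (C₉ * L * (2 * κ + Y) * P)
      ≤ exp (l + E * L) * ((C₉ * exp L) * (3 * exp (-(E + 9) * L)) * exp (L + Cm)) := by
        apply mul_le_mul_of_nonneg_left _ (Real.exp_pos _).le
        apply mul_le_mul _ hP hP0 (by positivity)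
        apply mul_le_mul _ (by linarith only [hκ, hY]) (by positivity) (by positivity)
        exact mul_le_mul_of_nonneg_left h8 hC₉.le
    _ = exp (log (3 * C₉)) * (exp (l + E * L) * exp L * exp (-(E + 9) * L) *
          exp (L + Cm)) := by
        rw [Real.exp_log (by positivity)]
        ring
    _ = exp (log (3 * C₉) + (l + E * L + L + -(E + 9) * L + (L + Cm))) := by
        rw [Real.exp_add (log (3 * C₉)), Real.exp_add (l + E * L + L + -(E + 9) * L),
          Real.exp_add (l + E * L + L), Real.exp_add (l + E * L)]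
    _ ≤ exp (l - 4 * L - B₀) := by
        apply Real.exp_le_exp.mpr
        linarith

lemma ExcCtx.prod1 (h : ExcCtx Cm Ct A₁ c C₉ A₃ y z T BG) :
    ∏ p ∈ PP z, (1 + 1 / (p : ℝ)) ≤ exp (log (log y) + Cm) := by
  have := h.prod 1 zero_le_one
  rwa [one_mul] at this

lemma exc_prod1_nonneg (z : ℕ) : 0 ≤ ∏ p ∈ PP z, (1 + 1 / (p : ℝ)) :=
  prod_nonneg fun p _ => by positivity

lemma exc_type2 (hA₃ : (A₁ + Ct * C₉) + 10 ≤ A₃) (h : ExcCtx Cm Ct A₁ c C₉ A₃ y z T BG)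
    (hn : ExcNum Cm Ct Cs A₁ c C₉ B₀ r (log y)) (hX : X ⊆ BG)
    (hX' : ∀ G ∈ X, ExcType y C₉ ((log y) ^ (-A₃)) z T G 2) :
    (X.card : ℝ) ≤ exp (log y - 4 * log (log y) - B₀) := by
  have hl0 := h.hl
  have hκ0 : 0 < (log (y : ℝ)) ^ (-A₃) := by positivity
  refine (exc_box_class (N := log y + (A₁ + Ct * C₉) * log (log y)) (κ := (log y) ^ (-A₃)) hκ0.le
    (hX.trans h.sub) ?_).trans ?_
  · intro G hG
    have h2 := hX' G hG
    simp only [ExcType] at h2
    refine ⟨h.sizeN G (hX hG) h2.1, ?_⟩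
    have hsub := mem_powerset.mp (h.sub (hX hG))
    obtain ⟨s, hs, s', hs', hb, hne⟩ := h2.2
    have h3 := (exc_mem_PP (hsub hs)).1.pos
    have h4 := (exc_mem_PP (hsub hs')).1.pos
    rcases lt_or_gt_of_ne hne with h | h
    · exact ⟨s, hs, s', hs', h, exc_bi hκ0 h3 h4 hb⟩
    · exact ⟨s', hs', s, hs, h, exc_bi hκ0 h4 h3 hb.symm⟩
  · have h4 : ∑ p ∈ PP z, 1 / (p : ℝ) ≤ exp (log (log y) + Cm) := by
      have := Real.add_one_le_exp (log (log (y : ℝ)) + Cm)
      linarith only [h.sum, this, h]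
    exact exc_num_box (exc_kappa hl0 (by linarith only [hn.L1, hn]) hA₃)
      (sum_nonneg fun p _ => by positivity) h4 (exc_prod1_nonneg z) h.prod1 hn.f4

lemma exc_type3 (hA₃ : (A₁ + Ct * C₉) + 10 ≤ A₃) (h : ExcCtx Cm Ct A₁ c C₉ A₃ y z T BG)
    (hn : ExcNum Cm Ct Cs A₁ c C₉ B₀ r (log y)) (hX : X ⊆ BG)
    (hX' : ∀ G ∈ X, ExcType y C₉ ((log y) ^ (-A₃)) z T G 3) :
    (X.card : ℝ) ≤ exp (log y - 4 * log (log y) - B₀) := by
  have hl0 := h.hl
  have hL1 := hn.L1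
  have hL0 : 0 < log (log (y : ℝ)) := by linarith
  have hC₉ := h.C₉0
  have hyR0 : (0 : ℝ) < y := by
    have := h.hy
    positivity
  refine (exc_bdry_class (z := z) h.hz (N := log y + (A₁ + Ct * C₉) * log (log y))
    (K := C₉ * log (log y))
    (y₁ := (y : ℝ) ^ (0.16 : ℝ)) (η := (log y) ^ (-A₃) * (log y) ^ (0.1 : ℝ)) (T := T)
    (by positivity) (by positivity) (by positivity)
    (hX.trans h.sub) ?_ ?_).trans ?_
  · intro p hp hyp
    obtain ⟨h1, h2⟩ := exc_mem_PP hp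
    have h3 := h.tau_ge z p h1.two_le h2.le
    have h4 : 0.16 * log (y : ℝ) ≤ log (p : ℝ) := by
      have := Real.log_le_log (by positivity) hyp
      rwa [Real.log_rpow hyR0] at this
    have h5 : Ct + 1 ≤ 0.16 * log (y : ℝ) := by
      have h6 := hn.f7
      rw [div_le_iff₀ (by norm_num)] at h6
      linarith only [h6]
    linarith only [h3, h4, h5]
  · intro G hG
    have h2 := hX' G hG
    simp only [ExcType] at h2
    refine ⟨h.sizeN G (hX hG) h2.1, h2.1, ?_⟩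
    obtain ⟨h3, p, q, hp, hq, hqp, hmax, hyq, hyp⟩ := h.elem G (hX hG)
    obtain ⟨s, hs, ⟨s', hs', hss'⟩, hlt⟩ := h2.2
    exact ⟨p, hp, hmax, hyp, s, hs, lt_of_lt_of_le hss' (hmax s' hs'), hlt⟩
  · have h3 : (log (y : ℝ)) ^ (-A₃) * (log (y : ℝ)) ^ (0.1 : ℝ) ≤
        exp (-((A₁ + Ct * C₉) + 9) * log (log y)) := by
      rw [← Real.rpow_add hl0, Real.rpow_def_of_pos hl0]
      apply Real.exp_le_exp.mpr
      have h5 : (-A₃ + 0.1) ≤ -((A₁ + Ct * C₉) + 9) := by linarith only [hA₃]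
      rw [mul_comm]
      exact mul_le_mul_of_nonneg_right h5 hL0.le
    have h4 : 1 / (y : ℝ) ^ (0.16 : ℝ) ≤ exp (-((A₁ + Ct * C₉) + 9) * log (log y)) := by
      rw [Real.rpow_def_of_pos hyR0, one_div, ← Real.exp_neg]
      apply Real.exp_le_exp.mpr
      have h6 := hn.f6
      rw [Real.rpow_one] at h6
      linarith only [h6]
    exact exc_num_bdry hC₉ (by positivity) (by positivity) h3 h4
      (exc_prod1_nonneg z) h.prod1 hn.f5

lemma exc_type5 (h : ExcCtx Cm Ct A₁ c C₉ A₃ y z T BG) (hA₁ : 0 < A₁)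
    (hn : ExcNum Cm Ct Cs A₁ c C₉ B₀ r (log y)) {j : ℕ} (hj : j ≤ r) (hX : X ⊆ BG)
    (hX' : ∀ G ∈ X, ExcType y C₉ ((log y) ^ (-A₃)) z T G (j + 5)) :
    (X.card : ℝ) ≤ exp (log y - 4 * log (log y) - B₀) := by
  have hl0 := h.hl
  have hL1 := hn.L1
  have hL0 : 0 < log (log (y : ℝ)) := by linarith only [hL1]
  have hC₉ := h.C₉0
  have hyR0 : (0 : ℝ) < y := by
    have := h.hy
    positivity
  have hR0 : 0 < zlo y j := by
    unfold zlo
    positivity
  refine (exc_rankin_class (N := log y + (A₁ + Ct * C₉) * log (log y))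
    (B := zhi y j - (A₁ + 3) * log (log y) - Ct * (C₉ * log (log y)) - Ct) (R := zlo y j)
    hR0 (hX.trans h.sub) ?_).trans ?_
  · intro G hG
    have h2 := hX' G hG
    simp only [ExcType] at h2
    refine ⟨h.sizeN G (hX hG) h2.1, ?_⟩
    obtain ⟨h3, p, q, hp, hq, hqp, hmax, hyq, hyp⟩ := h.elem G (hX hG)
    have hsub := mem_powerset.mp (h.sub (hX hG))
    apply exc_zone h.Ct0 h.tau_ge h.hz h3 hsub hq hp hqp hyR0 hl0 _ h.T_le h2.1 h2.2.1 h2.2.2
    have h5 : c * log (y : ℝ) ≤ log (q : ℝ) := by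
      have := Real.log_le_log (by positivity) hyq
      rwa [Real.log_rpow hyR0] at this
    refine lt_of_le_of_lt ?_ (lt_of_lt_of_le hn.f8 h5)
    unfold zhi
    exact pow_le_pow_right₀ hL1 (by omega)
  · refine (mul_le_mul_of_nonneg_left (h.prod _ (Real.exp_pos _).le)
      (Real.exp_pos _).le).trans ?_
    rw [← Real.exp_add]
    apply Real.exp_le_exp.mpr
    have h6 : (log (log (y : ℝ))) ^ 2 - (A₁ + 3 + Ct * C₉ + Ct) ≤
        (zhi y j - (A₁ + 3) * log (log y) - Ct * (C₉ * log (log y)) - Ct) / zlo y j := by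
      rw [le_div_iff₀ hR0]
      have e1 : zhi (y : ℝ) j = (log (log (y : ℝ))) ^ 2 * zlo y j := by
        unfold zhi zlo
        ring
      have e2 : log (log (y : ℝ)) ≤ zlo y j := by
        unfold zlo
        exact le_self_pow₀ hL1 (by omega)
      have hCt := h.Ct0
      have e3 : (A₁ + 3) * log (log (y : ℝ)) + Ct * (C₉ * log (log (y : ℝ))) + Ct ≤
          (A₁ + 3 + Ct * C₉ + Ct) * zlo y j := by
        have e4 : (A₁ + 3) * log (log (y : ℝ)) + Ct * (C₉ * log (log (y : ℝ))) + Ct ≤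
            (A₁ + 3 + Ct * C₉ + Ct) * log (log (y : ℝ)) := by
          have e5 : Ct ≤ Ct * log (log (y : ℝ)) := by linarith only [mul_nonneg (sub_nonneg.2 hL1) (le_of_lt (sub_pos.2 hCt))]
          linarith
        refine e4.trans (mul_le_mul_of_nonneg_left e2 ?_)
        positivity
      rw [e1]
      linarith only [e3]
    have h7 := hn.f2
    linarith only [h6, h7]

lemma exc_type4 (hCs : 0 < Cs) {W : ℝ → ℝ} {V : ℤ}
    (hsmall : ∀ (y : ℕ) (V : ℤ) (n : ℕ), 1 ≤ y → 1 ≤ n → |rr W y V n| ≤ Cs * ((n : ℝ) / y) ^ 2)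
    (h : ExcCtx Cm Ct A₁ c C₉ A₃ y z T BG)
    (hn : ExcNum Cm Ct Cs A₁ c C₉ B₀ r (log y)) (hX : X ⊆ BG)
    (hX' : ∀ G ∈ X, ExcType y C₉ ((log y) ^ (-A₃)) z T G 4) :
    ∑ G ∈ X, |rr W y V (∏ p ∈ G, p)| ≤ y / (log y) ^ 4 / (r + 6) := by
  have hl0 := h.hl
  have hy1 := h.hy
  have hyR0 : (0 : ℝ) < y := by positivity
  have h1 := exc_small_class (X := X) (hX.trans h.sub) (M := 2 * y / (log (y : ℝ)) ^ 3)
    (b := Cs * (4 / (log (y : ℝ)) ^ 6)) (by positivity) (by positivity)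
    (f := fun n => |rr W y V n|) ?_
  · refine h1.trans ?_
    have hl1 := hn.l1
    have h9 := hn.f9
    set l := log (y : ℝ)
    have h2 : 2 * (y : ℝ) / l ^ 3 * (Cs * (4 / l ^ 6)) = y / l ^ 4 / (r + 6) *
        (8 * Cs * (r + 6) / l ^ 5) := by
      field_simp
      ring
    rw [h2]
    have h3 : 8 * Cs * (r + 6) / l ^ 5 ≤ 1 := by
      rw [div_le_one (by positivity)]
      have h4 : l ≤ l ^ 5 := le_self_pow₀ hl1 (by norm_num)
      linarith only [h9, h4]
    have h5 : 0 ≤ (y : ℝ) / l ^ 4 / (r + 6) := by positivity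
    linarith only [mul_nonneg (sub_nonneg.2 h3) (sub_nonneg.2 h5)]
  · intro G hG
    have h2 := hX' G hG
    simp only [ExcType] at h2
    have hsub := mem_powerset.mp (h.sub (hX hG))
    have h3 : ((∏ p ∈ G, p : ℕ) : ℝ) < 2 * y / (log (y : ℝ)) ^ 3 := by
      rw [Nat.cast_prod]
      exact h2
    refine ⟨h3.le, ?_⟩
    have h4 : 1 ≤ ∏ p ∈ G, p := by
      apply Nat.one_le_iff_ne_zero.mpr
      rw [prod_ne_zero_iff]
      intro p hp
      exact (exc_mem_PP (hsub hp)).1.ne_zero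
    refine (hsmall y V _ hy1 h4).trans ?_
    apply mul_le_mul_of_nonneg_left _ hCs.le
    have h5 : ((∏ p ∈ G, p : ℕ) : ℝ) / y ≤ 2 / (log (y : ℝ)) ^ 3 := by
      rw [div_le_iff₀ hyR0]
      refine h3.le.trans (le_of_eq ?_)
      ring
    calc (((∏ p ∈ G, p : ℕ) : ℝ) / y) ^ 2 ≤ (2 / (log (y : ℝ)) ^ 3) ^ 2 :=
          pow_le_pow_left₀ (by positivity) h5 2
      _ = 4 / (log (y : ℝ)) ^ 6 := by ring

lemma exc_count {Cb : ℝ} (hCb : 0 < Cb) {W : ℝ → ℝ} {V : ℤ}
    (hbound : ∀ (y : ℕ) (V : ℤ) (n : ℕ), 1 ≤ n → |rr W y V n| ≤ Cb)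
    (h : ExcCtx Cm Ct A₁ c C₉ A₃ y z T BG) (hX : X ⊆ BG)
    (hXc : (X.card : ℝ) ≤ exp (log y - 4 * log (log y) - log (Cb * (r + 6)))) :
    ∑ G ∈ X, |rr W y V (∏ p ∈ G, p)| ≤ y / (log y) ^ 4 / (r + 6) := by
  have hl0 := h.hl
  have hy1 := h.hy
  have hyR0 : (0 : ℝ) < y := by positivity
  have h1 : ∀ G ∈ X, |rr W y V (∏ p ∈ G, p)| ≤ Cb := by
    intro G hG
    apply hbound
    apply Nat.one_le_iff_ne_zero.mpr
    rw [prod_ne_zero_iff]
    intro p hp
    exact (exc_mem_PP (mem_powerset.mp (h.sub (hX hG)) hp)).1.ne_zero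
  refine (sum_le_sum h1).trans ?_
  have hU : (y : ℝ) / (log (y : ℝ)) ^ 4 = exp (log y - 4 * log (log y)) := by
    rw [Real.exp_sub, Real.exp_log hyR0]
    congr 1
    rw [show (4 : ℝ) * log (log (y : ℝ)) = ((4 : ℕ) : ℝ) * log (log (y : ℝ)) by norm_num,
      Real.exp_nat_mul, Real.exp_log hl0]
  rw [sum_const, nsmul_eq_mul, hU, le_div_iff₀ (by positivity)]
  have h2 : exp (log (y : ℝ) - 4 * log (log y) - log (Cb * (r + 6))) =
      exp (log y - 4 * log (log y)) / (Cb * (r + 6)) := by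
    rw [Real.exp_sub, Real.exp_log (by positivity)]
  rw [h2, le_div_iff₀ (by positivity)] at hXc
  linarith only [hXc]

end classes

/-- J7 -/
theorem exc : ExcStmt := by
  classical
  intro W hW A₁ c C₇ hA₁ hc hc' hC₇
  obtain ⟨Cs, hCs, hsmall⟩ := rr_small hW
  obtain ⟨Cb, hCb, hbound⟩ := rr_bound hW
  obtain ⟨Cm, hCm, hsum, hprod⟩ := exc_prod_le
  obtain ⟨Ct, hCt, hCt1⟩ := exc_tau_ge
  obtain ⟨C₉, hC₉⟩ : ∃ C₉, C₉ = A₁ + exp (Ct + 1) + 6 := ⟨_, rfl⟩
  have hC₉0 : 0 < C₉ := by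
    rw [hC₉]; positivity
  refine ⟨C₉, (A₁ + Ct * C₉) + 10, hC₉0, by positivity, ?_⟩
  intro r A₃ hA₃
  have hyl : Tendsto (fun y : ℕ => log (y : ℝ)) atTop atTop :=
    Real.tendsto_log_atTop.comp tendsto_natCast_atTop_atTop
  obtain ⟨y₀, hy₀⟩ := eventually_atTop.mp (hyl.eventually
    (excNum_ev Cm Ct Cs A₁ C₉ (log (Cb * (r + 6))) hc r))
  refine ⟨max y₀ 1, ?_⟩
  intro y hy V z T DD hS BG hBG hbad
  have hn := hy₀ y ((le_max_left _ _).trans hy)
  have hy1 : 1 ≤ y := (le_max_right _ _).trans hy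
  have hl0 : 0 < log (y : ℝ) := by linarith only [hn.l1, hc, hc', hn]
  rcases BG.eq_empty_or_nonempty with rfl | hne
  · rw [sum_empty]; positivity
  have hctx := exc_ctx (Cm := Cm) A₃ hCt hC₉0 hCt1 hsum hprod hy1 hl0 hS hBG hne
  have hmain : ∀ i ∈ range (r + 6),
      ∑ G ∈ BG.filter (fun G => ExcType y C₉ ((log y) ^ (-A₃)) z T G i),
      |rr W y V (∏ p ∈ G, p)| ≤ y / (log y) ^ 4 / (r + 6) := by
    intro i hi
    have hX : BG.filter (fun G => ExcType y C₉ ((log y) ^ (-A₃)) z T G i) ⊆ BG :=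
      filter_subset _ _
    have hX' : ∀ G ∈ BG.filter (fun G => ExcType y C₉ ((log y) ^ (-A₃)) z T G i),
      ExcType y C₉ ((log y) ^ (-A₃)) z T G i := fun G hG => (mem_filter.mp hG).2
    rcases i with _ | _ | _ | _ | _ | j
    · exact exc_count hCb hbound hctx hX (exc_type0 hC₉ hctx hn hX hX')
    · exact exc_count hCb hbound hctx hX (exc_type1 hctx hn hX hX')
    · exact exc_count hCb hbound hctx hX (exc_type2 hA₃ hctx hn hX hX')
    · exact exc_count hCb hbound hctx hX (exc_type3 hA₃ hctx hn hX hX')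
    · exact exc_type4 hCs hsmall hctx hn hX hX'
    · have hj : j ≤ r := by
        have := mem_range.mp hi
        omega
      exact exc_count hCb hbound hctx hX (exc_type5 hctx hA₁ hn hj hX hX')
  have hcov := exc_cover (X := BG) (P := range (r + 6))
    (f := fun G => |rr W y V (∏ p ∈ G, p)|) (fun G _ => abs_nonneg _)
    (fun i G => ExcType y C₉ ((log y) ^ (-A₃)) z T G i) (fun G hG => exc_types (hbad G hG))
  refine hcov.trans ((sum_le_sum hmain).trans ?_)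
  rw [sum_const, card_range, nsmul_eq_mul]
  have : ((r + 6 : ℕ) : ℝ) * (y / (log (y : ℝ)) ^ 4 / (r + 6)) = y / (log y) ^ 4 := by
    push_cast
    field_simp
  rw [this]

end Vale.Agent.P013.J
end

section

/-!
# Assembly of `ClassStmt` from its pieces
-/

open Finset Real

namespace Vale.Agent.P013.J

/-- bound for one fiber -/
theorem fiber_bound (l Y B₂ PP SS : ℝ) (hl : 6 ≤ l) (hY : 0 ≤ Y) (hB₂ : 0 < B₂) (hPP : 0 < PP)
    (hSS : 0 < SS) (HH : Finset (Finset ℕ)) (F : Finset ℕ → ℝ) (Bd St : ℤ → Finset ℕ → Prop)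
    (hgood : ∀ HH' ⊆ HH, (∀ H ∈ HH', ∀ b : ℤ, b ≠ 0 → |(b : ℝ)| ≤ l ^ B₂ → ¬ Bd b H) →
      ∑ H ∈ HH', F H ≤ Y * l ^ (-7 : ℝ) * (SS / PP))
    (htriv : ∀ H ∈ HH, F H ≤ l ^ (4 : ℝ) * SS)
    (h5 : ∀ HH' ⊆ HH, ∀ b : ℤ, b ≠ 0 → |(b : ℝ)| ≤ l ^ B₂ → (∀ H ∈ HH', Bd b H ∧ St b H) →
      (HH'.card : ℝ) * PP ≤ Y * l ^ (-(B₂ + 13)))
    (h6 : ∀ HH' ⊆ HH, ∀ b : ℤ, b ≠ 0 → |(b : ℝ)| ≤ l ^ B₂ → (∀ H ∈ HH', Bd b H ∧ ¬ St b H) →
      (HH'.card : ℝ) * PP ≤ Y * l ^ (-(B₂ + 13))) :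
    ∑ H ∈ HH, F H ≤ 2 * (Y * l ^ (-7 : ℝ) * (SS / PP)) := by
  classical
  have hl0 : 0 < l := by linarith only [hl]
  set N : ℕ := ⌊l ^ B₂⌋₊ with hN
  have hlB : 1 ≤ l ^ B₂ := one_le_rpow (by linarith only [hl]) hB₂.le
  have hNle : (N : ℝ) ≤ l ^ B₂ := Nat.floor_le (by positivity)
  let bs : Finset ℤ := (Finset.Icc (-(N : ℤ)) N).filter (fun b => b ≠ 0)
  have hbs : ∀ b : ℤ, b ∈ bs ↔ (b ≠ 0 ∧ |(b : ℝ)| ≤ l ^ B₂) := by
    intro b
    simp only [bs, mem_filter, mem_Icc]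
    constructor
    · rintro ⟨⟨h1, h2⟩, h3⟩
      refine ⟨h3, ?_⟩
      have h4 : |b| ≤ (N : ℤ) := abs_le.2 ⟨h1, h2⟩
      have h5 : |(b : ℝ)| ≤ (N : ℝ) := by
        have : ((|b| : ℤ) : ℝ) ≤ ((N : ℤ) : ℝ) := by exact_mod_cast h4
        rw [Int.cast_abs] at this
        simpa using this
      linarith only [hNle, h5]
    · rintro ⟨h3, h4⟩
      refine ⟨?_, h3⟩
      have h5 : (b.natAbs : ℝ) ≤ l ^ B₂ := by
        rw [Nat.cast_natAbs, Int.cast_abs]
        exact h4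
      have h6 : b.natAbs ≤ N := Nat.le_floor h5
      have h7 : |b| ≤ (N : ℤ) := by rw [Int.abs_eq_natAbs]; exact_mod_cast h6
      exact ⟨(abs_le.1 h7).1, (abs_le.1 h7).2⟩
  -- bad keys
  set HHb := HH.filter (fun H => ∃ b ∈ bs, Bd b H) with hHHb
  set HHg := HH.filter (fun H => ¬ ∃ b ∈ bs, Bd b H) with hHHg
  have hsplit : ∑ H ∈ HH, F H = ∑ H ∈ HHb, F H + ∑ H ∈ HHg, F H :=
    (Finset.sum_filter_add_sum_filter_not HH _ F).symm
  have hg : ∑ H ∈ HHg, F H ≤ Y * l ^ (-7 : ℝ) * (SS / PP) := by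
    refine hgood HHg (filter_subset _ _) ?_
    intro H hH b hb hb' hbad
    rw [hHHg, mem_filter] at hH
    exact hH.2 ⟨b, (hbs b).2 ⟨hb, hb'⟩, hbad⟩
  have hcardb : (HHb.card : ℝ) * PP ≤ (bs.card : ℝ) * (2 * (Y * l ^ (-(B₂ + 13)))) := by
    have hsub : HHb ⊆ bs.biUnion (fun b => HH.filter (fun H => Bd b H)) := by
      intro H hH
      rw [hHHb, mem_filter] at hH
      obtain ⟨hH1, b, hb, hbd⟩ := hH
      exact mem_biUnion.2 ⟨b, hb, mem_filter.2 ⟨hH1, hbd⟩⟩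
    have h1 : (HHb.card : ℝ) ≤ ∑ b ∈ bs, ((HH.filter (fun H => Bd b H)).card : ℝ) := by
      have := (card_le_card hsub).trans card_biUnion_le
      exact_mod_cast this
    have h2 : ∀ b ∈ bs, ((HH.filter (fun H => Bd b H)).card : ℝ) * PP ≤
        2 * (Y * l ^ (-(B₂ + 13))) := by
      intro b hb
      obtain ⟨hb0, hb1⟩ := (hbs b).1 hb
      have e1 := h5 ((HH.filter (fun H => Bd b H)).filter (fun H => St b H))
        ((filter_subset _ _).trans (filter_subset _ _)) b hb0 hb1 (by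
          intro H hH
          rw [mem_filter, mem_filter] at hH
          exact ⟨hH.1.2, hH.2⟩)
      have e2 := h6 ((HH.filter (fun H => Bd b H)).filter (fun H => ¬ St b H))
        ((filter_subset _ _).trans (filter_subset _ _)) b hb0 hb1 (by
          intro H hH
          rw [mem_filter, mem_filter] at hH
          exact ⟨hH.1.2, hH.2⟩)
      have e3 : ((HH.filter (fun H => Bd b H)).card : ℝ) =
          (((HH.filter (fun H => Bd b H)).filter (fun H => St b H)).card : ℝ) +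
          (((HH.filter (fun H => Bd b H)).filter (fun H => ¬ St b H)).card : ℝ) := by
        rw [← Nat.cast_add, card_filter_add_card_filter_not]
      rw [e3]
      linarith only [e1, e2]
    calc (HHb.card : ℝ) * PP ≤ (∑ b ∈ bs, ((HH.filter (fun H => Bd b H)).card : ℝ)) * PP :=
          mul_le_mul_of_nonneg_right h1 hPP.le
      _ = ∑ b ∈ bs, ((HH.filter (fun H => Bd b H)).card : ℝ) * PP := by rw [sum_mul]
      _ ≤ ∑ _b ∈ bs, 2 * (Y * l ^ (-(B₂ + 13))) := sum_le_sum h2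
      _ = (bs.card : ℝ) * (2 * (Y * l ^ (-(B₂ + 13)))) := by rw [sum_const, nsmul_eq_mul]
  have hbscard : (bs.card : ℝ) ≤ 3 * l ^ B₂ := by
    have h1 : bs.card ≤ 2 * N + 1 := by
      refine (card_filter_le _ _).trans ?_
      rw [Int.card_Icc]
      omega
    have h2 : (bs.card : ℝ) ≤ 2 * N + 1 := by exact_mod_cast h1
    linarith only [hlB, hNle, h2]
  have hexp : l ^ B₂ * l ^ (-(B₂ + 13)) = l ^ (-13 : ℝ) := by
    rw [← rpow_add hl0]
    congr 1
    ring
  have hcard2 : (HHb.card : ℝ) * PP ≤ Y * l ^ (-12 : ℝ) := by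
    have h1 : l ^ (-12 : ℝ) = l * l ^ (-13 : ℝ) := by
      rw [show (-12 : ℝ) = 1 + (-13) by norm_num, rpow_add hl0, rpow_one]
    have hp : 0 ≤ Y * l ^ (-(B₂ + 13)) := by positivity
    calc (HHb.card : ℝ) * PP ≤ (bs.card : ℝ) * (2 * (Y * l ^ (-(B₂ + 13)))) := hcardb
      _ ≤ (3 * l ^ B₂) * (2 * (Y * l ^ (-(B₂ + 13)))) :=
          mul_le_mul_of_nonneg_right hbscard (by positivity)
      _ = 6 * (Y * (l ^ B₂ * l ^ (-(B₂ + 13)))) := by ring
      _ = 6 * (Y * l ^ (-13 : ℝ)) := by rw [hexp]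
      _ ≤ l * (Y * l ^ (-13 : ℝ)) := mul_le_mul_of_nonneg_right hl (by positivity)
      _ = Y * l ^ (-12 : ℝ) := by rw [h1]; ring
  have hb : ∑ H ∈ HHb, F H ≤ Y * l ^ (-7 : ℝ) * (SS / PP) := by
    have h1 : ∑ H ∈ HHb, F H ≤ (HHb.card : ℝ) * (l ^ (4 : ℝ) * SS) := by
      calc ∑ H ∈ HHb, F H ≤ ∑ _H ∈ HHb, l ^ (4 : ℝ) * SS :=
            sum_le_sum fun H hH => htriv H ((filter_subset _ _) hH)
        _ = (HHb.card : ℝ) * (l ^ (4 : ℝ) * SS) := by rw [sum_const, nsmul_eq_mul]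
    have h2 : (HHb.card : ℝ) * (l ^ (4 : ℝ) * SS) =
        ((HHb.card : ℝ) * PP) * (l ^ (4 : ℝ) * (SS / PP)) := by
      field_simp
    have h3 : l ^ (-12 : ℝ) * l ^ (4 : ℝ) ≤ l ^ (-7 : ℝ) := by
      rw [← rpow_add hl0]
      exact rpow_le_rpow_of_exponent_le (by linarith only [hl]) (by norm_num)
    calc ∑ H ∈ HHb, F H ≤ ((HHb.card : ℝ) * PP) * (l ^ (4 : ℝ) * (SS / PP)) := by
          rw [← h2]; exact h1
      _ ≤ (Y * l ^ (-12 : ℝ)) * (l ^ (4 : ℝ) * (SS / PP)) :=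
          mul_le_mul_of_nonneg_right hcard2 (by positivity)
      _ = Y * (l ^ (-12 : ℝ) * l ^ (4 : ℝ)) * (SS / PP) := by ring
      _ ≤ Y * l ^ (-7 : ℝ) * (SS / PP) :=
          mul_le_mul_of_nonneg_right (mul_le_mul_of_nonneg_left h3 hY) (by positivity)
  rw [hsplit]
  linarith only [hg, hb]

/-- ClassStmt from its pieces -/
theorem class_of (h1 : KeyStmt) (c1 : BoxVStmt) (c2 : BetaSumStmt) (c3 : TrivStmt)
    (c4 : GoodFiberStmt) (c5 : ExcFiberStmt) (c6 : NatFiberStmt) : ClassStmt := by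
  classical
  intro W hW A₁ c C₇ C₉ Cκ hA₁ hc hc' hC₇ hC₉ hCκ
  obtain ⟨A₂, hA₂, hkey⟩ := h1 A₁ c C₇ C₉ hA₁ hc hc' hC₇ hC₉
  obtain ⟨B₂, hB₂, hgood⟩ := c4 W hW A₂ hA₂
  set A₃ := max (max Cκ B₂) 1 with hA₃def
  have hA₃ : 1 ≤ A₃ := le_max_right _ _
  have hA₃κ : Cκ ≤ A₃ := (le_max_left _ _).trans (le_max_left _ _)
  have hA₃B : B₂ ≤ A₃ := (le_max_right _ _).trans (le_max_left _ _)
  obtain ⟨r, hexc⟩ := c5 A₃ (B₂ + A₂ + 20) hA₃ (by linarith only [hc, hc', hA₂, hB₂])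
  obtain ⟨y₅, hexc⟩ := hexc A₂ (B₂ + 13) hA₂ (by linarith only [hc, hc', hB₂])
  obtain ⟨C₄, hC₄, y₆, hnat⟩ := c6 A₂ A₃ (B₂ + A₂ + 20) (B₂ + 13) B₂ c r hA₂ hA₃ (by linarith only [hc, hc', hA₂, hB₂])
    (by linarith only [hc, hc', hB₂]) hB₂ hc
  obtain ⟨y₄, hgood⟩ := hgood A₃ r hA₃B hA₃
  obtain ⟨y₃, htriv⟩ := c3 W hW A₂ A₃ r hA₂ hA₃
  obtain ⟨y₂, hbeta⟩ := c2 A₃ r hA₃
  obtain ⟨y₁, hbox⟩ := c1 A₃ r hA₃
  obtain ⟨y₀, hkey⟩ := hkey A₃ r hA₃
  refine ⟨r, A₃, C₄, hA₃κ, hA₃, hC₄,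
    max (max (max y₀ y₁) (max y₂ y₃)) (max (max y₄ y₅) (max y₆ 404)), ?_⟩
  intro y hy V z T DD hstd B₀ D₀ hBD hD₀ hD₀' hB₀ hH hlab KK hadm
  have hy0 : y₀ ≤ y := by (clear * - hy; omega)
  have hy1 : y₁ ≤ y := by (clear * - hy hy0; omega)
  have hy2 : y₂ ≤ y := by (clear * - hy; omega)
  have hy3 : y₃ ≤ y := by (clear * - hy hy2; omega)
  have hy4 : y₄ ≤ y := by (clear * - hy; omega)
  have hy5 : y₅ ≤ y := by (clear * - hy hy4; omega)
  have hy6 : y₆ ≤ y := by (clear * - hy; omega)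
  have hy7 : 404 ≤ y := by (clear * - hy hy6; omega)
  have hl : 6 ≤ log (y : ℝ) := by
    have h8 : (404 : ℝ) ≤ y := by exact_mod_cast hy7
    rw [Real.le_log_iff_exp_le (by linarith only [hc, hc', h8])]
    have h4 : exp 6 = (exp 1) ^ 6 := by rw [← exp_nat_mul]; norm_num
    have h5 : exp 1 < 2.7182818286 := exp_one_lt_d9
    have h6 : 0 < exp 1 := exp_pos 1
    have h7 : (exp 1) ^ 6 ≤ (2.7182818286 : ℝ) ^ 6 := pow_le_pow_left₀ h6.le h5.le 6
    rw [h4]
    refine h7.trans (le_trans ?_ h8)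
    norm_num
  have hl0 : 0 < log (y : ℝ) := by linarith only [hc, hc', hl]
  set κ := (log (y : ℝ)) ^ (-A₃) with hκ
  have hκ0 : 0 < κ := rpow_pos_of_pos hl0 _
  -- reorganise the sum
  set F : Finset ℕ × (Fin (r + 1) → ℕ) → ℝ := fun K =>
    ‖boxSum r (fun j => box y κ j (ext K.2 j))
      (fun s => ((rr W y V ((∏ p ∈ K.1, p) * s) : ℝ) : ℂ))‖ with hF
  change ∑ K ∈ KK, F K ≤ y / (log y) ^ 4
  have hfib : ∑ K ∈ KK, F K = ∑ β ∈ KK.image Prod.snd, ∑ K ∈ KK.filter (fun K => K.2 = β), F K :=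
    (Finset.sum_fiberwise_of_maps_to (fun K hK => mem_image_of_mem _ hK) F).symm
  have hkey' : ∀ K ∈ KK, _ := fun K hK => hkey y hy0 z T DD hstd K.1 K.2 (hadm K hK)
  have hone : ∀ β ∈ KK.image Prod.snd, ∑ K ∈ KK.filter (fun K => K.2 = β), F K ≤
      2 * (y * (log y) ^ (-7 : ℝ)) * ∏ j ∈ range (r + 1),
        ((κ * Pb y κ j (ext β j) + 1) / Pb y κ j (ext β j)) := by
    intro β hβ
    set HH := (KK.filter (fun K => K.2 = β)).image Prod.fst with hHH
    have hsum : ∑ K ∈ KK.filter (fun K => K.2 = β), F K = ∑ H ∈ HH, F (H, β) := by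
      rw [hHH, sum_image]
      · refine sum_congr rfl ?_
        intro K hK
        rw [mem_filter] at hK
        rw [← hK.2]
      · intro K hK K' hK' h
        rw [mem_coe, mem_filter] at hK hK'
        exact Prod.ext h (hK.2.trans hK'.2.symm)
    have hmem : ∀ H ∈ HH, (H, β) ∈ KK := by
      intro H hH
      rw [hHH, mem_image] at hH
      obtain ⟨K, hK, rfl⟩ := hH
      rw [mem_filter] at hK
      rw [← hK.2]
      exact hK.1
    have hbv : BoxV y κ r (fun j => Pb y κ j (ext β j)) (fun j => box y κ j (ext β j)) := by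
      refine hbox y hy1 β ?_
      obtain ⟨K, hK, rfl⟩ := mem_image.1 hβ
      exact (hkey' K hK).2.2.2.1
    have hPpos : ∀ j ∈ range (r + 1), 0 < Pb y κ j (ext β j) := fun j hj =>
      (hbv.zon j (Nat.lt_succ_iff.1 (mem_range.1 hj))).1
    have hPP : 0 < ∏ j ∈ range (r + 1), Pb y κ j (ext β j) := prod_pos hPpos
    have hSS : 0 < ∏ j ∈ range (r + 1), (κ * Pb y κ j (ext β j) + 1) := by
      refine prod_pos fun j hj => ?_
      have := hPpos j hj
      (clear * - hl this; positivity)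
    have hK : ∀ H ∈ HH, Key y A₂ r DD (fun j => Pb y κ j (ext β j))
        (fun j => box y κ j (ext β j)) H := by
      intro H hH
      obtain ⟨k1, k2, k3, k4, k5, k6, k7, k8⟩ := hkey' (H, β) (hmem H hH)
      refine ⟨fun p hp => (k1 p hp).1, k2, k3, ?_, ?_, ?_, ?_⟩
      · simpa using k5
      · simpa using k6
      · rw [Nat.cast_prod]
        exact k7
      · rw [Nat.cast_prod]
        exact k8
    have key := fiber_bound (log y) y B₂ (∏ j ∈ range (r + 1), Pb y κ j (ext β j))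
      (∏ j ∈ range (r + 1), (κ * Pb y κ j (ext β j) + 1)) hl (Nat.cast_nonneg y) hB₂ hPP hSS HH
      (fun H => F (H, β))
      (fun b H => Bad y κ r (fun j => Pb y κ j (ext β j)) (fun j => box y κ j (ext β j)) V
        (B₂ + A₂ + 20) b H)
      (fun b H => Strd y V b H) ?_ ?_ ?_ ?_
    · rw [hsum]
      refine key.trans (le_of_eq ?_)
      rw [prod_div_distrib]
      ring
    · intro HH' hsub hb
      have := hgood y hy4 V DD (fun j => Pb y κ j (ext β j)) (fun j => box y κ j (ext β j)) hbv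
        HH' (fun H hH => hK H (hsub hH)) hb
      rw [prod_div_distrib] at this
      exact this
    · intro H hH
      exact htriv y hy3 V DD (fun j => Pb y κ j (ext β j)) (fun j => box y κ j (ext β j)) hbv
        H (hK H hH)
    · intro HH' hsub b hb0 hb1 hb
      exact hnat y hy6 V z DD hstd.2.2.2 B₀ D₀ hBD hD₀ hD₀' hB₀ hH hlab
        (fun j => Pb y κ j (ext β j)) (fun j => box y κ j (ext β j)) hbv HH'
        (fun H hH => hK H (hsub hH)) b hb0 hb1 hb
    · intro HH' hsub b hb0 hb1 hb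
      exact hexc y hy5 V DD (fun j => Pb y κ j (ext β j)) (fun j => box y κ j (ext β j)) hbv
        HH' (fun H hH => hK H (hsub hH)) b hb
  have hbs := hbeta y hy2 (KK.image Prod.snd) (by
    intro β hβ
    obtain ⟨K, hK, rfl⟩ := mem_image.1 hβ
    exact (hkey' K hK).2.2.2.1)
  have hfin : 2 * (y * (log (y : ℝ)) ^ (-7 : ℝ)) * log y ≤ y / (log y) ^ 4 := by
    have h7 : (log (y : ℝ)) ^ (-7 : ℝ) = ((log (y : ℝ)) ^ 7)⁻¹ := by
      rw [show (-7 : ℝ) = -((7 : ℕ) : ℝ) by norm_num, rpow_neg hl0.le, rpow_natCast]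
    rw [h7]
    have e : 2 * ((y : ℝ) * ((log (y : ℝ)) ^ 7)⁻¹) * log y =
        y / (log y) ^ 4 * (2 / (log (y : ℝ)) ^ 2) := by
      field_simp
    rw [e]
    have h8 : 2 / (log (y : ℝ)) ^ 2 ≤ 1 := by
      rw [div_le_one (by positivity)]
      nlinarith only [hl, hc, hc']
    exact mul_le_of_le_one_right (by positivity) h8
  calc ∑ K ∈ KK, F K
      = ∑ β ∈ KK.image Prod.snd, ∑ K ∈ KK.filter (fun K => K.2 = β), F K := hfib
    _ ≤ ∑ β ∈ KK.image Prod.snd, 2 * (y * (log y) ^ (-7 : ℝ)) * ∏ j ∈ range (r + 1),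
        ((κ * Pb y κ j (ext β j) + 1) / Pb y κ j (ext β j)) := sum_le_sum hone
    _ = 2 * (y * (log y) ^ (-7 : ℝ)) * ∑ β ∈ KK.image Prod.snd, ∏ j ∈ range (r + 1),
        ((κ * Pb y κ j (ext β j) + 1) / Pb y κ j (ext β j)) := by rw [mul_sum]
    _ ≤ 2 * (y * (log y) ^ (-7 : ℝ)) * log y := by
        refine mul_le_mul_of_nonneg_left hbs ?_
        positivity
    _ ≤ y / (log y) ^ 4 := hfin

end Vale.Agent.P013.J
end

section

/-!
# Boxes and the sum over the box vectors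
-/

open Finset Real

namespace Vale.Agent.P013.J

theorem boxV : BoxVStmt := by
  intro A₃ r hA₃
  obtain ⟨y₀, hy₀⟩ := Filter.eventually_atTop.mp (tendsto_log_nat.eventually_ge_atTop 1)
  refine ⟨y₀, fun y hy β h => ?_⟩
  have hl := hy₀ y hy
  have hκ : 0 < (log (y : ℝ)) ^ (-A₃) := rpow_pos_of_pos (by linarith only [hl]) _
  refine ⟨h, fun j _ => box_card hκ j _, fun j _ p hp => ?_⟩
  exact ⟨(mem_zone (mem_box hp).1).1, mem_box_bounds hκ hp⟩

theorem betaSum : BetaSumStmt := by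
  classical
  intro A₃ r hA₃
  have hev : ∀ᶠ y : ℕ in Filter.atTop, 1 ≤ log (y : ℝ) ∧ 1 ≤ log (log (y : ℝ)) ∧
      A₃ ≤ log (log (y : ℝ)) ∧ ∏ j ∈ range (r + 1), (6 * zhi (y : ℝ) j) ≤ log (y : ℝ) := by
    filter_upwards [tendsto_log_nat.eventually_ge_atTop 1,
      tendsto_loglog_nat.eventually_ge_atTop 1, tendsto_loglog_nat.eventually_ge_atTop A₃,
      eventually_prod_zhi r] with y h1 h2 h3 h4
    exact ⟨h1, h2, h3, h4⟩
  obtain ⟨y₀, hy₀⟩ := Filter.eventually_atTop.mp hev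
  refine ⟨y₀, fun y hy BB hBB => ?_⟩
  obtain ⟨h1, h2, h3, h4⟩ := hy₀ y hy
  have hl0 : 0 < log (y : ℝ) := by linarith only [h1]
  set κ := (log (y : ℝ)) ^ (-A₃) with hκd
  have hκ : 0 < κ := rpow_pos_of_pos hl0 _
  have hκ1 : κ ≤ 1 := rpow_le_one_of_one_le_of_nonpos h1 (by linarith only [hA₃])
  have hz2 : ∀ j, 1 ≤ κ * exp (zlo y j) := by
    intro j
    have h5 := rpow_le_exp_zlo hl0 h2 h3 j
    rw [hκd, rpow_neg hl0.le, inv_mul_eq_div, le_div_iff₀ (rpow_pos_of_pos hl0 _)]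
    linarith only [h5]
  set CC : Finset (Fin (r + 1) → ℕ) :=
    Fintype.piFinset (fun j : Fin (r + 1) => range (⌊2 * zhi y j / κ⌋₊ + 1)) with hCC
  have hsub : BB ⊆ CC := by
    intro β hβ
    rw [hCC, Fintype.mem_piFinset]
    intro j
    rw [Finset.mem_range, Nat.lt_succ_iff]
    apply Nat.le_floor
    have h5 := (hBB β hβ j (Nat.lt_succ_iff.mp j.2)).2.2
    rw [ext_apply] at h5
    have h6 : (1 + κ) ^ (β j) ≤ Pb y κ j (β j) := le_max_left _ _
    have h7 : (β j : ℝ) * log (1 + κ) ≤ zhi y j := by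
      rw [← log_pow]
      exact (log_le_log (by positivity) h6).trans h5
    have h8 : κ / 2 ≤ log (1 + κ) := by
      refine le_trans ?_ (Real.le_log_one_add_of_nonneg hκ.le)
      rw [div_le_div_iff₀ (by norm_num) (by linarith only [hκ])]
      nlinarith only [hκ, hκ1]
    rw [le_div_iff₀ hκ]
    have h9 : (0 : ℝ) ≤ β j := Nat.cast_nonneg _
    nlinarith only [h7, h8]
  have hcardBB : (BB.card : ℝ) ≤ ∏ j ∈ range (r + 1), (3 * zhi y j / κ) := by
    have h0 : (BB.card : ℝ) ≤ CC.card := by exact_mod_cast card_le_card hsub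
    refine h0.trans ?_
    rw [hCC, Fintype.card_piFinset, ← Fin.prod_univ_eq_prod_range (fun j => 3 * zhi y j / κ)]
    push_cast
    apply Finset.prod_le_prod
    · intro j _
      (clear * -; positivity)
    · intro j _
      rw [Finset.card_range]
      push_cast
      have hz := one_le_zhi h2 j
      have h5 : ((⌊2 * zhi y j / κ⌋₊ : ℕ) : ℝ) ≤ 2 * zhi y j / κ := by
        apply Nat.floor_le
        apply div_nonneg (by linarith only [hz]) hκ.le
      have h6 : 1 ≤ zhi y j / κ := by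
        rw [le_div_iff₀ hκ]
        linarith only [hκ1, hz]
      calc ((⌊2 * zhi y j / κ⌋₊ : ℕ) : ℝ) + 1 ≤ 2 * zhi y j / κ + zhi y j / κ := by linarith only [h6, h5]
        _ = 3 * zhi y j / κ := by ring
  have hterm : ∀ β ∈ BB, ∏ j ∈ range (r + 1),
      ((κ * Pb y κ j (ext β j) + 1) / Pb y κ j (ext β j)) ≤ (2 * κ) ^ (r + 1) := by
    intro β _
    calc ∏ j ∈ range (r + 1), ((κ * Pb y κ j (ext β j) + 1) / Pb y κ j (ext β j))
        ≤ ∏ _j ∈ range (r + 1), (2 * κ) := by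
          apply Finset.prod_le_prod
          · intro j _
            have := Pb_pos y κ j (ext β j)
            positivity
          · intro j _
            have h5 := Pb_pos y κ j (ext β j)
            have h6 := exp_zlo_le_Pb y κ j (ext β j)
            have h7 : κ * exp (zlo y j) ≤ κ * Pb y κ j (ext β j) :=
              mul_le_mul_of_nonneg_left h6 hκ.le
            have h8 := hz2 j
            rw [div_le_iff₀ h5]
            linarith only [h7, h8]
      _ = (2 * κ) ^ (r + 1) := by rw [Finset.prod_const, Finset.card_range]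
  calc ∑ β ∈ BB, ∏ j ∈ range (r + 1), ((κ * Pb y κ j (ext β j) + 1) / Pb y κ j (ext β j))
      ≤ ∑ _β ∈ BB, (2 * κ) ^ (r + 1) := Finset.sum_le_sum hterm
    _ = BB.card * (2 * κ) ^ (r + 1) := by rw [Finset.sum_const, nsmul_eq_mul]
    _ ≤ (∏ j ∈ range (r + 1), (3 * zhi y j / κ)) * (2 * κ) ^ (r + 1) := by
        apply mul_le_mul_of_nonneg_right hcardBB (by positivity)
    _ = ∏ j ∈ range (r + 1), (6 * zhi y j) := by
        rw [← Finset.card_range (r + 1), ← Finset.prod_const, Finset.card_range,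
          ← Finset.prod_mul_distrib]
        apply Finset.prod_congr rfl
        intro j _
        field_simp
        ring
    _ ≤ log y := h4

end Vale.Agent.P013.J
end

section

/-!
# Classes which are not bad, and the trivial bound
-/

open Finset Real

namespace Vale.Agent.P013.J

theorem triv : TrivStmt := by
  classical
  intro W hW A₂ A₃ r hA₂ hA₃
  obtain ⟨C, hC, hrr⟩ := rr_bound hW
  obtain ⟨y₀, hy₀⟩ := Filter.eventually_atTop.mp (tendsto_log_nat.eventually_ge_atTop (max C 1))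
  refine ⟨y₀, fun y hy V DD P I hbv H hK => ?_⟩
  have hlC : C ≤ log (y : ℝ) := (le_max_left _ _).trans (hy₀ y hy)
  have hl1 : 1 ≤ log (y : ℝ) := (le_max_right _ _).trans (hy₀ y hy)
  have hM : 1 ≤ ∏ p ∈ H, p := prod_pos fun p hp => (hK.prime p hp).pos
  have hterm : ∀ s ∈ Fintype.piFinset (fun j : Fin (r + 1) => I j),
      ‖((rr W y V ((∏ p ∈ H, p) * ∏ j, s j) : ℝ) : ℂ)‖ ≤ C := by
    intro s hs
    rw [Fintype.mem_piFinset] at hs
    rw [Complex.norm_real, norm_eq_abs]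
    refine hrr y V _ ?_
    have h1 : 0 < ∏ j : Fin (r + 1), s j := prod_pos fun j _ =>
      (hbv.mem j (Nat.lt_succ_iff.1 j.2) (s j) (hs j)).1.pos
    exact Nat.mul_pos hM h1
  have hcard : ((Fintype.piFinset (fun j : Fin (r + 1) => I j)).card : ℝ) ≤
      ∏ j ∈ range (r + 1), ((log y) ^ (-A₃) * P j + 1) := by
    rw [Fintype.card_piFinset,
      ← Fin.prod_univ_eq_prod_range (fun j => (log (y : ℝ)) ^ (-A₃) * P j + 1)]
    push_cast
    refine prod_le_prod (fun _ _ => Nat.cast_nonneg _) fun j _ => ?_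
    exact hbv.card j (Nat.lt_succ_iff.1 j.2)
  have hl4 : C ≤ (log (y : ℝ)) ^ (4 : ℝ) := by
    calc C ≤ log (y : ℝ) := hlC
      _ = (log (y : ℝ)) ^ (1 : ℝ) := (rpow_one _).symm
      _ ≤ (log (y : ℝ)) ^ (4 : ℝ) := rpow_le_rpow_of_exponent_le hl1 (by norm_num)
  unfold boxSum
  calc ‖∑ s ∈ Fintype.piFinset (fun j : Fin (r + 1) => I j),
        ((rr W y V ((∏ p ∈ H, p) * ∏ j, s j) : ℝ) : ℂ)‖
      ≤ ∑ s ∈ Fintype.piFinset (fun j : Fin (r + 1) => I j), C := norm_sum_le_of_le _ hterm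
    _ = ((Fintype.piFinset (fun j : Fin (r + 1) => I j)).card : ℝ) * C := by
        rw [sum_const, nsmul_eq_mul]
    _ ≤ (∏ j ∈ range (r + 1), ((log y) ^ (-A₃) * P j + 1)) * (log (y : ℝ)) ^ (4 : ℝ) :=
        mul_le_mul hcard hl4 hC.le (le_trans (Nat.cast_nonneg _) hcard)
    _ = (log (y : ℝ)) ^ (4 : ℝ) * ∏ j ∈ range (r + 1), ((log y) ^ (-A₃) * P j + 1) := mul_comm _ _

theorem goodFiber (hp : PoissonStmt) : GoodFiberStmt := by
  classical
  intro W hW A₂ hA₂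
  obtain ⟨AP, hAP, hP⟩ := hp W hW (A₂ + 10) (by linarith only [hA₂])
  refine ⟨AP, hAP, fun A₃ r hA₃ hA₃' => ?_⟩
  obtain ⟨y₁, hy₁⟩ := hP r
  obtain ⟨y₂, hy₂⟩ := Filter.eventually_atTop.mp (tendsto_log_nat.eventually_ge_atTop 2)
  obtain ⟨y₃, hy₃⟩ := Filter.eventually_atTop.mp (tendsto_loglog_nat.eventually_ge_atTop 1)
  refine ⟨max y₁ (max y₂ y₃), fun y hy V DD P I hbv HH hK hb => ?_⟩
  have hl2 := hy₂ y (by omega)
  have hll := hy₃ y (by omega)
  have hyy := hy₁ y (by omega)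
  set l := log (y : ℝ) with hl
  have hl0 : 0 < l := by linarith only [hl2]
  have hl1 : 1 ≤ l := by linarith only [hl2]
  set κ := l ^ (-A₃) with hκd
  have hκ : 0 < κ := rpow_pos_of_pos hl0 _
  have hy0 : (0 : ℝ) ≤ y := Nat.cast_nonneg y
  have hP0 : ∀ j ∈ range (r + 1), 0 < P j := fun j hj =>
    (hbv.zon j (Nat.lt_succ_iff.1 (mem_range.1 hj))).1
  have hP1 : ∀ j ≤ r, 1 ≤ P j := by
    intro j hj
    obtain ⟨h1, h2, -⟩ := hbv.zon j hj
    have h3 : 0 ≤ log (P j) := by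
      have := one_le_zlo hll j
      linarith only [h2, this]
    by_contra h4
    push Not at h4
    have := log_neg h1 h4
    linarith only [h3, this]
  set PPr := ∏ j ∈ range (r + 1), P j with hPPr
  set SS := ∏ j ∈ range (r + 1), (κ * P j + 1) with hSS
  have hPP0 : 0 < PPr := prod_pos hP0
  have hSS0 : 0 < SS := prod_pos fun j hj => by have := hP0 j hj; positivity
  have hterm : ∀ H ∈ HH, ‖boxSum r I (fun s => ((rr W y V ((∏ p ∈ H, p) * s) : ℝ) : ℂ))‖ ≤
      (2 * l ^ (-(A₂ + 10))) * SS := by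
    intro H hH
    have hKH := hK H hH
    have key := hyy V κ (l ^ (-(AP + A₂ + 20))) hκ
      (rpow_le_rpow_of_exponent_le hl1 (by linarith only [hA₃])) (rpow_nonneg hl0.le _) P
      (fun j => κ * P j + 1) I (∏ p ∈ H, p) (fun j hj => ⟨hP1 j hj, hbv.card j hj⟩)
      (fun j hj p hp => (hbv.mem j hj p hp).2) ?_ ?_ ?_
    · refine key.trans ?_
      refine mul_le_mul_of_nonneg_right ?_ hSS0.le
      have h1 : l ^ AP * l ^ (-(AP + A₂ + 20)) ≤ l ^ (-(A₂ + 10)) := by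
        rw [← rpow_add hl0]
        exact rpow_le_rpow_of_exponent_le hl1 (by linarith only [])
      linarith only [h1]
    · refine le_trans ?_ hKH.lower
      rw [div_eq_mul_inv]
      apply mul_le_mul_of_nonneg_left _ hy0
      have h1 : (l ^ 3)⁻¹ = l ^ (-3 : ℝ) := by
        rw [rpow_neg hl0.le]
        norm_num
      rw [h1]
      exact rpow_le_rpow_of_exponent_le hl1 (by linarith only [hA₂])
    · refine hKH.upper.trans ?_
      exact mul_le_mul_of_nonneg_left (rpow_le_rpow_of_exponent_le hl1 (by linarith only [])) hy0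
    · intro b hb0 hb1
      have h1 := hb H hH b hb0 hb1
      unfold Bad at h1
      push Not at h1
      exact h1
  have hcount : (HH.card : ℝ) * PPr ≤ y * l ^ A₂ := by
    have hinj : Set.InjOn (fun H : Finset ℕ => ∏ p ∈ H, p) (HH : Set (Finset ℕ)) := by
      intro H hH H' hH' hHH
      exact prod_injOn_primes (hK H hH).prime (hK H' hH').prime hHH
    rw [← Finset.card_image_of_injOn hinj]
    have hsub : HH.image (fun H : Finset ℕ => ∏ p ∈ H, p) ⊆ Icc 1 ⌊y * l ^ A₂ / PPr⌋₊ := by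
      intro n hn
      rw [Finset.mem_image] at hn
      obtain ⟨H, hH, rfl⟩ := hn
      rw [Finset.mem_Icc]
      refine ⟨Finset.prod_pos (fun p hpp => ((hK H hH).prime p hpp).pos), ?_⟩
      apply Nat.le_floor
      rw [le_div_iff₀ hPP0]
      exact (hK H hH).upper
    have h1 := Finset.card_le_card hsub
    rw [Nat.card_Icc] at h1
    have h2 : (((HH.image (fun H : Finset ℕ => ∏ p ∈ H, p)).card : ℕ) : ℝ) ≤
        y * l ^ A₂ / PPr := by
      refine le_trans ?_ (Nat.floor_le (by (clear * - hl2 hPP0; positivity)))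
      exact_mod_cast h1
    calc _ ≤ y * l ^ A₂ / PPr * PPr := mul_le_mul_of_nonneg_right h2 hPP0.le
      _ = y * l ^ A₂ := by field_simp
  calc ∑ H ∈ HH, ‖boxSum r I (fun s => ((rr W y V ((∏ p ∈ H, p) * s) : ℝ) : ℂ))‖
      ≤ ∑ _H ∈ HH, (2 * l ^ (-(A₂ + 10))) * SS := sum_le_sum hterm
    _ = ((HH.card : ℝ) * PPr) * ((2 * l ^ (-(A₂ + 10))) * (SS / PPr)) := by
        rw [sum_const, nsmul_eq_mul]
        field_simp
    _ ≤ (y * l ^ A₂) * ((2 * l ^ (-(A₂ + 10))) * (SS / PPr)) :=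
        mul_le_mul_of_nonneg_right hcount (by (clear * - hl2 hSS0 hPP0; positivity))
    _ = y * (2 * (l ^ A₂ * l ^ (-(A₂ + 10)))) * (SS / PPr) := by ring
    _ ≤ y * l ^ (-7 : ℝ) * (SS / PPr) := by
        refine mul_le_mul_of_nonneg_right ?_ (by (clear * - hSS0 hPP0; positivity))
        refine mul_le_mul_of_nonneg_left ?_ hy0
        have h1 : l ^ A₂ * l ^ (-(A₂ + 10)) = l ^ (-10 : ℝ) := by
          rw [← rpow_add hl0]
          congr 1
          ring
        have h2 : l ^ (-7 : ℝ) = l ^ (-10 : ℝ) * l ^ (3 : ℝ) := by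
          rw [← rpow_add hl0]
          norm_num
        have h3 : l ≤ l ^ (3 : ℝ) := by
          calc l = l ^ (1 : ℝ) := (rpow_one _).symm
            _ ≤ l ^ (3 : ℝ) := rpow_le_rpow_of_exponent_le hl1 (by norm_num)
        rw [h1, h2, mul_comm]
        exact mul_le_mul_of_nonneg_left (hl2.trans h3) (by positivity)
    _ = y * l ^ (-7 : ℝ) * ∏ j ∈ range (r + 1), ((κ * P j + 1) / P j) := by
        rw [hSS, hPPr, prod_div_distrib]

end Vale.Agent.P013.J
end

section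

/-!
# Class bound, exceptional part
-/

open Finset Real Filter

namespace Vale.Agent.P013.J

/-! ### Exponentials and box sums -/

theorem exc_e_norm (x : ℝ) : ‖e x‖ = 1 := by
  unfold e
  have : (2 * π * x * Complex.I : ℂ) = ((2 * π * x : ℝ) : ℂ) * Complex.I := by push_cast; ring
  rw [this, Complex.norm_exp_ofReal_mul_I]

theorem exc_e_lip (x x' : ℝ) : ‖e x - e x'‖ ≤ 2 * π * |x - x'| := by
  have h1 : e x - e x' = e x' * (Complex.exp (Complex.I * ((2 * π * (x - x') : ℝ) : ℂ)) - 1) := by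
    unfold e
    rw [mul_sub, ← Complex.exp_add, mul_one]
    congr 2
    push_cast
    ring
  rw [h1, norm_mul, exc_e_norm, one_mul]
  refine (Real.norm_exp_I_mul_ofReal_sub_one_le).trans ?_
  rw [Real.norm_eq_abs, abs_mul, abs_of_pos (by positivity : (0:ℝ) < 2 * π)]

theorem exc_card_pi (r : ℕ) (I : ℕ → Finset ℕ) (S : ℕ → ℝ)
    (hS : ∀ j ≤ r, ((I j).card : ℝ) ≤ S j) :
    ((Fintype.piFinset (fun j : Fin (r + 1) => I j)).card : ℝ) ≤ ∏ j ∈ range (r + 1), S j := by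
  rw [Fintype.card_piFinset, Finset.prod_range]
  push_cast
  refine Finset.prod_le_prod (fun _ _ => Nat.cast_nonneg _) fun j _ => hS j (by omega)

theorem exc_boxSum_le (r : ℕ) (I : ℕ → Finset ℕ) (f : ℕ → ℂ) (C : ℝ) (hC : 0 ≤ C) (S : ℕ → ℝ)
    (hS : ∀ j ≤ r, ((I j).card : ℝ) ≤ S j)
    (h : ∀ s ∈ Fintype.piFinset (fun j : Fin (r + 1) => I j), ‖f (∏ j, s j)‖ ≤ C) :
    ‖boxSum r I f‖ ≤ C * ∏ j ∈ range (r + 1), S j := by
  unfold boxSum
  refine (norm_sum_le_of_le _ h).trans ?_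
  rw [Finset.sum_const, nsmul_eq_mul, mul_comm]
  exact mul_le_mul_of_nonneg_left (exc_card_pi r I S hS) hC

theorem exc_boxSum_sub (r : ℕ) (I : ℕ → Finset ℕ) (f g : ℕ → ℂ) :
    boxSum r I f - boxSum r I g = boxSum r I (fun s => f s - g s) := by
  unfold boxSum
  rw [Finset.sum_sub_distrib]

/-- the product of a point of a box is large -/
theorem exc_prod_ge {r : ℕ} {I : ℕ → Finset ℕ} {P : ℝ}
    (h0 : ∀ p ∈ I 0, P ≤ (p : ℝ)) (h1 : ∀ j ≤ r, ∀ p ∈ I j, 1 ≤ p) {s : Fin (r + 1) → ℕ}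
    (hs : s ∈ Fintype.piFinset (fun j : Fin (r + 1) => I j)) :
    P ≤ ((∏ j, s j : ℕ) : ℝ) := by
  rw [Fintype.mem_piFinset] at hs
  have h2 : s 0 ≤ ∏ j, s j := by
    refine Finset.single_le_prod' (f := s) (fun j _ => ?_) (mem_univ 0)
    exact h1 j (by omega) _ (hs j)
  exact (h0 _ (hs 0)).trans (by exact_mod_cast h2)

/-- replacing `bV / M` by its integral part -/
theorem exc_approx {r : ℕ} {I : ℕ → Finset ℕ} {P : ℝ} (hP : 0 < P) (S : ℕ → ℝ)
    (hS : ∀ j ≤ r, ((I j).card : ℝ) ≤ S j)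
    (h0 : ∀ p ∈ I 0, P ≤ (p : ℝ)) (h1 : ∀ j ≤ r, ∀ p ∈ I j, 1 ≤ p) (t : ℤ) (M : ℕ) (hM : 0 < M) :
    ‖boxSum r I (fun s => e ((t : ℝ) / ((M : ℝ) * s)))‖ - 2 * π / P * ∏ j ∈ range (r + 1), S j ≤
      ‖boxSum r I (fun s => e (((t / (M : ℤ) : ℤ) : ℝ) / (s : ℝ)))‖ := by
  have h2 : ‖boxSum r I (fun s => e ((t : ℝ) / ((M : ℝ) * s))) -
      boxSum r I (fun s => e (((t / (M : ℤ) : ℤ) : ℝ) / (s : ℝ)))‖ ≤
      2 * π / P * ∏ j ∈ range (r + 1), S j := by
    rw [exc_boxSum_sub]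
    refine exc_boxSum_le r I _ _ (by positivity) S hS fun s hs => ?_
    have h3 := exc_prod_ge h0 h1 hs
    have h4 : (0 : ℝ) < ((∏ j, s j : ℕ) : ℝ) := hP.trans_le h3
    refine (exc_e_lip _ _).trans ?_
    rw [mul_div_assoc]
    refine mul_le_mul_of_nonneg_left ?_ (by positivity) |>.trans_eq (by ring : 2 * π * (1 / P) = 2 * (π / P))
    have hM' : (0 : ℝ) < M := by exact_mod_cast hM
    have h5 : (t : ℝ) = M * ((t / (M : ℤ) : ℤ) : ℝ) + ((t % (M : ℤ) : ℤ) : ℝ) := by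
      exact_mod_cast (Int.mul_ediv_add_emod t M).symm
    have h6 : 0 ≤ ((t % (M : ℤ) : ℤ) : ℝ) := by
      exact_mod_cast Int.emod_nonneg _ (by omega)
    have h7 : ((t % (M : ℤ) : ℤ) : ℝ) ≤ M := by
      exact_mod_cast (Int.emod_lt_of_pos _ (by omega)).le
    set q : ℝ := ((t / (M : ℤ) : ℤ) : ℝ) with hq
    set x : ℝ := ((∏ j, s j : ℕ) : ℝ) with hx
    have h8 : (t : ℝ) / (M * x) - q / x = ((t % (M : ℤ) : ℤ) : ℝ) / M / x := by
      rw [h5]
      field_simp
      ring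
    rw [h8, abs_of_nonneg (by (clear * - h6 hM h4; positivity))]
    rw [div_div, div_le_div_iff₀ (by positivity) hP, one_mul]
    exact mul_le_mul h7 h3 hP.le hM'.le
  have h9 := norm_sub_norm_le (boxSum r I (fun s => e ((t : ℝ) / ((M : ℝ) * s))))
    (boxSum r I (fun s => e (((t / (M : ℤ) : ℤ) : ℝ) / (s : ℝ))))
  linarith [h9, h2]

/-! ### The smooth part of a key -/

theorem exc_sm_mul_lg (y : ℕ) (H : Finset ℕ) :
    (∏ p ∈ smH y H, p) * ∏ p ∈ lgH y H, p = ∏ p ∈ H, p := by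
  classical
  unfold smH lgH
  exact Finset.prod_filter_mul_prod_filter_not H _ _

theorem exc_sm_pos {y : ℕ} {H : Finset ℕ} (hH : ∀ p ∈ H, p.Prime) : 0 < ∏ p ∈ smH y H, p := by
  classical
  exact Finset.prod_pos fun p hp => (hH p (Finset.mem_filter.1 hp).1).pos

theorem exc_lg_pos {y : ℕ} {H : Finset ℕ} (hH : ∀ p ∈ H, p.Prime) : 0 < ∏ p ∈ lgH y H, p := by
  classical
  exact Finset.prod_pos fun p hp => (hH p (Finset.mem_filter.1 hp).1).pos

theorem exc_key_inj {H H' : Finset ℕ} (hH : ∀ p ∈ H, p.Prime) (hH' : ∀ p ∈ H', p.Prime)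
    (h : ∏ p ∈ H, p = ∏ p ∈ H', p) : H = H' := by
  rw [← Nat.primeFactors_prod hH, h, Nat.primeFactors_prod hH']

/-! ### Asymptotics -/

theorem exc_ev (a c C : ℝ) (hc : 0 < c) :
    ∀ᶠ l : ℝ in atTop, C * l ^ a ≤ exp (c * l ^ (0.93 : ℝ)) := by
  have h1 := key_ev_pow 1 (2 * |a| / c) (0.93 : ℝ) (by norm_num)
  have h2 := key_ev_pow 0 (2 * |C| / c) (0.93 : ℝ) (by norm_num)
  filter_upwards [h1, h2, eventually_ge_atTop 1] with l h1 h2 h3
  have hl0 : 0 < l := by linarith only [h3]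
  have hlog : 0 ≤ log l := log_nonneg h3
  rw [pow_one, div_mul_eq_mul_div, div_le_iff₀ hc] at h1
  rw [pow_zero, mul_one, div_le_iff₀ hc] at h2
  have h4 : |a| * log l + |C| ≤ c * l ^ (0.93 : ℝ) := by linarith only [h2, h1]
  calc C * l ^ a ≤ |C| * l ^ |a| := by
        refine mul_le_mul (le_abs_self C) ?_ (by positivity) (abs_nonneg C)
        exact Real.rpow_le_rpow_of_exponent_le h3 (le_abs_self a)
    _ ≤ exp |C| * exp (log l * |a|) := by
        rw [Real.rpow_def_of_pos hl0]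
        refine mul_le_mul_of_nonneg_right ?_ (exp_pos _).le
        linarith only [Real.add_one_le_exp |C|]
    _ = exp (|a| * log l + |C|) := by rw [← Real.exp_add]; ring_nf
    _ ≤ _ := Real.exp_le_exp.2 h4

theorem exc_ev' (a C : ℝ) : ∀ᶠ l : ℝ in atTop, C * l ^ a ≤ exp ((log l) ^ 3) := by
  have h1 : ∀ᶠ l : ℝ in atTop, |a| + |C| + 1 ≤ log l := tendsto_log_atTop.eventually_ge_atTop _
  filter_upwards [h1, eventually_ge_atTop 1] with l h1 h3
  have hl0 : 0 < l := by linarith only [h3]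
  set L := log l with hL
  have ha := abs_nonneg a
  have hC := abs_nonneg C
  have hL1 : 1 ≤ L := by linarith only [h1, ha, hC]
  have h4 : |a| * L + |C| ≤ L ^ 3 := by
    have h5 : (|a| + |C| + 1) * L ≤ L * L := mul_le_mul_of_nonneg_right h1 (by linarith only [h1, ha, hC])
    have h6 : L * L * 1 ≤ L * L * L := mul_le_mul_of_nonneg_left hL1 (by positivity)
    have h7 : |C| * 1 ≤ |C| * L := mul_le_mul_of_nonneg_left hL1 hC
    linarith only [h7, h6, h5, hC, ha, h1]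
  calc C * l ^ a ≤ |C| * l ^ |a| := by
        refine mul_le_mul (le_abs_self C) ?_ (by positivity) (abs_nonneg C)
        exact Real.rpow_le_rpow_of_exponent_le h3 (le_abs_self a)
    _ ≤ exp |C| * exp (log l * |a|) := by
        rw [Real.rpow_def_of_pos hl0]
        refine mul_le_mul_of_nonneg_right ?_ (exp_pos _).le
        linarith [Real.add_one_le_exp |C|]
    _ = exp (|a| * L + |C|) := by rw [← Real.exp_add, hL]; ring_nf
    _ ≤ _ := Real.exp_le_exp.2 h4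

/-! ### Counting -/

theorem cexc_count {N : ℕ} {X T₀ : ℝ} (hX : 0 ≤ X) (hT₀ : 1 ≤ T₀) (E : ℕ → ℕ → Finset ℕ)
    (hE : ∀ m k, ((E m k).card : ℝ) ≤ ((2 : ℝ) ^ k) ^ (0.95 : ℝ)) (G : Finset (ℕ × ℕ))
    (hG : ∀ x ∈ G, ∃ k < N, T₀ ≤ 2 ^ k ∧ x.1 ∈ E x.2 k ∧ 1 ≤ x.2 ∧ (x.2 : ℝ) * 2 ^ k ≤ X) :
    (G.card : ℝ) ≤ N * (X * T₀ ^ (-0.05 : ℝ)) := by
  classical
  have h1 : G ⊆ ((range N).filter (fun k => T₀ ≤ (2 : ℝ) ^ k)).biUnion (fun k =>
      (Icc 1 ⌊X / 2 ^ k⌋₊).biUnion (fun m => (E m k).image (fun a => (a, m)))) := by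
    intro x hx
    obtain ⟨k, hk, h2, h3, h4, h5⟩ := hG x hx
    rw [Finset.mem_biUnion]
    refine ⟨k, Finset.mem_filter.2 ⟨Finset.mem_range.2 hk, h2⟩, ?_⟩
    rw [Finset.mem_biUnion]
    refine ⟨x.2, Finset.mem_Icc.2 ⟨h4, Nat.le_floor ?_⟩, Finset.mem_image.2 ⟨x.1, h3, rfl⟩⟩
    rwa [le_div_iff₀ (by positivity)]
  have h2 : (G.card : ℝ) ≤ ∑ k ∈ (range N).filter (fun k => T₀ ≤ (2 : ℝ) ^ k),
      ∑ m ∈ Icc 1 ⌊X / 2 ^ k⌋₊, ((E m k).card : ℝ) := by
    have h3 := Finset.card_le_card h1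
    have h4 := h3.trans (Finset.card_biUnion_le.trans (Finset.sum_le_sum fun k _ =>
      Finset.card_biUnion_le.trans (Finset.sum_le_sum fun m _ => Finset.card_image_le)))
    exact_mod_cast h4
  refine h2.trans ?_
  have h3 : ∀ k ∈ (range N).filter (fun k => T₀ ≤ (2 : ℝ) ^ k),
      ∑ m ∈ Icc 1 ⌊X / 2 ^ k⌋₊, ((E m k).card : ℝ) ≤ X * T₀ ^ (-0.05 : ℝ) := by
    intro k hk
    have hk1 := (Finset.mem_filter.1 hk).2
    have hT : (0 : ℝ) < 2 ^ k := by positivity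
    calc ∑ m ∈ Icc 1 ⌊X / 2 ^ k⌋₊, ((E m k).card : ℝ)
        ≤ ∑ m ∈ Icc 1 ⌊X / 2 ^ k⌋₊, ((2 : ℝ) ^ k) ^ (0.95 : ℝ) :=
          Finset.sum_le_sum fun m _ => hE m k
      _ = (⌊X / 2 ^ k⌋₊ : ℝ) * ((2 : ℝ) ^ k) ^ (0.95 : ℝ) := by
          rw [Finset.sum_const, nsmul_eq_mul, Nat.card_Icc, Nat.add_sub_cancel]
      _ ≤ X / 2 ^ k * ((2 : ℝ) ^ k) ^ (0.95 : ℝ) :=
          mul_le_mul_of_nonneg_right (Nat.floor_le (by positivity)) (by positivity)
      _ = X * ((2 : ℝ) ^ k) ^ (-0.05 : ℝ) := by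
          rw [div_mul_eq_mul_div, mul_div_assoc]
          congr 1
          rw [show (-0.05 : ℝ) = 0.95 - 1 by norm_num, Real.rpow_sub hT, Real.rpow_one]
      _ ≤ X * T₀ ^ (-0.05 : ℝ) :=
          mul_le_mul_of_nonneg_left
            (Real.rpow_le_rpow_of_nonpos (by linarith only [hT₀]) hk1 (by norm_num)) hX
  refine (Finset.sum_le_card_nsmul _ _ _ h3).trans ?_
  rw [nsmul_eq_mul]
  refine mul_le_mul_of_nonneg_right ?_ (by positivity)
  have h4 := Finset.card_filter_le (range N) (fun k => T₀ ≤ (2 : ℝ) ^ k)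
  rw [Finset.card_range] at h4
  exact_mod_cast h4

/-! ### The exceptional sets -/

/-- the inverse theorem: exceptional sets -/
theorem exc_sets (hi : InverseStmt) (A A₃ : ℝ) (hA : 0 < A) (hA₃ : 1 ≤ A₃) : ∃ r : ℕ, ∃ y₀ : ℕ,
    ∀ y : ℕ, y₀ ≤ y → ∀ (V b : ℤ) (P : ℕ → ℝ) (I : ℕ → Finset ℕ),
    BoxV y ((log y) ^ (-A₃)) r P I → ∃ E : ℕ → ℕ → Finset ℕ,
    (∀ m k, ((E m k).card : ℝ) ≤ ((2 : ℝ) ^ k) ^ (0.95 : ℝ)) ∧
    ∀ m k : ℕ, 0 < m → exp ((log y) ^ (0.93 : ℝ)) ≤ 2 ^ k → (2 : ℝ) ^ k ≤ y →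
    ∀ M : ℕ, 2 ^ k ≤ (M : ℝ) → (M : ℝ) ≤ 2 * 2 ^ k → M ∉ E m k →
      (log y) ^ (-A) * ∏ j ∈ range (r + 1), ((log y) ^ (-A₃) * P j + 1) ≤
        ‖boxSum r I (fun s => e ((b : ℝ) * V / (((M * m : ℕ) : ℝ) * s)))‖ →
      ∃ u c : ℤ, 1 ≤ u ∧ (u : ℝ) ≤ ((2 : ℝ) ^ k) ^ (0.2 : ℝ) ∧
        |(c : ℝ)| ≤ 6 * ((2 : ℝ) ^ k) ^ (1.2 : ℝ) ∧
        (M : ℤ) ∣ u * (b * V / (m : ℤ)) - c ∧
        ((2 : ℝ) ^ k) ^ (0.8 : ℝ) ≤ (((Icc 1 ⌊2 * (2 : ℝ) ^ k⌋₊).filter
          (fun M' : ℕ => (2 : ℝ) ^ k ≤ (M' : ℝ) ∧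
            (M' : ℤ) ∣ u * (b * V / (m : ℤ)) - c)).card : ℝ) := by
  obtain ⟨r, y₀, h⟩ := hi (max (A + 1) A₃) (lt_max_of_lt_left (by linarith only [hA]))
  have hl : Tendsto (fun y : ℕ => log (y : ℝ)) atTop atTop :=
    tendsto_log_atTop.comp tendsto_natCast_atTop_atTop
  have hev : ∀ᶠ l : ℝ in atTop, 4 * π * l ^ A ≤ exp ((log l) ^ 3) ∧ 2 ≤ l :=
    (exc_ev' A (4 * π)).and (eventually_ge_atTop 2)
  obtain ⟨y₁, hy₁⟩ := eventually_atTop.1 (hl.eventually hev)
  refine ⟨r, max y₁ ⌈y₀⌉₊, fun y hy V b P I hbox => ?_⟩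
  have hyy : y₀ ≤ y := (Nat.le_ceil y₀).trans (by exact_mod_cast (le_max_right _ _).trans hy)
  obtain ⟨hf1, hf2⟩ := hy₁ y ((le_max_left _ _).trans hy)
  replace h := h y hyy
  set l : ℝ := log y with hldef
  set κ : ℝ := l ^ (-A₃) with hκ
  have hl0 : 0 < l := by linarith only [hf2]
  have hl1 : 1 ≤ l := by linarith only [hf2]
  have hκ0 : 0 < κ := Real.rpow_pos_of_pos hl0 _
  have hκ1 : κ ≤ 1 := Real.rpow_le_one_of_one_le_of_nonpos hl1 (by linarith only [hA₃])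
  set AI : ℝ := max (A + 1) A₃ with hAI
  suffices hs : ∀ (m k : ℕ), ∃ F : Finset ℕ,
      ((F.card : ℝ) ≤ ((2 : ℝ) ^ k) ^ (0.95 : ℝ)) ∧
      (0 < m → exp (l ^ (0.93 : ℝ)) ≤ 2 ^ k → (2 : ℝ) ^ k ≤ y →
      ∀ M : ℕ, 2 ^ k ≤ (M : ℝ) → (M : ℝ) ≤ 2 * 2 ^ k → M ∉ F →
      l ^ (-A) * ∏ j ∈ range (r + 1), (κ * P j + 1) ≤
        ‖boxSum r I (fun s => e ((b : ℝ) * V / (((M * m : ℕ) : ℝ) * s)))‖ →
      ∃ u c : ℤ, 1 ≤ u ∧ (u : ℝ) ≤ ((2 : ℝ) ^ k) ^ (0.2 : ℝ) ∧
        |(c : ℝ)| ≤ 6 * ((2 : ℝ) ^ k) ^ (1.2 : ℝ) ∧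
        (M : ℤ) ∣ u * (b * V / (m : ℤ)) - c ∧
        ((2 : ℝ) ^ k) ^ (0.8 : ℝ) ≤ (((Icc 1 ⌊2 * (2 : ℝ) ^ k⌋₊).filter
          (fun M' : ℕ => (2 : ℝ) ^ k ≤ (M' : ℝ) ∧
            (M' : ℤ) ∣ u * (b * V / (m : ℤ)) - c)).card : ℝ)) by
    choose E hE1 hE2 using hs
    exact ⟨E, hE1, hE2⟩
  intro m k
  by_cases hcond : exp (l ^ (0.93 : ℝ)) ≤ 2 ^ k ∧ (2 : ℝ) ^ k ≤ y
  swap
  · exact ⟨∅, by simp; positivity, fun _ h2 h3 => absurd ⟨h2, h3⟩ hcond⟩
  obtain ⟨hc2, hc3⟩ := hcond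
  have hP : ∀ j ≤ r, 0 < P j := fun j hj => (hbox.zon j hj).1
  have hSS : ∀ j ≤ r, P j / l ^ AI ≤ κ * P j + 1 := by
    intro j hj
    have hP := hP j hj
    rw [div_eq_mul_inv, ← Real.rpow_neg hl0.le]
    have h2 : l ^ (-AI) ≤ κ := Real.rpow_le_rpow_of_exponent_le hl1 (by
      have := le_max_right (A + 1) A₃
      linarith only [this])
    have h3 : P j * l ^ (-AI) ≤ P j * κ := mul_le_mul_of_nonneg_left h2 hP.le
    linarith only [h3]
  obtain ⟨F, hF1, hF2⟩ := h P (fun j => κ * P j + 1) I hbox.zon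
    (fun j hj => ⟨hSS j hj, hbox.card j hj⟩)
    (fun j hj p hp => ⟨(hbox.mem j hj p hp).1, (hbox.mem j hj p hp).2.1,
      (hbox.mem j hj p hp).2.2.trans (mul_le_mul_of_nonneg_right (by linarith only [hκ1]) (hP j hj).le)⟩)
    (2 ^ k) hc2 hc3 (b * V / (m : ℤ))
  refine ⟨F, hF1, fun hm _ _ M hM1 hM2 hMF hlarge => ?_⟩
  refine hF2 M hM1 hM2 hMF ?_
  have hM0 : 0 < M := by
    have : (0 : ℝ) < M := lt_of_lt_of_le (by positivity) hM1
    exact_mod_cast this
  set PS : ℝ := ∏ j ∈ range (r + 1), (κ * P j + 1) with hPS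
  have hPS0 : 0 ≤ PS := Finset.prod_nonneg fun j hj => by
    have := hP j (by have := Finset.mem_range.1 hj; omega)
    positivity
  have hap := exc_approx (r := r) (I := I) (P := P 0) (hP 0 (Nat.zero_le _))
    (fun j => κ * P j + 1) hbox.card (fun p hp => (hbox.mem 0 (Nat.zero_le _) p hp).2.1)
    (fun j hj p hp => (hbox.mem j hj p hp).1.one_le) (b * V) (M * m)
    (Nat.mul_pos hM0 hm)
  have hdd : b * V / ((M * m : ℕ) : ℤ) = b * V / (m : ℤ) / (M : ℤ) := by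
    rw [Int.ediv_ediv_of_nonneg (Int.natCast_nonneg m)]
    push_cast
    rw [mul_comm (M : ℤ)]
  rw [hdd] at hap
  have hcast : ((b * V : ℤ) : ℝ) = (b : ℝ) * V := by push_cast; ring
  rw [hcast] at hap
  refine le_trans ?_ hap
  have hP0 : 4 * π * l ^ A ≤ P 0 := by
    refine hf1.trans ?_
    rw [← Real.le_log_iff_exp_le (hP 0 (Nat.zero_le _))]
    refine le_trans (le_of_eq ?_) (hbox.zon 0 (Nat.zero_le _)).2.1
    unfold zlo
    norm_num
    rfl
  have h5 : 2 * π / P 0 ≤ l ^ (-A) / 2 := by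
    have hlA : 0 < l ^ A := Real.rpow_pos_of_pos hl0 _
    calc 2 * π / P 0 ≤ 2 * π / (4 * π * l ^ A) :=
          div_le_div_of_nonneg_left (by positivity) (by positivity) hP0
      _ = l ^ (-A) / 2 := by
          rw [Real.rpow_neg hl0.le]
          have := Real.pi_pos
          field_simp
          ring
  have h6 : l ^ (-AI) ≤ l ^ (-A) / 2 := by
    have h7 : l ^ (-AI) ≤ l ^ (-A - 1) := Real.rpow_le_rpow_of_exponent_le hl1 (by
      have := le_max_left (A + 1) A₃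
      linarith only [this])
    refine h7.trans ?_
    rw [Real.rpow_sub hl0, Real.rpow_one]
    exact div_le_div_of_nonneg_left (Real.rpow_pos_of_pos hl0 _).le two_pos hf2
  have h8 := mul_le_mul_of_nonneg_right h5 hPS0
  have h9 := mul_le_mul_of_nonneg_right h6 hPS0
  linarith only [h9, h8, hlarge]

/-! ### The exceptional part -/

/-- the dyadic scale of the smooth part -/
theorem exc_scale {y : ℕ} {A₂ : ℝ} {r : ℕ} {DD : Finset (ℕ × ℕ)} {P : ℕ → ℝ}
    {I : ℕ → Finset ℕ} {H : Finset ℕ} (hK : Key y A₂ r DD P I H) :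
    exp ((log y) ^ (0.93 : ℝ)) ≤ (2 : ℝ) ^ (Nat.log 2 (∏ p ∈ smH y H, p)) ∧
    (2 : ℝ) ^ (Nat.log 2 (∏ p ∈ smH y H, p)) ≤ ((∏ p ∈ smH y H, p : ℕ) : ℝ) ∧
    ((∏ p ∈ smH y H, p : ℕ) : ℝ) ≤ 2 * 2 ^ (Nat.log 2 (∏ p ∈ smH y H, p)) ∧
    (2 : ℝ) ^ (Nat.log 2 (∏ p ∈ smH y H, p)) ≤ exp ((log y) ^ (0.95 : ℝ)) := by
  have h0 : 0 < ∏ p ∈ smH y H, p := exc_sm_pos hK.prime
  have h3 := hK.smlo
  have h3' := hK.smhi
  set M : ℕ := ∏ p ∈ smH y H, p with hM
  have h1 : 2 ^ (Nat.log 2 M) ≤ M := Nat.pow_log_le_self 2 h0.ne'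
  have h2 : M < 2 ^ (Nat.log 2 M + 1) := Nat.lt_pow_succ_log_self (by norm_num) _
  have h1' : (2 : ℝ) ^ (Nat.log 2 M) ≤ M := by exact_mod_cast h1
  have h2' : (M : ℝ) < 2 * 2 ^ (Nat.log 2 M) := by
    have : (M : ℝ) < (2 : ℝ) ^ (Nat.log 2 M + 1) := by exact_mod_cast h2
    rw [pow_succ] at this
    linarith only [this]
  refine ⟨?_, h1', h2'.le, h1'.trans h3'⟩
  rw [Real.exp_add] at h3
  have h4 : 2 * exp ((log y) ^ (0.93 : ℝ)) ≤ exp ((log y) ^ (0.93 : ℝ)) * exp 1 := by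
    have h5 : (2 : ℝ) ≤ exp 1 := by linarith only [Real.add_one_le_exp (1 : ℝ)]
    linarith only [mul_nonneg (le_of_lt (sub_pos.2 (exp_pos ((log (y : ℝ)) ^ (0.93 : ℝ))))) (sub_nonneg.2 h5)]
  linarith only [h4, h2', h3]

/-- C5: bad keys are structured, with few exceptions -/
theorem excFiber (hi : InverseStmt) : ExcFiberStmt := by
  classical
  intro A₃ A hA₃ hA
  obtain ⟨r, y₀, h⟩ := exc_sets hi A A₃ hA hA₃
  refine ⟨r, fun A₂ B _ _ => ?_⟩
  have hl : Tendsto (fun y : ℕ => log (y : ℝ)) atTop atTop :=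
    tendsto_log_atTop.comp tendsto_natCast_atTop_atTop
  have hev : ∀ᶠ l : ℝ in atTop, 3 * l ^ (A₂ + B + 1) ≤ exp (0.05 * l ^ (0.93 : ℝ)) ∧ 2 ≤ l :=
    (exc_ev _ 0.05 3 (by norm_num)).and (eventually_ge_atTop 2)
  obtain ⟨y₂, hy₂⟩ := eventually_atTop.1 (hl.eventually hev)
  refine ⟨max y₀ y₂, fun y hy V DD P I hbox HH hHH b hbad => ?_⟩
  obtain ⟨f3, f4⟩ := hy₂ y (by omega)
  obtain ⟨E, hE1, hE2⟩ := h y (by omega) V b P I hbox
  clear h hy₂
  set l : ℝ := log y with hldef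
  set κ : ℝ := l ^ (-A₃) with hκ
  have hl0 : 0 < l := by linarith only [f4]
  have hl1 : 1 ≤ l := by linarith only [f4]
  have hy0 : (0 : ℝ) < y := by
    rcases Nat.eq_zero_or_pos y with h | h
    · rw [h] at hldef
      simp at hldef
      linarith only [f4, hldef]
    · exact_mod_cast h
  have hyl : (y : ℝ) = exp l := (Real.exp_log hy0).symm
  have hexp95 : exp (l ^ (0.95 : ℝ)) ≤ y := by
    rw [hyl]
    refine Real.exp_le_exp.2 ?_
    calc l ^ (0.95 : ℝ) ≤ l ^ (1 : ℝ) := Real.rpow_le_rpow_of_exponent_le hl1 (by norm_num)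
      _ = l := Real.rpow_one l
  set Q : ℝ := ∏ j ∈ range (r + 1), P j with hQdef
  have hQ0 : 0 < Q := Finset.prod_pos fun j hj =>
    (hbox.zon j (by have := Finset.mem_range.1 hj; omega)).1
  have hinj : Set.InjOn (fun H : Finset ℕ => (∏ p ∈ smH y H, p, ∏ p ∈ lgH y H, p)) HH := by
    intro H hH H' hH' hHH'
    have hH := Finset.mem_coe.1 hH
    have hH' := Finset.mem_coe.1 hH'
    simp only [Prod.mk.injEq] at hHH'
    refine exc_key_inj (hHH H hH).prime (hHH H' hH').prime ?_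
    rw [← exc_sm_mul_lg y H, ← exc_sm_mul_lg y H', hHH'.1, hHH'.2]
  have hcard := Finset.card_image_of_injOn hinj
  have hcount := cexc_count (N := ⌊2 * l⌋₊ + 1) (X := y * l ^ A₂ / Q)
    (T₀ := exp (l ^ (0.93 : ℝ))) (by (clear * - hy0 f4 hQ0; positivity))
    (Real.one_le_exp (by positivity)) E hE1
    (HH.image (fun H : Finset ℕ => (∏ p ∈ smH y H, p, ∏ p ∈ lgH y H, p))) (by
      intro x hx
      obtain ⟨H, hH, rfl⟩ := Finset.mem_image.1 hx
      have hK := hHH H hH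
      obtain ⟨g1, g2, g3, g4⟩ := exc_scale hK
      have hm1 : 0 < ∏ p ∈ smH y H, p := exc_sm_pos hK.prime
      have hm2 : 0 < ∏ p ∈ lgH y H, p := exc_lg_pos hK.prime
      refine ⟨Nat.log 2 (∏ p ∈ smH y H, p), ?_, g1, ?_, hm2, ?_⟩
      · rw [Nat.lt_succ_iff]
        refine Nat.le_floor ?_
        have h2 : (2 : ℝ) ^ Nat.log 2 (∏ p ∈ smH y H, p) ≤ exp l := by
          rw [← hyl]; exact g4.trans hexp95
        have h3 := Real.log_le_log (by positivity) h2
        rw [Real.log_exp, Real.log_pow] at h3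
        have h4 : (1 / 2 : ℝ) ≤ log 2 := by
          have := Real.log_two_gt_d9
          linarith only [this]
        have h5 : (Nat.log 2 (∏ p ∈ smH y H, p) : ℝ) * (1 / 2) ≤
            Nat.log 2 (∏ p ∈ smH y H, p) * log 2 :=
          mul_le_mul_of_nonneg_left h4 (Nat.cast_nonneg _)
        linarith only [h3, h5]
      · by_contra hnot
        have hb1 := (hbad H hH).1
        unfold Bad at hb1
        rw [← exc_sm_mul_lg y H] at hb1
        obtain ⟨u, c, hu1, hu2, hc, hd, hcd⟩ := hE2 (∏ p ∈ lgH y H, p)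
          (Nat.log 2 (∏ p ∈ smH y H, p)) hm2 g1 (g4.trans hexp95) (∏ p ∈ smH y H, p) g2 g3 hnot
          hb1.le
        exact (hbad H hH).2 ⟨_, u, c, g1, g2, g3, hu1, hu2, hc, hd, hcd⟩
      · rw [le_div_iff₀ hQ0]
        have h2 := hK.upper
        rw [← exc_sm_mul_lg y H] at h2
        refine le_trans ?_ h2
        refine mul_le_mul_of_nonneg_right ?_ hQ0.le
        rw [mul_comm]
        push_cast
        push_cast at g2
        exact mul_le_mul_of_nonneg_right g2 (by (clear * -; positivity)))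
  rw [hcard] at hcount
  have h3 : ((⌊2 * l⌋₊ + 1 : ℕ) : ℝ) ≤ 3 * l := by
    push_cast
    have := Nat.floor_le (show 0 ≤ 2 * l by positivity)
    linarith only [f4, this]
  have h4 : exp (l ^ (0.93 : ℝ)) ^ (-0.05 : ℝ) = (exp (0.05 * l ^ (0.93 : ℝ)))⁻¹ := by
    rw [← Real.exp_mul, ← Real.exp_neg]
    congr 1
    ring
  have h5 : 3 * l * l ^ A₂ * (exp (0.05 * l ^ (0.93 : ℝ)))⁻¹ ≤ l ^ (-B) := by
    rw [← div_eq_mul_inv, div_le_iff₀ (exp_pos _)]
    calc 3 * l * l ^ A₂ = l ^ (-B) * (3 * l ^ (A₂ + B + 1)) := by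
          have : l ^ (-B) * l ^ (A₂ + B + 1) = l * l ^ A₂ := by
            rw [← Real.rpow_add hl0]
            nth_rewrite 2 [← Real.rpow_one l]
            rw [← Real.rpow_add hl0]
            congr 1
            ring
          linear_combination -3 * this
      _ ≤ l ^ (-B) * exp (0.05 * l ^ (0.93 : ℝ)) :=
          mul_le_mul_of_nonneg_left f3 (by positivity)
  calc (HH.card : ℝ) * Q
      ≤ ((⌊2 * l⌋₊ + 1 : ℕ) : ℝ) * (y * l ^ A₂ / Q * exp (l ^ (0.93 : ℝ)) ^ (-0.05 : ℝ)) * Q :=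
        mul_le_mul_of_nonneg_right hcount hQ0.le
    _ = ((⌊2 * l⌋₊ + 1 : ℕ) : ℝ) * (y * l ^ A₂ * exp (l ^ (0.93 : ℝ)) ^ (-0.05 : ℝ)) := by
        field_simp
    _ ≤ 3 * l * (y * l ^ A₂ * exp (l ^ (0.93 : ℝ)) ^ (-0.05 : ℝ)) :=
        mul_le_mul_of_nonneg_right h3 (by positivity)
    _ = y * (3 * l * l ^ A₂ * (exp (0.05 * l ^ (0.93 : ℝ)))⁻¹) := by rw [h4]; ring
    _ ≤ y * l ^ (-B) := mul_le_mul_of_nonneg_left h5 hy0.le

end Vale.Agent.P013.J
end

section

/-!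
# The classes contribute little
-/

namespace Vale.Agent.P013.J

theorem class_bound (hk : KeyStmt) (hp : PoissonStmt) (hi : InverseStmt) (hn : NaturalStmt) :
    ClassStmt :=
  class_of hk boxV betaSum triv (goodFiber hp) (excFiber hi) (natFiber hn)

end Vale.Agent.P013.J
end

section

/-!
# Inverse theorem: choice of the parameters
-/

open Finset Real

namespace Vale.Agent.P013.J

/-- the elementary facts on the size of `L = log log y` -/
structure InvParamBig (A L : ℝ) (r : ℕ) : Prop where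
  hA : 0 < A
  hr : 300 * (A + 1) ≤ r
  hL : 1000 * ((r : ℝ) + 1) * (A + 1) ≤ L
  hlog : log L ≤ 0.01 * L
  hexp : L ^ (20 * r + 40) ≤ exp (0.01 * L)

namespace InvParamBig

variable {A L : ℝ} {r : ℕ} (h : InvParamBig A L r)
include h

lemma r1 : (300 : ℝ) ≤ r := by
  have := h.hr; have := h.hA; nlinarith

lemma L1000 : 1000 ≤ L := by
  have h1 := h.hL; have h2 := h.hA; have h3 := h.r1
  nlinarith only [mul_pos (show (0 : ℝ) < (r : ℝ) + 1 by linarith) h2, h1, h3, h2]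

lemma Lr : 1000 * ((r : ℝ) + 1) ≤ L := by
  have h1 := h.hL; have h2 := h.hA; have h3 := h.r1
  nlinarith only [mul_pos (show (0 : ℝ) < (r : ℝ) + 1 by linarith) h2, h1, h3, h2]

lemma LA : 1000 * (A + 1) ≤ L := by
  have h1 := h.hL; have h2 := h.hA; have h3 := h.r1
  nlinarith only [mul_nonneg (show (0 : ℝ) ≤ (r : ℝ) by linarith) (show (0 : ℝ) ≤ A + 1 by linarith), h1, h3, h2]

lemma L1 : 1 ≤ L := by linarith [h.L1000]

lemma pow_mono {a b : ℕ} (hab : a ≤ b) : L ^ a ≤ L ^ b := pow_le_pow_right₀ h.L1 hab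

lemma pow_exp {a : ℕ} (ha : a ≤ 20 * r + 40) : L ^ a ≤ exp (0.01 * L) :=
  (h.pow_mono ha).trans h.hexp

lemma p_big {p : ℝ} (hp : L ^ 3 ≤ p) : 1000000 * (A + 1) * L ≤ p := by
  refine le_trans ?_ hp
  have h1 := h.LA; have h2 := h.L1000; have h3 := h.hA
  have h4 : 1000000 * (A + 1) ≤ L * L := by nlinarith only [h1, h3, h2]
  calc 1000000 * (A + 1) * L ≤ L * L * L := by
        apply mul_le_mul_of_nonneg_right h4 (by linarith only [h1, h3])
    _ = L ^ 3 := by ring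

end InvParamBig

/-- the number `k` -/
lemma invParam_k {A L : ℝ} {r : ℕ} (h : InvParamBig A L r) {p ν : ℝ} (hp3 : L ^ 3 ≤ p)
    (hp5 : p ≤ L ^ 5) (hν : 0.8 * r * L ≤ ν) :
    ∃ k : ℕ, 1 ≤ k ∧ log 2 + p ≤ k * ν ∧ (k : ℝ) ≤ (p + 1) / (0.8 * r * L) + 1 ∧
      (k : ℝ) ≤ L ^ 5 := by
  have hL := h.L1000
  have hr := h.r1
  have hb : 0 < 0.8 * (r : ℝ) * L := by positivity
  have hν0 : 0 < ν := lt_of_lt_of_le hb hν
  have hl2 : log 2 < 1 := by linarith only [Real.log_two_lt_d9]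
  have hl20 : 0 < log 2 := Real.log_pos (by norm_num)
  have hp0 : 0 < p := lt_of_lt_of_le (by positivity) hp3
  have hk1 : ((⌈(log 2 + p) / ν⌉₊ : ℕ) : ℝ) ≤ (p + 1) / (0.8 * r * L) + 1 := by
    have h1 := Nat.ceil_lt_add_one (show 0 ≤ (log 2 + p) / ν by positivity)
    have h2 : (log 2 + p) / ν ≤ (p + 1) / (0.8 * r * L) := by
      apply div_le_div₀ (by linarith only [hl2, hl20, hp0]) (by linarith only [hl2]) hb hν
    linarith only [h2, h1]
  refine ⟨⌈(log 2 + p) / ν⌉₊, Nat.ceil_pos.mpr (by positivity), ?_, hk1, hk1.trans ?_⟩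
  · have h1 := Nat.le_ceil ((log 2 + p) / ν)
    rwa [div_le_iff₀ hν0] at h1
  · have h4 : 4 ≤ 0.8 * (r : ℝ) * L := by nlinarith only [hr, hl2, hl20, hL]
    have h5 : (p + 1) / (0.8 * r * L) ≤ (p + 1) / 4 := by
      apply div_le_div_of_nonneg_left (by linarith only [hl2, hl20, hp0]) (by norm_num) h4
    have h6 : (1 : ℝ) ≤ L ^ 3 := one_le_pow₀ h.L1
    have h7 : (4 : ℝ) ≤ L ^ 5 := by
      calc (4 : ℝ) ≤ L ^ 1 := by linarith only [hL, hl2, hl20]
        _ ≤ L ^ 5 := h.pow_mono (by norm_num)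
    linarith only [hp5, hl2, hl20, h5, h7]

/-- the moment condition -/
lemma invParam_mom {A L : ℝ} {r k : ℕ} (h : InvParamBig A L r) {p S0 N : ℝ} (hp3 : L ^ 3 ≤ p)
    (hk1 : 1 ≤ k) (hk : (k : ℝ) ≤ (p + 1) / (0.8 * r * L) + 1) (hk5 : (k : ℝ) ≤ L ^ 5)
    (hS : exp (p - A * L) ≤ S0) (hN : 0 < N) (hNk : 2 * exp p ≤ N ^ k) :
    2 * exp p * (k.factorial * N ^ k + 8 * N ^ (2 * k) * L ^ (10 * r + 10) /
      (exp (-(A * L)) * S0)) ≤ exp (0.02 * (p + log 2)) * (exp (-(A * L)) / 4 * N) ^ (2 * k) := by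
  have hL := h.L1000
  have hr := h.r1
  have hA := h.hA
  have hpb := h.p_big hp3
  have hk0 : (1 : ℝ) ≤ k := by exact_mod_cast hk1
  have hS0 : 0 < S0 := lt_of_lt_of_le (exp_pos _) hS
  set M : ℝ := N ^ k with hM
  have hM0 : 0 < M := pow_pos hN k
  have hM2 : N ^ (2 * k) = M ^ 2 := by rw [hM, ← pow_mul, mul_comm]
  have hkL : (k : ℝ) * L ≤ (p + 1) / (0.8 * r) + L := by
    have h1 := mul_le_mul_of_nonneg_right hk (show 0 ≤ L by linarith only [hL])
    refine h1.trans (le_of_eq ?_)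
    field_simp
  have hkL2 : (k : ℝ) * L * r ≤ 1.25 * (p + 1) + L * r := by
    have h1 := mul_le_mul_of_nonneg_right hkL (show 0 ≤ (r : ℝ) by linarith only [hr])
    refine h1.trans (le_of_eq ?_)
    field_simp
    ring
  have hkL3 : (k : ℝ) * L * (A + 1) ≤ 1.25 / 300 * (p + 1) + L * (A + 1) := by
    have h1 : (k : ℝ) * L * 300 * (A + 1) ≤ (k : ℝ) * L * r := by
      rw [mul_assoc]
      exact mul_le_mul_of_nonneg_left h.hr (by positivity)
    have h2 : ((k : ℝ) - 1) * L * r ≤ 1.25 * (p + 1) := by linarith only [hkL2]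
    have h3 : ((k : ℝ) - 1) * L * (300 * (A + 1)) ≤ ((k : ℝ) - 1) * L * r :=
      mul_le_mul_of_nonneg_left h.hr (mul_nonneg (by linarith only [hk0]) (by linarith only [hL]))
    linarith only [h3, hkL2]
  -- the factorial
  have hfac : (k.factorial : ℝ) ≤ exp (0.001 * (p + 1) + L) := by
    have h1 : (k.factorial : ℝ) ≤ (k : ℝ) ^ k := by exact_mod_cast Nat.factorial_le_pow k
    have h2 : (k : ℝ) ^ k = exp (k * log k) := by
      rw [mul_comm, Real.exp_mul, Real.exp_log (by linarith only [hk0]), Real.rpow_natCast]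
    have h3 : log k ≤ 5 * log L := by
      have := Real.log_le_log (by linarith only [hk0]) hk5
      rwa [Real.log_pow] at this
    have h4 : (k : ℝ) * log k ≤ k * (0.05 * L) := by
      apply mul_le_mul_of_nonneg_left _ (by linarith only [hk0])
      have := h.hlog
      linarith only [h3, this]
    have h5 : (k : ℝ) * L ≤ 0.02 * (p + 1) + L := by
      have h6 : (p + 1) / (0.8 * r) ≤ (p + 1) * 0.02 := by
        rw [div_le_iff₀ (by positivity)]
        have : 0 ≤ p + 1 := by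
          have : 0 < L ^ 3 := by positivity
          linarith only [hp3, this]
        nlinarith only [hL, hA, hpb, hr, this]
      linarith only [hkL, h6]
    rw [h2] at h1
    refine h1.trans (Real.exp_le_exp.mpr ?_)
    linarith only [hL, h4, h5]
  have hw : L ^ (10 * r + 10) ≤ exp L := by
    refine (h.pow_exp (by omega)).trans (Real.exp_le_exp.mpr (by linarith only [hL]))
  -- the right side
  set E : ℝ := 0.02 * (p + log 2) - 2 * k * (A * L + log 4) with hE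
  have hR : exp (0.02 * (p + log 2)) * (exp (-(A * L)) / 4 * N) ^ (2 * k) = exp E * M ^ 2 := by
    rw [mul_pow, hM2, ← mul_assoc]
    congr 1
    have h1 : exp (-(A * L)) / 4 = exp (-(A * L + log 4)) := by
      rw [neg_add, Real.exp_add, Real.exp_neg (log 4), Real.exp_log (by norm_num)]
      rfl
    rw [h1, ← Real.exp_nat_mul, ← Real.exp_add]
    congr 1
    rw [hE]
    push_cast
    ring
  have hlog4 : log 4 ≤ 1.4 := by
    have : (4 : ℝ) = 2 ^ 2 := by norm_num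
    rw [this, Real.log_pow]
    have := Real.log_two_lt_d9
    push_cast
    linarith only [this]
  have hE1 : 0.02 * p - 0.0084 * (p + 1) - 2 * (A + 1) * L ≤ E := by
    have h1 : 2 * (k : ℝ) * (A * L + log 4) ≤ 2 * (k * L * (A + 1)) := by
      have : A * L + log 4 ≤ L * (A + 1) := by linarith only [hL, hlog4]
      calc 2 * (k : ℝ) * (A * L + log 4) ≤ 2 * (k : ℝ) * (L * (A + 1)) :=
            mul_le_mul_of_nonneg_left this (by linarith only [hk0])
        _ = _ := by ring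
    have h2 : 0 < log 2 := Real.log_pos (by norm_num)
    have h3 : 0 ≤ p + 1 := by
      have : 0 < L ^ 3 := by positivity
      linarith only [hp3, this]
    rw [hE]
    linarith only [hkL3, h1, h2, h3]
  have hp1 : 1000000 * L ≤ p := by
    refine le_trans ?_ hpb
    have : 0 ≤ A * L := by positivity
    linarith only [this]
  have hpA : 1000000 * ((A + 1) * L) ≤ p := by linarith only [hpb]
  have hmain : (k.factorial : ℝ) + 16 * L ^ (10 * r + 10) * exp (2 * (A * L)) ≤ exp E := by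
    have h2 : exp (0.001 * (p + 1) + L) ≤ exp E / 2 := by
      rw [le_div_iff₀ (by norm_num)]
      calc exp (0.001 * (p + 1) + L) * 2 ≤ exp (0.001 * (p + 1) + L) * exp 1 := by
            gcongr
            linarith only [Real.add_one_le_exp 1]
        _ = exp (0.001 * (p + 1) + L + 1) := (Real.exp_add _ _).symm
        _ ≤ exp E := by
            apply Real.exp_le_exp.mpr
            linarith only [hL, hpb, hE1, hp1]
    have h3 : 16 * L ^ (10 * r + 10) * exp (2 * (A * L)) ≤ exp E / 2 := by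
      rw [le_div_iff₀ (by norm_num)]
      have h4 : (32 : ℝ) ≤ exp 4 := by
        have h5 : (2 : ℝ) ≤ exp 1 := by linarith only [Real.add_one_le_exp 1]
        have h6 : exp 4 = exp 1 ^ 4 := by rw [← Real.exp_nat_mul]; norm_num
        have h7 : (2.7 : ℝ) ≤ exp 1 := by linarith only [Real.exp_one_gt_d9]
        rw [h6]
        calc (32 : ℝ) ≤ 2.7 ^ 4 := by norm_num
          _ ≤ exp 1 ^ 4 := by gcongr
      calc 16 * L ^ (10 * r + 10) * exp (2 * (A * L)) * 2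
          = 32 * L ^ (10 * r + 10) * exp (2 * (A * L)) := by ring
        _ ≤ exp 4 * exp L * exp (2 * (A * L)) := by gcongr
        _ = exp (4 + L + 2 * (A * L)) := by rw [Real.exp_add, Real.exp_add]
        _ ≤ exp E := by
            apply Real.exp_le_exp.mpr
            linarith only [hL, hpb, hE1, hp1]
    linarith only [hfac, h2, h3]
  rw [hR, hM2]
  have hfrac : 2 * exp p * (8 * M ^ 2 * L ^ (10 * r + 10) / (exp (-(A * L)) * S0)) ≤
      M ^ 2 * (16 * L ^ (10 * r + 10) * exp (2 * (A * L))) := by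
    have h1 : exp p ≤ exp (2 * (A * L)) * (exp (-(A * L)) * S0) := by
      calc exp p = exp (2 * (A * L)) * (exp (-(A * L)) * exp (p - A * L)) := by
            rw [← Real.exp_add, ← Real.exp_add]; congr 1; ring
        _ ≤ _ := by gcongr
    rw [mul_div_assoc', div_le_iff₀ (by positivity)]
    calc 2 * exp p * (8 * M ^ 2 * L ^ (10 * r + 10))
        = M ^ 2 * (16 * L ^ (10 * r + 10)) * exp p := by ring
      _ ≤ M ^ 2 * (16 * L ^ (10 * r + 10)) * (exp (2 * (A * L)) * (exp (-(A * L)) * S0)) := by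
          gcongr
      _ = _ := by ring
  have hfirst : 2 * exp p * (k.factorial * M) ≤ M ^ 2 * k.factorial := by
    calc 2 * exp p * (k.factorial * M) ≤ M * (k.factorial * M) := by gcongr
      _ = _ := by ring
  calc 2 * exp p * (k.factorial * M + 8 * M ^ 2 * L ^ (10 * r + 10) / (exp (-(A * L)) * S0))
      = 2 * exp p * (k.factorial * M) +
        2 * exp p * (8 * M ^ 2 * L ^ (10 * r + 10) / (exp (-(A * L)) * S0)) := by ring
    _ ≤ M ^ 2 * k.factorial + M ^ 2 * (16 * L ^ (10 * r + 10) * exp (2 * (A * L))) :=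
        add_le_add hfirst hfrac
    _ = M ^ 2 * (k.factorial + 16 * L ^ (10 * r + 10) * exp (2 * (A * L))) := by ring
    _ ≤ M ^ 2 * exp E := by gcongr
    _ = exp E * M ^ 2 := by ring

/-- sums of logarithms -/
lemma invParam_sum {A L : ℝ} {r : ℕ} (h : InvParamBig A L r) {P : ℕ → ℝ}
    (hP : ∀ j ≤ r, 0 < P j ∧ L ^ (10 * j + 3) ≤ log (P j) ∧ log (P j) ≤ L ^ (10 * j + 5))
    (s : Finset (Fin r)) (m : ℕ) (hs : ∀ i ∈ s, (i : ℕ) + 1 ≤ m) :
    0 ≤ ∑ i ∈ s, log (2 * P (i + 1)) ∧ ∑ i ∈ s, log (2 * P (i + 1)) ≤ 2 * r * L ^ (10 * m + 5) := by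
  have hL := h.L1000
  have hterm : ∀ i : Fin r, log (2 * P (i + 1)) = log 2 + log (P (i + 1)) := fun i =>
    Real.log_mul (by norm_num) (hP (i + 1) i.2).1.ne'
  have hl2 : log 2 < 1 := by linarith only [Real.log_two_lt_d9]
  have hl20 : 0 < log 2 := Real.log_pos (by norm_num)
  constructor
  · refine Finset.sum_nonneg fun i _ => ?_
    rw [hterm]
    have := (hP (i + 1) i.2).2.1
    have h2 : (0 : ℝ) ≤ L ^ (10 * ((i : ℕ) + 1) + 3) := by positivity
    linarith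
  · have h1 : ∀ i ∈ s, log (2 * P (i + 1)) ≤ 2 * L ^ (10 * m + 5) := by
      intro i hi
      rw [hterm]
      have h2 := (hP (i + 1) i.2).2.2
      have h3 : L ^ (10 * ((i : ℕ) + 1) + 5) ≤ L ^ (10 * m + 5) := h.pow_mono (by
        have := hs i hi
        omega)
      have h4 : (1 : ℝ) ≤ L ^ (10 * m + 5) := one_le_pow₀ h.L1
      linarith
    refine (Finset.sum_le_sum h1).trans ?_
    rw [Finset.sum_const, nsmul_eq_mul]
    have h5 : (s.card : ℝ) ≤ r := by
      have : s.card ≤ Fintype.card (Fin r) := Finset.card_le_univ s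
      rw [Fintype.card_fin] at this
      exact_mod_cast this
    calc (s.card : ℝ) * (2 * L ^ (10 * m + 5)) ≤ r * (2 * L ^ (10 * m + 5)) := by gcongr
      _ = _ := by ring

/-- separation -/
lemma invParam_sep {A L : ℝ} {r k : ℕ} (h : InvParamBig A L r) {P : ℕ → ℝ}
    (hP : ∀ j ≤ r, 0 < P j ∧ L ^ (10 * j + 3) ≤ log (P j) ∧ log (P j) ≤ L ^ (10 * j + 5))
    (hk1 : 1 ≤ k) (hk5 : (k : ℝ) ≤ L ^ 5) (j : Fin r) :
    (2 * k : ℝ) * (∏ i ∈ (univ : Finset (Fin r)).filter (fun i => i < j), (2 * P (i + 1))) ^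
      (2 * k) < P (j + 1) := by
  have hL := h.L1000
  have hr := h.r1
  have hk0 : (1 : ℝ) ≤ k := by exact_mod_cast hk1
  have hPp : ∀ i : Fin r, 0 < 2 * P (i + 1) := fun i => by
    have := (hP (i + 1) i.2).1; positivity
  have hprod : 0 < ∏ i ∈ (univ : Finset (Fin r)).filter (fun i => i < j), (2 * P (i + 1)) :=
    Finset.prod_pos fun i _ => hPp i
  have hPj := hP (j + 1) j.2
  rw [← Real.log_lt_log_iff (by positivity) hPj.1, Real.log_mul (by positivity) (by positivity),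
    Real.log_pow, Real.log_prod (fun i _ => (hPp i).ne')]
  obtain ⟨-, h1⟩ := invParam_sum h hP (univ.filter fun i => i < j) j (fun i hi => by
    have := (Finset.mem_filter.1 hi).2
    exact this)
  have h2 : log (2 * k) ≤ 2 * L ^ 5 := by
    have := Real.log_le_self (show 0 ≤ 2 * (k : ℝ) by linarith only [hk0])
    linarith only [hk5, this]
  have h3 : ((2 * k : ℕ) : ℝ) * ∑ i ∈ (univ : Finset (Fin r)).filter (fun i => i < j),
      log (2 * P (i + 1)) ≤ 2 * L ^ 5 * (2 * r * L ^ (10 * (j : ℕ) + 5)) := by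
    push_cast
    gcongr
    exact (invParam_sum h hP (univ.filter fun i => i < j) j (fun i hi => by
      have := (Finset.mem_filter.1 hi).2
      exact this)).1
  have h4 : L ^ 5 ≤ L ^ (10 * (j : ℕ) + 10) := h.pow_mono (by omega)
  have h5 : 2 * L ^ 5 * (2 * r * L ^ (10 * (j : ℕ) + 5)) = 4 * r * L ^ (10 * (j : ℕ) + 10) := by
    rw [show 10 * (j : ℕ) + 10 = 5 + (10 * (j : ℕ) + 5) by omega, pow_add]; ring
  have h6 : (4 * r + 2) * L ^ (10 * (j : ℕ) + 10) < L ^ (10 * ((j : ℕ) + 1) + 3) := by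
    rw [show 10 * ((j : ℕ) + 1) + 3 = 3 + (10 * (j : ℕ) + 10) by omega,
      pow_add L 3 (10 * (j : ℕ) + 10)]
    apply mul_lt_mul_of_pos_right _ (by positivity)
    have h7 := h.Lr
    have h8 : L ^ 1 ≤ L ^ 3 := h.pow_mono (by norm_num)
    rw [pow_one] at h8
    linarith only [hr, h7, h8]
  have h9 := hPj.2.1
  push_cast at h9 ⊢
  push_cast at h3
  linarith only [hPj, h2, h4, h5, h6, h3]

/-- bound for the weight -/
lemma invParam_w {A L : ℝ} {r k : ℕ} (h : InvParamBig A L r) {P : ℕ → ℝ}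
    (hP : ∀ j ≤ r, 0 < P j ∧ L ^ (10 * j + 3) ≤ log (P j) ∧ log (P j) ≤ L ^ (10 * j + 5))
    (hk1 : 1 ≤ k) (hk5 : (k : ℝ) ≤ L ^ 5) :
    log k + 2 * k * ∑ j : Fin r, log (2 * P (j + 1)) ≤ L ^ (10 * r + 10) * log (P 0) := by
  have hL := h.L1000
  have hr := h.r1
  have hk0 : (1 : ℝ) ≤ k := by exact_mod_cast hk1
  obtain ⟨h0, h1⟩ := invParam_sum h hP univ r (fun i _ => i.2)
  have h2 : log k ≤ L ^ 5 := (Real.log_le_self (by linarith only [hk0])).trans hk5
  have h3 : 2 * (k : ℝ) * ∑ j : Fin r, log (2 * P (j + 1)) ≤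
      2 * L ^ 5 * (2 * r * L ^ (10 * r + 5)) := by gcongr
  have h4 : L ^ 5 ≤ L ^ (10 * r + 10) := h.pow_mono (by omega)
  have h5 : 2 * L ^ 5 * (2 * r * L ^ (10 * r + 5)) = 4 * r * L ^ (10 * r + 10) := by
    rw [show 10 * r + 10 = 5 + (10 * r + 5) by omega, pow_add]; ring
  have h6 : (4 * r + 1) * L ^ (10 * r + 10) ≤ L ^ (10 * r + 10) * log (P 0) := by
    rw [mul_comm]
    apply mul_le_mul_of_nonneg_left _ (by positivity)
    have h7 := h.Lr
    have h8 : L ^ 1 ≤ L ^ 3 := h.pow_mono (by norm_num)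
    have h9 := (hP 0 (Nat.zero_le _)).2.1
    rw [pow_one] at h8
    simp only [mul_zero, zero_add] at h9
    linarith only [hr, h7, h8, h9]
  linarith only [h2, h3, h4, h5, h6]

/-- the left-over blocks -/
lemma invParam_left {A L : ℝ} {r : ℕ} (h : InvParamBig A L r) {P S : ℕ → ℝ}
    (hP : ∀ j ≤ r, 0 < P j ∧ L ^ (10 * j + 3) ≤ log (P j) ∧ log (P j) ≤ L ^ (10 * j + 5))
    (hS : ∀ j ≤ r, exp (log (P j) - A * L) ≤ S j) {n0 : ℕ} (hn0 : (n0 : ℝ) ≤ exp (0.9 * L)) :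
    ∑ j : Fin r, (n0 : ℝ) / S (j + 1) ≤ exp (-(A * L)) / 2 := by
  have hL := h.L1000
  have hr := h.r1
  have hA := h.hA
  have hterm : ∀ j : Fin r, (n0 : ℝ) / S (j + 1) ≤ exp ((0.9 + A) * L - L ^ 13) := by
    intro j
    have h1 := hS (j + 1) j.2
    have h2 : exp (L ^ 13 - A * L) ≤ S (j + 1) := by
      refine le_trans (Real.exp_le_exp.mpr ?_) h1
      have h3 := (hP (j + 1) j.2).2.1
      have h4 : L ^ 13 ≤ L ^ (10 * ((j : ℕ) + 1) + 3) := h.pow_mono (by omega)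
      linarith only [h3, h4]
    calc (n0 : ℝ) / S (j + 1) ≤ exp (0.9 * L) / exp (L ^ 13 - A * L) := by
          apply div_le_div₀ (exp_pos _).le hn0 (exp_pos _) h2
      _ = exp ((0.9 + A) * L - L ^ 13) := by
          rw [← Real.exp_sub]; congr 1; ring
  refine (Finset.sum_le_sum fun j _ => hterm j).trans ?_
  rw [Finset.sum_const, Finset.card_univ, Fintype.card_fin, nsmul_eq_mul, le_div_iff₀ (by norm_num)]
  have h1 : (r : ℝ) ≤ exp L := by
    have := Real.add_one_le_exp L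
    have := h.Lr
    linarith
  calc (r : ℝ) * exp ((0.9 + A) * L - L ^ 13) * 2
      ≤ exp L * exp ((0.9 + A) * L - L ^ 13) * exp 1 := by
        gcongr
        linarith only [Real.add_one_le_exp 1]
    _ = exp (L + ((0.9 + A) * L - L ^ 13) + 1) := by rw [← Real.exp_add, ← Real.exp_add]
    _ ≤ exp (-(A * L)) := by
        apply Real.exp_le_exp.mpr
        have h2 : L ^ 3 ≤ L ^ 13 := h.pow_mono (by norm_num)
        have h3 := h.p_big h2
        have h4 : 0 ≤ A * L := by positivity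
        linarith only [h4, h3, hL]

/-- the number `J` -/
lemma invParam_J {A L : ℝ} {r : ℕ} (h : InvParamBig A L r) {p τ S0 : ℝ} (hp3 : L ^ 3 ≤ p)
    (hτ0 : 0 ≤ τ) (hτ : τ ≤ exp L) (hS : exp (p - A * L) ≤ S0) :
    ∃ J : ℕ, 2 * τ + 3 ≤ J * p ∧ (J : ℝ) ≤ (2 * τ + 3) / p + 1 ∧
      (J : ℝ) ≤ exp (-(A * L)) * S0 / 16 := by
  have hL := h.L1000
  have hA := h.hA
  have hpb := h.p_big hp3
  have hAL : 0 ≤ A * L := by positivity
  have hp1 : 1000000 * L ≤ p := by linarith only [hAL, hpb]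
  have hpA : 1000000 * (A * L) ≤ p := by linarith only [hpb, hL]
  have hp0 : 0 < p := by linarith
  have hJ := Nat.ceil_lt_add_one (show 0 ≤ (2 * τ + 3) / p by positivity)
  refine ⟨⌈(2 * τ + 3) / p⌉₊, ?_, hJ.le, ?_⟩
  · have h1 := Nat.le_ceil ((2 * τ + 3) / p)
    rwa [div_le_iff₀ hp0] at h1
  · have h1 : (2 * τ + 3) / p ≤ 2 * τ + 3 := div_le_self (by linarith only [hτ0]) (by linarith only [hL, hpb, hAL])
    have h2 : (4 : ℝ) ≤ exp L := by linarith only [Real.add_one_le_exp L, hL]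
    have h3 : (48 : ℝ) ≤ exp 4 := by
      have h6 : exp 4 = exp 1 ^ 4 := by rw [← Real.exp_nat_mul]; norm_num
      have h7 : (2.7 : ℝ) ≤ exp 1 := by linarith only [Real.exp_one_gt_d9]
      rw [h6]
      calc (48 : ℝ) ≤ 2.7 ^ 4 := by norm_num
        _ ≤ exp 1 ^ 4 := by gcongr
    have h4 : 48 * exp L ≤ exp (-(A * L)) * S0 := by
      calc 48 * exp L ≤ exp 4 * exp L := by gcongr
        _ = exp (4 + L) := (Real.exp_add _ _).symm
        _ ≤ exp (-(A * L) + (p - A * L)) := by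
            apply Real.exp_le_exp.mpr
            linarith only [hL, hpb, hAL]
        _ = exp (-(A * L)) * exp (p - A * L) := Real.exp_add _ _
        _ ≤ exp (-(A * L)) * S0 := by gcongr
    rw [le_div_iff₀ (by norm_num)]
    linarith only [hτ, hJ, h1, h2, h4]

/-- the final count -/
lemma invParam_final {A L : ℝ} {r n0 J : ℕ} (h : InvParamBig A L r) {P : ℕ → ℝ} {p τ T : ℝ}
    (hP : ∀ j ≤ r, 0 < P j ∧ L ^ (10 * j + 3) ≤ log (P j) ∧ log (P j) ≤ L ^ (10 * j + 5))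
    (hp3 : L ^ 3 ≤ p) (hp5 : p ≤ L ^ 5) (hn0 : (n0 : ℝ) ≤ exp (0.9 * L))
    (hT : T = exp τ) (hτ : exp (0.93 * L) ≤ τ) (hJ : (J : ℝ) ≤ (2 * τ + 3) / p + 1) :
    (∏ j : Fin r, (2 * P (j + 1))) ^ (n0 + 1) *
      (16 * exp (0.02 * (p + log 2)) / exp (-(A * L))) ^ J *
      (T ^ (0.8 : ℝ) + 1) ≤ T ^ (0.95 : ℝ) := by
  have hL := h.L1000
  have hr := h.r1
  have hA := h.hA
  have hpb := h.p_big hp3
  have hAL : 0 ≤ A * L := by positivity
  have hp1 : 1000000 * L ≤ p := by linarith only [hAL, hpb]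
  have hpA : 1000000 * ((A + 1) * L) ≤ p := by linarith only [hpb]
  have hp0 : 0 < p := by linarith only [hL, hpb, hAL]
  have hl2 : log 2 < 1 := by linarith only [Real.log_two_lt_d9]
  have hl20 : 0 < log 2 := Real.log_pos (by norm_num)
  have hPp : ∀ i : Fin r, 0 < 2 * P (i + 1) := fun i => by
    have := (hP (i + 1) i.2).1; positivity
  have hprod : 0 < ∏ i : Fin r, (2 * P (i + 1)) := Finset.prod_pos fun i _ => hPp i
  have hTpos : 0 < T := by rw [hT]; exact exp_pos _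
  have hT8 : 0 < T ^ (0.8 : ℝ) := Real.rpow_pos_of_pos hTpos _
  -- size of τ
  have e1 : ∀ x : ℝ, 0 ≤ x → x ≤ exp (0.01 * L) → 100000 * x ≤ τ := by
    intro x hx hx2
    refine le_trans ?_ hτ
    have h1 : (100000 : ℝ) ≤ exp (0.92 * L) := by
      have h2 := Real.add_one_le_exp (0.46 * L)
      have h3 : exp (0.92 * L) = exp (0.46 * L) * exp (0.46 * L) := by
        rw [← Real.exp_add]; congr 1; ring
      rw [h3]
      have h4 : (400 : ℝ) ≤ exp (0.46 * L) := by linarith only [hL, hl2, hl20, h2]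
      nlinarith only [hL, h2, hl2, hl20]
    calc 100000 * x ≤ exp (0.92 * L) * exp (0.01 * L) := by gcongr
      _ = exp (0.93 * L) := by rw [← Real.exp_add]; congr 1; ring
  have hτ5 : 100000 * p ≤ τ := e1 p hp0.le (hp5.trans (h.pow_exp (by omega)))
  have hτ0 : 100000 * L ≤ τ := by linarith only [hL, hpb, hAL, hl2, hl20, hτ5]
  -- the three parts
  have hlogR : log ((∏ j : Fin r, (2 * P (j + 1))) ^ (n0 + 1)) ≤ 0.03 * τ := by
    rw [Real.log_pow, Real.log_prod (fun i _ => (hPp i).ne')]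
    obtain ⟨h0, h1⟩ := invParam_sum h hP univ r (fun i _ => i.2)
    have h2 : ((n0 + 1 : ℕ) : ℝ) ≤ 2 * exp (0.9 * L) := by
      have : (1 : ℝ) ≤ exp (0.9 * L) := Real.one_le_exp (by linarith only [hL, hl2, hl20])
      push_cast
      linarith only [hn0, this]
    have h3 : 2 * (r : ℝ) * L ^ (10 * r + 5) ≤ exp (0.01 * L) := by
      refine le_trans ?_ (h.pow_exp (show 10 * r + 6 ≤ 20 * r + 40 by omega))
      rw [show 10 * r + 6 = 1 + (10 * r + 5) by omega, pow_add L 1, pow_one]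
      gcongr
      linarith only [h.Lr, hL, hl2, hl20, h]
    calc ((n0 + 1 : ℕ) : ℝ) * ∑ j : Fin r, log (2 * P (j + 1))
        ≤ (2 * exp (0.9 * L)) * exp (0.01 * L) := by
          gcongr
          exact h1.trans h3
      _ = 2 * exp (0.91 * L) := by
          rw [mul_assoc, ← Real.exp_add]; congr 2; ring
      _ ≤ 0.03 * exp (0.93 * L) := by
          have h4 : exp (0.93 * L) = exp (0.02 * L) * exp (0.91 * L) := by
            rw [← Real.exp_add]; congr 1; ring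
          have h5 : (100 : ℝ) ≤ exp (0.02 * L) := by
            have h6 := Real.add_one_le_exp (0.01 * L)
            have h7 : exp (0.02 * L) = exp (0.01 * L) * exp (0.01 * L) := by
              rw [← Real.exp_add]; congr 1; ring
            rw [h7]
            have h8 : (11 : ℝ) ≤ exp (0.01 * L) := by linarith only [hL, h6]
            nlinarith only [hL, h6, h0, h1, h3, hl2, hl20]
          rw [h4]
          nlinarith only [exp_pos (0.91 * L), hl2, hl20, h5]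
      _ ≤ 0.03 * τ := by linarith only [hτ]
  have hlogJ : log ((16 * exp (0.02 * (p + log 2)) / exp (-(A * L))) ^ J) ≤ 0.06 * τ := by
    rw [Real.log_pow]
    have h1 : log (16 * exp (0.02 * (p + log 2)) / exp (-(A * L))) ≤
        0.02 * p + (A + 1) * L := by
      rw [Real.log_div (by positivity) (exp_pos _).ne', Real.log_mul (by norm_num)
        (exp_pos _).ne', Real.log_exp, Real.log_exp]
      have h2 : log 16 ≤ 4 := by
        have : (16 : ℝ) = 2 ^ 4 := by norm_num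
        rw [this, Real.log_pow]
        push_cast
        linarith only [hl2]
      linarith only [hL, hl2, hl20, h2]
    have h3 : 0 ≤ 0.02 * p + (A + 1) * L := by positivity
    calc (J : ℝ) * log (16 * exp (0.02 * (p + log 2)) / exp (-(A * L)))
        ≤ J * (0.02 * p + (A + 1) * L) := by gcongr
      _ ≤ ((2 * τ + 3) / p + 1) * (0.02 * p + (A + 1) * L) := by gcongr
      _ ≤ ((2 * τ + 3) / p + 1) * (0.021 * p) := by
          apply mul_le_mul_of_nonneg_left (by linarith only [hL, hpb, hAL, hl2, hl20])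
          have : 0 ≤ (2 * τ + 3) / p := div_nonneg (by linarith only [hL, hpb, hAL, hl2, hl20, hτ5]) hp0.le
          linarith only [hl2, hl20, this]
      _ = 0.021 * (2 * τ + 3) + 0.021 * p := by field_simp
      _ ≤ 0.06 * τ := by linarith only [hL, hpb, hAL, hl2, hl20, hτ5]
  have hlogT : log (T ^ (0.8 : ℝ) + 1) ≤ 0.8 * τ + 1 := by
    have h1 : (1 : ℝ) ≤ T ^ (0.8 : ℝ) := by
      apply Real.one_le_rpow _ (by norm_num)
      rw [hT]
      exact Real.one_le_exp (by linarith only [hL, hpb, hAL, hl2, hl20, hτ5])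
    calc log (T ^ (0.8 : ℝ) + 1) ≤ log (2 * T ^ (0.8 : ℝ)) := by
          apply Real.log_le_log (by linarith only [hl2, hl20, h1]) (by linarith only [h1])
      _ = log 2 + 0.8 * τ := by
          rw [Real.log_mul (by norm_num) hT8.ne', Real.log_rpow hTpos, hT, Real.log_exp]
      _ ≤ _ := by linarith only [hl2]
  have hbase : 0 < 16 * exp (0.02 * (p + log 2)) / exp (-(A * L)) := by positivity
  rw [← Real.log_le_log_iff (by positivity) (by positivity), Real.log_mul (by positivity)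
    (by positivity), Real.log_mul (by positivity) (by positivity), Real.log_rpow hTpos]
  have hlT : log T = τ := by rw [hT, Real.log_exp]
  rw [hlT]
  linarith only [hlogT, hlogJ, hlogR, hτ5, hl20, hl2, hAL, hpb, hL]

/-- large `L` satisfy the elementary facts -/
lemma invParam_big {A : ℝ} (hA : 0 < A) {r : ℕ} (hr : 300 * (A + 1) ≤ r) :
    ∃ L₀ : ℝ, ∀ L : ℝ, L₀ ≤ L → InvParamBig A L r := by
  have h1 : ∀ᶠ L : ℝ in Filter.atTop, 1000 * ((r : ℝ) + 1) * (A + 1) ≤ L :=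
    Filter.eventually_ge_atTop _
  have h2 : ∀ᶠ L : ℝ in Filter.atTop, log L ≤ 0.01 * L := by
    have := Real.isLittleO_log_id_atTop.bound (show (0 : ℝ) < 0.01 by norm_num)
    filter_upwards [this, Filter.eventually_ge_atTop 1] with L hL hL1
    rw [Real.norm_eq_abs, Real.norm_eq_abs, id, abs_of_nonneg (Real.log_nonneg hL1),
      abs_of_nonneg (by linarith only [hL1])] at hL
    exact hL
  have h3 : ∀ᶠ L : ℝ in Filter.atTop, L ^ (20 * r + 40) ≤ exp (0.01 * L) := by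
    have := (isLittleO_pow_exp_pos_mul_atTop (20 * r + 40)
      (show (0 : ℝ) < 0.01 by norm_num)).bound (show (0 : ℝ) < 1 by norm_num)
    filter_upwards [this, Filter.eventually_ge_atTop 1] with L hL hL1
    rw [Real.norm_eq_abs, Real.norm_eq_abs, abs_of_nonneg (by positivity),
      abs_of_nonneg (exp_pos _).le, one_mul] at hL
    exact hL
  obtain ⟨L₀, h⟩ := Filter.eventually_atTop.mp (h1.and (h2.and h3))
  exact ⟨L₀, fun L hL => ⟨hA, hr, (h L hL).1, (h L hL).2.1, (h L hL).2.2⟩⟩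

/-- (I7) choice of the parameters -/
theorem param : ParamStmt := by
  intro A hA
  obtain ⟨r, hr⟩ := exists_nat_ge (300 * (A + 1))
  obtain ⟨L₀, hL₀⟩ := invParam_big hA hr
  refine ⟨r, exp (exp L₀), ?_⟩
  intro y hy P S hP hS T hT1 hT2
  have hl0 : exp L₀ ≤ log y := by
    rw [Real.le_log_iff_exp_le (lt_of_lt_of_le (exp_pos _) hy)]
    exact hy
  have hlpos : 0 < log y := lt_of_lt_of_le (exp_pos _) hl0
  set L : ℝ := log (log y) with hL
  have hLL : L₀ ≤ L := by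
    rw [hL, Real.le_log_iff_exp_le hlpos]
    exact hl0
  have h := hL₀ L hLL
  have hl : log y = exp L := by rw [hL, Real.exp_log hlpos]
  have hy0 : 0 < y := lt_of_lt_of_le (exp_pos _) hy
  have hL1000 := h.L1000
  have hr1 := h.r1
  have hAL : 0 ≤ A * L := by positivity
  -- rewriting powers of `log y`
  have eA : (log y) ^ A = exp (A * L) := by rw [hl, ← Real.exp_mul, mul_comm]
  have eA' : (log y) ^ (-A) = exp (-(A * L)) := by rw [hl, ← Real.exp_mul]; congr 1; ring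
  have e93 : (log y) ^ (0.93 : ℝ) = exp (0.93 * L) := by rw [hl, ← Real.exp_mul, mul_comm]
  rw [e93] at hT1
  rw [eA'] at *
  rw [eA] at hS
  have hP' : ∀ j ≤ r, 0 < P j ∧ L ^ (10 * j + 3) ≤ log (P j) ∧ log (P j) ≤ L ^ (10 * j + 5) := hP
  have hS' : ∀ j ≤ r, exp (log (P j) - A * L) ≤ S j := by
    intro j hj
    refine le_trans (le_of_eq ?_) (hS j hj)
    rw [Real.exp_sub, Real.exp_log (hP j hj).1]
  set p : ℝ := log (P 0) with hp
  have hPp : P 0 = exp p := by rw [hp, Real.exp_log (hP 0 (Nat.zero_le _)).1]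
  have hp3 : L ^ 3 ≤ p := by simpa using (hP' 0 (Nat.zero_le _)).2.1
  have hp5 : p ≤ L ^ 5 := by simpa using (hP' 0 (Nat.zero_le _)).2.2
  have hpb := h.p_big hp3
  have hp0 : 0 < p := by linarith only [hpb, hAL, hL1000]
  -- `T`
  have hTpos : 0 < T := lt_of_lt_of_le (exp_pos _) hT1
  set τ : ℝ := log T with hτ
  have hTτ : T = exp τ := by rw [hτ, Real.exp_log hTpos]
  have hτ1 : exp (0.93 * L) ≤ τ := by
    rw [hτ, Real.le_log_iff_exp_le hTpos]
    exact hT1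
  have hτ2 : τ ≤ exp L := by
    rw [hτ, ← hl]
    exact Real.log_le_log hTpos hT2
  have hτ0 : 0 ≤ τ := (exp_pos _).le.trans hτ1
  -- `n0`
  set n0 : ℕ := ⌊exp (0.9 * L)⌋₊ with hn0def
  have hn0 : (n0 : ℝ) ≤ exp (0.9 * L) := Nat.floor_le (exp_pos _).le
  have hn0' : exp (0.8 * L) ≤ n0 := by
    have h1 := Nat.lt_floor_add_one (exp (0.9 * L))
    have h2 : exp (0.9 * L) = exp (0.1 * L) * exp (0.8 * L) := by
      rw [← Real.exp_add]; congr 1; ring
    have h3 := Real.add_one_le_exp (0.1 * L)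
    have h4 : (1 : ℝ) ≤ exp (0.8 * L) := Real.one_le_exp (by linarith only [hL1000])
    have h5 : 2 * exp (0.8 * L) ≤ exp (0.9 * L) := by
      rw [h2]
      have : (2 : ℝ) ≤ exp (0.1 * L) := by linarith only [hL1000, h3]
      gcongr
    rw [hn0def]
    linarith only [h5, h4, h1]
  have hn01 : (1 : ℝ) ≤ n0 := (Real.one_le_exp (by linarith only [hL1000])).trans hn0'
  have hn0pos : (0 : ℝ) < n0 := by linarith only [hn01]
  -- `k`
  have hν : 0.8 * r * L ≤ r * log n0 := by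
    have h1 : 0.8 * L ≤ log n0 := by
      rw [Real.le_log_iff_exp_le hn0pos]
      exact hn0'
    calc 0.8 * (r : ℝ) * L = r * (0.8 * L) := by ring
      _ ≤ r * log n0 := by gcongr
  obtain ⟨k, hk1, hkν, hk, hk5⟩ := invParam_k h hp3 hp5 hν
  obtain ⟨J, hJ1, hJ2, hJ3⟩ := invParam_J h hp3 hτ0 hτ2 (hS' 0 (Nat.zero_le _))
  have hNk : 2 * exp p ≤ ((n0 : ℝ) ^ r) ^ k := by
    have h1 : ((n0 : ℝ) ^ r) ^ k = exp (k * (r * log n0)) := by
      rw [← pow_mul, mul_comm r k]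
      have : (n0 : ℝ) ^ (k * r) = exp (((k * r : ℕ) : ℝ) * log n0) := by
        rw [Real.exp_nat_mul, Real.exp_log hn0pos]
      rw [this]
      congr 1
      push_cast
      ring
    have h2 : 2 * exp p = exp (log 2 + p) := by
      rw [Real.exp_add, Real.exp_log (show (0:ℝ) < 2 by norm_num)]
    rw [h1, h2]
    exact Real.exp_le_exp.mpr hkν
  have hpP : ∀ j : Fin r, L ^ 13 ≤ log (P (j + 1)) := by
    intro j
    refine le_trans (h.pow_mono ?_) (hP' (j + 1) j.2).2.1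
    omega
  have hL13 : 2 * L ^ 5 ≤ L ^ 13 := by
    have h1 : L ^ 6 ≤ L ^ 13 := h.pow_mono (by norm_num)
    have h2 : L ^ 6 = L * L ^ 5 := by ring
    have h3 : 0 < L ^ 5 := by positivity
    linarith only [mul_nonneg (sub_nonneg.2 hL1000) (sub_nonneg.2 hAL), mul_nonneg (sub_nonneg.2 hL1000) (sub_nonneg.2 hpb), mul_nonneg (sub_nonneg.2 hL1000) (sub_nonneg.2 hp5), mul_nonneg (sub_nonneg.2 hL1000) (sub_nonneg.2 hL1000), mul_nonneg (le_of_lt (sub_pos.2 hA)) (sub_nonneg.2 hL1000), h1, hpb, hp5, hL1000, hA]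
  have hL5 : 1 ≤ L ^ 5 := one_le_pow₀ h.L1
  have hl2 : log 2 < 1 := by linarith only [Real.log_two_lt_d9]
  refine ⟨k, n0, J, L ^ (10 * r + 10), exp (0.02 * (p + log 2)), hk1, by exact_mod_cast hn01,
    exp_pos _, ?_, ?_, ?_, ?_, ?_, ?_, ?_, by positivity, ?_, ?_, ?_, ?_, ?_, ?_, ?_⟩
  · rw [hPp]
    exact Real.one_lt_exp_iff.mpr hp0
  · intro j
    have h1 := (hP' (j + 1) j.2).1
    rw [← Real.log_nonneg_iff h1]
    have := hpP j
    have : (0 : ℝ) ≤ L ^ 13 := by positivity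
    linarith
  · intro j
    have h1 := (hP' (j + 1) j.2).1
    rw [hPp, ← Real.log_lt_log_iff (by positivity) h1, Real.log_mul (by norm_num)
      (exp_pos _).ne', Real.log_exp]
    have := hpP j
    linarith only [hL1000, hAL, hp5, hpb, hL13, hl2, this]
  · exact lt_of_lt_of_le (exp_pos _) (hS' 0 (Nat.zero_le _))
  · exact fun j => lt_of_lt_of_le (exp_pos _) (hS' (j + 1) j.2)
  · exact invParam_left h hP' hS' hn0
  · exact invParam_sep h hP' hk1 hk5
  · exact invParam_w h hP' hk1 hk5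
  · exact Real.one_le_exp (by have := Real.log_pos (show (1 : ℝ) < 2 by norm_num); positivity)
  · rw [hPp]
    exact invParam_mom h hp3 hk1 hk hk5 (hS' 0 (Nat.zero_le _)) (pow_pos hn0pos r) hNk
  · exact hJ3
  · rw [hTτ]
    exact Real.one_le_exp hτ0
  · have h1 : P 0 ^ J = exp (J * p) := by rw [hPp, ← Real.exp_nat_mul]
    have h2 : 4 * T ^ 2 = exp (log 4 + 2 * τ) := by
      rw [Real.exp_add, Real.exp_log (by norm_num), hTτ, ← Real.exp_nat_mul]
      norm_num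
    rw [h1, h2]
    apply Real.exp_lt_exp.mpr
    have h3 : log 4 < 3 := by
      have : (4 : ℝ) = 2 ^ 2 := by norm_num
      rw [this, Real.log_pow]
      push_cast
      linarith only [hl2]
    linarith only [hJ1, h3]
  · exact invParam_final h hP' hp3 hp5 hn0 hTτ hτ1 hJ2

end Vale.Agent.P013.J
end

section

/-!
# The inverse theorem
-/

namespace Vale.Agent.P013.J

theorem inverse : InverseStmt := inverse_of_param param

end Vale.Agent.P013.J
end

section

/-!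
# Approximation of `ζ(s)` by its partial sums for `Re s > 0`
-/

open Finset Filter MeasureTheory Topology Complex Asymptotics

namespace Vale.Agent.P013.J.ZApp

/-- the function whose Mellin transform is the remainder -/
noncomputable def fZ (N : ℕ) : ℝ → ℂ :=
  (Set.Ioi (N : ℝ)).indicator (fun t => ((Int.fract t : ℝ) : ℂ))

lemma norm_fZ_le (N : ℕ) (t : ℝ) : ‖fZ N t‖ ≤ 1 := by
  unfold fZ
  by_cases h : t ∈ Set.Ioi (N : ℝ)
  · rw [Set.indicator_of_mem h, Complex.norm_real, Real.norm_eq_abs,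
      abs_of_nonneg (Int.fract_nonneg t)]
    exact (Int.fract_lt_one t).le
  · rw [Set.indicator_of_notMem h]; simp

lemma measurable_fZ (N : ℕ) : Measurable (fZ N) :=
  (Complex.measurable_ofReal.comp measurable_fract).indicator measurableSet_Ioi

lemma mellin_fZ (N : ℕ) (s : ℂ) :
    mellin (fZ N) (-s) =
      ∫ t in Set.Ioi (N : ℝ), ((Int.fract t : ℝ) : ℂ) * (t : ℂ) ^ (-(s + 1)) := by
  rw [mellin]
  have h1 : ∀ t : ℝ, (t : ℂ) ^ (-s - 1) • fZ N t =
      (Set.Ioi (N : ℝ)).indicator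
        (fun t : ℝ => ((Int.fract t : ℝ) : ℂ) * (t : ℂ) ^ (-(s + 1))) t := by
    intro t
    unfold fZ
    by_cases h : t ∈ Set.Ioi (N : ℝ)
    · rw [Set.indicator_of_mem h, Set.indicator_of_mem h, smul_eq_mul, mul_comm]
      congr 2
      ring
    · rw [Set.indicator_of_notMem h, Set.indicator_of_notMem h, smul_zero]
  simp_rw [h1]
  rw [setIntegral_indicator measurableSet_Ioi]
  congr 2
  ext t
  simp only [Set.mem_inter_iff, Set.mem_Ioi]
  constructor
  · exact fun h => h.2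
  · exact fun h => ⟨lt_of_le_of_lt (Nat.cast_nonneg N) h, h⟩

lemma mellin_fZ_differentiableAt {N : ℕ} (hN : 1 ≤ N) {s : ℂ} (hs : s.re < 0) :
    DifferentiableAt ℂ (mellin (fZ N)) s := by
  refine mellin_differentiableAt_of_isBigO_rpow (a := 0) (b := s.re - 1) ?_ ?_ hs ?_ (by linarith)
  · refine (MeasureTheory.locallyIntegrable_const (μ := volume) ((1 : ℝ))).mono
      (measurable_fZ N).aestronglyMeasurable ?_ |>.locallyIntegrableOn _
    refine Eventually.of_forall fun t => ?_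
    simpa using norm_fZ_le N t
  · refine IsBigO.of_bound 1 ?_
    filter_upwards with t
    simpa using norm_fZ_le N t
  · refine IsBigO.of_bound 1 ?_
    have : ∀ᶠ t : ℝ in 𝓝[>] 0, t < 1 :=
      eventually_nhdsWithin_of_eventually_nhds (eventually_lt_nhds one_pos)
    filter_upwards [this] with t ht
    have hN' : (1 : ℝ) ≤ N := by exact_mod_cast hN
    have : fZ N t = 0 := Set.indicator_of_notMem (by
      simp only [Set.mem_Ioi, not_lt]; linarith) _
    rw [this, norm_zero]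
    positivity

/-- the coefficients of the tail -/
noncomputable def cZ (N : ℕ) (n : ℕ) : ℂ := if n ≤ N then 0 else 1

lemma sum_cZ (N n : ℕ) : ∑ k ∈ Icc 1 n, cZ N k = ((n - N : ℕ) : ℂ) := by
  have h : (Icc 1 n).filter (fun k => ¬ k ≤ N) = Icc (N + 1) n := by
    ext k
    simp only [Finset.mem_filter, Finset.mem_Icc]
    omega
  simp only [cZ]
  rw [Finset.sum_ite, Finset.sum_const_zero, zero_add, Finset.sum_const, h, Nat.card_Icc]
  simp

lemma zeta_split {N : ℕ} {s : ℂ} (hs : 1 < s.re) :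
    riemannZeta s = ∑ n ∈ Icc 1 N, (n : ℂ) ^ (-s) + LSeries (cZ N) s := by
  have hs0 : s ≠ 0 := by
    intro h
    rw [h] at hs
    simp at hs
    linarith
  have hg : LSeriesSummable (fun n => if n ≤ N then (1 : ℂ) else 0) s := by
    refine summable_of_ne_finset_zero (s := Finset.range (N + 1)) fun n hn => ?_
    rw [LSeries.term_def]
    have : ¬ n ≤ N := by
      intro h
      exact hn (Finset.mem_range.mpr (by omega))
    simp [this]
  have h1 : LSeriesSummable 1 s := LSeriesSummable_one_iff.mpr hs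
  have hc : LSeriesSummable (cZ N) s := by
    have := h1.sub hg
    refine (LSeriesSummable_congr s fun {n} hn => ?_).mp this
    simp only [Pi.sub_apply, Pi.one_apply, cZ]
    split_ifs <;> simp
  have h2 : LSeries 1 s = LSeries (fun n => if n ≤ N then (1 : ℂ) else 0) s + LSeries (cZ N) s := by
    rw [← LSeries_add hg hc]
    refine LSeries_congr (fun {n} hn => ?_) s
    simp only [Pi.add_apply, Pi.one_apply, cZ]
    split_ifs <;> simp
  rw [← LSeries_one_eq_riemannZeta hs, h2]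
  congr 1
  rw [LSeries, tsum_eq_sum (s := Icc 1 N)]
  · refine Finset.sum_congr rfl fun n hn => ?_
    have hn' := Finset.mem_Icc.mp hn
    rw [LSeries.term_of_ne_zero (by omega), if_pos hn'.2, Complex.cpow_neg, one_div]
  · intro n hn
    rw [LSeries.term_def]
    split_ifs with h0 h1
    · rfl
    · exact absurd (Finset.mem_Icc.mpr ⟨by omega, h1⟩) hn
    · simp

lemma integral_part {N : ℕ} (hN : 1 ≤ N) {s : ℂ} (hs : 1 < s.re) :
    s * ∫ t in Set.Ioi (1 : ℝ), (∑ k ∈ Icc 1 ⌊t⌋₊, cZ N k) * (t : ℂ) ^ (-(s + 1)) =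
      (N : ℂ) ^ (1 - s) / (s - 1) - s * mellin (fZ N) (-s) := by
  have hN' : (1 : ℝ) ≤ N := by exact_mod_cast hN
  have hN0 : (0 : ℝ) < N := by linarith
  have hNc : (N : ℂ) ≠ 0 := by exact_mod_cast (by omega : N ≠ 0)
  have hs0 : s ≠ 0 := by
    intro h
    rw [h] at hs
    simp at hs
    linarith
  have hs1 : s - 1 ≠ 0 := by
    intro h
    have : s = 1 := by linear_combination h
    rw [this] at hs
    simp at hs
  have e1 : ∫ t in Set.Ioi (1 : ℝ), (∑ k ∈ Icc 1 ⌊t⌋₊, cZ N k) * (t : ℂ) ^ (-(s + 1)) =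
      ∫ t in Set.Ioi (N : ℝ), ((t : ℂ) ^ (-s) - (N : ℂ) * (t : ℂ) ^ (-(s + 1)) -
        ((Int.fract t : ℝ) : ℂ) * (t : ℂ) ^ (-(s + 1))) := by
    have : ∀ t ∈ Set.Ioi (1 : ℝ), (∑ k ∈ Icc 1 ⌊t⌋₊, cZ N k) * (t : ℂ) ^ (-(s + 1)) =
        (Set.Ioi (N : ℝ)).indicator (fun t : ℝ => ((t : ℂ) ^ (-s) -
          (N : ℂ) * (t : ℂ) ^ (-(s + 1)) -
          ((Int.fract t : ℝ) : ℂ) * (t : ℂ) ^ (-(s + 1)))) t := by
      intro t ht
      have ht1 : (1 : ℝ) < t := ht
      have ht0 : (0 : ℝ) < t := by linarith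
      have htc : (t : ℂ) ≠ 0 := by exact_mod_cast ht0.ne'
      rw [sum_cZ]
      by_cases h : t ∈ Set.Ioi (N : ℝ)
      · have htN : (N : ℝ) < t := h
        rw [Set.indicator_of_mem h]
        have hle : N ≤ ⌊t⌋₊ := Nat.le_floor htN.le
        rw [Nat.cast_sub hle]
        have hfl : ((⌊t⌋₊ : ℕ) : ℂ) = (t : ℂ) - ((Int.fract t : ℝ) : ℂ) := by
          have h3 : ((⌊t⌋₊ : ℕ) : ℝ) = t - Int.fract t := by
            rw [Int.self_sub_fract]
            exact natCast_floor_eq_intCast_floor ht0.le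
          rw [← Complex.ofReal_sub, ← h3]
          simp
        rw [hfl]
        have hp : (t : ℂ) ^ (-s) = (t : ℂ) * (t : ℂ) ^ (-(s + 1)) := by
          rw [show -s = 1 + (-(s + 1)) by ring, Complex.cpow_add _ _ htc, Complex.cpow_one]
        rw [hp]
        ring
      · rw [Set.indicator_of_notMem h]
        have htN : t ≤ (N : ℝ) := by simpa using h
        have hle : ⌊t⌋₊ ≤ N := by
          have := Nat.floor_le_floor htN
          simpa using this
        rw [Nat.sub_eq_zero_of_le hle]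
        simp
    rw [setIntegral_congr_fun measurableSet_Ioi this, setIntegral_indicator measurableSet_Ioi]
    congr 2
    ext t
    simp only [Set.mem_inter_iff, Set.mem_Ioi]
    constructor
    · exact fun h => h.2
    · exact fun h => ⟨lt_of_le_of_lt hN' h, h⟩
  have i1 : IntegrableOn (fun t : ℝ => (t : ℂ) ^ (-s)) (Set.Ioi (N : ℝ)) :=
    integrableOn_Ioi_cpow_of_lt (by simpa using hs) hN0
  have i2 : IntegrableOn (fun t : ℝ => (t : ℂ) ^ (-(s + 1))) (Set.Ioi (N : ℝ)) :=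
    integrableOn_Ioi_cpow_of_lt (by simp; linarith) hN0
  have i3 : IntegrableOn (fun t : ℝ => ((Int.fract t : ℝ) : ℂ) * (t : ℂ) ^ (-(s + 1)))
      (Set.Ioi (N : ℝ)) := by
    refine Integrable.bdd_mul (c := 1) i2 ?_ ?_
    · exact (Complex.measurable_ofReal.comp measurable_fract).aestronglyMeasurable
    · refine Eventually.of_forall fun t => ?_
      rw [Complex.norm_real, Real.norm_eq_abs, abs_of_nonneg (Int.fract_nonneg t)]
      exact (Int.fract_lt_one t).le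
  have i12 : IntegrableOn (fun t : ℝ => (t : ℂ) ^ (-s) - (N : ℂ) * (t : ℂ) ^ (-(s + 1)))
      (Set.Ioi (N : ℝ)) := i1.sub (i2.const_mul _)
  rw [e1, integral_sub i12 i3, integral_sub i1 (i2.const_mul _),
    integral_const_mul, integral_Ioi_cpow_of_lt (by simpa using hs) hN0,
    integral_Ioi_cpow_of_lt (by simp; linarith) hN0, mellin_fZ]
  have hp : (((N : ℝ) : ℂ)) ^ (-s + 1) = (N : ℂ) ^ (1 - s) := by
    rw [show -s + 1 = 1 - s by ring]
    simp
  have hp2 : (((N : ℝ) : ℂ)) ^ (-(s + 1) + 1) = (N : ℂ) ^ (1 - s) / N := by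
    rw [show -(s + 1) + 1 = (1 - s) - 1 by ring]
    simp only [Complex.ofReal_natCast]
    rw [Complex.cpow_sub _ _ hNc, Complex.cpow_one]
  rw [hp, hp2]
  have hs1' : -s + 1 ≠ 0 := by
    intro h
    exact hs1 (by linear_combination -h)
  have hs0' : -(s + 1) + 1 ≠ 0 := by
    intro h
    exact hs0 (by linear_combination -h)
  field_simp
  ring

/-- the identity for `ζ(s)`, `Re s > 0`, in terms of the entire function `riemannZeta₁` -/
theorem zeta1_eq {N : ℕ} (hN : 1 ≤ N) {s : ℂ} (hs : 0 < s.re) :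
    riemannZeta₁ s = (s - 1) * ∑ n ∈ Icc 1 N, (n : ℂ) ^ (-s) + (N : ℂ) ^ (1 - s) -
      (s - 1) * (s * mellin (fZ N) (-s)) := by
  have hopen : IsOpen {s : ℂ | 0 < s.re} := continuous_re.isOpen_preimage _ isOpen_Ioi
  have hNc : (N : ℂ) ≠ 0 := by exact_mod_cast (by omega : N ≠ 0)
  have hA : AnalyticOnNhd ℂ riemannZeta₁ {s : ℂ | 0 < s.re} :=
    differentiable_riemannZeta₁.differentiableOn.analyticOnNhd hopen
  have hB : AnalyticOnNhd ℂ (fun s => (s - 1) * ∑ n ∈ Icc 1 N, (n : ℂ) ^ (-s) +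
      (N : ℂ) ^ (1 - s) - (s - 1) * (s * mellin (fZ N) (-s))) {s : ℂ | 0 < s.re} := by
    refine DifferentiableOn.analyticOnNhd (fun s hs => ?_) hopen
    have h1 : DifferentiableAt ℂ (mellin (fZ N)) (-s) :=
      mellin_fZ_differentiableAt hN (by simpa using hs)
    have h2 : DifferentiableAt ℂ (fun s : ℂ => mellin (fZ N) (-s)) s :=
      h1.comp s (differentiableAt_id.neg)
    have h3 : DifferentiableAt ℂ (fun s : ℂ => ∑ n ∈ Icc 1 N, (n : ℂ) ^ (-s)) s := by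
      refine DifferentiableAt.fun_sum fun n hn => ?_
      have hn' := Finset.mem_Icc.mp hn
      have hn0 : (n : ℂ) ≠ 0 := by exact_mod_cast (by omega : n ≠ 0)
      exact (differentiableAt_id.neg).const_cpow (Or.inl hn0)
    have h4 : DifferentiableAt ℂ (fun s : ℂ => (N : ℂ) ^ (1 - s)) s :=
      ((differentiableAt_const _).sub differentiableAt_id).const_cpow (Or.inl hNc)
    have h5 : DifferentiableAt ℂ (fun s : ℂ => s - 1) s :=
      differentiableAt_id.sub (differentiableAt_const _)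
    exact (((h5.mul h3).add h4).sub (h5.mul (differentiableAt_id.mul h2))).differentiableWithinAt
  have hpc : IsPreconnected {s : ℂ | 0 < s.re} := (convex_halfSpace_re_gt 0).isPreconnected
  refine hA.eqOn_of_preconnected_of_eventuallyEq hB hpc (z₀ := 2) (by simp) ?_ hs
  have h2 : {s : ℂ | 1 < s.re} ∈ 𝓝 (2 : ℂ) :=
    (continuous_re.isOpen_preimage _ isOpen_Ioi).mem_nhds (by simp)
  filter_upwards [h2] with z hz
  have hz' : 1 < z.re := hz
  have hz1 : z ≠ 1 := by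
    intro h
    rw [h] at hz'
    simp at hz'
  have hz1' : z - 1 ≠ 0 := sub_ne_zero.mpr hz1
  have hsum : LSeriesSummable (cZ N) z := by
    refine LSeriesSummable_of_bounded_of_one_lt_re (m := 1) (fun n _ => ?_) hz'
    unfold cZ
    split_ifs <;> simp
  have hL : LSeries (cZ N) z = z * ∫ t in Set.Ioi (1 : ℝ),
      (∑ k ∈ Icc 1 ⌊t⌋₊, cZ N k) * (t : ℂ) ^ (-(z + 1)) := by
    refine LSeries_eq_mul_integral (r := 1) _ zero_le_one hz' hsum ?_
    refine IsBigO.of_bound 1 ?_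
    filter_upwards with n
    rw [sum_cZ]
    simp only [Complex.norm_natCast, Real.rpow_one, one_mul, Real.norm_natCast]
    exact_mod_cast Nat.sub_le n N
  have hz := zeta_split (N := N) hz'
  rw [hL, integral_part hN hz'] at hz
  have hz3 : riemannZeta z = (z - 1)⁻¹ * riemannZeta₁ z := by
    grind [riemannZeta₁, riemannZeta₀]
  have : riemannZeta₁ z = (z - 1) * riemannZeta z := by
    rw [hz3]
    field_simp
  rw [this, hz]
  field_simp
  ring

theorem norm_rem_le {N : ℕ} (hN : 1 ≤ N) {s : ℂ} (hs : 0 < s.re) :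
    ‖s * mellin (fZ N) (-s)‖ ≤ ‖s‖ / s.re * (N : ℝ) ^ (-s.re) := by
  have hN' : (1 : ℝ) ≤ N := by exact_mod_cast hN
  have hN0 : (0 : ℝ) < N := by linarith
  rw [norm_mul, mellin_fZ, div_mul_eq_mul_div, mul_div_assoc]
  refine mul_le_mul_of_nonneg_left ?_ (norm_nonneg _)
  have hint : IntegrableOn (fun t : ℝ => t ^ (-(s.re + 1))) (Set.Ioi (N : ℝ)) :=
    integrableOn_Ioi_rpow_of_lt (by linarith) hN0
  calc ‖∫ t in Set.Ioi (N : ℝ), ((Int.fract t : ℝ) : ℂ) * (t : ℂ) ^ (-(s + 1))‖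
      ≤ ∫ t in Set.Ioi (N : ℝ), t ^ (-(s.re + 1)) := by
        refine norm_integral_le_of_norm_le hint ?_
        filter_upwards [ae_restrict_mem measurableSet_Ioi] with t ht
        have ht0 : 0 < t := lt_trans hN0 ht
        rw [norm_mul, Complex.norm_cpow_eq_rpow_re_of_pos ht0, Complex.norm_real,
          Real.norm_eq_abs, abs_of_nonneg (Int.fract_nonneg t)]
        have h1 : (-(s + 1)).re = -(s.re + 1) := by simp
        rw [h1]
        exact mul_le_of_le_one_left (Real.rpow_nonneg ht0.le _) (Int.fract_lt_one t).le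
    _ = (N : ℝ) ^ (-s.re) / s.re := by
        rw [integral_Ioi_rpow_of_lt (by linarith) hN0]
        rw [show -(s.re + 1) + 1 = -s.re by ring]
        rw [neg_div_neg_eq]

end Vale.Agent.P013.J.ZApp

namespace Vale.Agent.P013.J

theorem zapprox : ZApproxStmt := by
  intro s hs hs1 N hN
  have h := ZApp.zeta1_eq hN hs
  have hz1' : s - 1 ≠ 0 := sub_ne_zero.mpr hs1
  have hz3 : riemannZeta s = (s - 1)⁻¹ * riemannZeta₁ s := by
    grind [riemannZeta₁, riemannZeta₀]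
  have h2 : riemannZeta s - ∑ n ∈ Icc 1 N, (n : ℂ) ^ (-s) - (N : ℂ) ^ (1 - s) / (s - 1) =
      -(s * mellin (ZApp.fZ N) (-s)) := by
    rw [hz3, h]
    field_simp
    ring
  rw [h2, norm_neg]
  exact ZApp.norm_rem_le hN hs

end Vale.Agent.P013.J
end

section

/-!
# The Siegel-Walfisz theorem
-/

namespace Vale.Agent.P013.J

/-- Siegel-Walfisz -/
theorem sw : SWStmt :=
  sw_of (rieszAP (rieszChar (logDeriv (lgrowth lapprox) (llower siegel (lgrowth lapprox) zapprox)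
    quot) gkBound riesz) (rieszZeta (zlogDeriv (zgrowth zapprox) (zlower (zgrowth zapprox) zapprox)
    quot) gkBound riesz)) desmooth

end Vale.Agent.P013.J
end

section

/-!
# BV-lite: from `psiAP x q h - x / φ(q)` to the kernel sum
-/

open Finset ArithmeticFunction

namespace Vale.Agent.P013.J.BV

lemma sum_inv_Icc_le (Q : ℕ) (x : ℝ) (hx : 1 ≤ x) (hQ : (Q : ℝ) ≤ x) :
    ∑ q ∈ Icc 1 Q, 1 / (q : ℝ) ≤ 1 + Real.log x := by
  have h1 : ((harmonic Q : ℚ) : ℝ) = ∑ q ∈ Icc 1 Q, 1 / (q : ℝ) := by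
    rw [harmonic_eq_sum_Icc]
    push_cast
    simp
  rw [← h1]
  rcases Nat.eq_zero_or_pos Q with h | h
  · subst h
    simp
    have := Real.log_nonneg hx
    linarith only [this]
  · refine le_trans (harmonic_le_one_add_log Q) ?_
    have h2 : (0 : ℝ) < Q := by exact_mod_cast h
    have := Real.log_le_log h2 hQ
    linarith only [this]

/-- the kernel sum in terms of `psiAP` -/
lemma kernel_sum_eq (x : ℝ) (q h : ℕ) :
    ∑ n ∈ Icc 1 ⌊x⌋₊, vonMangoldt n * K q h n = psiAP x q h -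
      (1 / (Nat.totient q : ℝ)) *
        (∑ n ∈ Icc 1 ⌊x⌋₊, vonMangoldt n -
          ∑ n ∈ (Icc 1 ⌊x⌋₊).filter (fun n => ¬ Nat.Coprime n q), vonMangoldt n) := by
  unfold psiAP K
  rw [← Finset.sum_filter_add_sum_filter_not (Icc 1 ⌊x⌋₊) (fun n => Nat.Coprime n q)
    (fun n => vonMangoldt n), add_sub_cancel_right, Finset.mul_sum, Finset.sum_filter,
    Finset.sum_filter, ← Finset.sum_sub_distrib]
  apply Finset.sum_congr rfl
  intro n _
  split_ifs <;> ring

theorem bv_red (hsw : SWStmt) : ∀ C : ℝ, 0 < C → ∃ x₀ : ℝ, ∀ x : ℝ, x₀ ≤ x →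
    ∀ h : ℕ → ℕ, (∀ q, 1 ≤ q → Nat.Coprime (h q) q) →
      ∑ q ∈ Icc 1 ⌊x ^ (1 / 100 : ℝ)⌋₊, |psiAP x q (h q) - x / (Nat.totient q : ℝ) -
        ∑ n ∈ Icc 1 ⌊x⌋₊, vonMangoldt n * K q (h q) n| ≤ x / (Real.log x) ^ C := by
  intro C hC
  obtain ⟨x₁, hx₁⟩ := hsw (C + 3) (by linarith)
  have hev : ∀ᶠ x : ℝ in Filter.atTop, 16 ≤ Real.log x ∧ 1 ≤ x ∧
      8 * (Real.log x) ^ (C + 2) ≤ x ^ (99 / 100 : ℝ) := by
    have h1 : (fun x : ℝ => (Real.log x) ^ (C + 2)) =o[Filter.atTop]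
        (fun x : ℝ => x ^ (99 / 100 : ℝ)) :=
      isLittleO_log_rpow_rpow_atTop (C + 2) (by norm_num)
    have h2 := h1.def (show (0 : ℝ) < 1 / 8 by norm_num)
    filter_upwards [h2, Real.tendsto_log_atTop.eventually_ge_atTop 16,
      Filter.eventually_ge_atTop 1] with x hx hlog hx1
    refine ⟨hlog, hx1, ?_⟩
    rw [Real.norm_eq_abs, Real.norm_eq_abs, abs_of_nonneg (Real.rpow_nonneg (by linarith only [hlog]) _),
      abs_of_nonneg (Real.rpow_nonneg (by linarith only [hx1]) _)] at hx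
    linarith only [hx]
  obtain ⟨x₂, hx₂⟩ := Filter.eventually_atTop.mp hev
  refine ⟨max x₁ x₂, fun x hx h hh => ?_⟩
  obtain ⟨hL, hx1, hpow⟩ := hx₂ x (le_trans (le_max_right _ _) hx)
  have hsw1 := hx₁ x (le_trans (le_max_left _ _) hx)
  set L := Real.log x with hLdef
  set X := ⌊x⌋₊ with hX
  set Q := ⌊x ^ (1 / 100 : ℝ)⌋₊ with hQ
  have hx0 : (0 : ℝ) < x := by linarith only [hx1]
  have hL0 : 0 < L := by linarith only [hL]
  have hX1 : 1 ≤ X := Nat.le_floor (by simpa using hx1)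
  have hXx : (X : ℝ) ≤ x := Nat.floor_le hx0.le
  have hlogX : Real.log X ≤ L := Real.log_le_log (by exact_mod_cast hX1) hXx
  have hQx' : (Q : ℝ) ≤ x ^ (1 / 100 : ℝ) := Nat.floor_le (Real.rpow_nonneg hx0.le _)
  have hxx : x ^ (1 / 100 : ℝ) ≤ x := by
    calc x ^ (1 / 100 : ℝ) ≤ x ^ (1 : ℝ) := Real.rpow_le_rpow_of_exponent_le hx1 (by norm_num)
      _ = x := Real.rpow_one x
  have hQx : (Q : ℝ) ≤ x := le_trans hQx' hxx
  have hQX : Q ≤ X := Nat.le_floor hQx
  -- the prime number theorem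
  have hpnt : |∑ n ∈ Icc 1 X, vonMangoldt n - x| ≤ x / L ^ (C + 3) := by
    have h1 := hsw1 1 1 le_rfl (by
      push_cast
      exact Real.one_le_rpow (by linarith only [hL]) (by linarith only [hC])) (by simp)
    have h2 : psiAP x 1 1 = ∑ n ∈ Icc 1 X, vonMangoldt n := by
      unfold psiAP
      rw [Finset.filter_true_of_mem]
      intro n _
      exact Nat.modEq_one
    rw [h2] at h1
    simpa using h1
  -- each term
  have hterm : ∀ q ∈ Icc 1 Q, |psiAP x q (h q) - x / (Nat.totient q : ℝ) -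
      ∑ n ∈ Icc 1 X, vonMangoldt n * K q (h q) n| ≤
      2 * (1 + L) * (x / L ^ (C + 3)) * (1 / (q : ℝ)) + 2 * (1 + L) * L := by
    intro q hq
    rw [Finset.mem_Icc] at hq
    have hq0 : (0 : ℝ) < q := by exact_mod_cast hq.1
    have hφ : (0 : ℝ) < Nat.totient q := by exact_mod_cast Nat.totient_pos.2 hq.1
    have hratio : (q : ℝ) / Nat.totient q ≤ 2 * (1 + L) := by
      refine le_trans (ratio_le hq.1 (le_trans hq.2 hQX)) ?_
      linarith only [hlogX]
    have hnc := sum_not_coprime_le (q := q) (N := X) hq.1 hX1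
    have hnc0 : 0 ≤ ∑ n ∈ (Icc 1 X).filter (fun n => ¬ Nat.Coprime n q), vonMangoldt n :=
      Finset.sum_nonneg (fun n _ => vonMangoldt_nonneg)
    rw [kernel_sum_eq x q (h q)]
    have heq : psiAP x q (h q) - x / (Nat.totient q : ℝ) - (psiAP x q (h q) -
        (1 / (Nat.totient q : ℝ)) * (∑ n ∈ Icc 1 X, vonMangoldt n -
          ∑ n ∈ (Icc 1 X).filter (fun n => ¬ Nat.Coprime n q), vonMangoldt n)) =
        (1 / (Nat.totient q : ℝ)) * ((∑ n ∈ Icc 1 X, vonMangoldt n - x) -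
          ∑ n ∈ (Icc 1 X).filter (fun n => ¬ Nat.Coprime n q), vonMangoldt n) := by
      ring
    rw [heq, abs_mul, abs_of_pos (by positivity : (0 : ℝ) < 1 / (Nat.totient q : ℝ))]
    have h3 : |(∑ n ∈ Icc 1 X, vonMangoldt n - x) -
          ∑ n ∈ (Icc 1 X).filter (fun n => ¬ Nat.Coprime n q), vonMangoldt n| ≤
        x / L ^ (C + 3) + q * L := by
      refine le_trans (abs_sub _ _) ?_
      apply add_le_add hpnt
      rw [abs_of_nonneg hnc0]
      refine le_trans hnc ?_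
      exact mul_le_mul_of_nonneg_left hlogX hq0.le
    have h4 : 0 ≤ x / L ^ (C + 3) := by positivity
    calc 1 / (Nat.totient q : ℝ) * |(∑ n ∈ Icc 1 X, vonMangoldt n - x) -
          ∑ n ∈ (Icc 1 X).filter (fun n => ¬ Nat.Coprime n q), vonMangoldt n|
        ≤ 1 / (Nat.totient q : ℝ) * (x / L ^ (C + 3) + q * L) := by
          apply mul_le_mul_of_nonneg_left h3 (by positivity)
      _ = (q : ℝ) / Nat.totient q * ((x / L ^ (C + 3)) * (1 / (q : ℝ)) + L) := by
          field_simp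
      _ ≤ 2 * (1 + L) * ((x / L ^ (C + 3)) * (1 / (q : ℝ)) + L) := by
          apply mul_le_mul_of_nonneg_right hratio (by positivity)
      _ = 2 * (1 + L) * (x / L ^ (C + 3)) * (1 / (q : ℝ)) + 2 * (1 + L) * L := by ring
  have hLC : 0 < L ^ C := Real.rpow_pos_of_pos hL0 _
  have hsplit : L ^ (C + 3) = L ^ C * L ^ 3 := by
    rw [Real.rpow_add hL0]
    norm_num
  have hsplit2 : L ^ (C + 2) = L ^ C * L ^ 2 := by
    rw [Real.rpow_add hL0]
    norm_num
  calc ∑ q ∈ Icc 1 Q, |psiAP x q (h q) - x / (Nat.totient q : ℝ) -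
        ∑ n ∈ Icc 1 X, vonMangoldt n * K q (h q) n|
      ≤ ∑ q ∈ Icc 1 Q, (2 * (1 + L) * (x / L ^ (C + 3)) * (1 / (q : ℝ)) + 2 * (1 + L) * L) :=
        Finset.sum_le_sum hterm
    _ = 2 * (1 + L) * (x / L ^ (C + 3)) * ∑ q ∈ Icc 1 Q, 1 / (q : ℝ) +
        Q * (2 * (1 + L) * L) := by
        rw [Finset.sum_add_distrib, ← Finset.mul_sum, Finset.sum_const, Nat.card_Icc,
          nsmul_eq_mul, Nat.add_sub_cancel]
    _ ≤ 2 * (1 + L) * (x / L ^ (C + 3)) * (1 + L) + x ^ (1 / 100 : ℝ) * (2 * (1 + L) * L) := by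
        apply add_le_add
        · apply mul_le_mul_of_nonneg_left (sum_inv_Icc_le Q x hx1 hQx) (by positivity)
        · apply mul_le_mul_of_nonneg_right hQx' (by positivity)
    _ ≤ x / L ^ C * (1 / 2) + x / L ^ C * (1 / 2) := by
        apply add_le_add
        · rw [hsplit]
          have h5 : 2 * (1 + L) * (x / (L ^ C * L ^ 3)) * (1 + L) =
              x / L ^ C * (2 * (1 + L) ^ 2 / L ^ 3) := by
            field_simp
          rw [h5]
          apply mul_le_mul_of_nonneg_left _ (by positivity)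
          rw [div_le_div_iff₀ (by positivity) (by norm_num)]
          nlinarith only [mul_pos hL0 hL0, hL, hL0]
        · have h6 : x ^ (1 / 100 : ℝ) * x ^ (99 / 100 : ℝ) = x := by
            rw [← Real.rpow_add hx0]
            norm_num
          rw [div_mul_eq_mul_div, le_div_iff₀ hLC]
          have h7 : 0 < x ^ (1 / 100 : ℝ) := Real.rpow_pos_of_pos hx0 _
          have h8 : x ^ (1 / 100 : ℝ) * (8 * L ^ (C + 2)) ≤
              x ^ (1 / 100 : ℝ) * x ^ (99 / 100 : ℝ) := mul_le_mul_of_nonneg_left hpow h7.le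
          rw [h6, hsplit2] at h8
          have h9 : (2 * (1 + L) * L) ≤ 4 * L ^ 2 := by nlinarith only [hL]
          calc x ^ (1 / 100 : ℝ) * (2 * (1 + L) * L) * L ^ C
              ≤ x ^ (1 / 100 : ℝ) * (4 * L ^ 2) * L ^ C := by
                apply mul_le_mul_of_nonneg_right _ hLC.le
                apply mul_le_mul_of_nonneg_left h9 h7.le
            _ = (x ^ (1 / 100 : ℝ) * (8 * (L ^ C * L ^ 2))) * (1 / 2) := by ring
            _ ≤ x * (1 / 2) := by linarith only [h8]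
    _ = x / L ^ C := by ring

end Vale.Agent.P013.J.BV
end

section

/-!
# BV-lite: the dispersion estimate
-/

open Finset ArithmeticFunction

namespace Vale.Agent.P013.J.BV

open Vale.Agent.P005.BV (hi hi_apply lo tau harm_le harm_nonneg harm_dvd)

/-- the weight `∑_{V < m ≤ X / max n n'} m` -/
noncomputable def W (V X n n' : ℕ) : ℝ := ∑ m ∈ Ioc V (X / max n n'), (m : ℝ)

lemma W_nonneg (V X n n' : ℕ) : 0 ≤ W V X n n' := Finset.sum_nonneg fun _ _ => by positivity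

lemma W_anti (V X n n' : ℕ) (hn : 1 ≤ n) : W V X n (n' + 1) ≤ W V X n n' := by
  unfold W
  apply Finset.sum_le_sum_of_subset_of_nonneg
  · apply Finset.Ioc_subset_Ioc_right
    apply Nat.div_le_div_left
    · exact max_le_max le_rfl (by omega)
    · exact lt_of_lt_of_le hn (le_max_left _ _)
  · intro m _ _; positivity

lemma W_le (V X n n' k : ℕ) (hk : 1 ≤ k) (h : k ≤ max n n') :
    W V X n n' ≤ (X : ℝ) ^ 2 * ((k : ℝ) ^ 2)⁻¹ := by
  have hkr : (0 : ℝ) < k := by exact_mod_cast hk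
  have h1 : X / max n n' ≤ X / k := Nat.div_le_div_left h hk
  have h2 : ((X / k : ℕ) : ℝ) ≤ (X : ℝ) / k := Nat.cast_div_le
  calc W V X n n' ≤ ∑ m ∈ Ioc V (X / max n n'), ((X / k : ℕ) : ℝ) := by
        apply Finset.sum_le_sum
        intro m hm
        rw [Finset.mem_Ioc] at hm
        exact_mod_cast hm.2.trans h1
    _ = ((X / max n n' - V : ℕ) : ℝ) * ((X / k : ℕ) : ℝ) := by
        rw [Finset.sum_const, Nat.card_Ioc, nsmul_eq_mul]
    _ ≤ ((X / k : ℕ) : ℝ) * ((X / k : ℕ) : ℝ) := by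
        apply mul_le_mul_of_nonneg_right _ (by positivity)
        exact_mod_cast (Nat.sub_le _ _).trans h1
    _ ≤ ((X : ℝ) / k) * ((X : ℝ) / k) := mul_le_mul h2 h2 (by positivity) (by positivity)
    _ = _ := by field_simp

lemma sum_W_le (V X n : ℕ) (hn : 1 ≤ n) (hnX : n ≤ X) :
    ∑ n' ∈ Icc 1 X, W V X n n' ≤ 2 * (X : ℝ) ^ 2 / n := by
  have hnr : (0 : ℝ) < n := by exact_mod_cast hn
  have h1 : ∑ n' ∈ Icc 1 X, W V X n n' = ∑ n' ∈ Icc 1 n, W V X n n' + ∑ n' ∈ Ioc n X, W V X n n' := by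
    have e1 : Icc 1 X = Ioc 0 X := by ext; simp [Finset.mem_Icc, Finset.mem_Ioc]; omega
    have e2 : Icc 1 n = Ioc 0 n := by ext; simp [Finset.mem_Icc, Finset.mem_Ioc]; omega
    rw [e1, e2, Finset.sum_Ioc_consecutive _ (by omega) hnX]
  have h2 : ∑ n' ∈ Icc 1 n, W V X n n' ≤ (X : ℝ) ^ 2 / n := by
    calc ∑ n' ∈ Icc 1 n, W V X n n' ≤ ∑ n' ∈ Icc 1 n, (X : ℝ) ^ 2 * ((n : ℝ) ^ 2)⁻¹ :=
          Finset.sum_le_sum fun n' _ => W_le V X n n' n hn (le_max_left _ _)
      _ = (X : ℝ) ^ 2 / n := by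
          rw [Finset.sum_const, Nat.card_Icc, nsmul_eq_mul, Nat.add_sub_cancel]
          field_simp
  have h3 : ∑ n' ∈ Ioc n X, W V X n n' ≤ (X : ℝ) ^ 2 / n := by
    calc ∑ n' ∈ Ioc n X, W V X n n' ≤ ∑ n' ∈ Ioc n X, (X : ℝ) ^ 2 * ((n' : ℝ) ^ 2)⁻¹ := by
          apply Finset.sum_le_sum
          intro n' hn'
          rw [Finset.mem_Ioc] at hn'
          exact W_le V X n n' n' (by omega) (le_max_right _ _)
      _ = (X : ℝ) ^ 2 * ∑ n' ∈ Ioc n X, ((n' : ℝ) ^ 2)⁻¹ := by rw [Finset.mul_sum]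
      _ ≤ (X : ℝ) ^ 2 * ((n : ℝ)⁻¹ - (X : ℝ)⁻¹) := by
          apply mul_le_mul_of_nonneg_left _ (by positivity)
          exact sum_Ioc_inv_sq_le_sub (by omega) hnX
      _ ≤ (X : ℝ) ^ 2 * (n : ℝ)⁻¹ := by
          apply mul_le_mul_of_nonneg_left _ (by positivity)
          have : 0 ≤ (X : ℝ)⁻¹ := by positivity
          linarith
      _ = (X : ℝ) ^ 2 / n := by rw [div_eq_mul_inv]
  rw [h1]
  calc _ ≤ (X : ℝ) ^ 2 / n + (X : ℝ) ^ 2 / n := add_le_add h2 h3
    _ = _ := by ring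

/-- the correlation sum -/
noncomputable def TT (V X : ℕ) (h : ℕ → ℕ) (q q' n n' : ℕ) : ℝ :=
  ∑ m ∈ Ioc V (X / max n n'), (m : ℝ) * (K q (h q) (m * n) * K q' (h q') (m * n'))

/-- its mean value -/
noncomputable def MM (h : ℕ → ℕ) (q q' n n' : ℕ) : ℝ :=
  (∑ m ∈ range (Nat.lcm q q'), K q (h q) (m * n) * K q' (h q') (m * n')) / (Nat.lcm q q' : ℕ)

lemma TT_sub_le (V X Q : ℕ) (h : ℕ → ℕ) {q q' : ℕ} (hq : 1 ≤ q) (hq' : 1 ≤ q') (hqQ : q ≤ Q)
    (hqQ' : q' ≤ Q) (n n' : ℕ) :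
    |TT V X h q q' n n' - MM h q q' n n' * W V X n n'| ≤
      if V < X / max n n' then 8 * (Q : ℝ) ^ 2 * ((X / max n n' : ℕ) : ℝ) else 0 := by
  have hL : 1 ≤ Nat.lcm q q' := Nat.lcm_pos hq hq'
  split_ifs with hV
  · have h1 := weighted_periodic (fun m => K q (h q) (m * n) * K q' (h q') (m * n'))
      (Nat.lcm q q') V (X / max n n') hL
      (by
        intro m
        have e1 : (m + Nat.lcm q q') * n ≡ m * n [MOD q] := by
          apply Nat.ModEq.mul_right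
          have : Nat.lcm q q' ≡ 0 [MOD q] := (Nat.modEq_zero_iff_dvd).2 (Nat.dvd_lcm_left q q')
          simpa using Nat.ModEq.add_left m this
        have e2 : (m + Nat.lcm q q') * n' ≡ m * n' [MOD q'] := by
          apply Nat.ModEq.mul_right
          have : Nat.lcm q q' ≡ 0 [MOD q'] := (Nat.modEq_zero_iff_dvd).2 (Nat.dvd_lcm_right q q')
          simpa using Nat.ModEq.add_left m this
        simp only [K_congr e1, K_congr e2])
      (by
        intro m
        rw [abs_mul]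
        calc _ ≤ (1 : ℝ) * 1 := mul_le_mul (K_abs_le hq _ _) (K_abs_le hq' _ _) (abs_nonneg _)
              zero_le_one
          _ = 1 := one_mul 1)
    have h2 : ((Nat.lcm q q' : ℕ) : ℝ) ≤ (Q : ℝ) ^ 2 := by
      have h3 : Nat.lcm q q' ≤ q * q' := Nat.le_of_dvd (Nat.mul_pos hq hq') (Nat.lcm_dvd_mul q q')
      have h4 : q * q' ≤ Q * Q := Nat.mul_le_mul hqQ hqQ'
      calc ((Nat.lcm q q' : ℕ) : ℝ) ≤ ((Q * Q : ℕ) : ℝ) := by exact_mod_cast h3.trans h4
        _ = (Q : ℝ) ^ 2 := by push_cast; ring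
    refine h1.trans ?_
    apply mul_le_mul_of_nonneg_right _ (by positivity)
    linarith
  · have e1 : Ioc V (X / max n n') = ∅ := Finset.Ioc_eq_empty (by omega)
    unfold TT W
    rw [e1, Finset.sum_empty, Finset.sum_empty]
    simp

/-- the mean value in terms of the kernel modulo the gcd -/
lemma MM_eq {h : ℕ → ℕ} (hh : ∀ q, 1 ≤ q → Nat.Coprime (h q) q) {q q' n : ℕ} (hq : 1 ≤ q)
    (hq' : 1 ≤ q') (hn : Nat.Coprime n q) :
    ∃ c : ℕ, Nat.Coprime c (Nat.gcd q q') ∧ ∀ n', MM h q q' n n' =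
      ((Nat.gcd q q' : ℕ) : ℝ) / (q * q') *
        ((if Nat.Coprime n' q' then (1 : ℝ) else 0) * K (Nat.gcd q q') c n') := by
  set g := Nat.gcd q q' with hg
  have hg1 : 1 ≤ g := Nat.gcd_pos_of_pos_left _ hq
  have hgq : g ∣ q := Nat.gcd_dvd_left q q'
  have hgq' : g ∣ q' := Nat.gcd_dvd_right q q'
  have hcop1 : Nat.Coprime (h q) g := (hh q hq).coprime_dvd_right hgq
  have hcop2 : Nat.Coprime (h q' * n) g := by
    apply Nat.Coprime.mul_left
    · exact (hh q' hq').coprime_dvd_right hgq'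
    · exact hn.coprime_dvd_right hgq
  obtain ⟨c, hc, hcc, _⟩ := exists_inv hg1 hcop2 hcop1
  refine ⟨c, hc, ?_⟩
  intro n'
  have hlcm : ((Nat.lcm q q' : ℕ) : ℝ) * g = q * q' := by
    have := Nat.gcd_mul_lcm q q'
    rw [mul_comm] at this
    exact_mod_cast this
  have hqr : (0 : ℝ) < q := by exact_mod_cast hq
  have hqr' : (0 : ℝ) < q' := by exact_mod_cast hq'
  have hgr : (0 : ℝ) < g := by exact_mod_cast hg1
  have hLr : (0 : ℝ) < (Nat.lcm q q' : ℕ) := by exact_mod_cast Nat.lcm_pos hq hq'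
  by_cases hn' : Nat.Coprime n' q'
  · unfold MM
    rw [corr hq hq' (hh q hq) (hh q' hq') hn hn', if_pos hn', one_mul]
    have h1 : h q * n' ≡ h q' * n [MOD g] ↔ n' ≡ c [MOD g] := by
      constructor
      · intro h2
        have h3 : n' * h q ≡ c * h q [MOD g] := by
          rw [mul_comm n' (h q)]
          exact h2.trans hcc.symm
        exact Nat.ModEq.cancel_right_of_coprime (Nat.Coprime.symm hcop1) h3
      · intro h2
        have h3 := (h2.mul_right (h q)).trans hcc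
        rwa [mul_comm n' (h q)] at h3
    have h2 : Nat.Coprime n' g := hn'.coprime_dvd_right hgq'
    unfold K
    rw [if_pos h2]
    rw [← hg, if_congr h1 rfl rfl]
    rw [← hlcm]
    field_simp
  · rw [if_neg hn', zero_mul, mul_zero]
    unfold MM
    rw [Finset.sum_eq_zero, zero_div]
    intro m _
    rw [K_eq_zero (q := q') (hh q' hq') (fun h1 => hn' (Nat.Coprime.coprime_mul_left h1)), mul_zero]

lemma MM_eq_zero {h : ℕ → ℕ} (hh : ∀ q, 1 ≤ q → Nat.Coprime (h q) q) {q q' n : ℕ} (hq : 1 ≤ q)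
    (hn : ¬ Nat.Coprime n q) (n' : ℕ) : MM h q q' n n' = 0 := by
  unfold MM
  rw [Finset.sum_eq_zero, zero_div]
  intro m _
  rw [K_eq_zero (q := q) (hh q hq) (fun h1 => hn (Nat.Coprime.coprime_mul_left h1)), zero_mul]

end Vale.Agent.P013.J.BV
end

section

/-!
# BV-lite: type II sums
-/

open Finset ArithmeticFunction

namespace Vale.Agent.P013.J.BV

open Vale.Agent.P005.BV (hi hi_apply lo harm_le harm_nonneg harm_dvd mu ze tau_sq_sum
  abs_hi_mu_ze_le hi_mu_ze_zero)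

/-- bound for the discrepancy modulo `g` -/
noncomputable def bet (X U Q G : ℕ) (δ : ℝ) (g : ℕ) : ℝ :=
  δ + (if g ≤ G then 0 else 2 * (1 + Real.log X) / (Nat.totient g : ℝ)) +
    Q * (1 + Real.log X) / U

lemma bet_nonneg (X U Q G : ℕ) {δ : ℝ} (hδ : 0 ≤ δ) (g : ℕ) : 0 ≤ bet X U Q G δ g := by
  have h1 : 0 ≤ 1 + Real.log X := by have := log_nat_nonneg X; linarith
  unfold bet
  have h2 : 0 ≤ (if g ≤ G then 0 else 2 * (1 + Real.log X) / (Nat.totient g : ℝ)) := by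
    split_ifs
    · exact le_rfl
    · positivity
  have h3 : 0 ≤ Q * (1 + Real.log X) / U := by positivity
  linarith

lemma disc_le (X U Q G : ℕ) (hU : 1 ≤ U) (hQ : 1 ≤ Q) {δ : ℝ} (hδ : 0 ≤ δ)
    (hSW : ∀ g, 1 ≤ g → g ≤ G → ∀ c, Nat.Coprime c g → ∀ N ≤ X,
      |∑ n ∈ Icc 1 N, hi vonMangoldt U n * K g c n| ≤ δ * N)
    {g c q' : ℕ} (hg : 1 ≤ g) (hc : Nat.Coprime c g) (hq' : 1 ≤ q') (hqQ' : q' ≤ Q) {N : ℕ}
    (hN : N ≤ X) :
    |∑ n ∈ Icc 1 N, hi vonMangoldt U n * ((if Nat.Coprime n q' then (1 : ℝ) else 0) * K g c n)| ≤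
      bet X U Q G δ g * N := by
  have hP0 := log_nat_nonneg X
  have hUr : (1 : ℝ) ≤ U := by exact_mod_cast hU
  have hQr : (1 : ℝ) ≤ Q := by exact_mod_cast hQ
  have hN0 : (0 : ℝ) ≤ N := by positivity
  by_cases hNU : N ≤ U
  · rw [Finset.sum_eq_zero, abs_zero]
    · exact mul_nonneg (bet_nonneg X U Q G hδ g) hN0
    · intro n hn
      rw [Finset.mem_Icc] at hn
      rw [hi_apply, if_pos (hn.2.trans hNU), zero_mul]
  · have hNUr : (U : ℝ) ≤ N := by exact_mod_cast (not_le.1 hNU).le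
    have h1N : 1 ≤ (N : ℝ) / U := by rw [le_div_iff₀ (by linarith only [hUr])]; linarith only [hNUr]
    have hφ : (0 : ℝ) < Nat.totient g := by exact_mod_cast Nat.totient_pos.2 hg
    have e0 : ∑ n ∈ Icc 1 N, hi vonMangoldt U n * ((if Nat.Coprime n q' then (1 : ℝ) else 0) *
        K g c n) = ∑ n ∈ Icc 1 N, hi vonMangoldt U n * (if Nat.Coprime n q' then (1 : ℝ) else 0) *
        K g c n := by
      apply Finset.sum_congr rfl
      intro n _; ring
    rw [e0]
    unfold bet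
    by_cases hgG : g ≤ G
    · rw [if_pos hgG, add_zero]
      have h1 := remove_coprime (U := U) (N := N) (X := X) (g := g) (q := q') (c := c) hg hq' hN
      have h2 := hSW g hg hgG c hc N hN
      have h3 : (q' : ℝ) ≤ Q := by exact_mod_cast hqQ'
      have h4 : (q' : ℝ) * Real.log X ≤ Q * (1 + Real.log X) * (N / U) := by
        calc (q' : ℝ) * Real.log X ≤ Q * (1 + Real.log X) := by
              apply mul_le_mul h3 (by linarith only []) hP0 (by linarith only [hQr])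
          _ = Q * (1 + Real.log X) * 1 := by ring
          _ ≤ Q * (1 + Real.log X) * (N / U) := by
              apply mul_le_mul_of_nonneg_left h1N
              positivity
      have h5 : (δ + Q * (1 + Real.log X) / U) * N = δ * N + Q * (1 + Real.log X) * (N / U) := by
        ring
      rw [h5]
      linarith only [h1, h2, h4]
    · rw [if_neg hgG]
      have h1 := trivial_disc (U := U) (N := N) (X := X) (g := g) (c := c) hg hN
        (fun n => if Nat.Coprime n q' then (1 : ℝ) else 0)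
        (fun n => by split_ifs <;> simp)
      refine h1.trans ?_
      have hgr : (0 : ℝ) < g := by exact_mod_cast hg
      have h2 : (N : ℝ) / g ≤ N / Nat.totient g := by
        apply div_le_div_of_nonneg_left hN0 hφ
        exact_mod_cast Nat.totient_le g
      have h3 : (N : ℝ) / g + 1 + N / Nat.totient g ≤ 2 * (N / Nat.totient g) + Q * (N / U) := by
        have h4 : (1 : ℝ) ≤ Q * (N / U) := by
          calc (1 : ℝ) = 1 * 1 := by ring
            _ ≤ Q * (N / U) := mul_le_mul hQr h1N (by norm_num) (by linarith only [hQr])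
        linarith only [h2, h4]
      calc Real.log X * ((N : ℝ) / g + 1 + N / Nat.totient g)
          ≤ (1 + Real.log X) * (2 * (N / Nat.totient g) + Q * (N / U)) := by
            apply mul_le_mul (by linarith only []) h3 (by positivity) (by linarith only [hP0])
        _ = (0 + 2 * (1 + Real.log X) / Nat.totient g + Q * (1 + Real.log X) / U) * N := by ring
        _ ≤ (δ + 2 * (1 + Real.log X) / Nat.totient g + Q * (1 + Real.log X) / U) * N := by
            apply mul_le_mul_of_nonneg_right _ hN0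
            linarith only [hδ]

/-- the inner sum of the main term -/
lemma inner_le (X U V Q G : ℕ) (hU : 1 ≤ U) (hQ : 1 ≤ Q) {δ : ℝ} (hδ : 0 ≤ δ)
    (hSW : ∀ g, 1 ≤ g → g ≤ G → ∀ c, Nat.Coprime c g → ∀ N ≤ X,
      |∑ n ∈ Icc 1 N, hi vonMangoldt U n * K g c n| ≤ δ * N)
    {h : ℕ → ℕ} (hh : ∀ q, 1 ≤ q → Nat.Coprime (h q) q) {q q' n : ℕ} (hq : 1 ≤ q)
    (hq' : 1 ≤ q') (hqQ' : q' ≤ Q) (hn : 1 ≤ n) :
    |∑ n' ∈ Icc 1 X, hi vonMangoldt U n' * (MM h q q' n n' * W V X n n')| ≤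
      ((Nat.gcd q q' : ℕ) : ℝ) / (q * q') * bet X U Q G δ (Nat.gcd q q') *
        ∑ n' ∈ Icc 1 X, W V X n n' := by
  have hg1 : 1 ≤ Nat.gcd q q' := Nat.gcd_pos_of_pos_left _ hq
  have hW : 0 ≤ ∑ n' ∈ Icc 1 X, W V X n n' := Finset.sum_nonneg fun _ _ => W_nonneg _ _ _ _
  have hb := bet_nonneg X U Q G hδ (Nat.gcd q q')
  by_cases hnq : Nat.Coprime n q
  · obtain ⟨c, hc, hcM⟩ := MM_eq hh hq hq' hnq
    have e1 : ∀ n' ∈ Icc 1 X, hi vonMangoldt U n' * (MM h q q' n n' * W V X n n') =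
        ((Nat.gcd q q' : ℕ) : ℝ) / (q * q') * (hi vonMangoldt U n' *
          ((if Nat.Coprime n' q' then (1 : ℝ) else 0) * K (Nat.gcd q q') c n') * W V X n n') := by
      intro n' _
      rw [hcM n']; ring
    rw [Finset.sum_congr rfl e1, ← Finset.mul_sum, abs_mul,
      abs_of_nonneg (by positivity : 0 ≤ ((Nat.gcd q q' : ℕ) : ℝ) / (q * q')), mul_assoc]
    apply mul_le_mul_of_nonneg_left _ (by positivity)
    exact abel_anti (fun n' => W V X n n') (fun n' => hi vonMangoldt U n' *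
          ((if Nat.Coprime n' q' then (1 : ℝ) else 0) * K (Nat.gcd q q') c n'))
      (bet X U Q G δ (Nat.gcd q q')) X (fun n' => W_nonneg V X n n')
      (fun n' => W_anti V X n n' hn)
      (fun N hN => disc_le X U Q G hU hQ hδ hSW hg1 hc hq' hqQ' hN)
  · rw [Finset.sum_eq_zero, abs_zero]
    · positivity
    · intro n' _
      rw [MM_eq_zero hh hq hnq, zero_mul, mul_zero]

lemma sum_dvd_bound (Q : ℕ) (F : ℕ → ℝ) (hF : ∀ g, 0 ≤ F g) :
    ∑ q ∈ Icc 1 Q, ∑ q' ∈ Icc 1 Q, ((Nat.gcd q q' : ℕ) : ℝ) / (q * q') * F (Nat.gcd q q') ≤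
      (∑ d ∈ Icc 1 Q, 1 / (d : ℝ)) ^ 2 * ∑ d ∈ Icc 1 Q, F d / d := by
  have h1 : ∀ q ∈ Icc 1 Q, ∀ q' ∈ Icc 1 Q,
      ((Nat.gcd q q' : ℕ) : ℝ) / (q * q') * F (Nat.gcd q q') ≤
      ∑ d ∈ Icc 1 Q, (d : ℝ) * F d * ((if d ∣ q then 1 / (q : ℝ) else 0) *
        (if d ∣ q' then 1 / (q' : ℝ) else 0)) := by
    intro q hq q' hq'
    rw [Finset.mem_Icc] at hq hq'
    have hg : Nat.gcd q q' ∈ Icc 1 Q := by
      rw [Finset.mem_Icc]
      exact ⟨Nat.gcd_pos_of_pos_left _ hq.1, (Nat.gcd_le_left _ hq.1).trans hq.2⟩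
    have h2 := Finset.single_le_sum (f := fun d : ℕ => (d : ℝ) * F d *
      ((if d ∣ q then 1 / (q : ℝ) else 0) * (if d ∣ q' then 1 / (q' : ℝ) else 0)))
      (fun d _ => by
        have := hF d
        apply mul_nonneg (by positivity)
        split_ifs <;> positivity) hg
    refine le_trans (le_of_eq ?_) h2
    rw [if_pos (Nat.gcd_dvd_left q q'), if_pos (Nat.gcd_dvd_right q q')]
    rw [one_div_mul_one_div]
    ring
  calc _ ≤ ∑ q ∈ Icc 1 Q, ∑ q' ∈ Icc 1 Q, ∑ d ∈ Icc 1 Q, (d : ℝ) * F d *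
        ((if d ∣ q then 1 / (q : ℝ) else 0) * (if d ∣ q' then 1 / (q' : ℝ) else 0)) :=
        Finset.sum_le_sum fun q hq => Finset.sum_le_sum fun q' hq' => h1 q hq q' hq'
    _ = ∑ d ∈ Icc 1 Q, (d : ℝ) * F d * ((∑ q ∈ Icc 1 Q, (if d ∣ q then 1 / (q : ℝ) else 0)) *
        ∑ q' ∈ Icc 1 Q, (if d ∣ q' then 1 / (q' : ℝ) else 0)) := by
        rw [Finset.sum_congr rfl (fun q _ => Finset.sum_comm), Finset.sum_comm]
        apply Finset.sum_congr rfl
        intro d _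
        rw [Finset.sum_mul_sum, Finset.mul_sum]
        apply Finset.sum_congr rfl
        intro q _
        rw [Finset.mul_sum]
    _ ≤ ∑ d ∈ Icc 1 Q, (d : ℝ) * F d * (((1 / (d : ℝ)) * ∑ d ∈ Icc 1 Q, 1 / (d : ℝ)) *
        ((1 / (d : ℝ)) * ∑ d ∈ Icc 1 Q, 1 / (d : ℝ))) := by
        apply Finset.sum_le_sum
        intro d hd
        rw [Finset.mem_Icc] at hd
        have h3 := harm_dvd Q d (by omega)
        have h4 : 0 ≤ ∑ q ∈ Icc 1 Q, (if d ∣ q then 1 / (q : ℝ) else 0) := by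
          apply Finset.sum_nonneg
          intro q _
          split_ifs <;> positivity
        have := hF d
        apply mul_le_mul_of_nonneg_left _ (by positivity)
        exact mul_le_mul h3 h3 h4 (h4.trans h3)
    _ = _ := by
        rw [Finset.mul_sum]
        apply Finset.sum_congr rfl
        intro d hd
        rw [Finset.mem_Icc] at hd
        have hdr : (0 : ℝ) < d := by exact_mod_cast hd.1
        field_simp

lemma sum_bet_le (X U Q G : ℕ) (hG : 1 ≤ G) (hU : 1 ≤ U) (hQ : 1 ≤ Q) (hQX : Q ≤ X) {δ : ℝ}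
    (hδ : 0 ≤ δ) :
    ∑ q ∈ Icc 1 Q, ∑ q' ∈ Icc 1 Q, ((Nat.gcd q q' : ℕ) : ℝ) / (q * q') *
      bet X U Q G δ (Nat.gcd q q') ≤
      4 * (1 + Real.log X) ^ 4 * (δ + 1 / G + Q / U) := by
  refine (sum_dvd_bound Q _ (bet_nonneg X U Q G hδ)).trans ?_
  have hL0 := log_nat_nonneg X
  set P : ℝ := 1 + Real.log X with hP
  have hP1 : 1 ≤ P := by linarith only [hL0]
  have hQr : (1 : ℝ) ≤ Q := by exact_mod_cast hQ
  have hGr : (1 : ℝ) ≤ G := by exact_mod_cast hG
  have hUr : (1 : ℝ) ≤ U := by exact_mod_cast hU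
  have hH : ∑ d ∈ Icc 1 Q, 1 / (d : ℝ) ≤ P := by
    refine (harm_le Q).trans ?_
    have : Real.log Q ≤ Real.log X := Real.log_le_log (by linarith only [hQr]) (by exact_mod_cast hQX)
    linarith only [this]
  have hH0 := harm_nonneg Q
  have h1 : ∑ d ∈ Icc 1 Q, bet X U Q G δ d / d ≤
      (δ + Q * P / U) * ∑ d ∈ Icc 1 Q, 1 / (d : ℝ) + 4 * P ^ 2 / G := by
    have e1 : ∀ d ∈ Icc 1 Q, bet X U Q G δ d / d = (δ + Q * P / U) * (1 / (d : ℝ)) +
        (if d ≤ G then 0 else 2 * P / (Nat.totient d : ℝ)) / d := by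
      intro d _
      unfold bet
      rw [← hP]
      ring
    rw [Finset.sum_congr rfl e1, Finset.sum_add_distrib, ← Finset.mul_sum]
    apply add_le_add le_rfl
    have e2 : ∀ d ∈ Icc 1 Q, (if d ≤ G then 0 else 2 * P / (Nat.totient d : ℝ)) / d ≤
        if d ∈ Ioc G (max G Q) then 4 * P ^ 2 * ((d : ℝ) ^ 2)⁻¹ else 0 := by
      intro d hd
      rw [Finset.mem_Icc] at hd
      by_cases hdG : d ≤ G
      · rw [if_pos hdG, if_neg (by rw [Finset.mem_Ioc]; omega), zero_div]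
      · rw [if_neg hdG, if_pos (by
          rw [Finset.mem_Ioc]; exact ⟨by omega, hd.2.trans (le_max_right _ _)⟩)]
        have hdr : (0 : ℝ) < d := by exact_mod_cast hd.1
        have hφ : (0 : ℝ) < Nat.totient d := by exact_mod_cast Nat.totient_pos.2 hd.1
        have h2 := ratio_le hd.1 (hd.2.trans hQX)
        rw [← hP] at h2
        have h3 : 1 / (Nat.totient d : ℝ) ≤ 2 * P / d := by
          rw [le_div_iff₀ hdr]
          calc 1 / (Nat.totient d : ℝ) * d = (d : ℝ) / Nat.totient d := by ring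
            _ ≤ 2 * P := h2
        calc 2 * P / (Nat.totient d : ℝ) / d = 2 * P / d * (1 / (Nat.totient d : ℝ)) := by ring
          _ ≤ 2 * P / d * (2 * P / d) := by
              apply mul_le_mul_of_nonneg_left h3 (by positivity)
          _ = 4 * P ^ 2 * ((d : ℝ) ^ 2)⁻¹ := by ring
    refine (Finset.sum_le_sum e2).trans ?_
    rw [← Finset.sum_filter]
    calc ∑ d ∈ (Icc 1 Q).filter (fun d => d ∈ Ioc G (max G Q)), 4 * P ^ 2 * ((d : ℝ) ^ 2)⁻¹
        ≤ ∑ d ∈ Ioc G (max G Q), 4 * P ^ 2 * ((d : ℝ) ^ 2)⁻¹ := by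
          apply Finset.sum_le_sum_of_subset_of_nonneg
          · intro d hd; exact (Finset.mem_filter.1 hd).2
          · intro d _ _; positivity
      _ = 4 * P ^ 2 * ∑ d ∈ Ioc G (max G Q), ((d : ℝ) ^ 2)⁻¹ := by rw [Finset.mul_sum]
      _ ≤ 4 * P ^ 2 * ((G : ℝ)⁻¹ - ((max G Q : ℕ) : ℝ)⁻¹) := by
          apply mul_le_mul_of_nonneg_left _ (by positivity)
          exact sum_Ioc_inv_sq_le_sub (by omega) (le_max_left _ _)
      _ ≤ 4 * P ^ 2 * (G : ℝ)⁻¹ := by
          apply mul_le_mul_of_nonneg_left _ (by positivity)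
          have : 0 ≤ ((max G Q : ℕ) : ℝ)⁻¹ := by positivity
          linarith only [this]
      _ = 4 * P ^ 2 / G := by rw [div_eq_mul_inv]
  have h2 : ∑ d ∈ Icc 1 Q, bet X U Q G δ d / d ≤ 4 * P ^ 2 * (δ + 1 / G + Q / U) := by
    refine h1.trans ?_
    have h3 : (δ + Q * P / U) * ∑ d ∈ Icc 1 Q, 1 / (d : ℝ) ≤ (δ + Q * P / U) * P :=
      mul_le_mul_of_nonneg_left hH (by positivity)
    have h4 : (δ + Q * P / U) * P ≤ 4 * P ^ 2 * (δ + Q / U) := by
      have h5 : δ * P ≤ 4 * P ^ 2 * δ := by nlinarith only [mul_nonneg hδ (by linarith only [hP1] : 0 ≤ P), hδ, hL0]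
      have h6 : Q * P / U * P = P ^ 2 * (Q / U) := by ring
      have h7 : 0 ≤ P ^ 2 * ((Q : ℝ) / U) := by positivity
      linarith only [h7, h6, h5]
    calc _ ≤ 4 * P ^ 2 * (δ + Q / U) + 4 * P ^ 2 / G := by linarith only [h3, h4]
      _ = _ := by ring
  have h3 : 0 ≤ ∑ d ∈ Icc 1 Q, bet X U Q G δ d / d :=
    Finset.sum_nonneg fun d _ => div_nonneg (bet_nonneg X U Q G hδ d) (by positivity)
  calc (∑ d ∈ Icc 1 Q, 1 / (d : ℝ)) ^ 2 * ∑ d ∈ Icc 1 Q, bet X U Q G δ d / d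
      ≤ P ^ 2 * (4 * P ^ 2 * (δ + 1 / G + Q / U)) := by
        apply mul_le_mul _ h2 h3 (by positivity)
        exact pow_le_pow_left₀ hH0 hH 2
    _ = _ := by ring


/-! ### expanding the square -/

/-- the sum over `n` for a given `m` -/
noncomputable def SS (X U Q : ℕ) (h : ℕ → ℕ) (ε : ℕ → ℝ) (m : ℕ) : ℝ :=
  ∑ n ∈ Icc 1 (X / m), hi vonMangoldt U n * ∑ q ∈ Icc 1 Q, ε q * K q (h q) (m * n)

lemma SS_eq (X U Q : ℕ) (h : ℕ → ℕ) (ε : ℕ → ℝ) {m : ℕ} (hm : 1 ≤ m) :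
    SS X U Q h ε m = ∑ i ∈ Icc 1 Q ×ˢ Icc 1 X,
      (if m * i.2 ≤ X then ε i.1 * hi vonMangoldt U i.2 * K i.1 (h i.1) (m * i.2) else 0) := by
  unfold SS
  rw [Finset.sum_product_right]
  have h1 : Icc 1 (X / m) = (Icc 1 X).filter (fun n => m * n ≤ X) := by
    ext n
    rw [Finset.mem_filter, Finset.mem_Icc, Finset.mem_Icc, Nat.le_div_iff_mul_le (by omega)]
    constructor
    · rintro ⟨h1, h2⟩
      refine ⟨⟨h1, ?_⟩, ?_⟩
      · calc n = n * 1 := (mul_one n).symm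
          _ ≤ n * m := Nat.mul_le_mul_left n hm
          _ ≤ X := h2
      · rw [mul_comm]; exact h2
    · rintro ⟨⟨h1, _⟩, h2⟩
      exact ⟨h1, by rw [mul_comm]; exact h2⟩
  rw [h1, Finset.sum_filter]
  apply Finset.sum_congr rfl
  intro n _
  split_ifs with h2
  · rw [Finset.mul_sum]
    apply Finset.sum_congr rfl
    intro q _
    ring
  · simp

lemma sum_sq_eq (X U V Q : ℕ) (h : ℕ → ℕ) (ε : ℕ → ℝ) :
    ∑ m ∈ Ioc V X, (m : ℝ) * SS X U Q h ε m ^ 2 =
      ∑ q ∈ Icc 1 Q, ∑ q' ∈ Icc 1 Q, ε q * ε q' *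
        ∑ n ∈ Icc 1 X, ∑ n' ∈ Icc 1 X, hi vonMangoldt U n * hi vonMangoldt U n' *
          TT V X h q q' n n' := by
  set I := Icc 1 Q ×ˢ Icc 1 X with hI
  set u : ℕ → ℕ × ℕ → ℝ := fun m i =>
    if m * i.2 ≤ X then ε i.1 * hi vonMangoldt U i.2 * K i.1 (h i.1) (m * i.2) else 0 with hu
  have h1 : ∑ m ∈ Ioc V X, (m : ℝ) * SS X U Q h ε m ^ 2 =
      ∑ i ∈ I, ∑ j ∈ I, ∑ m ∈ Ioc V X, (m : ℝ) * (u m i * u m j) := by
    have e1 : ∀ m ∈ Ioc V X, (m : ℝ) * SS X U Q h ε m ^ 2 =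
        ∑ i ∈ I, ∑ j ∈ I, (m : ℝ) * (u m i * u m j) := by
      intro m hm
      rw [Finset.mem_Ioc] at hm
      rw [SS_eq X U Q h ε (by omega), sq, Finset.sum_mul_sum, Finset.mul_sum]
      apply Finset.sum_congr rfl
      intro i _
      rw [Finset.mul_sum]
    rw [Finset.sum_congr rfl e1, Finset.sum_comm]
    apply Finset.sum_congr rfl
    intro i _
    rw [Finset.sum_comm]
  have h2 : ∀ i ∈ I, ∀ j ∈ I, ∑ m ∈ Ioc V X, (m : ℝ) * (u m i * u m j) =
      ε i.1 * ε j.1 * (hi vonMangoldt U i.2 * hi vonMangoldt U j.2 *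
        TT V X h i.1 j.1 i.2 j.2) := by
    intro i hi' j hj
    rw [hI, Finset.mem_product, Finset.mem_Icc, Finset.mem_Icc] at hi' hj
    have hmax : 1 ≤ max i.2 j.2 := le_trans hi'.2.1 (le_max_left _ _)
    have e1 : Ioc V (X / max i.2 j.2) =
        (Ioc V X).filter (fun m => m * i.2 ≤ X ∧ m * j.2 ≤ X) := by
      ext m
      rw [Finset.mem_filter, Finset.mem_Ioc, Finset.mem_Ioc, Nat.le_div_iff_mul_le (by omega)]
      constructor
      · rintro ⟨h3, h4⟩
        have h5 : m * i.2 ≤ m * max i.2 j.2 := Nat.mul_le_mul_left m (le_max_left _ _)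
        have h6 : m * j.2 ≤ m * max i.2 j.2 := Nat.mul_le_mul_left m (le_max_right _ _)
        refine ⟨⟨h3, ?_⟩, h5.trans h4, h6.trans h4⟩
        calc m = m * 1 := (mul_one m).symm
          _ ≤ m * max i.2 j.2 := Nat.mul_le_mul_left m hmax
          _ ≤ X := h4
      · rintro ⟨⟨h3, _⟩, h4, h5⟩
        refine ⟨h3, ?_⟩
        rcases max_cases i.2 j.2 with h6 | h6
        · rw [h6.1]; exact h4
        · rw [h6.1]; exact h5
    unfold TT
    rw [e1, Finset.sum_filter, Finset.mul_sum, Finset.mul_sum]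
    apply Finset.sum_congr rfl
    intro m _
    simp only [hu]
    by_cases h3 : m * i.2 ≤ X
    · by_cases h4 : m * j.2 ≤ X
      · rw [if_pos h3, if_pos h4, if_pos ⟨h3, h4⟩]; ring
      · rw [if_neg h4, if_neg (fun h5 : m * i.2 ≤ X ∧ m * j.2 ≤ X => h4 h5.2)]; ring
    · rw [if_neg h3, if_neg (fun h5 : m * i.2 ≤ X ∧ m * j.2 ≤ X => h3 h5.1)]; ring
  rw [h1, Finset.sum_congr rfl (fun i hi => Finset.sum_congr rfl (fun j hj => h2 i hi j hj)), hI,
    Finset.sum_product]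
  apply Finset.sum_congr rfl
  intro q _
  rw [Finset.sum_congr rfl (fun n _ => Finset.sum_product _ _ _), Finset.sum_comm]
  apply Finset.sum_congr rfl
  intro q' _
  rw [Finset.mul_sum]
  apply Finset.sum_congr rfl
  intro n _
  rw [Finset.mul_sum]

lemma sum_err_le (X V Q : ℕ) (hX : 1 ≤ X) (hV : 1 ≤ V) :
    ∑ n ∈ Icc 1 X, ∑ n' ∈ Icc 1 X,
      (if V < X / max n n' then 8 * (Q : ℝ) ^ 2 * ((X / max n n' : ℕ) : ℝ) else 0) ≤
      8 * (Q : ℝ) ^ 2 * ((X : ℝ) / V * (X * (1 + Real.log X))) := by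
  have hVr : (0 : ℝ) < V := by exact_mod_cast hV
  have h1 : ∀ n ∈ Icc 1 X, ∀ n' ∈ Icc 1 X,
      (if V < X / max n n' then 8 * (Q : ℝ) ^ 2 * ((X / max n n' : ℕ) : ℝ) else 0) ≤
      (if n ≤ X / V then 1 else 0) * (8 * (Q : ℝ) ^ 2 * (X * (1 / (n' : ℝ)))) := by
    intro n hn n' hn'
    rw [Finset.mem_Icc] at hn hn'
    have hnr' : (0 : ℝ) < n' := by exact_mod_cast hn'.1
    by_cases hlt : V < X / max n n'
    · have h2 : n ≤ X / V := by
        rw [Nat.le_div_iff_mul_le hV]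
        have h3 : V ≤ X / n := hlt.le.trans (Nat.div_le_div_left (le_max_left _ _) hn.1)
        rw [Nat.le_div_iff_mul_le hn.1] at h3
        rw [mul_comm]; exact h3
      rw [if_pos hlt, if_pos h2, one_mul]
      apply mul_le_mul_of_nonneg_left _ (by positivity)
      have h4 : X / max n n' ≤ X / n' := Nat.div_le_div_left (le_max_right _ _) hn'.1
      calc ((X / max n n' : ℕ) : ℝ) ≤ ((X / n' : ℕ) : ℝ) := by exact_mod_cast h4
        _ ≤ (X : ℝ) / n' := Nat.cast_div_le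
        _ = X * (1 / (n' : ℝ)) := by ring
    · rw [if_neg hlt]
      split_ifs
      · positivity
      · simp
  refine (Finset.sum_le_sum fun n hn => Finset.sum_le_sum fun n' hn' => h1 n hn n' hn').trans ?_
  have h5 : ∀ n ∈ Icc 1 X, ∑ n' ∈ Icc 1 X, (if n ≤ X / V then (1 : ℝ) else 0) *
      (8 * (Q : ℝ) ^ 2 * (X * (1 / (n' : ℝ)))) =
      (if n ≤ X / V then (1 : ℝ) else 0) * (8 * (Q : ℝ) ^ 2 * (X * ∑ n' ∈ Icc 1 X, 1 / (n' : ℝ))) := by
    intro n _
    rw [Finset.mul_sum, Finset.mul_sum, Finset.mul_sum]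
  rw [Finset.sum_congr rfl h5, ← Finset.sum_mul, ← Finset.sum_filter, Finset.sum_const,
    nsmul_eq_mul, mul_one]
  have h6 : (((Icc 1 X).filter (fun n => n ≤ X / V)).card : ℝ) ≤ (X : ℝ) / V := by
    calc (((Icc 1 X).filter (fun n => n ≤ X / V)).card : ℝ) ≤ ((Icc 1 (X / V)).card : ℝ) := by
          have : (Icc 1 X).filter (fun n => n ≤ X / V) ⊆ Icc 1 (X / V) := by
            intro n hn
            rw [Finset.mem_filter, Finset.mem_Icc] at hn
            rw [Finset.mem_Icc]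
            exact ⟨hn.1.1, hn.2⟩
          exact_mod_cast Finset.card_le_card this
      _ = ((X / V : ℕ) : ℝ) := by rw [Nat.card_Icc, Nat.add_sub_cancel]
      _ ≤ (X : ℝ) / V := Nat.cast_div_le
  have h7 := harm_le X
  have h8 := harm_nonneg X
  calc _ ≤ (X : ℝ) / V * (8 * (Q : ℝ) ^ 2 * (X * (1 + Real.log X))) := by
        apply mul_le_mul h6 _ (by (clear * - hX; positivity)) (by positivity)
        apply mul_le_mul_of_nonneg_left _ (by positivity)
        exact mul_le_mul_of_nonneg_left h7 (by positivity)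
    _ = _ := by ring

/-- the second factor in the Cauchy-Schwarz inequality -/
lemma second_factor (X U V Q G : ℕ) (hX : 1 ≤ X) (hU : 1 ≤ U) (hV : 1 ≤ V) (hG : 1 ≤ G)
    (hQ : 1 ≤ Q) (hQX : Q ≤ X) (h : ℕ → ℕ) (hh : ∀ q, 1 ≤ q → Nat.Coprime (h q) q) {δ : ℝ}
    (hδ : 0 ≤ δ)
    (hSW : ∀ g, 1 ≤ g → g ≤ G → ∀ c, Nat.Coprime c g → ∀ N ≤ X,
      |∑ n ∈ Icc 1 N, hi vonMangoldt U n * K g c n| ≤ δ * N)
    (ε : ℕ → ℝ) (hε : ∀ q, |ε q| ≤ 1) :
    ∑ m ∈ Ioc V X, (m : ℝ) * SS X U Q h ε m ^ 2 ≤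
      8 * (X : ℝ) ^ 2 * (1 + Real.log X) ^ 6 * (δ + 1 / G + Q / U + (Q : ℝ) ^ 4 / V) := by
  have hL0 := log_nat_nonneg X
  have hVr : (0 : ℝ) < V := by exact_mod_cast hV
  have hUr : (0 : ℝ) < U := by exact_mod_cast hU
  have hGr : (0 : ℝ) < G := by exact_mod_cast hG
  set P : ℝ := 1 + Real.log X with hP
  have hP1 : 1 ≤ P := by linarith only [hL0]
  rw [sum_sq_eq]
  -- each pair q, q'
  have hpair : ∀ q ∈ Icc 1 Q, ∀ q' ∈ Icc 1 Q, ε q * ε q' *
        ∑ n ∈ Icc 1 X, ∑ n' ∈ Icc 1 X, hi vonMangoldt U n * hi vonMangoldt U n' *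
          TT V X h q q' n n' ≤
      ((Nat.gcd q q' : ℕ) : ℝ) / (q * q') * bet X U Q G δ (Nat.gcd q q') *
        (2 * (X : ℝ) ^ 2 * P ^ 2) +
      P ^ 2 * (8 * (Q : ℝ) ^ 2 * ((X : ℝ) / V * (X * P))) := by
    intro q hq q' hq'
    rw [Finset.mem_Icc] at hq hq'
    have hg1 : 1 ≤ Nat.gcd q q' := Nat.gcd_pos_of_pos_left _ hq.1
    have hb := bet_nonneg X U Q G hδ (Nat.gcd q q')
    set c0 : ℝ := ((Nat.gcd q q' : ℕ) : ℝ) / (q * q') * bet X U Q G δ (Nat.gcd q q') with hc0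
    have hc00 : 0 ≤ c0 := by positivity
    -- main part
    have hmain : |∑ n ∈ Icc 1 X, ∑ n' ∈ Icc 1 X, hi vonMangoldt U n * hi vonMangoldt U n' *
        (MM h q q' n n' * W V X n n')| ≤ c0 * (2 * (X : ℝ) ^ 2 * P ^ 2) := by
      refine (Finset.abs_sum_le_sum_abs _ _).trans ?_
      calc ∑ n ∈ Icc 1 X, |∑ n' ∈ Icc 1 X, hi vonMangoldt U n * hi vonMangoldt U n' *
            (MM h q q' n n' * W V X n n')|
          ≤ ∑ n ∈ Icc 1 X, Real.log X * (c0 * (2 * (X : ℝ) ^ 2 / n)) := by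
            apply Finset.sum_le_sum
            intro n hn
            rw [Finset.mem_Icc] at hn
            have e1 : ∑ n' ∈ Icc 1 X, hi vonMangoldt U n * hi vonMangoldt U n' *
                (MM h q q' n n' * W V X n n') = hi vonMangoldt U n *
                ∑ n' ∈ Icc 1 X, hi vonMangoldt U n' * (MM h q q' n n' * W V X n n') := by
              rw [Finset.mul_sum]
              apply Finset.sum_congr rfl
              intro n' _; ring
            rw [e1, abs_mul, abs_of_nonneg (hi_nonneg U n)]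
            apply mul_le_mul (hi_le_log hn.1 hn.2) _ (abs_nonneg _) hL0
            refine (inner_le X U V Q G hU hQ hδ hSW hh hq.1 hq'.1 hq'.2 hn.1).trans ?_
            rw [← hc0]
            exact mul_le_mul_of_nonneg_left (sum_W_le V X n hn.1 hn.2) hc00
        _ = Real.log X * (c0 * (2 * (X : ℝ) ^ 2 * ∑ n ∈ Icc 1 X, 1 / (n : ℝ))) := by
            rw [Finset.mul_sum, Finset.mul_sum, Finset.mul_sum]
            apply Finset.sum_congr rfl
            intro n _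
            ring
        _ ≤ P * (c0 * (2 * (X : ℝ) ^ 2 * P)) := by
            have h7 := harm_le X
            have h8 := harm_nonneg X
            apply mul_le_mul (by linarith only []) _ (by (clear * - hg1 hb hX; positivity)) (by linarith only [hL0])
            apply mul_le_mul_of_nonneg_left _ hc00
            exact mul_le_mul_of_nonneg_left h7 (by positivity)
        _ = _ := by ring
    -- error part
    have herr : |∑ n ∈ Icc 1 X, ∑ n' ∈ Icc 1 X, hi vonMangoldt U n * hi vonMangoldt U n' *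
        (TT V X h q q' n n' - MM h q q' n n' * W V X n n')| ≤
        P ^ 2 * (8 * (Q : ℝ) ^ 2 * ((X : ℝ) / V * (X * P))) := by
      refine (Finset.abs_sum_le_sum_abs _ _).trans ?_
      calc ∑ n ∈ Icc 1 X, |∑ n' ∈ Icc 1 X, hi vonMangoldt U n * hi vonMangoldt U n' *
            (TT V X h q q' n n' - MM h q q' n n' * W V X n n')|
          ≤ ∑ n ∈ Icc 1 X, ∑ n' ∈ Icc 1 X, P ^ 2 *
            (if V < X / max n n' then 8 * (Q : ℝ) ^ 2 * ((X / max n n' : ℕ) : ℝ) else 0) := by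
            apply Finset.sum_le_sum
            intro n hn
            refine (Finset.abs_sum_le_sum_abs _ _).trans ?_
            apply Finset.sum_le_sum
            intro n' hn'
            rw [Finset.mem_Icc] at hn hn'
            rw [abs_mul, abs_mul, abs_of_nonneg (hi_nonneg U n), abs_of_nonneg (hi_nonneg U n')]
            apply mul_le_mul _ (TT_sub_le V X Q h hq.1 hq'.1 hq.2 hq'.2 n n') (abs_nonneg _)
              (by positivity)
            have h9 := hi_le_log (U := U) hn.1 hn.2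
            have h10 := hi_le_log (U := U) hn'.1 hn'.2
            calc hi vonMangoldt U n * hi vonMangoldt U n' ≤ P * P :=
                  mul_le_mul (by linarith only [h9]) (by linarith only [h10]) (hi_nonneg U n') (by linarith only [hL0])
              _ = P ^ 2 := by ring
        _ = P ^ 2 * ∑ n ∈ Icc 1 X, ∑ n' ∈ Icc 1 X,
            (if V < X / max n n' then 8 * (Q : ℝ) ^ 2 * ((X / max n n' : ℕ) : ℝ) else 0) := by
            rw [Finset.mul_sum]
            apply Finset.sum_congr rfl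
            intro n _
            rw [Finset.mul_sum]
        _ ≤ _ := mul_le_mul_of_nonneg_left (sum_err_le X V Q hX hV) (by positivity)
    have hsplit : ∑ n ∈ Icc 1 X, ∑ n' ∈ Icc 1 X, hi vonMangoldt U n * hi vonMangoldt U n' *
          TT V X h q q' n n' =
        ∑ n ∈ Icc 1 X, ∑ n' ∈ Icc 1 X, hi vonMangoldt U n * hi vonMangoldt U n' *
        (MM h q q' n n' * W V X n n') +
        ∑ n ∈ Icc 1 X, ∑ n' ∈ Icc 1 X, hi vonMangoldt U n * hi vonMangoldt U n' *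
        (TT V X h q q' n n' - MM h q q' n n' * W V X n n') := by
      rw [← Finset.sum_add_distrib]
      apply Finset.sum_congr rfl
      intro n _
      rw [← Finset.sum_add_distrib]
      apply Finset.sum_congr rfl
      intro n' _
      ring
    refine (le_abs_self _).trans ?_
    rw [abs_mul, abs_mul, hsplit]
    have hεε : |ε q| * |ε q'| ≤ 1 := by
      calc |ε q| * |ε q'| ≤ 1 * 1 := mul_le_mul (hε q) (hε q') (abs_nonneg _) zero_le_one
        _ = 1 := one_mul 1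
    calc |ε q| * |ε q'| * |_ + _| ≤ 1 * |_ + _| := mul_le_mul_of_nonneg_right hεε (abs_nonneg _)
      _ ≤ _ := by
          rw [one_mul]
          exact (abs_add_le _ _).trans (add_le_add hmain herr)
  refine (Finset.sum_le_sum fun q hq => Finset.sum_le_sum fun q' hq' => hpair q hq q' hq').trans ?_
  simp only [Finset.sum_add_distrib, Finset.sum_const, Nat.card_Icc, Nat.add_sub_cancel,
    nsmul_eq_mul]
  simp only [← Finset.sum_mul]
  have hs := sum_bet_le X U Q G hG hU hQ hQX hδ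
  rw [← hP] at hs
  have hA : 0 ≤ δ + 1 / G + Q / U := by positivity
  have h6 : P ^ 3 ≤ P ^ 6 := pow_le_pow_right₀ hP1 (by norm_num)
  calc _ ≤ (4 * P ^ 4 * (δ + 1 / G + Q / U)) * (2 * (X : ℝ) ^ 2 * P ^ 2) +
        (Q : ℝ) * (Q * (P ^ 2 * (8 * (Q : ℝ) ^ 2 * ((X : ℝ) / V * (X * P))))) := by
        apply add_le_add _ le_rfl
        exact mul_le_mul_of_nonneg_right hs (by positivity)
    _ = 8 * (X : ℝ) ^ 2 * P ^ 6 * (δ + 1 / G + Q / U) +
        8 * (X : ℝ) ^ 2 * P ^ 3 * ((Q : ℝ) ^ 4 / V) := by ring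
    _ ≤ 8 * (X : ℝ) ^ 2 * P ^ 6 * (δ + 1 / G + Q / U) +
        8 * (X : ℝ) ^ 2 * P ^ 6 * ((Q : ℝ) ^ 4 / V) := by
        apply add_le_add le_rfl
        apply mul_le_mul_of_nonneg_right _ (by positivity)
        exact mul_le_mul_of_nonneg_left h6 (by positivity)
    _ = _ := by ring

lemma tau_sq_harm (X : ℕ) (hX : 1 ≤ X) :
    ∑ m ∈ Icc 1 X, Vale.Agent.P005.BV.tau m ^ 2 / m ≤ (1 + Real.log X) ^ 4 := by
  have hL0 := log_nat_nonneg X
  set P : ℝ := 1 + Real.log X with hP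
  have h1 := abel_anti (fun n => if n = 0 then 1 else 1 / (n : ℝ)) (fun n => Vale.Agent.P005.BV.tau n ^ 2) (P ^ 3) X
    (fun n => by split_ifs <;> positivity)
    (fun n => by
      rw [if_neg (by omega)]
      split_ifs with h
      · rw [h]; norm_num
      · apply one_div_le_one_div_of_le
        · have : 1 ≤ n := by omega
          exact_mod_cast this
        · push_cast; linarith only [])
    (fun N hN => by
      have h2 := tau_sq_sum N
      have h3 : 0 ≤ ∑ n ∈ Icc 1 N, Vale.Agent.P005.BV.tau n ^ 2 := Finset.sum_nonneg fun _ _ => by positivity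
      rw [abs_of_nonneg h3]
      refine h2.trans ?_
      rw [mul_comm]
      apply mul_le_mul_of_nonneg_right _ (by positivity)
      apply pow_le_pow_left₀
      · have := log_nat_nonneg N; linarith only [this]
      · rcases Nat.eq_zero_or_pos N with rfl | hN0
        · simp; linarith only [hL0]
        · have := Real.log_le_log (by exact_mod_cast hN0 : (0 : ℝ) < N)
            (by exact_mod_cast hN : (N : ℝ) ≤ X)
          linarith only [this])
  have e1 : ∑ m ∈ Icc 1 X, Vale.Agent.P005.BV.tau m ^ 2 / m =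
      ∑ n ∈ Icc 1 X, Vale.Agent.P005.BV.tau n ^ 2 * (if n = 0 then 1 else 1 / (n : ℝ)) := by
    apply Finset.sum_congr rfl
    intro n hn
    rw [Finset.mem_Icc] at hn
    rw [if_neg (by omega)]
    ring
  have e2 : ∑ n ∈ Icc 1 X, (if n = 0 then 1 else 1 / (n : ℝ)) = ∑ n ∈ Icc 1 X, 1 / (n : ℝ) := by
    apply Finset.sum_congr rfl
    intro n hn
    rw [Finset.mem_Icc] at hn
    rw [if_neg (by omega)]
  rw [e1]
  refine (le_abs_self _).trans (h1.trans ?_)
  rw [e2]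
  calc P ^ 3 * ∑ n ∈ Icc 1 X, 1 / (n : ℝ) ≤ P ^ 3 * P :=
        mul_le_mul_of_nonneg_left (harm_le X) (by positivity)
    _ = P ^ 4 := by ring

/-- **Type II estimate** -/
theorem typeII_lite (X U V Q G : ℕ) (hX : 1 ≤ X) (hU : 1 ≤ U) (hV : 1 ≤ V) (hG : 1 ≤ G)
    (hQ : 1 ≤ Q) (hQU : Q ≤ U) (hUX : U ≤ X) (h : ℕ → ℕ)
    (hh : ∀ q, 1 ≤ q → Nat.Coprime (h q) q) (δ : ℝ) (hδ : 0 ≤ δ)
    (hSW : ∀ g, 1 ≤ g → g ≤ G → ∀ c, Nat.Coprime c g → ∀ N ≤ X,
      |∑ n ∈ Icc 1 N, hi vonMangoldt U n * K g c n| ≤ δ * N) :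
    (∑ q ∈ Icc 1 Q, |∑ n ∈ Icc 1 X, ∑ m ∈ Icc 1 (X / n),
      hi vonMangoldt U n * (hi mu V * ze) m * K q (h q) (n * m)|) ^ 2 ≤
      8 * (X : ℝ) ^ 2 * (1 + Real.log X) ^ 10 * (δ + 1 / G + Q / U + (Q : ℝ) ^ 4 / V) := by
  have hL0 := log_nat_nonneg X
  set E : ℕ → ℝ := fun q => ∑ n ∈ Icc 1 X, ∑ m ∈ Icc 1 (X / n),
      hi vonMangoldt U n * (hi mu V * ze) m * K q (h q) (n * m) with hE
  set ε : ℕ → ℝ := fun q => (SignType.sign (E q) : ℝ) with hεdef
  have hε : ∀ q, |ε q| ≤ 1 := by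
    intro q
    simp only [hεdef]
    rcases SignType.trichotomy (SignType.sign (E q)) with h | h | h <;> rw [h] <;> simp
  have h1 : ∑ q ∈ Icc 1 Q, |E q| = ∑ m ∈ Ioc V X, (hi mu V * ze) m * SS X U Q h ε m := by
    have e1 : ∀ q, E q = ∑ m ∈ Icc 1 X, ∑ n ∈ Icc 1 (X / m),
        hi vonMangoldt U n * (hi mu V * ze) m * K q (h q) (m * n) := by
      intro q
      simp only [hE]
      rw [Finset.sum_comm' (s' := fun m => Icc 1 (X / m)) (t' := Icc 1 X)]
      · apply Finset.sum_congr rfl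
        intro m _
        apply Finset.sum_congr rfl
        intro n _
        rw [mul_comm n m]
      · intro n m
        rw [Finset.mem_Icc, Finset.mem_Icc, Finset.mem_Icc, Finset.mem_Icc]
        constructor
        · rintro ⟨⟨h1, h2⟩, h3, h4⟩
          rw [Nat.le_div_iff_mul_le (by omega)] at h4
          refine ⟨⟨h1, ?_⟩, h3, ?_⟩
          · rw [Nat.le_div_iff_mul_le (by omega), mul_comm]; exact h4
          · calc m = m * 1 := (mul_one m).symm
              _ ≤ m * n := Nat.mul_le_mul_left m h1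
              _ ≤ X := h4
        · rintro ⟨⟨h1, h2⟩, h3, h4⟩
          rw [Nat.le_div_iff_mul_le (by omega)] at h2
          refine ⟨⟨h1, ?_⟩, h3, ?_⟩
          · calc n = n * 1 := (mul_one n).symm
              _ ≤ n * m := Nat.mul_le_mul_left n h3
              _ ≤ X := h2
          · rw [Nat.le_div_iff_mul_le (by omega), mul_comm]; exact h2
    calc ∑ q ∈ Icc 1 Q, |E q| = ∑ q ∈ Icc 1 Q, ∑ m ∈ Icc 1 X, ∑ n ∈ Icc 1 (X / m),
          ε q * (hi vonMangoldt U n * (hi mu V * ze) m * K q (h q) (m * n)) := by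
          apply Finset.sum_congr rfl
          intro q _
          have : |E q| = ε q * E q := by
            simp only [hεdef]
            rw [mul_comm]
            exact (self_mul_sign _).symm
          rw [this, e1 q, Finset.mul_sum]
          apply Finset.sum_congr rfl
          intro m _
          rw [Finset.mul_sum]
      _ = ∑ m ∈ Icc 1 X, (hi mu V * ze) m * SS X U Q h ε m := by
          rw [Finset.sum_comm]
          apply Finset.sum_congr rfl
          intro m _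
          unfold SS
          rw [Finset.sum_comm, Finset.mul_sum]
          apply Finset.sum_congr rfl
          intro n _
          rw [Finset.mul_sum, Finset.mul_sum]
          apply Finset.sum_congr rfl
          intro q _
          ring
      _ = _ := by
          symm
          apply Finset.sum_subset
          · intro m hm
            rw [Finset.mem_Ioc] at hm
            rw [Finset.mem_Icc]
            omega
          · intro m hm hm2
            rw [Finset.mem_Icc] at hm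
            rw [Finset.mem_Ioc] at hm2
            rw [hi_mu_ze_zero V m (by omega), zero_mul]
  have h2 : (∑ m ∈ Ioc V X, (hi mu V * ze) m * SS X U Q h ε m) ^ 2 ≤
      (∑ m ∈ Ioc V X, (hi mu V * ze) m ^ 2 / m) *
        ∑ m ∈ Ioc V X, (m : ℝ) * SS X U Q h ε m ^ 2 := by
    apply Finset.sum_sq_le_sum_mul_sum_of_sq_le_mul
    · intro m _; (clear * -; positivity)
    · intro m _; positivity
    · intro m hm
      rw [Finset.mem_Ioc] at hm
      have hmr : (0 : ℝ) < m := by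
        have : 0 < m := by omega
        exact_mod_cast this
      apply le_of_eq
      field_simp
  have h3 : ∑ m ∈ Ioc V X, (hi mu V * ze) m ^ 2 / m ≤ (1 + Real.log X) ^ 4 := by
    calc ∑ m ∈ Ioc V X, (hi mu V * ze) m ^ 2 / m ≤ ∑ m ∈ Ioc V X, Vale.Agent.P005.BV.tau m ^ 2 / m := by
          apply Finset.sum_le_sum
          intro m _
          apply div_le_div_of_nonneg_right _ (by positivity)
          exact sq_le_sq' (by
            have := abs_le.1 (abs_hi_mu_ze_le V m)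
            linarith only [this.1, this]) (abs_le.1 (abs_hi_mu_ze_le V m)).2
      _ ≤ ∑ m ∈ Icc 1 X, Vale.Agent.P005.BV.tau m ^ 2 / m := by
          apply Finset.sum_le_sum_of_subset_of_nonneg
          · intro m hm
            rw [Finset.mem_Ioc] at hm
            rw [Finset.mem_Icc]
            omega
          · intro m _ _; (clear * -; positivity)
      _ ≤ _ := tau_sq_harm X hX
  have h4 := second_factor X U V Q G hX hU hV hG hQ (hQU.trans hUX) h hh hδ hSW ε hε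
  have h5 : 0 ≤ ∑ m ∈ Ioc V X, (m : ℝ) * SS X U Q h ε m ^ 2 :=
    Finset.sum_nonneg fun m _ => by positivity
  rw [h1]
  calc _ ≤ _ := h2
    _ ≤ (1 + Real.log X) ^ 4 * (8 * (X : ℝ) ^ 2 * (1 + Real.log X) ^ 6 *
        (δ + 1 / G + Q / U + (Q : ℝ) ^ 4 / V)) := mul_le_mul h3 h4 h5 (by positivity)
    _ = _ := by ring

end Vale.Agent.P013.J.BV
end

section

/-!
# BV-lite: assembly
-/

open Finset ArithmeticFunction

namespace Vale.Agent.P013.J.BV

open Vale.Agent.P005.BV (hi mu ze)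

/-- the discrepancies of the truncated von Mangoldt function modulo small moduli -/
def SWHi : Prop := ∀ C : ℝ, 0 < C → ∃ x₀ : ℝ, ∀ x : ℝ, x₀ ≤ x → ∀ g c : ℕ, 1 ≤ g →
  (g : ℝ) ≤ (Real.log x) ^ C → Nat.Coprime c g → ∀ N : ℕ, N ≤ ⌊x⌋₊ →
    |∑ n ∈ Icc 1 N, hi vonMangoldt ⌊x ^ (1 / 3 : ℝ)⌋₊ n * K g c n| ≤ (Real.log x) ^ (-C) * N

lemma ev_pow (a b c : ℝ) (hb : 0 < b) (hc : 0 < c) :
    ∀ᶠ x : ℝ in Filter.atTop, c * (Real.log x) ^ a ≤ x ^ b := by
  have h1 : (fun x : ℝ => (Real.log x) ^ a) =o[Filter.atTop] (fun x : ℝ => x ^ b) :=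
    isLittleO_log_rpow_rpow_atTop a hb
  have h2 := h1.def (show (0 : ℝ) < 1 / c by positivity)
  filter_upwards [h2, Real.tendsto_log_atTop.eventually_ge_atTop 0,
      Filter.eventually_ge_atTop 1] with x hx hlog hx1
  rw [Real.norm_eq_abs, Real.norm_eq_abs, abs_of_nonneg (Real.rpow_nonneg hlog _),
      abs_of_nonneg (Real.rpow_nonneg (by linarith only [hx1]) _)] at hx
  calc c * (Real.log x) ^ a ≤ c * (1 / c * x ^ b) := mul_le_mul_of_nonneg_left hx hc.le
    _ = x ^ b := by field_simp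

lemma S_bound {x L C C' S E δ : ℝ} {X : ℕ} (hC' : C' = 2 * C + 14) (hL : 300 ≤ L) (hx : 0 < x)
    (hXx : (X : ℝ) ≤ x) (hX0 : 0 ≤ Real.log X) (hlogX : Real.log X ≤ L) (hE0 : 0 ≤ E)
    (hE : E ≤ 5 * δ) (hδ : δ = 1 / L ^ C')
    (hII : S ^ 2 ≤ 8 * (X : ℝ) ^ 2 * (1 + Real.log X) ^ 10 * E) : S ≤ x / L ^ (C + 1) := by
  have hL0 : 0 < L := by linarith only [hL]
  have hδ0 : 0 ≤ δ := by rw [hδ]; positivity
  have hP : 1 + Real.log X ≤ 2 * L := by linarith only [hL, hlogX]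
  apply le_of_sq_le_sq _ (by positivity)
  have h1 : 8 * (X : ℝ) ^ 2 * (1 + Real.log X) ^ 10 * E ≤
      8 * x ^ 2 * (2 * L) ^ 10 * (5 * δ) := by
    apply mul_le_mul _ hE hE0 (by positivity)
    apply mul_le_mul _ _ (by positivity) (by positivity)
    · apply mul_le_mul_of_nonneg_left _ (by norm_num)
      exact pow_le_pow_left₀ (by positivity) hXx 2
    · exact pow_le_pow_left₀ (by linarith) hP 10
  refine (hII.trans h1).trans ?_
  have h2 : L ^ C' = (L ^ (C + 1)) ^ 2 * L ^ 12 := by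
    rw [← Real.rpow_natCast (L ^ (C + 1)) 2, ← Real.rpow_mul hL0.le, ← Real.rpow_natCast L 12,
      ← Real.rpow_add hL0]
    congr 1
    push_cast
    rw [hC']; ring
  rw [hδ, h2, div_pow]
  have h3 : 0 < (L ^ (C + 1)) ^ 2 := by positivity
  have h4 : 8 * x ^ 2 * (2 * L) ^ 10 * (5 * (1 / ((L ^ (C + 1)) ^ 2 * L ^ 12))) =
      x ^ 2 / (L ^ (C + 1)) ^ 2 * (40960 / L ^ 2) := by
    field_simp
    ring
  rw [h4]
  have h5 : 40960 / L ^ 2 ≤ 1 := by
    rw [div_le_one (by positivity)]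
    have h6 : (300 : ℝ) ^ 2 ≤ L ^ 2 := pow_le_pow_left₀ (by norm_num) hL 2
    norm_num at h6
    linarith only [h6]
  calc x ^ 2 / (L ^ (C + 1)) ^ 2 * (40960 / L ^ 2) ≤ x ^ 2 / (L ^ (C + 1)) ^ 2 * 1 :=
        mul_le_mul_of_nonneg_left h5 (by positivity)
    _ = _ := mul_one _

theorem bv_of (hsw : SWStmt) (hhi : SWHi) : BVStmt := by
  refine ⟨1 / 100, by norm_num, by norm_num, ?_⟩
  intro C hC
  set C' : ℝ := 2 * C + 14 with hC'
  obtain ⟨x₁, hx₁⟩ := bv_red hsw (C + 1) (by linarith only [hC])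
  obtain ⟨x₂, hx₂⟩ := hhi C' (by linarith only [hC])
  have hev : ∀ᶠ x : ℝ in Filter.atTop, 300 ≤ Real.log x ∧ 1 ≤ x ∧
      10 * (Real.log x) ^ (C + 2) ≤ x ^ (1 / 10 : ℝ) ∧
      2 * (Real.log x) ^ C' ≤ x ^ (1 / 10 : ℝ) ∧ 8 ≤ x ^ (1 / 10 : ℝ) := by
    filter_upwards [ev_pow (C + 2) (1 / 10) 10 (by norm_num) (by norm_num),
      ev_pow C' (1 / 10) 2 (by norm_num) (by norm_num),
      ev_pow 0 (1 / 10) 8 (by norm_num) (by norm_num),
      Real.tendsto_log_atTop.eventually_ge_atTop 300,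
      Filter.eventually_ge_atTop 1] with x h1 h2 h3 h4 h5
    refine ⟨h4, h5, h1, h2, ?_⟩
    rwa [Real.rpow_zero, mul_one] at h3
  obtain ⟨x₃, hx₃⟩ := Filter.eventually_atTop.mp hev
  refine ⟨max x₁ (max x₂ x₃), fun x hx h hh => ?_⟩
  have hxa : x₁ ≤ x := le_trans (le_max_left _ _) hx
  have hxb : x₂ ≤ x := le_trans (le_trans (le_max_left _ _) (le_max_right _ _)) hx
  have hxc : x₃ ≤ x := le_trans (le_trans (le_max_right _ _) (le_max_right _ _)) hx
  obtain ⟨hL, hx1, hp1, hp2, hp3⟩ := hx₃ x hxc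
  have hred := hx₁ x hxa h hh
  have hsi := hx₂ x hxb
  set L := Real.log x with hLdef
  set X := ⌊x⌋₊ with hX
  set Q := ⌊x ^ (1 / 100 : ℝ)⌋₊ with hQ
  set U := ⌊x ^ (1 / 3 : ℝ)⌋₊ with hU
  set G := ⌊L ^ C'⌋₊ with hG
  have hx0 : (0 : ℝ) < x := by linarith only [hx1]
  have hL0 : 0 < L := by linarith only [hL]
  have hX1 : 1 ≤ X := Nat.le_floor (by simpa using hx1)
  have hXx : (X : ℝ) ≤ x := Nat.floor_le hx0.le
  have hlogX : Real.log X ≤ L := Real.log_le_log (by exact_mod_cast hX1) hXx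
  have hlogX0 := log_nat_nonneg X
  have hQx : (Q : ℝ) ≤ x ^ (1 / 100 : ℝ) := Nat.floor_le (Real.rpow_nonneg hx0.le _)
  have hQ1 : 1 ≤ Q := Nat.le_floor (by
    rw [Nat.cast_one]; exact Real.one_le_rpow hx1 (by norm_num))
  have hUx : (U : ℝ) ≤ x ^ (1 / 3 : ℝ) := Nat.floor_le (Real.rpow_nonneg hx0.le _)
  have hU1' : (1 : ℝ) ≤ x ^ (1 / 3 : ℝ) := Real.one_le_rpow hx1 (by norm_num)
  have hU1 : 1 ≤ U := Nat.le_floor (by rw [Nat.cast_one]; exact hU1')
  have hUr : (1 : ℝ) ≤ U := by exact_mod_cast hU1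
  have hU2 : x ^ (1 / 3 : ℝ) / 2 ≤ U := by
    have := (Nat.lt_floor_add_one (x ^ (1 / 3 : ℝ))).le
    rw [← hU] at this
    linarith only [hUr, this]
  have hUX : U ≤ X := by
    apply Nat.floor_le_floor
    calc x ^ (1 / 3 : ℝ) ≤ x ^ (1 : ℝ) := Real.rpow_le_rpow_of_exponent_le hx1 (by norm_num)
      _ = x := Real.rpow_one x
  have hQU : Q ≤ U := by
    apply Nat.floor_le_floor
    exact Real.rpow_le_rpow_of_exponent_le hx1 (by norm_num)
  have hLC1 : (1 : ℝ) ≤ L ^ C' := Real.one_le_rpow (by linarith only [hL]) (by linarith only [hC])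
  have hG1 : 1 ≤ G := Nat.le_floor (by rw [Nat.cast_one]; exact hLC1)
  have hGr : (1 : ℝ) ≤ G := by exact_mod_cast hG1
  have hG2 : L ^ C' / 2 ≤ G := by
    have := (Nat.lt_floor_add_one (L ^ C')).le
    rw [← hG] at this
    linarith only [hGr, this]
  have hGx : (G : ℝ) ≤ L ^ C' := Nat.floor_le (by positivity)
  have hδ : 0 ≤ L ^ (-C') := Real.rpow_nonneg hL0.le _
  -- the type II bound
  have hII := typeII_lite X U U Q G hX1 hU1 hU1 hG1 hQ1 hQU hUX h hh (L ^ (-C')) hδ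
    (fun g hg1 hgG c hc N hN => hsi g c hg1 (le_trans (by exact_mod_cast hgG) hGx) hc N hN)
  set S : ℝ := ∑ q ∈ Icc 1 Q, |∑ n ∈ Icc 1 X, ∑ m ∈ Icc 1 (X / n),
      hi vonMangoldt U n * (hi mu U * ze) m * K q (h q) (n * m)| with hS
  have hS0 : 0 ≤ S := Finset.sum_nonneg fun _ _ => abs_nonneg _
  have hLneg : L ^ (-C') = 1 / L ^ C' := by rw [Real.rpow_neg hL0.le, one_div]
  have hLCpos : 0 < L ^ C' := by linarith only [hLC1]
  -- powers of x
  have hpw : ∀ a b : ℝ, x ^ a * x ^ b = x ^ (a + b) := fun a b => (Real.rpow_add hx0 a b).symm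
  have hQU2 : (Q : ℝ) / U ≤ L ^ (-C') := by
    rw [hLneg, div_le_div_iff₀ (by linarith only [hUr]) hLCpos, one_mul]
    calc (Q : ℝ) * L ^ C' ≤ x ^ (1 / 100 : ℝ) * (x ^ (1 / 10 : ℝ) / 2) :=
          mul_le_mul hQx (by linarith only [hp2]) hLCpos.le (by positivity)
      _ = x ^ (11 / 100 : ℝ) / 2 := by rw [← mul_div_assoc, hpw]; norm_num
      _ ≤ x ^ (1 / 3 : ℝ) / 2 := by
          have := Real.rpow_le_rpow_of_exponent_le hx1 (by norm_num : (11 / 100 : ℝ) ≤ 1 / 3)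
          linarith only [this]
      _ ≤ U := hU2
  have hQV : (Q : ℝ) ^ 4 / U ≤ L ^ (-C') := by
    rw [hLneg, div_le_div_iff₀ (by linarith only [hUr]) hLCpos, one_mul]
    calc (Q : ℝ) ^ 4 * L ^ C' ≤ (x ^ (1 / 100 : ℝ)) ^ 4 * (x ^ (1 / 10 : ℝ) / 2) := by
          apply mul_le_mul _ (by linarith only [hp2]) hLCpos.le (by positivity)
          exact pow_le_pow_left₀ (by positivity) hQx 4
      _ = x ^ (14 / 100 : ℝ) / 2 := by
          rw [← Real.rpow_natCast (x ^ (1 / 100 : ℝ)) 4, ← Real.rpow_mul hx0.le, ← mul_div_assoc,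
            hpw]
          norm_num
      _ ≤ x ^ (1 / 3 : ℝ) / 2 := by
          have := Real.rpow_le_rpow_of_exponent_le hx1 (by norm_num : (14 / 100 : ℝ) ≤ 1 / 3)
          linarith only [this]
      _ ≤ U := hU2
  have hGinv : 1 / (G : ℝ) ≤ 2 * L ^ (-C') := by
    rw [hLneg, mul_one_div, div_le_div_iff₀ (by linarith only [hGr]) hLCpos]
    linarith only [hG2]
  have hbr : L ^ (-C') + 1 / (G : ℝ) + Q / U + (Q : ℝ) ^ 4 / U ≤ 5 * L ^ (-C') := by linarith only [hQU2, hQV, hGinv]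
  have hSle : S ≤ x / L ^ (C + 1) :=
    S_bound hC' hL hx0 hXx hlogX0 hlogX (by (clear * - hL hG1 hQ1 hU1; positivity)) hbr hLneg hII
  -- the type I bound
  have hI : ∑ q ∈ Icc 1 Q, 5 * (q : ℝ) * U * U * (1 + Real.log X) ≤ x / L ^ (C + 1) := by
    have h1 : ∀ q ∈ Icc 1 Q, 5 * (q : ℝ) * U * U * (1 + Real.log X) ≤
        5 * x ^ (1 / 100 : ℝ) * x ^ (1 / 3 : ℝ) * x ^ (1 / 3 : ℝ) * (2 * L) := by
      intro q hq
      rw [Finset.mem_Icc] at hq
      have hq2 : (q : ℝ) ≤ x ^ (1 / 100 : ℝ) := le_trans (by exact_mod_cast hq.2) hQx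
      have hP : 1 + Real.log X ≤ 2 * L := by linarith only [hL, hlogX]
      gcongr
    refine (Finset.sum_le_sum h1).trans ?_
    rw [Finset.sum_const, Nat.card_Icc, Nat.add_sub_cancel, nsmul_eq_mul]
    have hLC : 0 < L ^ (C + 1) := by positivity
    rw [le_div_iff₀ hLC]
    calc (Q : ℝ) * (5 * x ^ (1 / 100 : ℝ) * x ^ (1 / 3 : ℝ) * x ^ (1 / 3 : ℝ) * (2 * L)) *
          L ^ (C + 1)
        ≤ x ^ (1 / 100 : ℝ) * (5 * x ^ (1 / 100 : ℝ) * x ^ (1 / 3 : ℝ) * x ^ (1 / 3 : ℝ) *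
          (2 * L)) * L ^ (C + 1) := by gcongr
      _ = (x ^ (1 / 100 : ℝ) * x ^ (1 / 100 : ℝ) * x ^ (1 / 3 : ℝ) * x ^ (1 / 3 : ℝ)) *
          (10 * (L ^ (C + 1) * L)) := by ring
      _ = x ^ (1 / 100 + 1 / 100 + 1 / 3 + 1 / 3 : ℝ) * (10 * L ^ (C + 2)) := by
          rw [hpw, hpw, hpw]
          congr 2
          rw [← Real.rpow_add_one hL0.ne']
          congr 1
          ring
      _ ≤ x ^ (1 / 100 + 1 / 100 + 1 / 3 + 1 / 3 : ℝ) * x ^ (1 / 10 : ℝ) :=
          mul_le_mul_of_nonneg_left hp1 (by positivity)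
      _ = x ^ (1 / 100 + 1 / 100 + 1 / 3 + 1 / 3 + 1 / 10 : ℝ) := hpw _ _
      _ ≤ x ^ (1 : ℝ) := Real.rpow_le_rpow_of_exponent_le hx1 (by norm_num)
      _ = x := Real.rpow_one x
  -- assembly
  have hfin : ∑ q ∈ Icc 1 Q, |psiAP x q (h q) - x / (Nat.totient q : ℝ)| ≤
      3 * (x / L ^ (C + 1)) := by
    calc ∑ q ∈ Icc 1 Q, |psiAP x q (h q) - x / (Nat.totient q : ℝ)|
        ≤ ∑ q ∈ Icc 1 Q, (|psiAP x q (h q) - x / (Nat.totient q : ℝ) -
            ∑ n ∈ Icc 1 X, vonMangoldt n * K q (h q) n| +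
          (5 * (q : ℝ) * U * U * (1 + Real.log X) +
            |∑ n ∈ Icc 1 X, ∑ m ∈ Icc 1 (X / n),
              hi vonMangoldt U n * (hi mu U * ze) m * K q (h q) (n * m)|)) := by
          apply Finset.sum_le_sum
          intro q hq
          rw [Finset.mem_Icc] at hq
          have h1 := vaughan_reduce X U U hX1 hU1 hU1 hq.1 (hh q hq.1)
          have h2 : |psiAP x q (h q) - x / (Nat.totient q : ℝ)| ≤
              |psiAP x q (h q) - x / (Nat.totient q : ℝ) -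
                ∑ n ∈ Icc 1 X, vonMangoldt n * K q (h q) n| +
              |∑ n ∈ Icc 1 X, vonMangoldt n * K q (h q) n| := by
            have := abs_add_le (psiAP x q (h q) - x / (Nat.totient q : ℝ) -
                ∑ n ∈ Icc 1 X, vonMangoldt n * K q (h q) n)
              (∑ n ∈ Icc 1 X, vonMangoldt n * K q (h q) n)
            rwa [sub_add_cancel] at this
          linarith only [h1, h2]
      _ = ∑ q ∈ Icc 1 Q, |psiAP x q (h q) - x / (Nat.totient q : ℝ) -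
            ∑ n ∈ Icc 1 X, vonMangoldt n * K q (h q) n| +
          (∑ q ∈ Icc 1 Q, 5 * (q : ℝ) * U * U * (1 + Real.log X) + S) := by
          rw [Finset.sum_add_distrib, Finset.sum_add_distrib]
      _ ≤ x / L ^ (C + 1) + (x / L ^ (C + 1) + x / L ^ (C + 1)) :=
          add_le_add hred (add_le_add hI hSle)
      _ = _ := by ring
  refine hfin.trans ?_
  have hLC : 0 < L ^ C := by positivity
  rw [Real.rpow_add_one hL0.ne', div_mul_eq_div_div]
  have h9 : 0 ≤ x / L ^ C := by positivity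
  rw [mul_div_assoc', div_le_iff₀ hL0, mul_comm]
  exact mul_le_mul_of_nonneg_left (by linarith only [hL]) h9

end Vale.Agent.P013.J.BV
end

section

/-!
# BV-lite: Siegel-Walfisz for the kernel sums
-/

open Finset ArithmeticFunction

namespace Vale.Agent.P013.J.BV

open Vale.Agent.P005.BV (hi hi_apply)

lemma sum_hi_le (U N g c : ℕ) (h : N ≤ U) :
    ∑ n ∈ Icc 1 N, hi vonMangoldt U n * K g c n = 0 := by
  apply Finset.sum_eq_zero
  intro n hn
  rw [Finset.mem_Icc] at hn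
  rw [hi_apply, if_pos (hn.2.trans h), zero_mul]

lemma sum_hi_eq (U N g c : ℕ) (h : U ≤ N) :
    ∑ n ∈ Icc 1 N, hi vonMangoldt U n * K g c n =
      ∑ n ∈ Icc 1 N, vonMangoldt n * K g c n - ∑ n ∈ Icc 1 U, vonMangoldt n * K g c n := by
  have h1 : ∑ n ∈ Icc 1 U, vonMangoldt n * K g c n =
      ∑ n ∈ Icc 1 N, (if n ≤ U then vonMangoldt n * K g c n else 0) := by
    rw [← Finset.sum_filter]
    apply Finset.sum_congr
    · ext n
      simp only [Finset.mem_Icc, Finset.mem_filter]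
      omega
    · intros; rfl
  rw [h1, ← Finset.sum_sub_distrib]
  apply Finset.sum_congr rfl
  intro n _
  rw [hi_apply]
  split_ifs <;> ring

/-- the kernel sum up to `M`, from two applications of Siegel-Walfisz -/
lemma kernel_sum_le {M g c : ℕ} (hM : 1 ≤ M) (hg : 1 ≤ g) {R : ℝ}
    (h1 : |psiAP M g c - M / (Nat.totient g : ℝ)| ≤ R) (h2 : |psiAP M 1 1 - M| ≤ R) :
    |∑ n ∈ Icc 1 M, vonMangoldt n * K g c n| ≤ 2 * R + g * Real.log M := by
  have hφ : (1 : ℝ) ≤ Nat.totient g := by exact_mod_cast Nat.totient_pos.2 hg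
  have h3 : psiAP (M : ℝ) 1 1 = ∑ n ∈ Icc 1 M, vonMangoldt n := by
    unfold psiAP
    rw [Nat.floor_natCast, Finset.filter_true_of_mem]
    intro n _
    exact Nat.modEq_one
  have h4 := kernel_sum_eq (M : ℝ) g c
  rw [Nat.floor_natCast] at h4
  have hnc := sum_not_coprime_le (q := g) (N := M) hg hM
  have hnc0 : 0 ≤ ∑ n ∈ (Icc 1 M).filter (fun n => ¬ Nat.Coprime n g), vonMangoldt n :=
    Finset.sum_nonneg (fun n _ => vonMangoldt_nonneg)
  rw [h3] at h2
  have heq : ∑ n ∈ Icc 1 M, vonMangoldt n * K g c n =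
      (psiAP M g c - M / (Nat.totient g : ℝ)) -
      (1 / (Nat.totient g : ℝ)) * ((∑ n ∈ Icc 1 M, vonMangoldt n - M) -
        ∑ n ∈ (Icc 1 M).filter (fun n => ¬ Nat.Coprime n g), vonMangoldt n) := by
    rw [h4]; ring
  have hinv0 : 0 < 1 / (Nat.totient g : ℝ) := by positivity
  have hinv1 : 1 / (Nat.totient g : ℝ) ≤ 1 := by
    rw [div_le_one (by linarith only [hφ])]; exact hφ
  have h5 : |(∑ n ∈ Icc 1 M, vonMangoldt n - M) -
        ∑ n ∈ (Icc 1 M).filter (fun n => ¬ Nat.Coprime n g), vonMangoldt n| ≤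
      R + g * Real.log M := by
    refine (abs_sub _ _).trans ?_
    rw [abs_of_nonneg hnc0]
    linarith only [h2, hnc]
  have h6 : |(1 / (Nat.totient g : ℝ)) * ((∑ n ∈ Icc 1 M, vonMangoldt n - M) -
        ∑ n ∈ (Icc 1 M).filter (fun n => ¬ Nat.Coprime n g), vonMangoldt n)| ≤
      R + g * Real.log M := by
    rw [abs_mul, abs_of_pos hinv0]
    calc _ ≤ 1 * |(∑ n ∈ Icc 1 M, vonMangoldt n - M) -
        ∑ n ∈ (Icc 1 M).filter (fun n => ¬ Nat.Coprime n g), vonMangoldt n| :=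
          mul_le_mul_of_nonneg_right hinv1 (abs_nonneg _)
      _ ≤ _ := by rw [one_mul]; exact h5
  rw [heq]
  refine (abs_sub _ _).trans ?_
  linarith only [h1, h6]

theorem sw_hi (hsw : SWStmt) : ∀ C : ℝ, 0 < C → ∃ x₀ : ℝ, ∀ x : ℝ, x₀ ≤ x → ∀ g c : ℕ, 1 ≤ g →
    (g : ℝ) ≤ (Real.log x) ^ C → Nat.Coprime c g → ∀ N : ℕ, N ≤ ⌊x⌋₊ →
      |∑ n ∈ Icc 1 N, hi vonMangoldt ⌊x ^ (1 / 3 : ℝ)⌋₊ n * K g c n| ≤
        (Real.log x) ^ (-C) * N := by
  intro C hC
  obtain ⟨x₁, hx₁⟩ := hsw (C + 1) (by linarith)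
  have hev : ∀ᶠ x : ℝ in Filter.atTop, 1 ≤ x ∧ x₁ ≤ x ^ (1 / 4 : ℝ) ∧ 2 ≤ x ^ (1 / 12 : ℝ) ∧
      4 * (4 : ℝ) ^ C ≤ Real.log x ∧ 8 * (4 : ℝ) ^ (C + 1) ≤ Real.log x ∧
      4 * (Real.log x) ^ (2 * C + 1) ≤ x ^ (1 / 4 : ℝ) := by
    have h1 : (fun x : ℝ => (Real.log x) ^ (2 * C + 1)) =o[Filter.atTop]
        (fun x : ℝ => x ^ (1 / 4 : ℝ)) :=
      isLittleO_log_rpow_rpow_atTop (2 * C + 1) (by norm_num)
    have h2 := h1.def (show (0 : ℝ) < 1 / 4 by norm_num)
    have h3 := (tendsto_rpow_atTop (show (0 : ℝ) < 1 / 4 by norm_num)).eventually_ge_atTop x₁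
    have h4 := (tendsto_rpow_atTop (show (0 : ℝ) < 1 / 12 by norm_num)).eventually_ge_atTop 2
    filter_upwards [h2, h3, h4, Real.tendsto_log_atTop.eventually_ge_atTop (4 * (4 : ℝ) ^ C),
      Real.tendsto_log_atTop.eventually_ge_atTop (8 * (4 : ℝ) ^ (C + 1)),
      Filter.eventually_ge_atTop 1] with x hx h5 h6 h7 h8 h9
    refine ⟨h9, h5, h6, h7, h8, ?_⟩
    rw [Real.norm_eq_abs, Real.norm_eq_abs, abs_of_nonneg
      (Real.rpow_nonneg (Real.log_nonneg h9) _),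
      abs_of_nonneg (Real.rpow_nonneg (by linarith only [h9]) _)] at hx
    linarith only [hx]
  obtain ⟨x₂, hx₂⟩ := Filter.eventually_atTop.mp hev
  refine ⟨x₂, fun x hx g c hg hgx hcg N hN => ?_⟩
  obtain ⟨hx1, hxx₁, hx12, hL4, hL8, hpow⟩ := hx₂ x hx
  set L := Real.log x with hLdef
  set U := ⌊x ^ (1 / 3 : ℝ)⌋₊ with hU
  have hx0 : (0 : ℝ) < x := by linarith only [hx1]
  have h4C : (1 : ℝ) ≤ (4 : ℝ) ^ C := Real.one_le_rpow (by norm_num) hC.le
  have hL0 : 0 < L := by linarith only [hL4, h4C]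
  have hLl : (4 : ℝ) ^ C ≤ L / 4 := by linarith only [hL4]
  have hLl1 : 1 ≤ L / 4 := by linarith only [hL4, h4C]
  by_cases hNU : N ≤ U
  · rw [sum_hi_le U N g c hNU, abs_zero]
    positivity
  have hUN : U ≤ N := by omega
  rw [sum_hi_eq U N g c hUN]
  -- sizes
  have hUlow : x ^ (1 / 4 : ℝ) ≤ U := by
    have h1 : x ^ (1 / 3 : ℝ) < U + 1 := Nat.lt_floor_add_one _
    have h2 : x ^ (1 / 4 : ℝ) * x ^ (1 / 12 : ℝ) = x ^ (1 / 3 : ℝ) := by
      rw [← Real.rpow_add hx0]; norm_num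
    have h3 : 1 ≤ x ^ (1 / 4 : ℝ) := Real.one_le_rpow hx1 (by norm_num)
    nlinarith only [hx12, h1, h2, h3]
  have hNx : (N : ℝ) ≤ x := (Nat.le_floor_iff hx0.le).1 hN
  have hgen : ∀ M : ℕ, x ^ (1 / 4 : ℝ) ≤ M → (M : ℝ) ≤ x →
      |∑ n ∈ Icc 1 M, vonMangoldt n * K g c n| ≤ 2 * (M / (L / 4) ^ (C + 1)) + g * L := by
    intro M hM1 hM2
    have hMpos : (1 : ℝ) ≤ M := (Real.one_le_rpow hx1 (by norm_num)).trans hM1
    have hM1' : 1 ≤ M := by exact_mod_cast hMpos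
    have hlogM : L / 4 ≤ Real.log M := by
      have h1 := Real.log_le_log (Real.rpow_pos_of_pos hx0 _) hM1
      rw [Real.log_rpow hx0] at h1
      linarith only [h1]
    have hlogM2 : Real.log M ≤ L := Real.log_le_log (by linarith only [hMpos]) hM2
    have hpowle : (L / 4) ^ (C + 1) ≤ (Real.log M) ^ (C + 1) :=
      Real.rpow_le_rpow (by linarith only [hL4, h4C]) hlogM (by linarith only [hC])
    have hgM : (g : ℝ) ≤ (Real.log M) ^ (C + 1) := by
      refine le_trans ?_ hpowle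
      refine hgx.trans ?_
      have h1 : L ^ C = (4 : ℝ) ^ C * (L / 4) ^ C := by
        rw [← Real.mul_rpow (by norm_num) (by linarith only [hL4, h4C])]
        congr 1; ring
      rw [h1, Real.rpow_add (by linarith only [hL4, h4C]), Real.rpow_one, mul_comm]
      exact mul_le_mul_of_nonneg_left hLl (Real.rpow_nonneg (by linarith only [hL4, h4C]) _)
    have hdiv : (M : ℝ) / (Real.log M) ^ (C + 1) ≤ M / (L / 4) ^ (C + 1) := by
      apply div_le_div_of_nonneg_left (by linarith only [hMpos]) (Real.rpow_pos_of_pos (by linarith only [hL4, h4C]) _) hpowle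
    have s1 := (hx₁ M (hxx₁.trans hM1) g c hg hgM hcg).trans hdiv
    have s2 := (hx₁ M (hxx₁.trans hM1) 1 1 le_rfl (by
      push_cast
      exact Real.one_le_rpow (by linarith only [hL4, h4C, hlogM]) (by linarith only [hC])) (by simp)).trans hdiv
    rw [Nat.totient_one, Nat.cast_one, div_one] at s2
    refine (kernel_sum_le hM1' hg s1 s2).trans ?_
    have : (g : ℝ) * Real.log M ≤ g * L := mul_le_mul_of_nonneg_left hlogM2 (Nat.cast_nonneg g)
    linarith only [this]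
  have hUNr : (U : ℝ) ≤ N := by exact_mod_cast hUN
  have b1 := hgen N (hUlow.trans hUNr) hNx
  have b2 := hgen U hUlow (hUNr.trans hNx)
  have hN0 : (0 : ℝ) < N := lt_of_lt_of_le (Real.rpow_pos_of_pos hx0 _) (hUlow.trans hUNr)
  have hden : 0 < (L / 4) ^ (C + 1) := Real.rpow_pos_of_pos (by linarith only [hL4, h4C]) _
  have b3 : (U : ℝ) / (L / 4) ^ (C + 1) ≤ N / (L / 4) ^ (C + 1) :=
    div_le_div_of_nonneg_right hUNr hden.le
  have hLC0 : 0 < L ^ C := Real.rpow_pos_of_pos hL0 _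
  -- the main terms
  have b4 : 4 * ((N : ℝ) / (L / 4) ^ (C + 1)) ≤ (1 / 2) * (L ^ (-C) * N) := by
    have e1 : (L / 4) ^ (C + 1) = L ^ C * L / 4 ^ (C + 1) := by
      rw [Real.div_rpow hL0.le (by norm_num), Real.rpow_add hL0, Real.rpow_one]
    rw [e1, Real.rpow_neg hL0.le]
    have h4C1 : (0 : ℝ) < 4 ^ (C + 1) := Real.rpow_pos_of_pos (by norm_num) _
    have e2 : 4 * ((N : ℝ) / (L ^ C * L / 4 ^ (C + 1))) =
        (L ^ C)⁻¹ * N * (4 * 4 ^ (C + 1) / L) := by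
      field_simp
    rw [e2, mul_comm (1 / 2 : ℝ)]
    apply mul_le_mul_of_nonneg_left _ (by positivity)
    rw [div_le_iff₀ hL0]
    linarith only [hL8]
  have b5 : 2 * ((g : ℝ) * L) ≤ (1 / 2) * (L ^ (-C) * N) := by
    have h1 : (g : ℝ) * L ≤ L ^ C * L := mul_le_mul_of_nonneg_right hgx hL0.le
    have h2 : L ^ (2 * C + 1) = L ^ C * (L ^ C * L) := by
      rw [show 2 * C + 1 = C + (C + 1) by ring, Real.rpow_add hL0, Real.rpow_add hL0,
        Real.rpow_one]
    have h3 : 4 * (L ^ C * (L ^ C * L)) ≤ N := by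
      rw [← h2]
      exact hpow.trans (hUlow.trans hUNr)
    rw [Real.rpow_neg hL0.le]
    have h4 : (L ^ C)⁻¹ * (4 * (L ^ C * (L ^ C * L))) ≤ (L ^ C)⁻¹ * N :=
      mul_le_mul_of_nonneg_left h3 (by positivity)
    have h5 : (L ^ C)⁻¹ * (4 * (L ^ C * (L ^ C * L))) = 4 * (L ^ C * L) := by
      field_simp
    linarith only [h1, h4, h5]
  refine (abs_sub _ _).trans ?_
  linarith only [b1, b2, b3, b4, b5]

end Vale.Agent.P013.J.BV
end

section

/-!
# Bombieri-Vinogradov with a small level of distribution from Siegel-Walfisz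
-/

namespace Vale.Agent.P013.J

theorem bv (hsw : SWStmt) : BVStmt := BV.bv_of hsw (BV.sw_hi hsw)

end Vale.Agent.P013.J
end

section

/-!
# Part V: the lower bound (J13b)
-/

open Finset Real

namespace Vale.Agent.P013.J

namespace Low

/-! ### the density -/

lemma gD_nonneg (D : ℕ) {q : ℕ} (hq : 3 ≤ q) : 0 ≤ gD D q := by
  unfold gD
  have h : (3 : ℝ) ≤ q := by exact_mod_cast hq
  split_ifs
  · positivity
  · exact div_nonneg zero_le_one (by linarith only [h])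

lemma gD_lt_one (D : ℕ) {q : ℕ} (hq : 3 ≤ q) : gD D q < 1 := by
  unfold gD
  have h : (3 : ℝ) ≤ q := by exact_mod_cast hq
  split_ifs
  · rw [div_lt_one (by linarith only [h])]
    linarith only [h]
  · rw [div_lt_one (by linarith)]
    linarith

lemma totient_step (D d : ℕ) {q : ℕ} (hq : q.Prime) (h3 : 3 ≤ q) (hc : Nat.Coprime d q) :
    (Nat.totient D : ℝ) / (Nat.totient (D * (d * q)) : ℝ) =
      (Nat.totient D : ℝ) / (Nat.totient (D * d) : ℝ) * gD D q := by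
  have h3' : (3 : ℝ) ≤ q := by exact_mod_cast h3
  unfold gD
  split_ifs with h
  · have h1 : D * (d * q) = q * (D * d) := by ring
    rw [h1, Nat.totient_mul_of_prime_of_dvd hq (h.mul_right d)]
    push_cast
    have : (q : ℝ) ≠ 0 := by linarith only [h3']
    field_simp
  · have h1 : D * (d * q) = q * (D * d) := by ring
    have h2 : ¬ q ∣ D * d := by
      intro h4
      rcases (Nat.Prime.dvd_mul hq).1 h4 with h5 | h5
      · exact h h5
      · exact (Nat.Prime.coprime_iff_not_dvd hq).1 hc.symm h5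
    rw [h1, Nat.totient_mul_of_prime_of_not_dvd hq h2]
    rw [Nat.cast_mul, Nat.cast_sub hq.one_le]
    push_cast
    have : (q : ℝ) - 1 ≠ 0 := by linarith only [h3']
    field_simp

/-! ### the count system -/

open Classical in
/-- count system -/
noncomputable def cs (D R Y : ℕ) (P : Finset ℕ) (a : ℕ → ℤ) (d x : ℕ) : ℝ :=
  ∑ k ∈ (Icc 1 Y).filter (fun k : ℕ => (∀ p ∈ P, p ∣ d → (p : ℤ) ∣ (k : ℤ) - a p) ∧
    ∀ p ∈ P, p < x → ¬ (p : ℤ) ∣ (k : ℤ) - a p), ArithmeticFunction.vonMangoldt (D * k + R)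

lemma cs_nonneg (D R Y : ℕ) (P : Finset ℕ) (a : ℕ → ℤ) (d x : ℕ) : 0 ≤ cs D R Y P a d x :=
  Finset.sum_nonneg fun _ _ => ArithmeticFunction.vonMangoldt_nonneg

lemma cs_notMem (D R Y : ℕ) {P : Finset ℕ} (a : ℕ → ℤ) (d : ℕ) {x : ℕ} (hx : x ∉ P) :
    cs D R Y P a d (x + 1) = cs D R Y P a d x := by
  unfold cs
  congr 1
  apply Finset.filter_congr
  intro k _
  apply and_congr_right
  intro _
  constructor
  · intro h p hp hpx
    exact h p hp (Nat.lt_succ_of_lt hpx)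
  · intro h p hp hpx
    refine h p hp (lt_of_le_of_ne (Nat.lt_succ_iff.1 hpx) ?_)
    rintro rfl
    exact hx hp

lemma cs_mem (D R Y : ℕ) {P : Finset ℕ} (hP : ∀ p ∈ P, p.Prime) (a : ℕ → ℤ) {d x : ℕ}
    (hx : x ∈ P) :
    cs D R Y P a d (x + 1) = cs D R Y P a d x - cs D R Y P a (d * x) x := by
  classical
  rw [eq_sub_iff_add_eq]
  unfold cs
  rw [← Finset.sum_filter_add_sum_filter_not ((Icc 1 Y).filter (fun k : ℕ =>
    (∀ p ∈ P, p ∣ d → (p : ℤ) ∣ (k : ℤ) - a p) ∧ ∀ p ∈ P, p < x → ¬ (p : ℤ) ∣ (k : ℤ) - a p))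
    (fun k : ℕ => ¬ (x : ℤ) ∣ (k : ℤ) - a x)]
  congr 1
  · apply Finset.sum_congr _ fun _ _ => rfl
    ext k
    simp only [Finset.mem_filter]
    constructor
    · rintro ⟨h1, h2, h3⟩
      exact ⟨⟨h1, h2, fun p hp hpx => h3 p hp (Nat.lt_succ_of_lt hpx)⟩,
        h3 x hx (Nat.lt_succ_self x)⟩
    · rintro ⟨⟨h1, h2, h3⟩, h4⟩
      refine ⟨h1, h2, fun p hp hpx => ?_⟩
      rcases eq_or_lt_of_le (Nat.lt_succ_iff.1 hpx) with h5 | h5
      · rw [h5]; exact h4
      · exact h3 p hp h5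
  · apply Finset.sum_congr _ fun _ _ => rfl
    ext k
    simp only [Finset.mem_filter, not_not]
    constructor
    · rintro ⟨h1, h2, h3⟩
      exact ⟨⟨h1, fun p hp hpd => h2 p hp (hpd.mul_right x), h3⟩,
        h2 x hx (Dvd.intro_left d rfl)⟩
    · rintro ⟨⟨h1, h2, h3⟩, h4⟩
      refine ⟨h1, fun p hp hpd => ?_, h3⟩
      rcases (Nat.Prime.dvd_mul (hP p hp)).1 hpd with h5 | h5
      · exact h2 p hp h5
      · rw [(Nat.prime_dvd_prime_iff_eq (hP p hp) (hP x hx)).1 h5]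
        exact h4

/-! ### Chinese remainders -/

lemma crt (F : Finset ℕ) (hF : ∀ p ∈ F, p.Prime) (a : ℕ → ℤ) :
    ∃ A : ℤ, ∀ k : ℤ, ((∏ p ∈ F, p : ℕ) : ℤ) ∣ k - A ↔ ∀ p ∈ F, (p : ℤ) ∣ k - a p := by
  induction F using Finset.induction with
  | empty =>
    refine ⟨0, fun k => ?_⟩
    simp
  | insert q F hq ih =>
    obtain ⟨A, hA⟩ := ih fun p hp => hF p (mem_insert_of_mem hp)
    have hqp := hF q (mem_insert_self q F)
    have hcop : IsCoprime (q : ℤ) ((∏ p ∈ F, p : ℕ) : ℤ) := by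
      rw [Nat.isCoprime_iff_coprime]
      refine Nat.Coprime.prod_right fun p hp => ?_
      rw [Nat.coprime_primes hqp (hF p (mem_insert_of_mem hp))]
      rintro rfl
      exact hq hp
    obtain ⟨u, v, huv⟩ := hcop
    refine ⟨A + v * ((∏ p ∈ F, p : ℕ) : ℤ) * (a q - A), fun k => ?_⟩
    rw [Finset.prod_insert hq, Nat.cast_mul]
    have h1 : ((∏ p ∈ F, p : ℕ) : ℤ) ∣
        k - (A + v * ((∏ p ∈ F, p : ℕ) : ℤ) * (a q - A)) ↔
        ((∏ p ∈ F, p : ℕ) : ℤ) ∣ k - A := by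
      have e : k - (A + v * ((∏ p ∈ F, p : ℕ) : ℤ) * (a q - A)) =
        k - A - ((∏ p ∈ F, p : ℕ) : ℤ) * (v * (a q - A)) := by ring
      rw [e]
      constructor
      · intro h
        have := dvd_add h (Dvd.intro (v * (a q - A)) rfl)
        rwa [sub_add_cancel] at this
      · intro h
        exact dvd_sub h (Dvd.intro _ rfl)
    have h2 : (q : ℤ) ∣ k - (A + v * ((∏ p ∈ F, p : ℕ) : ℤ) * (a q - A)) ↔
        (q : ℤ) ∣ k - a q := by
      have e : k - (A + v * ((∏ p ∈ F, p : ℕ) : ℤ) * (a q - A)) =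
        k - a q + (q : ℤ) * (u * (a q - A)) := by
        linear_combination (A - a q) * huv
      rw [e]
      constructor
      · intro h
        have := dvd_sub h (Dvd.intro (u * (a q - A)) rfl)
        rwa [add_sub_cancel_right] at this
      · intro h
        exact dvd_add h (Dvd.intro _ rfl)
    have hcop : IsCoprime (q : ℤ) ((∏ p ∈ F, p : ℕ) : ℤ) := ⟨u, v, huv⟩
    constructor
    · intro h p hp
      rcases mem_insert.1 hp with rfl | hp
      · exact h2.1 ((Dvd.intro _ rfl).trans h)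
      · exact (hA k).1 (h1.1 ((Dvd.intro_left _ rfl).trans h)) p hp
    · intro h
      exact hcop.mul_dvd (h2.2 (h q (mem_insert_self q F)))
        (h1.2 ((hA k).2 fun p hp => h p (mem_insert_of_mem hp)))

lemma dvd_prod_iff {P F : Finset ℕ} (hP : ∀ p ∈ P, p.Prime) (hF : F ⊆ P) {p : ℕ} (hp : p ∈ P) :
    p ∣ ∏ q ∈ F, q ↔ p ∈ F := by
  constructor
  · intro h
    obtain ⟨q, hq, hpq⟩ := (Prime.dvd_finsetProd_iff (hP p hp).prime _).1 h
    rwa [(Nat.prime_dvd_prime_iff_eq (hP p hp) (hP q (hF hq))).1 hpq]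
  · intro h
    exact Finset.dvd_prod_of_mem (fun q => q) h

lemma psiAP_nat (x q h : ℕ) : psiAP (x : ℝ) q h =
    ∑ n ∈ (Icc 1 x).filter (fun n => n ≡ h [MOD q]), ArithmeticFunction.vonMangoldt n := by
  unfold psiAP
  rw [Nat.floor_natCast]

lemma cs_eq {D R Y : ℕ} {P : Finset ℕ} {a : ℕ → ℤ} (hD : 1 ≤ D) (hP : ∀ p ∈ P, p.Prime)
    {F : Finset ℕ} (hF : F ⊆ P) {A : ℤ}
    (hA : ∀ k : ℤ, ((∏ p ∈ F, p : ℕ) : ℤ) ∣ k - A ↔ ∀ p ∈ F, (p : ℤ) ∣ k - a p) {h : ℕ}
    (hh : ((D * ∏ p ∈ F, p : ℕ) : ℤ) ∣ (D * A + R) - h) :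
    cs D R Y P a (∏ p ∈ F, p) 0 = psiAP ((D * Y + R : ℕ) : ℝ) (D * ∏ p ∈ F, p) h -
      psiAP (R : ℝ) (D * ∏ p ∈ F, p) h := by
  classical
  set m := ∏ p ∈ F, p with hm
  have hmod : ∀ n : ℕ, n ≡ h [MOD (D * m)] ↔ ((D * m : ℕ) : ℤ) ∣ (n : ℤ) - (D * A + R) := by
    intro n
    rw [Nat.ModEq.comm, Nat.modEq_iff_dvd]
    constructor
    · intro h1
      have h2 := dvd_sub h1 hh
      have e : (n : ℤ) - h - (D * A + R - h) = n - (D * A + R) := by ring
      rwa [e] at h2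
    · intro h1
      have h2 := dvd_add h1 hh
      have e : (n : ℤ) - (D * A + R) + (D * A + R - h) = n - h := by ring
      rwa [e] at h2
  rw [eq_sub_iff_add_eq, psiAP_nat, psiAP_nat, add_comm]
  rw [← Finset.sum_filter_add_sum_filter_not ((Icc 1 (D * Y + R)).filter
    (fun n => n ≡ h [MOD (D * m)])) (fun n => n ≤ R)]
  congr 1
  · apply Finset.sum_congr _ fun _ _ => rfl
    ext n
    simp only [Finset.mem_filter, Finset.mem_Icc]
    constructor
    · rintro ⟨⟨h1, h2⟩, h3⟩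
      exact ⟨⟨⟨h1, h2.trans (Nat.le_add_left _ _)⟩, h3⟩, h2⟩
    · rintro ⟨⟨⟨h1, _⟩, h3⟩, h4⟩
      exact ⟨⟨h1, h4⟩, h3⟩
  · unfold cs
    have hinj : Set.InjOn (fun k : ℕ => D * k + R) ((Icc 1 Y).filter (fun k : ℕ =>
        (∀ p ∈ P, p ∣ m → (p : ℤ) ∣ (k : ℤ) - a p) ∧
        ∀ p ∈ P, p < 0 → ¬ (p : ℤ) ∣ (k : ℤ) - a p)) := by
      intro k _ k' _ hkk
      simp only at hkk
      exact Nat.eq_of_mul_eq_mul_left hD (Nat.add_right_cancel hkk)
    rw [← Finset.sum_image (f := fun n => (ArithmeticFunction.vonMangoldt n : ℝ)) hinj]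
    apply Finset.sum_congr _ fun _ _ => rfl
    ext n
    simp only [Finset.mem_image, Finset.mem_filter, Finset.mem_Icc, not_le]
    have hkey : ∀ k : ℕ, ((D * m : ℕ) : ℤ) ∣ ((D * k + R : ℕ) : ℤ) - (D * A + R) ↔
        ∀ p ∈ P, p ∣ m → (p : ℤ) ∣ (k : ℤ) - a p := by
      intro k
      have e : ((D * k + R : ℕ) : ℤ) - (D * A + R) = (D : ℤ) * ((k : ℤ) - A) := by
        push_cast
        ring
      have hD0 : (D : ℤ) ≠ 0 := by
        exact_mod_cast (by omega : D ≠ 0)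
      rw [e, Nat.cast_mul, mul_dvd_mul_iff_left hD0, hm, hA]
      constructor
      · intro h1 p hp hpm
        exact h1 p ((dvd_prod_iff hP hF hp).1 hpm)
      · intro h1 p hp
        exact h1 p (hF hp) ((dvd_prod_iff hP hF (hF hp)).2 hp)
    constructor
    · rintro ⟨k, ⟨⟨h1, h2⟩, h3, _⟩, rfl⟩
      have h5 : 1 ≤ D * k := Nat.mul_le_mul hD h1
      have h6 : D * k ≤ D * Y := Nat.mul_le_mul_left D h2
      refine ⟨⟨⟨by omega, by omega⟩, ?_⟩, by omega⟩
      rw [hmod, hkey]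
      exact h3
    · rintro ⟨⟨⟨h1, h2⟩, h3⟩, h4⟩
      rw [hmod] at h3
      have h5 : (D : ℤ) ∣ (n : ℤ) - R := by
        have h6 : (D : ℤ) ∣ (n : ℤ) - (D * A + R) :=
          (Dvd.intro _ (by push_cast; rfl)).trans h3
        have h7 := dvd_add h6 (Dvd.intro A rfl)
        have e : (n : ℤ) - (D * A + R) + D * A = n - R := by ring
        rwa [e] at h7
      have h6 : D ∣ n - R := by
        have h7 : ((n - R : ℕ) : ℤ) = (n : ℤ) - R := Nat.cast_sub h4.le
        rw [← h7] at h5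
        exact_mod_cast h5
      obtain ⟨k, hk⟩ := h6
      have hn : n = D * k + R := by omega
      refine ⟨k, ⟨⟨?_, ?_⟩, ?_, ?_⟩, hn.symm⟩
      · rcases Nat.eq_zero_or_pos k with h0 | h0
        · rw [h0] at hn
          omega
        · exact h0
      · rw [hn] at h2
        exact Nat.le_of_mul_le_mul_left (by omega : D * k ≤ D * Y) hD
      · rw [hn] at h3
        exact (hkey k).1 h3
      · intro p _ h0
        exact absurd h0 (Nat.not_lt_zero p)

open Classical in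
/-- the solution of the congruences -/
noncomputable def crtA (a : ℕ → ℤ) (F : Finset ℕ) : ℤ :=
  if hF : ∀ p ∈ F, p.Prime then (crt F hF a).choose else 0

lemma crtA_spec {a : ℕ → ℤ} {F : Finset ℕ} (hF : ∀ p ∈ F, p.Prime) (k : ℤ) :
    ((∏ p ∈ F, p : ℕ) : ℤ) ∣ k - crtA a F ↔ ∀ p ∈ F, (p : ℤ) ∣ k - a p := by
  unfold crtA
  rw [dif_pos hF]
  exact (crt F hF a).choose_spec k

/-- the residue class attached to `F` -/
noncomputable def hcl (D R : ℕ) (a : ℕ → ℤ) (F : Finset ℕ) : ℕ :=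
  (((D : ℤ) * crtA a F + R) % ((D * ∏ p ∈ F, p : ℕ) : ℤ)).toNat

lemma hcl_spec {D R : ℕ} {a : ℕ → ℤ} {F : Finset ℕ} (hD : 1 ≤ D) (hF : ∀ p ∈ F, p.Prime) :
    ((D * ∏ p ∈ F, p : ℕ) : ℤ) ∣ ((D : ℤ) * crtA a F + R) - hcl D R a F := by
  have h0 : 0 < D * ∏ p ∈ F, p := Nat.mul_pos hD (Finset.prod_pos fun p hp => (hF p hp).pos)
  have h1 : ((D * ∏ p ∈ F, p : ℕ) : ℤ) ≠ 0 := by exact_mod_cast h0.ne'
  unfold hcl
  rw [Int.toNat_of_nonneg (Int.emod_nonneg _ h1)]
  exact Int.dvd_self_sub_emod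

lemma hcl_coprime {D R : ℕ} {a : ℕ → ℤ} {F : Finset ℕ} (hD : 1 ≤ D) (hF : ∀ p ∈ F, p.Prime)
    (hDR : Nat.Coprime D R) (ha : ∀ p ∈ F, ¬ (p : ℤ) ∣ D * a p + R) :
    Nat.Coprime (hcl D R a F) (D * ∏ p ∈ F, p) := by
  have h1 := hcl_spec (D := D) (R := R) (a := a) hD hF
  apply Nat.Coprime.mul_right
  · have h2 : (D : ℤ) ∣ ((D : ℤ) * crtA a F + R) - hcl D R a F :=
      (Dvd.intro _ (by push_cast; rfl)).trans h1
    obtain ⟨t, ht⟩ := h2
    rw [← Nat.isCoprime_iff_coprime]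
    have e : (hcl D R a F : ℤ) = R + D * (crtA a F - t) := by linear_combination -ht
    rw [e]
    exact (Nat.isCoprime_iff_coprime.2 hDR.symm).add_mul_left_left _
  · refine Nat.Coprime.prod_right fun p hp => ?_
    rw [Nat.coprime_comm, (hF p hp).coprime_iff_not_dvd]
    intro h3
    apply ha p hp
    have h4 : (p : ℤ) ∣ ((D * ∏ p ∈ F, p : ℕ) : ℤ) := by
      rw [Int.natCast_dvd_natCast]
      exact (Finset.dvd_prod_of_mem (fun q => q) hp).mul_left D
    have h5 : (p : ℤ) ∣ ((D : ℤ) * crtA a F + R) := by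
      have h6 := dvd_add (h4.trans h1) (Int.natCast_dvd_natCast.2 h3)
      rwa [sub_add_cancel] at h6
    have h7 : (p : ℤ) ∣ crtA a F - a p :=
      (crtA_spec hF (crtA a F)).1 (by rw [sub_self]; exact dvd_zero _) p hp
    have h8 := dvd_sub h5 (h7.mul_left (D : ℤ))
    have e : (D : ℤ) * crtA a F + R - D * (crtA a F - a p) = D * a p + R := by ring
    rwa [e] at h8

/-- residue function on the moduli -/
noncomputable def hfun (D R : ℕ) (a : ℕ → ℤ) (P : Finset ℕ) (q : ℕ) : ℕ :=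
  if D * ∏ p ∈ P.filter (fun p => p ∣ q / D), p = q then
    hcl D R a (P.filter (fun p => p ∣ q / D)) else 1

lemma filter_dvd {P F : Finset ℕ} (hP : ∀ p ∈ P, p.Prime) (hF : F ⊆ P) :
    P.filter (fun p => p ∣ ∏ q ∈ F, q) = F := by
  ext p
  rw [Finset.mem_filter]
  constructor
  · rintro ⟨h1, h2⟩
    exact (dvd_prod_iff hP hF h1).1 h2
  · intro h1
    exact ⟨hF h1, (dvd_prod_iff hP hF (hF h1)).2 h1⟩

lemma hfun_eq {D R : ℕ} {a : ℕ → ℤ} {P F : Finset ℕ} (hD : 1 ≤ D) (hP : ∀ p ∈ P, p.Prime)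
    (hF : F ⊆ P) : hfun D R a P (D * ∏ p ∈ F, p) = hcl D R a F := by
  unfold hfun
  rw [Nat.mul_div_cancel_left _ hD, filter_dvd hP hF, if_pos rfl]

lemma hfun_coprime {D R : ℕ} {a : ℕ → ℤ} {P : Finset ℕ} (hD : 1 ≤ D) (hP : ∀ p ∈ P, p.Prime)
    (hDR : Nat.Coprime D R) (ha : ∀ p ∈ P, ¬ (p : ℤ) ∣ D * a p + R) (q : ℕ) :
    Nat.Coprime (hfun D R a P q) q := by
  unfold hfun
  split_ifs with h
  · have h1 := hcl_coprime (D := D) (R := R) (a := a) (F := P.filter (fun p => p ∣ q / D)) hD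
      (fun p hp => hP p (Finset.mem_filter.1 hp).1) hDR
      (fun p hp => ha p (Finset.mem_filter.1 hp).1)
    rwa [h] at h1
  · exact Nat.coprime_one_left q

lemma rem_le {D R Y : ℕ} {P : Finset ℕ} {a : ℕ → ℤ} (hD : 1 ≤ D) (hP : ∀ p ∈ P, p.Prime)
    {F : Finset ℕ} (hF : F ⊆ P) :
    |cs D R Y P a (∏ p ∈ F, p) 0 - (D : ℝ) * Y / (Nat.totient D : ℝ) *
      ((Nat.totient D : ℝ) / (Nat.totient (D * ∏ p ∈ F, p) : ℝ))| ≤
    |psiAP ((D * Y + R : ℕ) : ℝ) (D * ∏ p ∈ F, p) (hfun D R a P (D * ∏ p ∈ F, p)) -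
      ((D * Y + R : ℕ) : ℝ) / (Nat.totient (D * ∏ p ∈ F, p) : ℝ)| +
    |psiAP (R : ℝ) (D * ∏ p ∈ F, p) (hfun D R a P (D * ∏ p ∈ F, p)) -
      (R : ℝ) / (Nat.totient (D * ∏ p ∈ F, p) : ℝ)| := by
  have hF' : ∀ p ∈ F, p.Prime := fun p hp => hP p (hF hp)
  rw [hfun_eq hD hP hF, cs_eq hD hP hF (crtA_spec hF') (hcl_spec (R := R) (a := a) hD hF')]
  have h0 : (0 : ℝ) < Nat.totient D := by exact_mod_cast Nat.totient_pos.2 hD
  have e : (D : ℝ) * Y / (Nat.totient D : ℝ) *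
      ((Nat.totient D : ℝ) / (Nat.totient (D * ∏ p ∈ F, p) : ℝ)) =
      ((D * Y + R : ℕ) : ℝ) / (Nat.totient (D * ∏ p ∈ F, p) : ℝ) -
      (R : ℝ) / (Nat.totient (D * ∏ p ∈ F, p) : ℝ) := by
    rw [div_mul_div_cancel₀ h0.ne', ← sub_div]
    congr 1
    push_cast
    ring
  rw [e]
  refine le_trans (le_of_eq ?_) (abs_sub _ _)
  congr 1
  ring

lemma sum_mod_le {D N : ℕ} {P : Finset ℕ} (hD : 1 ≤ D) (hP : ∀ p ∈ P, p.Prime)
    {S : Finset (Finset ℕ)} (hS : ∀ F ∈ S, F ⊆ P ∧ D * ∏ p ∈ F, p ≤ N) {f : ℕ → ℝ}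
    (hf : ∀ q, 0 ≤ f q) : ∑ F ∈ S, f (D * ∏ p ∈ F, p) ≤ ∑ q ∈ Icc 1 N, f q := by
  have hinj : Set.InjOn (fun F : Finset ℕ => D * ∏ p ∈ F, p) S := by
    intro F hF F' hF' h
    simp only at h
    have h1 : ∏ p ∈ F, p = ∏ p ∈ F', p := Nat.eq_of_mul_eq_mul_left hD h
    rw [← filter_dvd hP (hS F hF).1, h1, filter_dvd hP (hS F' hF').1]
  rw [← Finset.sum_image (f := f) hinj]
  refine Finset.sum_le_sum_of_subset_of_nonneg ?_ fun q _ _ => hf q
  intro q hq
  rw [Finset.mem_image] at hq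
  obtain ⟨F, hF, rfl⟩ := hq
  rw [Finset.mem_Icc]
  exact ⟨Nat.mul_pos hD (Finset.prod_pos fun p hp => (hP p ((hS F hF).1 hp)).pos), (hS F hF).2⟩

lemma sieve_lower {D R Y x0 : ℕ} {P : Finset ℕ} (a : ℕ → ℤ) {K : ℝ} (hD : 1 ≤ D) (hK : 0 < K)
    (hP : ∀ p ∈ P, p.Prime ∧ 3 ≤ p) (hx0 : ∀ p ∈ P, p < x0) :
    (D : ℝ) * Y / (Nat.totient D : ℝ) * (gv P (gD D) x0 * sf 3) -
      ∑ F ∈ supp P (fun x => K / gv P (gD D) x) 0 x0 (3 * (K / gv P (gD D) x0)),
        |cs D R Y P a (∏ p ∈ F, p) 0 - (D : ℝ) * Y / (Nat.totient D : ℝ) *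
          ((Nat.totient D : ℝ) / (Nat.totient (D * ∏ p ∈ F, p) : ℝ))| ≤ lsum D R Y P a := by
  have hPp : ∀ p ∈ P, p.Prime := fun p hp => (hP p hp).1
  have hg0 : ∀ q ∈ P, 0 ≤ gD D q := fun q hq => gD_nonneg D (hP q hq).2
  have hg1 : ∀ q ∈ P, gD D q < 1 := fun q hq => gD_lt_one D (hP q hq).2
  have h0 : (0 : ℝ) < Nat.totient D := by exact_mod_cast Nat.totient_pos.2 hD
  have hs := (gen_sieve P hPp (gD D) hg0 hg1 K hK ((D : ℝ) * Y / (Nat.totient D : ℝ))
    (by positivity) (fun d => (Nat.totient D : ℝ) / (Nat.totient (D * d) : ℝ))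
    (fun d => cs D R Y P a d 0 - (D : ℝ) * Y / (Nat.totient D : ℝ) *
      ((Nat.totient D : ℝ) / (Nat.totient (D * d) : ℝ)))
    (cs D R Y P a) (fun d => by positivity)
    (fun d q hq hc => totient_step D d (hPp q hq) (hP q hq).2 hc)
    (fun d _ => by ring) (fun d x => cs_nonneg D R Y P a d x)
    (fun d x hx => cs_notMem D R Y a d hx) (fun d x hx _ => cs_mem D R Y hPp a hx)
    x0 1 (3 * (K / gv P (gD D) x0)) one_pos (fun q _ _ => Nat.coprime_one_left q)).2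
    (by have := gtau_pos hK hg1 x0; linarith only [this])
  have h3 : 3 * (K / gv P (gD D) x0) / (K / gv P (gD D) x0) = 3 := by
    rw [mul_div_assoc, div_self (gtau_pos hK hg1 x0).ne', mul_one]
  rw [h3] at hs
  have hl : cs D R Y P a 1 x0 = lsum D R Y P a := by
    classical
    unfold cs lsum
    apply Finset.sum_congr _ fun _ _ => rfl
    ext k
    rw [Finset.mem_filter, Finset.mem_filter]
    unfold Avoid
    constructor
    · rintro ⟨h1, _, h2⟩
      exact ⟨h1, fun p hp => h2 p hp (hx0 p hp)⟩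
    · rintro ⟨h1, h2⟩
      refine ⟨h1, fun p hp hp1 => absurd (Nat.dvd_one.1 hp1) (hPp p hp).one_lt.ne', fun p hp _ =>
        h2 p hp⟩
  rw [hl] at hs
  refine le_trans ?_ hs
  rw [sub_eq_add_neg]
  have h4 : (Nat.totient D : ℝ) / (Nat.totient (D * 1) : ℝ) = 1 := by
    rw [mul_one, div_self h0.ne']
  rw [h4, mul_one]
  apply add_le_add_right
  rw [← Finset.sum_neg_distrib]
  apply Finset.sum_le_sum
  intro F _
  rw [one_mul]
  have h5 : ∀ (n : ℕ) (b : ℝ), -|b| ≤ (-1) ^ n * b := by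
    intro n b
    rcases neg_one_pow_eq_or ℝ n with h | h
    · rw [h, one_mul]
      exact neg_abs_le b
    · rw [h, neg_one_mul]
      exact neg_le_neg (le_abs_self b)
  exact h5 _ _

lemma gv_split (P : Finset ℕ) (g : ℕ → ℝ) {x z : ℕ} (hxz : x ≤ z) :
    gv P g z = gv P g x * ∏ p ∈ P.filter (fun p => x ≤ p ∧ p < z), (1 - g p) := by
  unfold gv
  rw [← Finset.prod_filter_mul_prod_filter_not (P.filter (fun q => q < z)) (fun q => q < x)]
  congr 1
  · apply Finset.prod_congr _ fun _ _ => rfl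
    ext q
    simp only [Finset.mem_filter]
    constructor
    · rintro ⟨⟨h1, _⟩, h2⟩
      exact ⟨h1, h2⟩
    · rintro ⟨h1, h2⟩
      exact ⟨⟨h1, lt_of_lt_of_le h2 hxz⟩, h2⟩
  · apply Finset.prod_congr _ fun _ _ => rfl
    ext q
    simp only [Finset.mem_filter, not_lt]
    constructor
    · rintro ⟨⟨h1, h2⟩, h3⟩
      exact ⟨h1, h3, h2⟩
    · rintro ⟨h1, h2, h3⟩
      exact ⟨⟨h1, h3⟩, h2⟩

/-- the Mertens property of the densities -/
def ML (c₁ : ℝ) : Prop := ∀ (x z : ℕ), 2 ≤ x → x ≤ z →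
  ∀ (D : ℕ) (P : Finset ℕ), (∀ p ∈ P, p.Prime ∧ 3 ≤ p ∧ x ≤ p ∧ p < z) →
    c₁ * (log x / log z) ≤ ∏ p ∈ P, (1 - gD D p)

lemma tau_low {c₁ : ℝ} (hM : ML c₁) {D x0 p : ℕ} {P : Finset ℕ} {K : ℝ} (hK : 0 < K)
    (hP : ∀ p ∈ P, p.Prime ∧ 3 ≤ p) (hp2 : 2 ≤ p) (hpx : p ≤ x0) :
    c₁ * (log p / log x0) * (K / gv P (gD D) x0) ≤ K / gv P (gD D) p := by
  have hg1 : ∀ q ∈ P, gD D q < 1 := fun q hq => gD_lt_one D (hP q hq).2
  have h1 := gv_pos hg1 x0
  have h2 := gv_pos hg1 p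
  have h3 := hM p x0 hp2 hpx D (P.filter (fun q => p ≤ q ∧ q < x0)) (fun q hq => by
    rw [Finset.mem_filter] at hq
    exact ⟨(hP q hq.1).1, (hP q hq.1).2, hq.2.1, hq.2.2⟩)
  have h4 : K / gv P (gD D) p = (∏ q ∈ P.filter (fun q => p ≤ q ∧ q < x0), (1 - gD D q)) *
      (K / gv P (gD D) x0) := by
    have h5 : 0 < ∏ q ∈ P.filter (fun q => p ≤ q ∧ q < x0), (1 - gD D q) :=
      Finset.prod_pos fun q hq => sub_pos.2 (hg1 q (Finset.mem_filter.1 hq).1)
    rw [gv_split P (gD D) hpx]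
    field_simp
  rw [h4]
  exact mul_le_mul_of_nonneg_right h3 (div_pos hK h1).le

lemma supp_prod_le {c₁ : ℝ} (hc₁ : 0 < c₁) (hM : ML c₁) {D x0 : ℕ} {P : Finset ℕ} {K : ℝ}
    (hK : 0 < K) (hP : ∀ p ∈ P, p.Prime ∧ 3 ≤ p) (hx0 : 2 ≤ x0) {F : Finset ℕ}
    (hF : F ∈ supp P (fun x => K / gv P (gD D) x) 0 x0 (3 * (K / gv P (gD D) x0))) :
    log ((∏ p ∈ F, p : ℕ) : ℝ) ≤ 3 * log x0 / c₁ := by
  have hg0 : ∀ q ∈ P, 0 ≤ gD D q := fun q hq => gD_nonneg D (hP q hq).2
  have hg1 : ∀ q ∈ P, gD D q < 1 := fun q hq => gD_lt_one D (hP q hq).2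
  have hmono := gtau_mono hK hg0 hg1
  have hlx : 0 < log x0 := Real.log_pos (by exact_mod_cast (by omega : 1 < x0))
  have hsub := (mem_supp.1 hF).1
  rcases F.eq_empty_or_nonempty with h | h
  · rw [h]
    simp only [Finset.prod_empty, Nat.cast_one, Real.log_one]
    positivity
  · have hs := F.min'_mem h
    have h1 := chain_zero' (fun q _ => (gtau_pos hK hg1 q).le) (fun q _ q' _ hqq => hmono hqq)
      (fun q _ hqx => by
        have h2 : K / gv P (gD D) q ≤ K / gv P (gD D) x0 := hmono hqx.le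
        have h3 := gtau_pos hK hg1 (g := gD D) q
        linarith only [h2, h3]) hF hs
    have h2 : F.filter (fun s' => F.min' h ≤ s') = F :=
      Finset.filter_true_of_mem fun q hq => F.min'_le q hq
    rw [h2] at h1
    have h3 : ∑ p ∈ F, K / gv P (gD D) p ≤ 3 * (K / gv P (gD D) x0) := by
      have := gtau_pos hK hg1 (g := gD D) (F.min' h)
      linarith only [h, h1, this]
    have h4 : ∑ p ∈ F, c₁ * (log p / log x0) * (K / gv P (gD D) x0) ≤
        3 * (K / gv P (gD D) x0) := by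
      refine le_trans (Finset.sum_le_sum fun p hp => ?_) h3
      exact tau_low hM hK hP (by have := (hP p (hsub p hp).1).2; omega) (hsub p hp).2.le
    rw [← Finset.sum_mul] at h4
    have h5 := le_of_mul_le_mul_right h4 (gtau_pos hK hg1 x0)
    have h6 : log ((∏ p ∈ F, p : ℕ) : ℝ) = ∑ p ∈ F, log (p : ℝ) := by
      rw [Nat.cast_prod, Real.log_prod]
      intro p hp
      have := (hP p (hsub p hp).1).1.pos
      exact_mod_cast this.ne'
    rw [h6, le_div_iff₀ hc₁]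
    have h7 : ∑ p ∈ F, c₁ * (log p / log x0) = (∑ p ∈ F, log (p : ℝ)) * c₁ / log x0 := by
      rw [Finset.sum_mul, Finset.sum_div]
      exact Finset.sum_congr rfl fun p _ => by ring
    rw [h7, div_le_iff₀ hlx] at h5
    exact h5

lemma large (X0 c κ C₅ K : ℝ) (hc : 0 < c) (hκ : 0 < κ) : ∃ y₀ : ℕ, ∀ y : ℕ, y₀ ≤ y →
    10 * X0 ≤ (y : ℝ) ∧ 100 ≤ (y : ℝ) ∧ 2 ≤ (y : ℝ) ^ c ∧ (log y) ^ C₅ ≤ (y : ℝ) ^ (κ / 4) ∧
      K ≤ log y := by
  have h1 : ∀ᶠ y : ℝ in Filter.atTop, 10 * X0 ≤ y := Filter.eventually_ge_atTop _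
  have h2 : ∀ᶠ y : ℝ in Filter.atTop, 100 ≤ y := Filter.eventually_ge_atTop _
  have h3 : ∀ᶠ y : ℝ in Filter.atTop, 2 ≤ y ^ c :=
    (tendsto_rpow_atTop hc).eventually_ge_atTop _
  have h4 : ∀ᶠ y : ℝ in Filter.atTop, (log y) ^ C₅ ≤ y ^ (κ / 4) := by
    have h5 := (isLittleO_log_rpow_rpow_atTop C₅ (s := κ / 4) (by positivity)).bound
      (c := 1) one_pos
    filter_upwards [h5, h2] with y hy hy2
    rw [one_mul, Real.norm_eq_abs, Real.norm_eq_abs, abs_of_nonneg, abs_of_nonneg] at hy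
    · exact hy
    · exact Real.rpow_nonneg (by linarith only [hy2]) _
    · exact Real.rpow_nonneg (Real.log_nonneg (by linarith only [hy2])) _
  have h5 : ∀ᶠ y : ℝ in Filter.atTop, K ≤ log y := Real.tendsto_log_atTop.eventually_ge_atTop _
  have h6 := tendsto_natCast_atTop_atTop (R := ℝ).eventually
    (((h1.and h2).and (h3.and h4)).and h5)
  obtain ⟨y₀, hy₀⟩ := Filter.eventually_atTop.1 h6
  exact ⟨y₀, fun y hy => ⟨(hy₀ y hy).1.1.1, (hy₀ y hy).1.1.2, (hy₀ y hy).1.2.1,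
    (hy₀ y hy).1.2.2, (hy₀ y hy).2⟩⟩

end Low

open Low in
/-- (J13b) the lower bound -/
theorem lower (hbv : BVStmt) (hM : MertLowStmt) : LowerStmt := by
  obtain ⟨κ, hκ0, hκ1, hBV⟩ := hbv
  obtain ⟨c₁, hc₁, hc₁', hM⟩ := hM
  replace hM : ML c₁ := hM
  refine ⟨c₁ * κ / 24, by positivity, ?_⟩
  intro c hc hcc C₅ hC₅
  obtain ⟨X0, hX0⟩ := hBV (C₅ + 2) (by positivity)
  obtain ⟨y₀, hy₀⟩ := large X0 c κ C₅ (3 * (2 : ℝ) ^ (C₅ + 2) * 432 / c₁) hc hκ0
  refine ⟨y₀, ?_⟩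
  intro y hy D R Y P a hD hDC hDR hR1 hR2 hY1 hY2 hP ha
  obtain ⟨hy1, hy2, hy3, hy4, hy5⟩ := hy₀ y hy
  have hP' : ∀ p ∈ P, p.Prime ∧ 3 ≤ p := fun p hp => ⟨(hP p hp).1, (hP p hp).2.1⟩
  have hPp : ∀ p ∈ P, p.Prime := fun p hp => (hP p hp).1
  have hy0 : (0 : ℝ) < y := by linarith only [hκ0, hκ1, hy2]
  have hly : 0 < log y := Real.log_pos (by linarith only [hκ0, hκ1, hy2])
  -- the cut
  set x0 : ℕ := ⌈(y : ℝ) ^ c⌉₊ with hx0
  have hx0P : ∀ p ∈ P, p < x0 := fun p hp => Nat.lt_ceil.2 (hP p hp).2.2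
  have hx02 : 2 ≤ x0 := by
    have h1 : (2 : ℝ) ≤ x0 := hy3.trans (Nat.le_ceil _)
    exact_mod_cast h1
  have hx0R : (0 : ℝ) < x0 := by exact_mod_cast (by omega : 0 < x0)
  have hlx0 : log x0 ≤ 2 * c * log y := by
    have h1 : (x0 : ℝ) ≤ (y : ℝ) ^ c + 1 := (Nat.ceil_lt_add_one (by positivity)).le
    have h2 : (y : ℝ) ^ c + 1 ≤ (y : ℝ) ^ c * (y : ℝ) ^ c := by
      have := mul_le_mul_of_nonneg_left hy3 (by linarith only [hκ0, hκ1, hy3] : (0 : ℝ) ≤ (y : ℝ) ^ c)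
      linarith only [hκ0, hκ1, hy3, this]
    have h3 : log x0 ≤ log ((y : ℝ) ^ c * (y : ℝ) ^ c) := Real.log_le_log hx0R (h1.trans h2)
    rw [Real.log_mul (by positivity) (by positivity), Real.log_rpow hy0] at h3
    linarith only [h3]
  have hg1 : ∀ q ∈ P, gD D q < 1 := fun q hq => gD_lt_one D (hP' q hq).2
  have hV := gv_pos hg1 x0
  have hVprod : ∏ p ∈ P, (1 - gD D p) = gv P (gD D) x0 := by
    unfold gv
    rw [Finset.filter_true_of_mem hx0P]
  have hR0 : (0 : ℝ) < R := lt_of_lt_of_le (by linarith only [hκ0, hκ1, hy2]) hR1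
  -- the level
  have hsupp : ∀ F ∈ supp P (fun x => 1 / gv P (gD D) x) 0 x0 (3 * (1 / gv P (gD D) x0)),
      F ⊆ P ∧ ((D * ∏ p ∈ F, p : ℕ) : ℝ) ≤ (R : ℝ) ^ κ := by
    intro F hF
    refine ⟨fun p hp => ((mem_supp.1 hF).1 p hp).1, ?_⟩
    have hFpos : (0 : ℝ) < ((∏ p ∈ F, p : ℕ) : ℝ) := by
      exact_mod_cast Finset.prod_pos fun p hp => (hPp p ((mem_supp.1 hF).1 p hp).1).pos
    have h1 := supp_prod_le hc₁ hM one_pos hP' hx02 hF
    have h2 : 3 * log x0 / c₁ ≤ κ / 4 * log y := by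
      rw [div_le_iff₀ hc₁]
      have h3 : 24 * c ≤ c₁ * κ := by linarith only [hcc]
      have h4 := mul_le_mul_of_nonneg_right h3 hly.le
      linarith only [hlx0, h4]
    have h3 : ((∏ p ∈ F, p : ℕ) : ℝ) ≤ (y : ℝ) ^ (κ / 4) := by
      rw [Real.rpow_def_of_pos hy0, ← Real.exp_log hFpos]
      apply Real.exp_le_exp.2
      linarith only [h1, h2]
    have h4 : (D : ℝ) ≤ (y : ℝ) ^ (κ / 4) := hDC.trans hy4
    have h5 : ((D * ∏ p ∈ F, p : ℕ) : ℝ) ≤ (y : ℝ) ^ (κ / 4) * (y : ℝ) ^ (κ / 4) := by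
      rw [Nat.cast_mul]
      exact mul_le_mul h4 h3 hFpos.le (by positivity)
    refine h5.trans ?_
    have h6 : (y : ℝ) ^ (κ / 4) * (y : ℝ) ^ (κ / 4) = (√y) ^ κ := by
      rw [← Real.rpow_add hy0, Real.sqrt_eq_rpow, ← Real.rpow_mul hy0.le]
      congr 1
      ring
    rw [h6]
    apply Real.rpow_le_rpow (Real.sqrt_nonneg _) _ hκ0.le
    refine le_trans ?_ hR1
    have h7 : (10 : ℝ) ≤ √y := Real.le_sqrt_of_sq_le (by linarith only [hy2])
    have h8 := Real.mul_self_sqrt hy0.le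
    have h9 := mul_le_mul_of_nonneg_right h7 (Real.sqrt_nonneg (y : ℝ))
    linarith only [h8, h9]
  -- the remainders
  have hRx : (R : ℝ) ≤ ((D * Y + R : ℕ) : ℝ) := by exact_mod_cast Nat.le_add_left R (D * Y)
  have hcop : ∀ q, 1 ≤ q → Nat.Coprime (hfun D R a P q) q :=
    fun q _ => hfun_coprime hD hPp hDR ha q
  have hB1 := hX0 ((D * Y + R : ℕ) : ℝ) (by linarith only [hR1, hy1, hRx]) (hfun D R a P) hcop
  have hB2 := hX0 (R : ℝ) (by linarith only [hR1, hy1]) (hfun D R a P) hcop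
  have herr : ∑ F ∈ supp P (fun x => 1 / gv P (gD D) x) 0 x0 (3 * (1 / gv P (gD D) x0)),
      |cs D R Y P a (∏ p ∈ F, p) 0 - (D : ℝ) * Y / (Nat.totient D : ℝ) *
        ((Nat.totient D : ℝ) / (Nat.totient (D * ∏ p ∈ F, p) : ℝ))| ≤
      ((D * Y + R : ℕ) : ℝ) / (log ((D * Y + R : ℕ) : ℝ)) ^ (C₅ + 2) +
        (R : ℝ) / (log (R : ℝ)) ^ (C₅ + 2) := by
    refine (Finset.sum_le_sum fun F hF => rem_le hD hPp (hsupp F hF).1).trans ?_
    rw [Finset.sum_add_distrib]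
    refine add_le_add
      ((sum_mod_le hD hPp (N := ⌊((D * Y + R : ℕ) : ℝ) ^ κ⌋₊)
        (f := fun q => |psiAP ((D * Y + R : ℕ) : ℝ) q (hfun D R a P q) -
          ((D * Y + R : ℕ) : ℝ) / (Nat.totient q : ℝ)|)
        (fun F hF => ⟨(hsupp F hF).1, Nat.le_floor ?_⟩) (fun _ => abs_nonneg _)).trans hB1)
      ((sum_mod_le hD hPp (N := ⌊(R : ℝ) ^ κ⌋₊)
        (f := fun q => |psiAP (R : ℝ) q (hfun D R a P q) -
          (R : ℝ) / (Nat.totient q : ℝ)|)
        (fun F hF => ⟨(hsupp F hF).1, Nat.le_floor (hsupp F hF).2⟩)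
        (fun _ => abs_nonneg _)).trans hB2)
    exact (hsupp F hF).2.trans (Real.rpow_le_rpow hR0.le hRx hκ0.le)
  have hL : 0 < log y / 2 := by positivity
  have hlR : log y / 2 ≤ log R := by
    have h1 : √(y : ℝ) ≤ R := by
      refine le_trans ?_ hR1
      have h7 : (10 : ℝ) ≤ √y := Real.le_sqrt_of_sq_le (by linarith only [hy2])
      have h8 := Real.mul_self_sqrt hy0.le
      have h9 := mul_le_mul_of_nonneg_right h7 (Real.sqrt_nonneg (y : ℝ))
      linarith only [h8, h9]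
    have h2 := Real.log_le_log (Real.sqrt_pos.2 hy0) h1
    rwa [Real.log_sqrt hy0.le] at h2
  have hlx : log y / 2 ≤ log ((D * Y + R : ℕ) : ℝ) := hlR.trans (Real.log_le_log hR0 hRx)
  have hYy : (Y : ℝ) ≤ y := by exact_mod_cast hY2
  have hlC : 0 < (log y) ^ C₅ := Real.rpow_pos_of_pos hly _
  have hxub : ((D * Y + R : ℕ) : ℝ) ≤ 2 * (y * (log y) ^ C₅) := by
    push_cast
    have h1 : (D : ℝ) * Y ≤ (log y) ^ C₅ * y := mul_le_mul hDC hYy (by (clear * -; positivity)) hlC.le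
    linarith only [hR2, h1]
  have herr2 : ((D * Y + R : ℕ) : ℝ) / (log ((D * Y + R : ℕ) : ℝ)) ^ (C₅ + 2) +
        (R : ℝ) / (log (R : ℝ)) ^ (C₅ + 2) ≤ 3 * 2 ^ (C₅ + 2) * y / (log y) ^ 2 := by
    have hp : 0 < (log y / 2) ^ (C₅ + 2) := Real.rpow_pos_of_pos hL _
    have h1 : ((D * Y + R : ℕ) : ℝ) / (log ((D * Y + R : ℕ) : ℝ)) ^ (C₅ + 2) ≤
        2 * (y * (log y) ^ C₅) / (log y / 2) ^ (C₅ + 2) :=
      div_le_div₀ (by positivity) hxub hp (Real.rpow_le_rpow hL.le hlx (by positivity))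
    have h2 : (R : ℝ) / (log (R : ℝ)) ^ (C₅ + 2) ≤
        (y * (log y) ^ C₅) / (log y / 2) ^ (C₅ + 2) :=
      div_le_div₀ (by positivity) hR2 hp (Real.rpow_le_rpow hL.le hlR (by positivity))
    refine (add_le_add h1 h2).trans (le_of_eq ?_)
    rw [← add_div, Real.div_rpow hly.le zero_le_two, Real.rpow_add hly, Real.rpow_two]
    field_simp
    ring
  -- main term
  have hVlow : c₁ / (4 * log y) ≤ gv P (gD D) x0 := by
    have h1 := hM 2 x0 le_rfl hx02 D P fun p hp =>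
      ⟨(hP' p hp).1, (hP' p hp).2, (hPp p hp).two_le, hx0P p hp⟩
    rw [hVprod] at h1
    refine le_trans ?_ h1
    have h2 : (1 / 2 : ℝ) ≤ log ((2 : ℕ) : ℝ) := by
      have := Real.log_two_gt_d9
      push_cast
      linarith only [this, hκ1, hκ0]
    have h3 : 0 < log x0 := Real.log_pos (by exact_mod_cast (by omega : 1 < x0))
    have h4 : log x0 ≤ 2 * log y := by
      have h5 : c ≤ 1 := by
        have h6 : c₁ * κ ≤ 1 := mul_le_one₀ hc₁' hκ0.le (by linarith only [hκ0, hκ1])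
        linarith only [hc, hcc, h6]
      have h6 := mul_le_mul_of_nonneg_right h5 hly.le
      linarith only [hlx0, h6]
    calc c₁ / (4 * log y) = c₁ * ((1 / 2) / (2 * log y)) := by
          field_simp
          ring
      _ ≤ c₁ * (log ((2 : ℕ) : ℝ) / log x0) :=
          mul_le_mul_of_nonneg_left
            (div_le_div₀ ((by norm_num : (0 : ℝ) ≤ 1 / 2).trans h2) h2 h3 h4) hc₁.le
  have hXlow : (y : ℝ) / 9 ≤ (D : ℝ) * Y / (Nat.totient D : ℝ) := by
    have h0 : (0 : ℝ) < Nat.totient D := by exact_mod_cast Nat.totient_pos.2 hD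
    have h1 : (Nat.totient D : ℝ) ≤ D := by exact_mod_cast Nat.totient_le D
    rw [le_div_iff₀ h0]
    calc (y : ℝ) / 9 * Nat.totient D ≤ Y * D :=
          mul_le_mul hY1 h1 h0.le (by (clear * -; positivity))
      _ = D * Y := mul_comm _ _
  have hmain := Low.sieve_lower (Y := Y) (R := R) a hD one_pos hP' hx0P
  rw [hVprod]
  generalize hXdef : (D : ℝ) * Y / (Nat.totient D : ℝ) = X at *
  have hX0' : 0 < X := lt_of_lt_of_le (by positivity) hXlow
  have hsf : (1 : ℝ) / 3 ≤ sf 3 := by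
    have := sf_lower (t := 3) (by norm_num)
    norm_num at this ⊢
    exact this
  have h1 : X * (gv P (gD D) x0 * (1 / 3)) ≤ X * (gv P (gD D) x0 * sf 3) :=
    mul_le_mul_of_nonneg_left (mul_le_mul_of_nonneg_left hsf hV.le) hX0'.le
  have h2 : (y : ℝ) / 9 * (c₁ / (4 * log y)) ≤ X * gv P (gD D) x0 :=
    mul_le_mul hXlow hVlow (by positivity) hX0'.le
  have h3 : 3 * (2 : ℝ) ^ (C₅ + 2) * y / (log y) ^ 2 ≤
      1 / 12 * ((y : ℝ) / 9 * (c₁ / (4 * log y))) := by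
    rw [div_le_iff₀ hc₁] at hy5
    have h4 : 1 / 12 * ((y : ℝ) / 9 * (c₁ / (4 * log y))) =
        (log y * c₁) * y / (432 * (log y) ^ 2) := by
      field_simp
      ring
    rw [h4, div_le_div_iff₀ (by positivity) (by positivity)]
    have h5 : 0 ≤ (y : ℝ) * (log y) ^ 2 := by positivity
    have h6 := mul_le_mul_of_nonneg_right hy5 h5
    linarith only [h6]
  have h4 := herr.trans herr2
  linarith only [herr2, herr, hmain, h1, h2, h3]

end Vale.Agent.P013.J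
end

section

/-!
Upper bound for the number of primes `D k + R` in a class mod `q` with `k` avoiding small classes:
arithmetic large sieve and Rankin's trick.
-/

open Finset Real

namespace Vale.Agent.P013.J

/-- number of excluded classes -/
def uRho (D : ℕ) (P : Finset ℕ) (s : ℕ) : ℕ :=
  (if s ∈ P then 1 else 0) + (if s ∣ D then 0 else 1)

theorem uRho_le (D : ℕ) (P : Finset ℕ) (s : ℕ) : uRho D P s ≤ 2 := by
  unfold uRho
  split_ifs <;> omega

theorem uRho_lt (D : ℕ) (P : Finset ℕ) (hP : ∀ p ∈ P, 3 ≤ p) {s : ℕ} (hs : s.Prime) :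
    uRho D P s < s := by
  have h2 := hs.two_le
  unfold uRho
  by_cases h : s ∈ P
  · have := hP s h
    split_ifs <;> omega
  · rw [if_neg h]
    split_ifs <;> omega

theorem uRho_prod (D : ℕ) (P : Finset ℕ) {s : ℕ} (hs : s.Prime) :
    1 - (uRho D P s : ℝ) / s = (1 - 1 / (s : ℝ)) * (if s ∣ D then (1 - 1 / (s : ℝ))⁻¹ else 1) *
      (if s ∈ P then 1 - gD D s else 1) := by
  have h2 : (2 : ℝ) ≤ s := by exact_mod_cast hs.two_le
  have h0 : (s : ℝ) ≠ 0 := by positivity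
  have h1 : (1 : ℝ) - 1 / s ≠ 0 := by
    have : 1 / (s : ℝ) ≤ 1 / 2 := by
      apply one_div_le_one_div_of_le <;> linarith only [h2]
    intro h
    linarith only [this, h]
  have h3 : (s : ℝ) - 1 ≠ 0 := by
    intro h
    linarith
  unfold uRho gD
  by_cases hd : s ∣ D
  · by_cases hp : s ∈ P
    · rw [if_pos hd, if_pos hd, if_pos hd, if_pos hp, if_pos hp, mul_inv_cancel₀ h1]
      push_cast
      ring
    · rw [if_pos hd, if_pos hd, if_neg hp, if_neg hp, mul_inv_cancel₀ h1]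
      push_cast
      ring
  · by_cases hp : s ∈ P
    · rw [if_neg hd, if_neg hd, if_neg hd, if_pos hp, if_pos hp]
      push_cast
      field_simp
      ring
    · rw [if_neg hd, if_neg hd, if_neg hp, if_neg hp]
      push_cast
      ring

theorem u_totient (D : ℕ) (hD : 1 ≤ D) (A : Finset ℕ) (hA : ∀ s ∈ A, s.Prime) :
    ∏ s ∈ A, (if s ∣ D then (1 - 1 / (s : ℝ))⁻¹ else 1) ≤ (D : ℝ) / (Nat.totient D : ℝ) := by
  have hfac : ∀ s : ℕ, s.Prime → 1 ≤ (1 - 1 / (s : ℝ))⁻¹ ∧ 0 < 1 - 1 / (s : ℝ) := by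
    intro s hs
    have h2 : (2 : ℝ) ≤ s := by exact_mod_cast hs.two_le
    have h3 : 1 / (s : ℝ) ≤ 1 / 2 := by
      apply one_div_le_one_div_of_le <;> linarith only [h2]
    have h4 : 0 < 1 / (s : ℝ) := by positivity
    have h5 : 0 < 1 - 1 / (s : ℝ) := by linarith only [h4, h3]
    refine ⟨?_, h5⟩
    rw [one_le_inv₀ h5]
    linarith only [h4]
  have h1 : (Nat.totient D : ℝ) = D * ∏ p ∈ D.primeFactors, (1 - 1 / (p : ℝ)) := by
    have := congrArg (fun x : ℚ => (x : ℝ)) (Nat.totient_eq_mul_prod_factors D)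
    push_cast at this
    simpa [one_div] using this
  have hprod : 0 < ∏ p ∈ D.primeFactors, (1 - 1 / (p : ℝ)) :=
    Finset.prod_pos fun p hp => (hfac p (Nat.prime_of_mem_primeFactors hp)).2
  have hD0 : (0 : ℝ) < D := by exact_mod_cast hD
  have h2 : (D : ℝ) / (Nat.totient D : ℝ) = ∏ p ∈ D.primeFactors, (1 - 1 / (p : ℝ))⁻¹ := by
    rw [h1, Finset.prod_inv_distrib]
    field_simp
  rw [h2, ← Finset.prod_filter]
  refine Finset.prod_le_prod_of_subset_of_one_le ?_ ?_ ?_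
  · intro s hs
    rw [mem_filter] at hs
    rw [Nat.mem_primeFactors]
    exact ⟨hA s hs.1, hs.2, by omega⟩
  · intro s hs
    rw [mem_filter] at hs
    exact zero_le_one.trans (hfac s (hA s hs.1)).1
  · intro s hs _
    exact (hfac s (Nat.prime_of_mem_primeFactors hs)).1

/-- Rankin's trick -/
theorem u_rankin (A : Finset ℕ) (h : ℕ → ℝ) (hh : ∀ s ∈ A, 0 ≤ h s)
    (Q : ℕ) (hQ : 0 < Q) (η : ℝ) (hη : 0 ≤ η) :
    ∏ s ∈ A, (1 + h s) ≤
      (∑ T ∈ A.powerset.filter (fun T => ∏ p ∈ T, p ≤ Q), ∏ s ∈ T, h s) +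
        (Q : ℝ) ^ (-η) * ∏ s ∈ A, (1 + h s * (s : ℝ) ^ η) := by
  rw [Finset.prod_one_add, Finset.prod_one_add, ← Finset.sum_filter_add_sum_filter_not
    A.powerset (fun T => ∏ p ∈ T, p ≤ Q)]
  refine add_le_add le_rfl ?_
  have hQ0 : (0 : ℝ) < Q := by exact_mod_cast hQ
  have h1 : ∀ T ∈ A.powerset.filter (fun T => ¬ ∏ p ∈ T, p ≤ Q), ∏ s ∈ T, h s ≤
      (Q : ℝ) ^ (-η) * ∏ s ∈ T, (h s * (s : ℝ) ^ η) := by
    intro T hT
    rw [mem_filter, mem_powerset] at hT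
    have h2 : 0 ≤ ∏ s ∈ T, h s := Finset.prod_nonneg fun s hs => hh s (hT.1 hs)
    have h3 : ∏ s ∈ T, (h s * (s : ℝ) ^ η) = (∏ s ∈ T, h s) * ((∏ s ∈ T, s : ℕ) : ℝ) ^ η := by
      rw [Finset.prod_mul_distrib, Real.finsetProd_rpow _ _ (fun s _ => by positivity)]
      push_cast
      rfl
    have h4 : (1 : ℝ) ≤ (Q : ℝ) ^ (-η) * ((∏ s ∈ T, s : ℕ) : ℝ) ^ η := by
      rw [Real.rpow_neg hQ0.le, ← div_eq_inv_mul, one_le_div (by positivity)]
      apply Real.rpow_le_rpow hQ0.le _ hη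
      have := hT.2
      exact_mod_cast (not_le.1 this).le
    rw [h3]
    calc ∏ s ∈ T, h s = (∏ s ∈ T, h s) * 1 := (mul_one _).symm
      _ ≤ (∏ s ∈ T, h s) * ((Q : ℝ) ^ (-η) * ((∏ s ∈ T, s : ℕ) : ℝ) ^ η) :=
          mul_le_mul_of_nonneg_left h4 h2
      _ = _ := by ring
  refine (Finset.sum_le_sum h1).trans ?_
  rw [Finset.mul_sum]
  refine Finset.sum_le_sum_of_subset_of_nonneg (Finset.filter_subset _ _) ?_
  intro T hT _
  rw [mem_powerset] at hT
  refine mul_nonneg (by positivity) (Finset.prod_nonneg fun s hs => ?_)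
  exact mul_nonneg (hh s (hT hs)) (by positivity)

/-- the large sieve bound -/
theorem u_sieve (D R Y : ℕ) (P : Finset ℕ) (a : ℕ → ℤ) (hP : ∀ p ∈ P, 3 ≤ p)
    (hPD : ∀ p ∈ P, ¬ (p : ℤ) ∣ D * a p + R) (q : ℕ) (b : ℤ) (hq : q.Prime)
    (A : Finset ℕ) (hA : ∀ s ∈ A, s.Prime ∧ s ≠ q ∧ s < R) (Q : ℕ) (hQ : 1 ≤ Q) :
    (((gset D R Y P a).filter (fun k : ℕ => (q : ℤ) ∣ (k : ℤ) - b)).card : ℝ) *
      ∑ T ∈ A.powerset.filter (fun T => ∏ p ∈ T, p ≤ Q),
        ∏ s ∈ T, ((s : ℝ) / ((s - uRho D P s : ℕ) : ℝ) - 1) ≤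
    Vale.Agent.P001.cLS * (((Y / q + 1 : ℕ) : ℝ) + (Q : ℝ) ^ 2) := by
  classical
  have hq0 : (0 : ℤ) < q := by exact_mod_cast hq.pos
  obtain ⟨b0, hb0⟩ : ∃ b0 : ℤ, b0 = b % q := ⟨_, rfl⟩
  have hb1 : 0 ≤ b0 := by rw [hb0]; exact Int.emod_nonneg _ hq0.ne'
  have hb2 : b0 < q := by rw [hb0]; exact Int.emod_lt_of_pos _ hq0
  have hb3 : (q : ℤ) ∣ b - b0 := by rw [hb0]; exact Int.dvd_self_sub_emod
  obtain ⟨S0, hS0⟩ : ∃ S0, S0 = (gset D R Y P a).filter (fun k : ℕ => (q : ℤ) ∣ (k : ℤ) - b) :=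
    ⟨_, rfl⟩
  rw [← hS0]
  have hmem : ∀ k ∈ S0, (1 ≤ k ∧ k ≤ Y) ∧ Avoid P a k ∧ (D * k + R).Prime ∧
      (q : ℤ) * (((k : ℤ) - b0) / q) = (k : ℤ) - b0 := by
    intro k hk
    rw [hS0, mem_filter] at hk
    unfold gset at hk
    rw [mem_filter, mem_Icc] at hk
    refine ⟨hk.1.1, hk.1.2.1, hk.1.2.2, ?_⟩
    apply Int.mul_ediv_cancel'
    have : (k : ℤ) - b0 = ((k : ℤ) - b) + (b - b0) := by ring
    rw [this]
    exact dvd_add hk.2 hb3
  have hinj : Set.InjOn (fun k : ℕ => ((k : ℤ) - b0) / q) (S0 : Set ℕ) := by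
    intro k hk k' hk' hkk
    simp only at hkk
    have h1 := (hmem k hk).2.2.2
    have h2 := (hmem k' hk').2.2.2
    rw [hkk, h2] at h1
    omega
  have hcard : S0.card = (S0.image (fun k : ℕ => ((k : ℤ) - b0) / q)).card :=
    (Finset.card_image_of_injOn hinj).symm
  rw [hcard]
  refine Vale.Agent.P001.arith_large_sieve _ 0 (Y / q + 1) ?_ Q hQ _ ?_ ?_
    (fun s => s - uRho D P s) ?_ ?_ ?_
  · intro n hn
    rw [mem_image] at hn
    obtain ⟨k, hk, rfl⟩ := hn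
    obtain ⟨⟨hk1, hk2⟩, -, -, hk3⟩ := hmem k hk
    constructor
    · by_contra hneg
      push Not at hneg
      have h1 : ((k : ℤ) - b0) / q ≤ -1 := by omega
      have h2 : (q : ℤ) * (((k : ℤ) - b0) / q) ≤ q * (-1) := mul_le_mul_of_nonneg_left h1 hq0.le
      rw [hk3] at h2
      omega
    · have h1 : ((k : ℤ) - b0) / q ≤ (Y : ℤ) / q := by
        apply Int.le_ediv_of_mul_le hq0
        rw [mul_comm, hk3]
        omega
      push_cast
      omega
  · intro T hT s hs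
    rw [mem_filter, mem_powerset] at hT
    exact (hA s (hT.1 hs)).1
  · intro T hT
    rw [mem_filter] at hT
    exact hT.2
  · intro T hT s hs
    rw [mem_filter, mem_powerset] at hT
    have := uRho_lt D P hP (hA s (hT.1 hs)).1
    omega
  · intro T _ s _
    omega
  · intro T hT s hs
    rw [mem_filter, mem_powerset] at hT
    obtain ⟨hsp, hsq, hsR⟩ := hA s (hT.1 hs)
    have : Fact s.Prime := ⟨hsp⟩
    have hqs : (q : ZMod s) ≠ 0 := by
      intro h0
      rw [ZMod.natCast_eq_zero_iff] at h0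
      exact hsq ((Nat.prime_dvd_prime_iff_eq hsp hq).1 h0)
    have hφ : Function.Injective (fun x : ZMod s => (b0 : ZMod s) + q * x) := by
      intro x x' hx
      simp only at hx
      exact mul_left_cancel₀ hqs (add_left_cancel hx)
    obtain ⟨Bad, hBad⟩ : ∃ Bad : Finset (ZMod s), Bad =
        (if s ∈ P then {(a s : ZMod s)} else ∅) ∪ (if s ∣ D then ∅ else {-(R : ZMod s) / D}) :=
      ⟨_, rfl⟩
    have hBadc : uRho D P s = Bad.card := by
      rw [hBad]
      unfold uRho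
      by_cases h1 : s ∈ P
      · by_cases h2 : s ∣ D
        · simp [h1, h2]
        · simp only [h1, h2, if_true, if_false]
          have hD0 : (D : ZMod s) ≠ 0 := by
            intro h0
            rw [ZMod.natCast_eq_zero_iff] at h0
            exact h2 h0
          have hne : (a s : ZMod s) ≠ -(R : ZMod s) / D := by
            intro h0
            apply hPD s h1
            rw [← ZMod.intCast_zmod_eq_zero_iff_dvd]
            push_cast
            rw [h0]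
            field_simp
            ring
          rw [Finset.card_union_of_disjoint (by simpa using hne)]
          simp
      · by_cases h2 : s ∣ D
        · simp [h1, h2]
        · simp [h1, h2]
    rw [← Finset.card_image_of_injective _ hφ]
    have hsub : (((S0.image (fun k : ℕ => ((k : ℤ) - b0) / q)).image
        (fun n : ℤ => (n : ZMod s))).image (fun x : ZMod s => (b0 : ZMod s) + q * x)) ⊆
        Finset.univ \ Bad := by
      intro x hx
      rw [mem_image] at hx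
      obtain ⟨x1, hx1, rfl⟩ := hx
      rw [mem_image] at hx1
      obtain ⟨n, hn, rfl⟩ := hx1
      rw [mem_image] at hn
      obtain ⟨k, hk, rfl⟩ := hn
      obtain ⟨-, hav, hpr, hk3⟩ := hmem k hk
      have hkx : (b0 : ZMod s) + q * (((((k : ℤ) - b0) / q : ℤ)) : ZMod s) = (k : ZMod s) := by
        have := congrArg (fun z : ℤ => (z : ZMod s)) hk3
        push_cast at this
        rw [this]
        ring
      rw [hkx, mem_sdiff]
      refine ⟨mem_univ _, ?_⟩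
      rw [hBad, mem_union]
      rintro (h1 | h1)
      · split_ifs at h1 with h2
        · rw [mem_singleton] at h1
          apply hav s h2
          rw [← ZMod.intCast_zmod_eq_zero_iff_dvd]
          push_cast
          rw [h1, sub_self]
        · simp at h1
      · split_ifs at h1 with h2
        · simp at h1
        · rw [mem_singleton] at h1
          have hD0 : (D : ZMod s) ≠ 0 := by
            intro h0
            rw [ZMod.natCast_eq_zero_iff] at h0
            exact h2 h0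
          have h3 : s ∣ D * k + R := by
            rw [← ZMod.natCast_eq_zero_iff]
            push_cast
            rw [h1]
            field_simp
            ring
          have h4 := (Nat.prime_dvd_prime_iff_eq hsp hpr).1 h3
          omega
    refine (Finset.card_le_card hsub).trans ?_
    rw [Finset.card_sdiff_of_subset (Finset.subset_univ _), Finset.card_univ, ZMod.card, hBadc]

/-- comparison of the two products in Rankin's trick -/
theorem u_ratio (D : ℕ) (P : Finset ℕ) (hP : ∀ p ∈ P, 3 ≤ p) (A : Finset ℕ)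
    (hA : ∀ s ∈ A, s.Prime) (η : ℝ) (hη : 0 ≤ η) (hηs : ∀ s ∈ A, η * log s ≤ 1) :
    ∏ s ∈ A, (1 + ((s : ℝ) / ((s - uRho D P s : ℕ) : ℝ) - 1) * (s : ℝ) ^ η) ≤
      exp (4 * η * ∑ s ∈ A, log s / s) *
        ∏ s ∈ A, (1 + ((s : ℝ) / ((s - uRho D P s : ℕ) : ℝ) - 1)) := by
  rw [Finset.mul_sum, Real.exp_sum, ← Finset.prod_mul_distrib]
  refine Finset.prod_le_prod ?_ ?_
  · intro s hs
    have h1 := uRho_lt D P hP (hA s hs)
    have h2 : (0 : ℝ) < ((s - uRho D P s : ℕ) : ℝ) := by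
      have : 0 < s - uRho D P s := by omega
      exact_mod_cast this
    have h3 : ((s - uRho D P s : ℕ) : ℝ) ≤ s := by exact_mod_cast Nat.sub_le _ _
    have h4 : (1 : ℝ) ≤ (s : ℝ) / ((s - uRho D P s : ℕ) : ℝ) := by
      rw [le_div_iff₀ h2]
      linarith only [h3]
    have h5 : 0 ≤ (s : ℝ) ^ η := by positivity
    nlinarith only [h4, h5]
  · intro s hs
    have h1 := uRho_lt D P hP (hA s hs)
    have h2 : (0 : ℝ) < ((s - uRho D P s : ℕ) : ℝ) := by
      have : 0 < s - uRho D P s := by omega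
      exact_mod_cast this
    have hρ := uRho_le D P s
    have h3 : (s : ℝ) - ((s - uRho D P s : ℕ) : ℝ) ≤ 2 := by
      have : s ≤ (s - uRho D P s) + 2 := by omega
      have h' : (s : ℝ) ≤ ((s - uRho D P s : ℕ) : ℝ) + 2 := by exact_mod_cast this
      linarith only [h']
    have hs1 : (1 : ℝ) ≤ s := by exact_mod_cast (hA s hs).one_lt.le
    have hs0 : (0 : ℝ) < s := by linarith only [hs1]
    have hlog : 0 ≤ log s := Real.log_nonneg hs1
    obtain ⟨ν, hν⟩ : ∃ ν : ℝ, ν = ((s - uRho D P s : ℕ) : ℝ) := ⟨_, rfl⟩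
    rw [← hν] at h2 h3 ⊢
    obtain ⟨u, hu⟩ : ∃ u : ℝ, u = η * log s := ⟨_, rfl⟩
    have hu0 : 0 ≤ u := by rw [hu]; positivity
    have hu1 : u ≤ 1 := by rw [hu]; exact hηs s hs
    have h4 : (s : ℝ) ^ η = exp u := by
      rw [Real.rpow_def_of_pos hs0, hu, mul_comm]
    have h5 : exp u - 1 ≤ 2 * u := by
      have := Real.abs_exp_sub_one_sub_id_le (x := u) (by rw [abs_of_nonneg hu0]; exact hu1)
      have h6 := (abs_le.1 this).2
      linarith only [mul_nonneg (sub_nonneg.2 h6) (sub_nonneg.2 hu0), mul_nonneg (sub_nonneg.2 h6) (sub_nonneg.2 hu1), mul_nonneg (sub_nonneg.2 hu0) (sub_nonneg.2 hu1)]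
    have h5' : 0 ≤ exp u - 1 := by
      have := Real.add_one_le_exp u
      linarith only [hu0, this]
    have h6 : (s : ℝ) / ν - 1 ≤ (s : ℝ) / ν * (2 / s) := by
      have : (s : ℝ) / ν * (2 / s) = 2 / ν := by field_simp
      rw [this, div_sub_one h2.ne', div_le_div_iff_of_pos_right h2]
      exact h3
    have h7 : 1 + 4 * u / s ≤ exp (4 * η * (log s / s)) := by
      have h8 : 4 * η * (log s / s) = 4 * u / s := by rw [hu]; ring
      rw [h8]
      have := Real.add_one_le_exp (4 * u / s)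
      linarith only [this]
    rw [h4]
    have h9 : 0 ≤ (s : ℝ) / ν := by positivity
    calc 1 + ((s : ℝ) / ν - 1) * exp u
        = (s : ℝ) / ν + ((s : ℝ) / ν - 1) * (exp u - 1) := by ring
      _ ≤ (s : ℝ) / ν + ((s : ℝ) / ν * (2 / s)) * (2 * u) := by
          have := mul_le_mul h6 h5 h5' (by positivity)
          linarith only [this]
      _ = (1 + 4 * u / s) * (1 + ((s : ℝ) / ν - 1)) := by ring
      _ ≤ exp (4 * η * (log s / s)) * (1 + ((s : ℝ) / ν - 1)) := by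
          refine mul_le_mul_of_nonneg_right h7 ?_
          linarith only [h9]

theorem u_mem {y : ℝ} {c : ℝ} {x0 : ℕ} (hx0 : x0 = ⌈y ^ c⌉₊) (s : ℕ) :
    s ∈ (range x0).filter Nat.Prime ↔ s.Prime ∧ (s : ℝ) < y ^ c := by
  rw [mem_filter, mem_range, hx0, Nat.lt_ceil, and_comm]

theorem u_nu {D : ℕ} {P : Finset ℕ} (hP3 : ∀ p ∈ P, 3 ≤ p) {s : ℕ} (hs : s.Prime) :
    (0 : ℝ) < ((s - uRho D P s : ℕ) : ℝ) ∧
      ((s - uRho D P s : ℕ) : ℝ) = s - uRho D P s := by
  have h1 := uRho_lt D P hP3 hs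
  constructor
  · have : 0 < s - uRho D P s := by omega
    exact_mod_cast this
  · rw [Nat.cast_sub h1.le]

theorem u_hnn {D : ℕ} {P : Finset ℕ} (hP3 : ∀ p ∈ P, 3 ≤ p) {s : ℕ} (hs : s.Prime) :
    0 ≤ (s : ℝ) / ((s - uRho D P s : ℕ) : ℝ) - 1 := by
  obtain ⟨h1, h2⟩ := u_nu (D := D) hP3 hs
  rw [sub_nonneg, le_div_iff₀ h1, h2]
  have : (0 : ℝ) ≤ uRho D P s := by positivity
  linarith only []

/-- half of the denominator of the large sieve comes from small products -/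
theorem u_half (D : ℕ) (P : Finset ℕ) (hP3 : ∀ p ∈ P, 3 ≤ p) (y c : ℝ) (hc : 0 < c)
    (hc0 : c ≤ 1 / 40) (hy1 : 1 < y) (hE1 : 4 * log 4 ≤ c * log y) (Q : ℕ) (hQ1 : 1 ≤ Q)
    (hQ19 : y ^ (0.19 : ℝ) ≤ Q) (x0 : ℕ) (hx0 : x0 = ⌈y ^ c⌉₊) (hx02 : 2 ≤ x0) :
    ∏ s ∈ (range x0).filter Nat.Prime, (1 + ((s : ℝ) / ((s - uRho D P s : ℕ) : ℝ) - 1)) ≤
      2 * ∑ T ∈ ((range x0).filter Nat.Prime).powerset.filter (fun T => ∏ p ∈ T, p ≤ Q),
        ∏ s ∈ T, ((s : ℝ) / ((s - uRho D P s : ℕ) : ℝ) - 1) := by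
  have hy0 : (0 : ℝ) < y := by linarith only [hc, hc0, hy1]
  have hlogy : 0 < log y := Real.log_pos hy1
  have hcl : 0 < c * log y := by positivity
  obtain ⟨A, hA⟩ : ∃ A, A = (range x0).filter Nat.Prime := ⟨_, rfl⟩
  have hAmem : ∀ s, s ∈ A ↔ s.Prime ∧ (s : ℝ) < (y : ℝ) ^ c := by
    intro s
    rw [hA]
    exact u_mem hx0 s
  rw [← hA]
  have hAp : ∀ s ∈ A, s.Prime := fun s hs => ((hAmem s).1 hs).1
  obtain ⟨η, hη⟩ : ∃ η : ℝ, η = 1 / (c * log y) := ⟨_, rfl⟩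
  have hη0 : 0 < η := by rw [hη]; positivity
  have hηs : ∀ s ∈ A, η * log s ≤ 1 := by
    intro s hs
    obtain ⟨h1, h2⟩ := (hAmem s).1 hs
    have h3 : log s ≤ c * log y := by
      rw [← Real.log_rpow hy0]
      exact Real.log_le_log (by exact_mod_cast h1.pos) h2.le
    rw [hη, one_div, inv_mul_le_iff₀ hcl]
    linarith only [h3]
  have hh : ∀ s ∈ A, 0 ≤ (s : ℝ) / ((s - uRho D P s : ℕ) : ℝ) - 1 :=
    fun s hs => u_hnn hP3 (hAp s hs)
  have hrank := u_rankin A (fun s => (s : ℝ) / ((s - uRho D P s : ℕ) : ℝ) - 1) hh Q hQ1 η hη0.le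
  have hratio := u_ratio D P hP3 A hAp η hη0.le hηs
  obtain ⟨Pr, hPr⟩ : ∃ Pr : ℝ, Pr = ∏ s ∈ A, (1 + ((s : ℝ) / ((s - uRho D P s : ℕ) : ℝ) - 1)) :=
    ⟨_, rfl⟩
  have hPr0 : 0 < Pr := by
    rw [hPr]
    exact Finset.prod_pos fun s hs => by linarith only [hh s hs, hc, hc0, hh, hs]
  rw [← hPr] at hratio hrank ⊢
  have h1 : (Q : ℝ) ^ (-η) ≤ exp (-6) := by
    calc (Q : ℝ) ^ (-η) ≤ ((y : ℝ) ^ (0.19 : ℝ)) ^ (-η) :=
          Real.rpow_le_rpow_of_nonpos (by positivity) hQ19 (by linarith only [hη0])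
      _ = exp (-(0.19 / c)) := by
          rw [← Real.rpow_mul hy0.le, Real.rpow_def_of_pos hy0, hη]
          congr 1
          field_simp
      _ ≤ exp (-6) := by
          apply Real.exp_le_exp.2
          have : 6 ≤ 0.19 / c := by
            rw [le_div_iff₀ hc]
            linarith only [hc0, hc]
          linarith only [this]
  have h2 : exp (4 * η * ∑ s ∈ A, log s / s) ≤ exp 5 := by
    apply Real.exp_le_exp.2
    have h3 : ∑ s ∈ A, log s / (s : ℝ) ≤ c * log y + log 4 := by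
      obtain ⟨n, hn⟩ : ∃ n, x0 = n + 1 := ⟨x0 - 1, by omega⟩
      have h4 := sum_log_le n (by omega)
      rw [← hn, ← hA] at h4
      have h5 : log n ≤ c * log y := by
        rw [← Real.log_rpow hy0]
        apply Real.log_le_log
        · have : 1 ≤ n := by omega
          exact_mod_cast this
        · have : n < ⌈(y : ℝ) ^ c⌉₊ := by rw [← hx0]; omega
          exact (Nat.lt_ceil.1 this).le
      linarith only [h4, h5]
    calc 4 * η * ∑ s ∈ A, log s / s ≤ 4 * η * (c * log y + log 4) := by gcongr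
      _ = 4 + 4 * log 4 / (c * log y) := by
          rw [hη]
          field_simp
      _ ≤ 5 := by
          have : 4 * log 4 / (c * log y) ≤ 1 := by
            rw [div_le_one hcl]
            exact hE1
          linarith only [this]
  have h4 : (Q : ℝ) ^ (-η) * ∏ s ∈ A, (1 + ((s : ℝ) / ((s - uRho D P s : ℕ) : ℝ) - 1) *
      (s : ℝ) ^ η) ≤ Pr / 2 := by
    calc _ ≤ exp (-6) * (exp (4 * η * ∑ s ∈ A, log s / s) * Pr) := by
          refine mul_le_mul h1 hratio ?_ (Real.exp_pos _).le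
          refine Finset.prod_nonneg fun s hs => ?_
          have := hh s hs
          have h5 : 0 ≤ (s : ℝ) ^ η := by positivity
          have h6 := mul_nonneg this h5
          linarith only [hc, hc0, h6]
      _ ≤ exp (-6) * (exp 5 * Pr) := by gcongr
      _ = exp (-1) * Pr := by
          rw [← mul_assoc, ← Real.exp_add]
          norm_num
      _ ≤ Pr / 2 := by
          have h6 : exp (-1) ≤ 1 / 2 := by
            rw [Real.exp_neg, ← one_div]
            apply one_div_le_one_div_of_le (by norm_num)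
            have := Real.add_one_le_exp (1 : ℝ)
            linarith only [this]
          nlinarith only [hc, hc0, hPr0, h6]
  linarith only [hrank, h4]

/-- evaluation of the denominator -/
theorem u_prodinv (hM : MertUpStmt) (D : ℕ) (hD : 1 ≤ D) (P : Finset ℕ) (y c : ℝ) (hy1 : 1 < y)
    (hc : 0 < c) (hP : ∀ p ∈ P, p.Prime ∧ 3 ≤ p ∧ (p : ℝ) < y ^ c)
    (x0 : ℕ) (hx0 : x0 = ⌈y ^ c⌉₊) (hx02 : 2 ≤ x0) :
    1 / ∏ s ∈ (range x0).filter Nat.Prime, (1 + ((s : ℝ) / ((s - uRho D P s : ℕ) : ℝ) - 1)) ≤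
      (1 / (c * log y)) * ((D : ℝ) / (Nat.totient D : ℝ)) * ∏ p ∈ P, (1 - gD D p) := by
  have hy0 : (0 : ℝ) < y := by linarith only [hy1]
  have hlogy : 0 < log y := Real.log_pos hy1
  have hcl : 0 < c * log y := by positivity
  obtain ⟨A, hA⟩ : ∃ A, A = (range x0).filter Nat.Prime := ⟨_, rfl⟩
  have hAmem : ∀ s, s ∈ A ↔ s.Prime ∧ (s : ℝ) < (y : ℝ) ^ c := by
    intro s
    rw [hA]
    exact u_mem hx0 s
  rw [← hA]
  have hAp : ∀ s ∈ A, s.Prime := fun s hs => ((hAmem s).1 hs).1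
  have hP3 : ∀ p ∈ P, 3 ≤ p := fun p hp => (hP p hp).2.1
  have hPA : P ⊆ A := fun p hp => (hAmem p).2 ⟨(hP p hp).1, (hP p hp).2.2⟩
  have hPrinv : 1 / ∏ s ∈ A, (1 + ((s : ℝ) / ((s - uRho D P s : ℕ) : ℝ) - 1)) =
      ∏ s ∈ A, (1 - (uRho D P s : ℝ) / s) := by
    rw [one_div, ← Finset.prod_inv_distrib]
    refine Finset.prod_congr rfl fun s hs => ?_
    obtain ⟨h1, h2⟩ := u_nu (D := D) hP3 (hAp s hs)
    have hs0 : (0 : ℝ) < s := by exact_mod_cast (hAp s hs).pos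
    have h3 : 1 + ((s : ℝ) / ((s - uRho D P s : ℕ) : ℝ) - 1) =
        (s : ℝ) / ((s - uRho D P s : ℕ) : ℝ) := by ring
    rw [h3, inv_div, h2]
    field_simp
  have hg : ∀ s ∈ P, 0 ≤ 1 - gD D s := by
    intro s hs
    have h3 : (3 : ℝ) ≤ s := by exact_mod_cast hP3 s hs
    unfold gD
    split_ifs
    · have : 1 / (s : ℝ) ≤ 1 := by
        rw [div_le_one (by linarith only [h3])]
        linarith only [h3]
      linarith only [this]
    · have : 1 / ((s : ℝ) - 1) ≤ 1 := by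
        rw [div_le_one (by linarith only [h3])]
        linarith only [h3]
      linarith only [this]
  have hPgD : 0 ≤ ∏ p ∈ P, (1 - gD D p) := Finset.prod_nonneg hg
  rw [hPrinv, Finset.prod_congr rfl (fun s hs => uRho_prod D P (hAp s hs)),
    Finset.prod_mul_distrib, Finset.prod_mul_distrib]
  have e1 : ∏ s ∈ A, (if s ∈ P then 1 - gD D s else 1) = ∏ p ∈ P, (1 - gD D p) := by
    rw [← Finset.prod_filter]
    congr 1
    ext s
    rw [mem_filter]
    exact ⟨fun h => h.2, fun h => ⟨hPA h, h⟩⟩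
  have e2 : ∏ s ∈ A, (1 - 1 / (s : ℝ)) ≤ 1 / (c * log y) := by
    have h1 := hM x0 hx02
    rw [← hA] at h1
    refine h1.trans ?_
    apply one_div_le_one_div_of_le hcl
    rw [← Real.log_rpow hy0]
    apply Real.log_le_log (by positivity)
    rw [hx0]
    exact Nat.le_ceil _
  have e3 := u_totient D hD A hAp
  have e4 : 0 ≤ ∏ s ∈ A, (if s ∣ D then (1 - 1 / (s : ℝ))⁻¹ else 1) := by
    refine Finset.prod_nonneg fun s hs => ?_
    split_ifs
    · have h2 : (2 : ℝ) ≤ s := by exact_mod_cast (hAp s hs).two_le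
      have h3 : 1 / (s : ℝ) ≤ 1 := by
        rw [div_le_one (by linarith only [h2])]
        linarith only [h2]
      exact inv_nonneg.2 (by linarith only [h3])
    · exact zero_le_one
  rw [e1]
  refine mul_le_mul_of_nonneg_right ?_ hPgD
  exact mul_le_mul e2 e3 e4 (by positivity)

/-- elementary size facts -/
theorem u_size (y : ℝ) (c : ℝ) (hc : 0 < c) (hc0 : c ≤ 1 / 40) (hy : (2 : ℝ) ^ (100 : ℕ) ≤ y) :
    1 < y ∧ y ^ c ≤ y / 10 ∧ 1 < y ^ c ∧ y ^ (0.19 : ℝ) ≤ (⌊y ^ (0.2 : ℝ)⌋₊ : ℝ) ∧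
      1 ≤ y ^ (0.19 : ℝ) ∧ (⌊y ^ (0.2 : ℝ)⌋₊ : ℝ) ≤ y ^ (0.2 : ℝ) := by
  have hy1 : (1 : ℝ) < y := lt_of_lt_of_le (by norm_num) hy
  have hy0 : (0 : ℝ) < y := by linarith
  have h19 : 1 ≤ y ^ (0.19 : ℝ) := Real.one_le_rpow hy1.le (by norm_num)
  refine ⟨hy1, ?_, Real.one_lt_rpow hy1 hc, ?_, h19, Nat.floor_le (by positivity)⟩
  · have h1 : y ^ c ≤ y ^ (1 / 2 : ℝ) :=
      Real.rpow_le_rpow_of_exponent_le hy1.le (by linarith only [hc, hc0])
    have h2 : y ^ (1 / 2 : ℝ) * y ^ (1 / 2 : ℝ) = y := by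
      rw [← Real.rpow_add hy0]
      norm_num
    have h3 : (10 : ℝ) ≤ y ^ (1 / 2 : ℝ) := by
      have : ((100 : ℝ)) ^ (1 / 2 : ℝ) ≤ y ^ (1 / 2 : ℝ) := by
        apply Real.rpow_le_rpow (by norm_num) _ (by norm_num)
        exact le_trans (by norm_num) hy
      refine le_trans ?_ this
      rw [show (100 : ℝ) = 10 ^ (2 : ℝ) by norm_num, ← Real.rpow_mul (by norm_num)]
      norm_num
    rw [le_div_iff₀ (by norm_num)]
    nlinarith only [h1, h2, hc, hc0, hy, h3]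
  · have h1 : y ^ (0.2 : ℝ) = y ^ (0.19 : ℝ) * y ^ (0.01 : ℝ) := by
      rw [← Real.rpow_add hy0]
      norm_num
    have h2 : (2 : ℝ) ≤ y ^ (0.01 : ℝ) := by
      have h3 : ((2 : ℝ) ^ (100 : ℕ)) ^ (0.01 : ℝ) ≤ y ^ (0.01 : ℝ) :=
        Real.rpow_le_rpow (by norm_num) hy (by norm_num)
      refine le_trans ?_ h3
      rw [← Real.rpow_natCast, ← Real.rpow_mul (by norm_num)]
      norm_num
    have h4 := Nat.lt_floor_add_one (y ^ (0.2 : ℝ))
    nlinarith only [h19, h1, h2, hc, h4, hc0]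

/-- the length of the sieved interval -/
theorem u_len (y : ℝ) (hy1 : 1 < y) (Y q Q : ℕ) (hq0 : 0 < q) (hY : (Y : ℝ) ≤ y)
    (hq6 : (q : ℝ) ≤ y ^ (0.6 : ℝ)) (hQ : (Q : ℝ) ≤ y ^ (0.2 : ℝ)) :
    (((Y / q + 1 : ℕ) : ℝ) + (Q : ℝ) ^ 2) ≤ 3 * (y / q) := by
  have hy0 : (0 : ℝ) < y := by linarith only [hy1]
  have hq0' : (0 : ℝ) < q := by exact_mod_cast hq0
  have hyq : 1 ≤ y / q := by
    rw [one_le_div hq0']
    refine hq6.trans ?_
    calc y ^ (0.6 : ℝ) ≤ y ^ (1 : ℝ) :=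
          Real.rpow_le_rpow_of_exponent_le hy1.le (by norm_num)
      _ = y := Real.rpow_one _
  have h1 : ((Y / q : ℕ) : ℝ) ≤ y / q := by
    refine Nat.cast_div_le.trans ?_
    gcongr
  have h2 : (Q : ℝ) ^ 2 ≤ y / q := by
    rw [le_div_iff₀ hq0']
    have h3 : (y ^ (0.2 : ℝ)) ^ 2 * y ^ (0.6 : ℝ) = y := by
      rw [← Real.rpow_natCast, ← Real.rpow_mul hy0.le, ← Real.rpow_add hy0]
      norm_num
    calc (Q : ℝ) ^ 2 * q ≤ (y ^ (0.2 : ℝ)) ^ 2 * y ^ (0.6 : ℝ) := by gcongr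
      _ = y := h3
  push_cast
  linarith only [hyq, h1, h2]

theorem upper (hM : MertUpStmt) : UpperStmt := by
  have hcLS := Vale.Agent.P001.cLS_pos
  refine ⟨1 / 40, 6 * Vale.Agent.P001.cLS, by norm_num, by positivity, ?_⟩
  intro c hc hc0
  refine ⟨max (2 ^ 100) ⌈exp (4 * log 4 / c)⌉₊, ?_⟩
  intro y hy D R Y P a hD hDR hR hY hP hPD q b hq hqc hq6
  have hy100 : (2 : ℝ) ^ (100 : ℕ) ≤ y := by
    have := (le_max_left _ _).trans hy
    exact_mod_cast this
  have hyexp : exp (4 * log 4 / c) ≤ y := by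
    have h1 := (le_max_right _ _).trans hy
    exact (Nat.le_ceil _).trans (by exact_mod_cast h1)
  obtain ⟨hy1, hE3, hyc1, hQ19, h19, hQle⟩ := u_size y c hc hc0 hy100
  have hlogy : 0 < log y := Real.log_pos hy1
  have hE1 : 4 * log 4 ≤ c * log y := by
    have := Real.log_le_log (Real.exp_pos _) hyexp
    rw [Real.log_exp, div_le_iff₀ hc] at this
    linarith only [this]
  obtain ⟨Q, hQ⟩ : ∃ Q, Q = ⌊(y : ℝ) ^ (0.2 : ℝ)⌋₊ := ⟨_, rfl⟩
  rw [← hQ] at hQ19 hQle
  have hQ1 : 1 ≤ Q := by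
    have : (1 : ℝ) ≤ Q := h19.trans hQ19
    exact_mod_cast this
  obtain ⟨x0, hx0⟩ : ∃ x0, x0 = ⌈(y : ℝ) ^ c⌉₊ := ⟨_, rfl⟩
  have hx02 : 2 ≤ x0 := by
    rw [hx0]
    have : 1 < ⌈(y : ℝ) ^ c⌉₊ := by
      rw [Nat.lt_ceil]
      exact_mod_cast hyc1
    omega
  have hP3 : ∀ p ∈ P, 3 ≤ p := fun p hp => (hP p hp).2.1
  have hA' : ∀ s ∈ (range x0).filter Nat.Prime, s.Prime ∧ s ≠ q ∧ s < R := by
    intro s hs
    obtain ⟨h1, h2⟩ := (u_mem hx0 s).1 hs
    refine ⟨h1, ?_, ?_⟩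
    · rintro rfl
      linarith only [h2, hqc]
    · have : (s : ℝ) < R := by linarith only [hR, hE3, h2]
      exact_mod_cast this
  have hls := u_sieve D R Y P a hP3 hPD q b hq _ hA' Q hQ1
  have hhalf := u_half D P hP3 y c hc hc0 hy1 hE1 Q hQ1 hQ19 x0 hx0 hx02
  have hprod := u_prodinv hM D hD P y c hy1 hc hP x0 hx0 hx02
  have hPr0 : 0 < ∏ s ∈ (range x0).filter Nat.Prime,
      (1 + ((s : ℝ) / ((s - uRho D P s : ℕ) : ℝ) - 1)) :=
    Finset.prod_pos fun s hs => by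
      have := u_hnn (D := D) hP3 (hA' s hs).1
      linarith only [hc, hc0, this]
  have hlen := u_len y hy1 Y q Q hq.pos (by exact_mod_cast hY) hq6 hQle
  generalize (∏ s ∈ (range x0).filter Nat.Prime,
    (1 + ((s : ℝ) / ((s - uRho D P s : ℕ) : ℝ) - 1))) = Pr at hhalf hprod hPr0
  generalize (∑ T ∈ ((range x0).filter Nat.Prime).powerset.filter (fun T => ∏ p ∈ T, p ≤ Q),
        ∏ s ∈ T, ((s : ℝ) / ((s - uRho D P s : ℕ) : ℝ) - 1)) = SF at hls hhalf
  generalize hS : (((gset D R Y P a).filter (fun k : ℕ => (q : ℤ) ∣ (k : ℤ) - b)).card : ℝ) = S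
    at hls
  have hS0 : 0 ≤ S := by rw [← hS]; (clear * -; positivity)
  have hyq0 : 0 ≤ (y : ℝ) / q := by (clear * - hy100; positivity)
  have h1 : S * Pr ≤ 6 * Vale.Agent.P001.cLS * ((y : ℝ) / q) := by
    calc S * Pr ≤ S * (2 * SF) := mul_le_mul_of_nonneg_left hhalf hS0
      _ = 2 * (S * SF) := by ring
      _ ≤ 2 * (Vale.Agent.P001.cLS * (3 * ((y : ℝ) / q))) := by
          refine mul_le_mul_of_nonneg_left ?_ (by norm_num)
          exact hls.trans (mul_le_mul_of_nonneg_left hlen hcLS.le)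
      _ = _ := by ring
  have h2 : S ≤ 6 * Vale.Agent.P001.cLS * ((y : ℝ) / q) * (1 / Pr) := by
    rw [mul_one_div, le_div_iff₀ hPr0]
    exact h1
  refine h2.trans ?_
  calc 6 * Vale.Agent.P001.cLS * ((y : ℝ) / q) * (1 / Pr)
      ≤ 6 * Vale.Agent.P001.cLS * ((y : ℝ) / q) * ((1 / (c * log y)) *
        ((D : ℝ) / (Nat.totient D : ℝ)) * ∏ p ∈ P, (1 - gD D p)) :=
        mul_le_mul_of_nonneg_left hprod (by (clear * - hcLS hy100; positivity))
    _ = _ := by ring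

end Vale.Agent.P013.J
end

section

/-! Part V: rationals of small height. -/

namespace Vale.Agent.P013.J

theorem partV (hbv : BVStmt) : PartVStmt :=
  partV_of_core (core (lower hbv mertLow) (upper mertUp) mertLow)

end Vale.Agent.P013.J
end

section

/-!
# Jacobsthal's conjecture: all modules together
-/

namespace Vale.Agent.P013.J

/-- the dichotomy -/
theorem dich_full : DichStmt :=
  dich (level exc decomp (class_bound key poissonClass inverse natural)) stab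
    label_count two_label

/-- the main sieve theorem -/
theorem tstar_full : TStarStmt := tstar dich_full (partV (bv sw))

end Vale.Agent.P013.J
end

section

namespace Vale.Agent.P013

open Finset Real Filter

/-- General bound with a cut `z`. -/
theorem vaughan_cut (ε : ℝ) (hε : 0 < ε) :
    ∃ η : ℝ, 0 < η ∧ ∃ k₀ : ℕ, ∀ n z : ℕ, k₀ ≤ n.primeFactors.card →
      z ≤ n.primeFactors.card →
      ∑ p ∈ n.primeFactors.filter (fun p => z < p ∧ p ≤ n.primeFactors.card), 1 / (p : ℝ) ≤ η →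
      (jacobsthal n : ℝ) ≤ (n.primeFactors.card : ℝ) ^ ε * max (n.primeFactors.card : ℝ)
        (z * Real.exp (∑ p ∈ n.primeFactors.filter (fun p => p ≤ z), Real.log p / p)) := by
  obtain ⟨δ, hδ⟩ : ∃ δ : ℝ, δ = min (ε / 4) (1 / 8) := ⟨_, rfl⟩
  have hδ0 : 0 < δ := by rw [hδ]; positivity
  have hδ1 : δ ≤ 1 / 8 := by rw [hδ]; exact min_le_right _ _
  have hδε : δ ≤ ε / 4 := by rw [hδ]; exact min_le_left _ _
  obtain ⟨D, hD0, hD⟩ := mertens_one
  obtain ⟨η, hη, K₀, A₀, hK₀, hA₀, hcore⟩ := vaughan_core δ hδ0 hδ1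
  refine ⟨η, hη, ?_⟩
  have hev : ∀ᶠ k : ℕ in atTop, ∀ n z : ℕ, n.primeFactors.card = k → z ≤ k →
      ∑ p ∈ n.primeFactors.filter (fun p => z < p ∧ p ≤ k), 1 / (p : ℝ) ≤ η →
      (jacobsthal n : ℝ) ≤ (k : ℝ) ^ ε * max (k : ℝ)
        (z * Real.exp (∑ p ∈ n.primeFactors.filter (fun p => p ≤ z), Real.log p / p)) := by
    filter_upwards [hcore, ev_log_pow (2 * K₀) A₀ (ε / 2) (by positivity),
      ev_log_pow (Real.exp D) 0 (1 / 2) (by norm_num), ev_log_ge (1 / δ), ev_log_ge 1,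
      eventually_ge_atTop 8] with k hk hkε hkD hkδ hk1 hk8
    intro n z hcard hz hsum
    have hkR : (8 : ℝ) ≤ k := by exact_mod_cast hk8
    have hk0 : (0 : ℝ) < k := by linarith only [hkR, hδ1, hδ0]
    have hkD' : Real.exp D ≤ (k : ℝ) ^ (1 / 2 : ℝ) := by simpa using hkD
    have hkδ1 : (k : ℝ) ^ δ ≤ k := by
      have : (k : ℝ) ^ δ ≤ (k : ℝ) ^ (1 : ℝ) :=
        Real.rpow_le_rpow_of_exponent_le (by linarith only [hkR, hδ1, hδ0]) (by linarith only [hδ1, hδ0])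
      rwa [Real.rpow_one] at this
    have hkδ2 : 2 ≤ (k : ℝ) ^ δ := by
      rw [Real.rpow_def_of_pos hk0]
      rw [div_le_iff₀ hδ0] at hkδ
      have := Real.add_one_le_exp (Real.log k * δ)
      linarith only [this, hkδ]
    obtain ⟨z', hz'⟩ : ∃ z' : ℕ, z' = ⌊(k : ℝ) ^ δ⌋₊ := ⟨_, rfl⟩
    have hz'le : (z' : ℝ) ≤ (k : ℝ) ^ δ := by rw [hz']; exact Nat.floor_le (by positivity)
    have hz'k : z' ≤ k := by
      have : (z' : ℝ) ≤ k := hz'le.trans hkδ1
      exact_mod_cast this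
    have hz'2 : 2 ≤ z' := by
      rw [hz']; exact Nat.le_floor (by exact_mod_cast hkδ2)
    have hcond : ∑ q ∈ n.primeFactors.filter (fun q => max (z + 1) z' ≤ q ∧ q ≤ k),
        1 / (q : ℝ) ≤ η := by
      refine le_trans ?_ hsum
      apply sum_le_sum_of_subset_of_nonneg
      · intro q hq
        rw [mem_filter] at hq ⊢
        exact ⟨hq.1, by have := (le_max_left (z + 1) z').trans hq.2.1; omega, hq.2.2⟩
      · intro q _ _; (clear * -; positivity)
    have h1 := hk n (max (z + 1) z') hcard (by rw [← hz']; exact le_max_right _ _)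
      (max_le (by omega) (by omega)) hcond
    obtain ⟨X, hX⟩ : ∃ X : ℝ, X = z * Real.exp (∑ p ∈ n.primeFactors.filter (fun p => p ≤ z),
      Real.log p / p) := ⟨_, rfl⟩
    rw [← hX]
    have hXnn : 0 ≤ X := by rw [hX]; positivity
    obtain ⟨Mx, hMx⟩ : ∃ Mx : ℝ, Mx = max (k : ℝ) X := ⟨_, rfl⟩
    have hMxk : (k : ℝ) ≤ Mx := by rw [hMx]; exact le_max_left _ _
    have hMxX : X ≤ Mx := by rw [hMx]; exact le_max_right _ _
    have hMx0 : 0 < Mx := by linarith only [hMxk, hkR, hδ1, hδ0]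
    rw [← hMx]
    have h2 : max (k : ℝ) (((max (z + 1) z' : ℕ) : ℝ) * Real.exp (Ln n (max (z + 1) z'))) ≤
        2 * Mx := by
      apply max_le
      · linarith only [hMxk, hkR, hδ1, hδ0]
      · rcases le_total z' (z + 1) with h | h
        · rw [max_eq_left h]
          have hz1 : (1 : ℝ) ≤ z := by
            have : 1 ≤ z := by omega
            exact_mod_cast this
          have hLn : Ln n (z + 1) = ∑ p ∈ n.primeFactors.filter (fun p => p ≤ z),
              Real.log p / p := by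
            unfold Ln Qn
            congr 1
            apply filter_congr
            intro p _
            exact Nat.lt_succ_iff
          rw [hLn]
          have h3 : ((z + 1 : ℕ) : ℝ) ≤ 2 * z := by push_cast; linarith only [hz1]
          have h4 := mul_le_mul_of_nonneg_right h3
            (Real.exp_pos (∑ p ∈ n.primeFactors.filter (fun p => p ≤ z), Real.log p / p)).le
          have h5 : 2 * (z : ℝ) * Real.exp (∑ p ∈ n.primeFactors.filter (fun p => p ≤ z),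
              Real.log p / p) = 2 * X := by rw [hX]; ring
          linarith only [h5, h4, hMxX]
        · rw [max_eq_right h]
          have hz'0 : (0 : ℝ) < z' := by exact_mod_cast (by omega : 0 < z')
          have h3 : Real.exp (Ln n z') ≤ z' * Real.exp D := by
            have := Real.exp_le_exp.mpr (Ln_le_log D hD n z' (by omega))
            rwa [Real.exp_add, Real.exp_log hz'0] at this
          have h4 : (z' : ℝ) * Real.exp (Ln n z') ≤ z' * (z' * Real.exp D) :=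
            mul_le_mul_of_nonneg_left h3 hz'0.le
          have h5 : (z' : ℝ) * (z' * Real.exp D) ≤ (k : ℝ) ^ δ * ((k : ℝ) ^ δ *
              (k : ℝ) ^ (1 / 2 : ℝ)) := by
            apply mul_le_mul hz'le _ (by positivity) (by positivity)
            exact mul_le_mul hz'le hkD' (Real.exp_pos _).le (by positivity)
          have h6 : (k : ℝ) ^ δ * ((k : ℝ) ^ δ * (k : ℝ) ^ (1 / 2 : ℝ)) =
              (k : ℝ) ^ (δ + (δ + 1 / 2)) := by
            rw [Real.rpow_add hk0, Real.rpow_add hk0]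
          have h7 : (k : ℝ) ^ (δ + (δ + 1 / 2)) ≤ (k : ℝ) ^ (1 : ℝ) :=
            Real.rpow_le_rpow_of_exponent_le (by linarith only [hkR, hδ1, hδ0]) (by linarith only [hδ1, hδ0])
          rw [Real.rpow_one] at h7
          linarith only [h7, h6, h5, h4, hMxk, hkR, hδ1, hδ0]
    have hℓ0 : 0 < Real.log k := by linarith only [hk1, hδ1, hδ0]
    have hpos : 0 < K₀ * (Real.log k) ^ A₀ * (k : ℝ) ^ (2 * δ) := by
      have := Real.rpow_pos_of_pos hℓ0 A₀
      positivity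
    refine h1.trans ?_
    have hkk : (k : ℝ) ^ (2 * δ) ≤ (k : ℝ) ^ (ε / 2) :=
      Real.rpow_le_rpow_of_exponent_le (by linarith only [hkR, hδ1, hδ0]) (by linarith only [hδε])
    calc K₀ * (Real.log k) ^ A₀ * (k : ℝ) ^ (2 * δ) *
        max (k : ℝ) (((max (z + 1) z' : ℕ) : ℝ) * Real.exp (Ln n (max (z + 1) z'))) ≤
        K₀ * (Real.log k) ^ A₀ * (k : ℝ) ^ (2 * δ) * (2 * Mx) :=
          mul_le_mul_of_nonneg_left h2 hpos.le
      _ = (2 * K₀ * (Real.log k) ^ A₀) * (k : ℝ) ^ (2 * δ) * Mx := by ring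
      _ ≤ (k : ℝ) ^ (ε / 2) * (k : ℝ) ^ (ε / 2) * Mx := by
          apply mul_le_mul_of_nonneg_right _ hMx0.le
          exact mul_le_mul hkε hkk (by positivity) (by positivity)
      _ = (k : ℝ) ^ ε * Mx := by
          rw [← Real.rpow_add hk0]; congr 2; ring
  obtain ⟨k₀, hk₀⟩ := eventually_atTop.mp hev
  exact ⟨k₀, fun n z hk hz hsum => hk₀ _ hk n z rfl hz hsum⟩

/-- Few primes between `k ^ α` and `k`. -/
theorem vaughan_alpha (ε : ℝ) (hε : 0 < ε) :
    ∃ η : ℝ, 0 < η ∧ ∃ k₀ : ℕ, ∀ (n : ℕ) (α : ℝ), 1 / 2 ≤ α → α ≤ 1 →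
      k₀ ≤ n.primeFactors.card →
      ∑ p ∈ n.primeFactors.filter (fun p : ℕ => (n.primeFactors.card : ℝ) ^ α < (p : ℝ) ∧
        p ≤ n.primeFactors.card), 1 / (p : ℝ) ≤ η →
      (jacobsthal n : ℝ) ≤ (n.primeFactors.card : ℝ) ^ (2 * α + ε) := by
  obtain ⟨D, hD0, hD⟩ := mertens_one
  obtain ⟨η, hη, k₀, h⟩ := vaughan_cut (ε / 2) (by positivity)
  obtain ⟨k₁, hk₁⟩ := eventually_atTop.mp (ev_log_pow (2 * Real.exp D) 0 (ε / 2) (by positivity))
  refine ⟨η, hη, max (max k₀ k₁) 2, ?_⟩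
  intro n α hα hα1 hk hsum
  have hk0' := (le_max_left _ _).trans ((le_max_left _ _).trans hk)
  have hk1' := (le_max_right _ _).trans ((le_max_left _ _).trans hk)
  have hk2' := (le_max_right _ _).trans hk
  generalize hkdef : n.primeFactors.card = k at *
  have hkR : (2 : ℝ) ≤ k := by exact_mod_cast hk2'
  have hk0 : (0 : ℝ) < k := by linarith only [hkR]
  have hkα1 : (k : ℝ) ^ α ≤ k := by
    have : (k : ℝ) ^ α ≤ (k : ℝ) ^ (1 : ℝ) :=
      Real.rpow_le_rpow_of_exponent_le (by linarith only [hkR]) hα1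
    rwa [Real.rpow_one] at this
  obtain ⟨z, hz⟩ : ∃ z : ℕ, z = ⌊(k : ℝ) ^ α⌋₊ := ⟨_, rfl⟩
  have hzle : (z : ℝ) ≤ (k : ℝ) ^ α := by rw [hz]; exact Nat.floor_le (by positivity)
  have hzk : z ≤ k := by
    have : (z : ℝ) ≤ k := hzle.trans hkα1
    exact_mod_cast this
  have hkα0 : 1 ≤ (k : ℝ) ^ α := Real.one_le_rpow (by linarith only [hkR]) (by linarith only [hα])
  have hz1 : 1 ≤ z := by rw [hz]; exact Nat.le_floor (by exact_mod_cast hkα0)
  have hz1R : (1 : ℝ) ≤ z := by exact_mod_cast hz1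
  have hcond : ∑ p ∈ n.primeFactors.filter (fun p => z < p ∧ p ≤ n.primeFactors.card),
      1 / (p : ℝ) ≤ η := by
    rw [hkdef]
    refine le_trans (le_of_eq ?_) hsum
    apply sum_congr _ (fun _ _ => rfl)
    apply filter_congr
    intro p _
    apply and_congr_left
    intro _
    rw [hz]
    exact Nat.floor_lt (by positivity)
  have h1 := h n z (by rw [hkdef]; exact hk0') (by rw [hkdef]; exact hzk) hcond
  rw [hkdef] at h1
  have h2 : (z : ℝ) * Real.exp (∑ p ∈ n.primeFactors.filter (fun p => p ≤ z), Real.log p / p) ≤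
      2 * Real.exp D * (k : ℝ) ^ (2 * α) := by
    have hLn : Ln n (z + 1) = ∑ p ∈ n.primeFactors.filter (fun p => p ≤ z),
        Real.log p / p := by
      unfold Ln Qn
      congr 1
      apply filter_congr
      intro p _
      exact Nat.lt_succ_iff
    rw [← hLn]
    have h3 : Real.exp (Ln n (z + 1)) ≤ ((z + 1 : ℕ) : ℝ) * Real.exp D := by
      have := Real.exp_le_exp.mpr (Ln_le_log D hD n (z + 1) (by omega))
      rwa [Real.exp_add, Real.exp_log (by positivity)] at this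
    have h4 : ((z + 1 : ℕ) : ℝ) ≤ 2 * (k : ℝ) ^ α := by push_cast; linarith only [hz1R, hzle]
    have h5 : (k : ℝ) ^ (2 * α) = (k : ℝ) ^ α * (k : ℝ) ^ α := by
      rw [← Real.rpow_add hk0]; congr 1; ring
    rw [h5]
    calc (z : ℝ) * Real.exp (Ln n (z + 1)) ≤ (k : ℝ) ^ α * (2 * (k : ℝ) ^ α * Real.exp D) := by
          apply mul_le_mul hzle _ (Real.exp_pos _).le (by positivity)
          exact h3.trans (mul_le_mul_of_nonneg_right h4 (Real.exp_pos _).le)
      _ = _ := by ring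
  have h3 : (k : ℝ) ≤ 2 * Real.exp D * (k : ℝ) ^ (2 * α) := by
    have h4 : (k : ℝ) ^ (1 : ℝ) ≤ (k : ℝ) ^ (2 * α) :=
      Real.rpow_le_rpow_of_exponent_le (by linarith only [hkR]) (by linarith only [hα])
    rw [Real.rpow_one] at h4
    have h5 : 1 ≤ 2 * Real.exp D := by
      have := Real.add_one_le_exp D
      linarith only [this, hD0]
    have := mul_le_mul h5 h4 hk0.le (by positivity)
    linarith only [this]
  have h4 := hk₁ k hk1'
  have h4' : 2 * Real.exp D ≤ (k : ℝ) ^ (ε / 2) := by simpa using h4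
  calc (jacobsthal n : ℝ) ≤ (k : ℝ) ^ (ε / 2) * max (k : ℝ)
        (z * Real.exp (∑ p ∈ n.primeFactors.filter (fun p => p ≤ z), Real.log p / p)) := h1
    _ ≤ (k : ℝ) ^ (ε / 2) * (2 * Real.exp D * (k : ℝ) ^ (2 * α)) :=
        mul_le_mul_of_nonneg_left (max_le h3 h2) (by positivity)
    _ ≤ (k : ℝ) ^ (ε / 2) * ((k : ℝ) ^ (ε / 2) * (k : ℝ) ^ (2 * α)) := by
        apply mul_le_mul_of_nonneg_left _ (by positivity)
        exact mul_le_mul_of_nonneg_right h4' (by positivity)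
    _ = (k : ℝ) ^ (2 * α + ε) := by
        rw [← Real.rpow_add hk0, ← Real.rpow_add hk0]; congr 1; ring

end Vale.Agent.P013
end
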